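import Crest.Agent.R240.FrKer

-- ▼ part R240/FrNew
section

/-!
Row 240, Lemma P (helper849): the Newton kernel on `E4`.
-/

set_option autoImplicit false
open scoped ContDiff Topology
open MeasureTheory Set Filter

namespace Crest.Agent.R240.Fr

noncomputable section

variable {F : Type*} [NormedAddCommGroup F] [NormedSpace ℝ F]

theorem norm_sq_sum (η : E4) : ‖η‖ ^ 2 = ∑ i, (η i) ^ 2 := EuclideanSpace.real_norm_sq_eq η

theorem sreg_pos {e : ℝ} (he : 0 < e) (η : E4) : 0 < ‖η‖ ^ 2 + e ^ 2 := by positivity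

/-- regularised Newton kernel (up to the constant) -/
def Jr (e : ℝ) (η : E4) : ℝ := (‖η‖ ^ 2 + e ^ 2)⁻¹

/-- its derivative in the direction `i` -/
def J1 (i : Fin 4) (e : ℝ) (η : E4) : ℝ := -2 * η i * ((‖η‖ ^ 2 + e ^ 2) ^ 2)⁻¹

theorem hasFDerivAt_sreg (e : ℝ) (η : E4) :
    HasFDerivAt (fun η : E4 => ‖η‖ ^ 2 + e ^ 2) (2 • innerSL ℝ η) η :=
  (hasStrictFDerivAt_norm_sq η).hasFDerivAt.add_const _

theorem inner_ee (η : E4) (i : Fin 4) : inner ℝ η (ee i) = η i := by
  simp [ee, EuclideanSpace.inner_single_right]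

theorem contDiff_sreg (e : ℝ) : ContDiff ℝ ∞ (fun η : E4 => ‖η‖ ^ 2 + e ^ 2) :=
  (contDiff_norm_sq ℝ).add contDiff_const

theorem contDiff_Jr {e : ℝ} (he : 0 < e) : ContDiff ℝ ∞ (Jr e) :=
  (contDiff_sreg e).inv fun η => (sreg_pos he η).ne'

theorem contDiff_coord (i : Fin 4) : ContDiff ℝ ∞ (fun η : E4 => η i) :=
  (EuclideanSpace.proj (𝕜 := ℝ) i : E4 →L[ℝ] ℝ).contDiff

theorem contDiff_J1 {e : ℝ} (he : 0 < e) (i : Fin 4) : ContDiff ℝ ∞ (J1 i e) :=
  (contDiff_const.mul (contDiff_coord i)).mul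
    (((contDiff_sreg e).pow 2).inv fun η => (pow_pos (sreg_pos he η) 2).ne')

theorem fderiv_Jr {e : ℝ} (he : 0 < e) (i : Fin 4) (η : E4) :
    fderiv ℝ (Jr e) η (ee i) = J1 i e η := by
  have h := ((hasDerivAt_inv (sreg_pos he η).ne').comp_hasFDerivAt η
    (hasFDerivAt_sreg e η)).fderiv
  have h2 : Jr e = Inv.inv ∘ (fun η : E4 => ‖η‖ ^ 2 + e ^ 2) := rfl
  rw [h2, h]
  simp only [smul_apply, J1,
    innerSL_apply_apply, inner_ee, smul_eq_mul, nsmul_eq_mul]
  push_cast
  ring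

theorem fderiv_J1 {e : ℝ} (he : 0 < e) (i : Fin 4) (η : E4) :
    fderiv ℝ (J1 i e) η (ee i) =
      -2 * ((‖η‖ ^ 2 + e ^ 2) ^ 2)⁻¹ + 8 * (η i) ^ 2 * ((‖η‖ ^ 2 + e ^ 2) ^ 3)⁻¹ := by
  have hs := sreg_pos he η
  have h1 : HasFDerivAt (fun η : E4 => η i) (EuclideanSpace.proj (𝕜 := ℝ) i : E4 →L[ℝ] ℝ) η :=
    (EuclideanSpace.proj (𝕜 := ℝ) i : E4 →L[ℝ] ℝ).hasFDerivAt
  have h2 := (hasDerivAt_inv (pow_pos hs 2).ne').comp_hasFDerivAt η
    ((hasFDerivAt_sreg e η).pow 2)
  have h3 := ((h1.const_mul (-2)).mul h2).fderiv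
  have h4 : J1 i e = (fun η : E4 => -2 * η i) *
      (Inv.inv ∘ (fun η : E4 => (‖η‖ ^ 2 + e ^ 2) ^ 2)) := by
    ext η; simp [J1]
  have h5 : (EuclideanSpace.proj (𝕜 := ℝ) i : E4 →L[ℝ] ℝ) (ee i) = 1 := by simp
  rw [h4, h3]
  simp only [add_apply, smul_apply, smul_eq_mul,
    innerSL_apply_apply, inner_ee, nsmul_eq_mul, Function.comp_apply, h5]
  push_cast
  field_simp
  ring

theorem sum_fderiv_J1 {e : ℝ} (he : 0 < e) (η : E4) :
    ∑ i, fderiv ℝ (J1 i e) η (ee i) = -(8 * e ^ 2 * ((‖η‖ ^ 2 + e ^ 2) ^ 3)⁻¹) := by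
  have hs := sreg_pos he η
  simp_rw [fderiv_J1 he]
  have h0 := norm_sq_sum η
  rw [Fin.sum_univ_four] at h0 ⊢
  have h1 : ∀ t : ℝ, t = ‖η‖ ^ 2 + e ^ 2 → 0 < t →
      (-2 * (t ^ 2)⁻¹ + 8 * η.ofLp 0 ^ 2 * (t ^ 3)⁻¹ + (-2 * (t ^ 2)⁻¹ + 8 * η.ofLp 1 ^ 2 * (t ^ 3)⁻¹)
      + (-2 * (t ^ 2)⁻¹ + 8 * η.ofLp 2 ^ 2 * (t ^ 3)⁻¹)
      + (-2 * (t ^ 2)⁻¹ + 8 * η.ofLp 3 ^ 2 * (t ^ 3)⁻¹)) = -(8 * e ^ 2 * (t ^ 3)⁻¹) := by
    intro t ht ht0
    have h2 : η.ofLp 0 ^ 2 + η.ofLp 1 ^ 2 + η.ofLp 2 ^ 2 + η.ofLp 3 ^ 2 = t - e ^ 2 := by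
      rw [ht, h0]; ring
    field_simp
    linear_combination 8 * h2
  exact h1 _ rfl hs

/-- the Laplacian -/
def lap (f : E4 → F) (η : E4) : F := ∑ i, fderiv ℝ (fun z => fderiv ℝ f z (ee i)) η (ee i)

theorem fderiv_apply_contDiff {f : E4 → F} (hf : ContDiff ℝ ∞ f) (v : E4) :
    ContDiff ℝ ∞ (fun z => fderiv ℝ f z v) :=
  (hf.fderiv_right (m := ∞) (by simp)).clm_apply contDiff_const

theorem parts_reg {e : ℝ} (he : 0 < e) {f : E4 → F} (hf : ContDiff ℝ ∞ f)
    (hfs : HasCompactSupport f) :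
    ∫ η, Jr e η • lap f η = - ∫ η, (8 * e ^ 2 * ((‖η‖ ^ 2 + e ^ 2) ^ 3)⁻¹) • f η := by
  have hJ := contDiff_Jr he
  have hfi : ∀ i, ContDiff ℝ ∞ (fun z => fderiv ℝ f z (ee i)) := fun i => fderiv_apply_contDiff hf _
  have hfis : ∀ i, HasCompactSupport (fun z => fderiv ℝ f z (ee i)) := fun i =>
    hfs.fderiv_apply (𝕜 := ℝ) _
  have hfii : ∀ i, Continuous (fun η => fderiv ℝ (fun z => fderiv ℝ f z (ee i)) η (ee i)) := fun i =>
    (fderiv_apply_contDiff (hfi i) _).continuous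
  have hfiis : ∀ i, HasCompactSupport
    (fun η => fderiv ℝ (fun z => fderiv ℝ f z (ee i)) η (ee i)) := fun i =>
    (hfis i).fderiv_apply (𝕜 := ℝ) _
  have hint : ∀ {k : E4 → ℝ} {g : E4 → F}, Continuous k → Continuous g → HasCompactSupport g →
      Integrable (fun η => k η • g η) := fun hk hg hgs =>
    (hk.smul hg).integrable_of_hasCompactSupport (hgs.smul_left)
  have h1 : ∀ i, ∫ η, Jr e η • fderiv ℝ (fun z => fderiv ℝ f z (ee i)) η (ee i) =
      ∫ η, (fderiv ℝ (J1 i e) η (ee i)) • f η := by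
    intro i
    have hJ1 := contDiff_J1 he i
    rw [integral_smul_fderiv_eq_neg_fderiv_smul_of_integrable]
    · simp_rw [fderiv_Jr he]
      rw [integral_smul_fderiv_eq_neg_fderiv_smul_of_integrable, neg_neg]
      · exact hint (fderiv_apply_contDiff hJ1 _).continuous hf.continuous hfs
      · exact hint hJ1.continuous (hfi i).continuous (hfis i)
      · exact hint hJ1.continuous hf.continuous hfs
      · exact fun x _ => (hJ1.differentiable (by simp)) x
      · exact fun x _ => (hf.differentiable (by simp)) x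
    · exact hint (fderiv_apply_contDiff hJ _).continuous (hfi i).continuous (hfis i)
    · exact hint hJ.continuous (hfii i) (hfiis i)
    · exact hint hJ.continuous (hfi i).continuous (hfis i)
    · exact fun x _ => (hJ.differentiable (by simp)) x
    · exact fun x _ => ((hfi i).differentiable (by simp)) x
  unfold lap
  simp_rw [Finset.smul_sum]
  rw [integral_finsetSum _ (fun i _ => hint hJ.continuous (hfii i) (hfiis i))]
  simp_rw [h1]
  rw [← integral_finsetSum _ (fun i _ => hint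
    (fderiv_apply_contDiff (contDiff_J1 he i) _).continuous hf.continuous hfs)]
  simp_rw [← Finset.sum_smul, sum_fderiv_J1 he, neg_smul]
  rw [integral_neg]

theorem scale_reg {e : ℝ} (he : 0 < e) (f : E4 → F) :
    ∫ η, (8 * e ^ 2 * ((‖η‖ ^ 2 + e ^ 2) ^ 3)⁻¹) • f η =
      ∫ ζ : E4, (8 * ((‖ζ‖ ^ 2 + 1) ^ 3)⁻¹) • f (e • ζ) := by
  have h := Measure.integral_comp_smul (volume : Measure E4)
    (fun η : E4 => (8 * e ^ 2 * ((‖η‖ ^ 2 + e ^ 2) ^ 3)⁻¹) • f η) e
  have hd : Module.finrank ℝ E4 = 4 := by simp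
  rw [hd] at h
  have h2 : ∫ η, (8 * e ^ 2 * ((‖η‖ ^ 2 + e ^ 2) ^ 3)⁻¹) • f η =
      (e ^ 4) • ∫ x : E4, (8 * e ^ 2 * ((‖e • x‖ ^ 2 + e ^ 2) ^ 3)⁻¹) • f (e • x) := by
    rw [h, smul_smul, abs_of_pos (by positivity), mul_inv_cancel₀ (by positivity), one_smul]
  rw [h2, ← integral_smul]
  refine integral_congr_ae (Eventually.of_forall fun x => ?_)
  simp only [smul_smul, norm_smul, Real.norm_of_nonneg he.le]
  congr 1
  have : 0 < ‖x‖ ^ 2 + 1 := by positivity
  field_simp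

theorem integrable_I3 : Integrable (fun ζ : E4 => ((‖ζ‖ ^ 2 + 1) ^ 3)⁻¹) := by
  have h := integrable_rpow_neg_one_add_norm_sq (E := E4) (r := 6) (μ := volume) (by
    simp; norm_num)
  refine h.congr (Eventually.of_forall fun x => ?_)
  have hp : 0 < ‖x‖ ^ 2 + 1 := by positivity
  change (1 + ‖x‖ ^ 2) ^ (-(6 : ℝ) / 2) = _
  rw [show -(6 : ℝ) / 2 = -((3 : ℕ) : ℝ) by norm_num, Real.rpow_neg (by positivity),
    Real.rpow_natCast, add_comm]

/-- `∫ (1+|ζ|²)^{-3}` -/
def I3 : ℝ := ∫ ζ : E4, ((‖ζ‖ ^ 2 + 1) ^ 3)⁻¹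

theorem I3_pos : 0 < I3 := by
  unfold I3
  rw [integral_pos_iff_support_of_nonneg _ integrable_I3]
  · have : Function.support (fun ζ : E4 => ((‖ζ‖ ^ 2 + 1) ^ 3)⁻¹) = univ := by
      ext ζ
      simp only [Function.mem_support, mem_univ, iff_true]
      positivity
    rw [this]
    simp
  · intro ζ
    simp only [Pi.zero_apply]
    positivity

/-- the Newton constant -/
def cN : ℝ := (8 * I3)⁻¹

theorem cN_pos : 0 < cN := by unfold cN; have := I3_pos; positivity

/-- the Newton kernel, normalised so that its Laplacian is the delta function -/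
def NK (η : E4) : ℝ := -cN * (‖η‖ ^ 2)⁻¹

theorem lap_continuous {f : E4 → F} (hf : ContDiff ℝ ∞ f) : Continuous (lap f) := by
  unfold lap
  exact continuous_finsetSum _ fun i _ =>
    (fderiv_apply_contDiff (fderiv_apply_contDiff hf (ee i)) _).continuous

theorem lap_hasCompactSupport {f : E4 → F} (hfs : HasCompactSupport f) :
    HasCompactSupport (lap f) := by
  refine HasCompactSupport.intro (K := tsupport f) hfs fun x hx => ?_
  unfold lap
  refine Finset.sum_eq_zero fun i _ => ?_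
  have h1 : (fun z => fderiv ℝ f z (ee i)) =ᶠ[𝓝 x] fun _ => (0 : F) := by
    have : (tsupport f)ᶜ ∈ 𝓝 x := (isClosed_tsupport f).isOpen_compl.mem_nhds hx
    filter_upwards [this] with z hz
    rw [fderiv_of_notMem_tsupport (𝕜 := ℝ) hz]; rfl
  rw [h1.fderiv_eq]
  simp

theorem newton [CompleteSpace F] {f : E4 → F} (hf : ContDiff ℝ ∞ f) (hfs : HasCompactSupport f) :
    ∫ η, NK η • lap f η = f 0 := by
  let en : ℕ → ℝ := fun n => 1 / ((n : ℝ) + 1)
  have hen : ∀ n, 0 < en n := fun n => by positivity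
  have hent : Tendsto en atTop (𝓝 0) := tendsto_one_div_add_atTop_nhds_zero_nat
  have hlc := lap_continuous hf
  have hls : HasCompactSupport (lap f) := lap_hasCompactSupport hfs
  have hL : Tendsto (fun n => ∫ η, Jr (en n) η • lap f η) atTop
      (𝓝 (∫ η, ((‖η‖ ^ 2)⁻¹) • lap f η)) := by
    refine tendsto_integral_of_dominated_convergence
      (fun η => ‖((‖η‖ ^ 2)⁻¹) • ‖lap f η‖‖) ?_ ?_ ?_ ?_
    · intro n
      exact ((contDiff_Jr (hen n)).continuous.smul hlc).aestronglyMeasurable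
    · exact ((locInt_inv_pow 2 (by norm_num)).integrable_smul_right_of_hasCompactSupport
        hlc.norm hls.norm).norm
    · intro n
      filter_upwards [ae_ne_zero] with η hη
      rw [norm_smul, norm_smul, norm_norm]
      gcongr
      have h1 : 0 < ‖η‖ := norm_pos_iff.2 hη
      have h2 := hen n
      rw [Real.norm_of_nonneg (by unfold Jr; positivity), Real.norm_of_nonneg (by positivity)]
      unfold Jr
      apply inv_anti₀ (by positivity)
      nlinarith [sq_nonneg (en n)]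
    · filter_upwards [ae_ne_zero] with η hη
      refine Tendsto.smul_const ?_ _
      unfold Jr
      have h1 : 0 < ‖η‖ := norm_pos_iff.2 hη
      have h2 : Tendsto (fun n => ‖η‖ ^ 2 + en n ^ 2) atTop (𝓝 (‖η‖ ^ 2 + 0 ^ 2)) :=
        tendsto_const_nhds.add (hent.pow 2)
      have h3 := h2.inv₀ (by positivity)
      simpa using h3
  have hR : Tendsto (fun n => ∫ ζ : E4, (8 * ((‖ζ‖ ^ 2 + 1) ^ 3)⁻¹) • f (en n • ζ)) atTop
      (𝓝 (∫ ζ : E4, (8 * ((‖ζ‖ ^ 2 + 1) ^ 3)⁻¹) • f 0)) := by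
    obtain ⟨B, hB⟩ := hfs.exists_bound_of_continuous hf.continuous
    refine tendsto_integral_of_dominated_convergence
      (fun ζ : E4 => (8 * ((‖ζ‖ ^ 2 + 1) ^ 3)⁻¹) * B) ?_ ?_ ?_ ?_
    · intro n
      refine Continuous.aestronglyMeasurable ?_
      refine Continuous.smul ?_ (hf.continuous.comp (continuous_const_smul _))
      refine continuous_const.mul (Continuous.inv₀ (by fun_prop) fun ζ => ?_)
      positivity
    · exact (integrable_I3.const_mul 8).mul_const B
    · intro n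
      refine Eventually.of_forall fun ζ => ?_
      rw [norm_smul, Real.norm_of_nonneg (by positivity)]
      gcongr
      exact hB _
    · refine Eventually.of_forall fun ζ => ?_
      refine Tendsto.const_smul ?_ _
      have h1 : Tendsto (fun n => en n • ζ) atTop (𝓝 0) := by
        simpa using hent.smul_const ζ
      exact (hf.continuous.tendsto 0).comp h1
  have hEq : (∫ η, ((‖η‖ ^ 2)⁻¹) • lap f η) = -(8 * I3) • f 0 := by
    refine tendsto_nhds_unique hL ?_
    have h1 : ∀ n, ∫ η, Jr (en n) η • lap f η =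
        -∫ ζ : E4, (8 * ((‖ζ‖ ^ 2 + 1) ^ 3)⁻¹) • f (en n • ζ) := fun n => by
      rw [parts_reg (hen n) hf hfs, scale_reg (hen n)]
    simp_rw [h1]
    have h2 := hR.neg
    rw [integral_smul_const, integral_const_mul] at h2
    rw [neg_smul]
    exact h2
  unfold NK
  simp_rw [mul_smul]
  rw [integral_smul, hEq, smul_smul]
  have := I3_pos
  have h3 : -cN * -(8 * I3) = 1 := by
    unfold cN; field_simp
  rw [h3, one_smul]

end

end Crest.Agent.R240.Fr
end

-- ▼ part R240/PotFS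

/-!
Row 240, Lemma P (helper849, for helper657): the fundamental solution of a constant-coefficient
Laplacian on `E4`.
-/

set_option autoImplicit false
open scoped ContDiff Topology MatrixOrder Matrix
open MeasureTheory Set Filter

namespace Crest.Agent.R240.Pot

open Crest.Agent.R240.Fr

noncomputable section

theorem exists_frame_matrix (M : Matrix (Fin 4) (Fin 4) ℝ) (hM : M.PosDef) :
    ∃ A : Matrix (Fin 4) (Fin 4) ℝ, A.det ≠ 0 ∧ A.transpose * M * A = 1 ∧
      √ M.det * |A.det| = 1 := by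
  have h0 : 0 ≤ M := hM.posSemidef.nonneg
  set S := CFC.sqrt M with hS
  have hSS : S * S = M := CFC.sqrt_mul_sqrt_self M h0
  have hSn : 0 ≤ S := CFC.sqrt_nonneg M
  have hSH : S.IsHermitian := (Matrix.nonneg_iff_posSemidef.1 hSn).1
  have hST : S.transpose = S := by
    have := hSH.eq
    rwa [Matrix.conjTranspose_eq_transpose_of_trivial] at this
  have hMd : 0 < M.det := hM.det_pos
  have hdet : S.det * S.det = M.det := by rw [← Matrix.det_mul, hSS]
  have hSd : S.det ≠ 0 := by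
    intro h
    rw [h] at hdet
    simp at hdet
    exact hMd.ne hdet
  have hSu : IsUnit S.det := isUnit_iff_ne_zero.2 hSd
  refine ⟨S⁻¹, ?_, ?_, ?_⟩
  · rw [Matrix.det_nonsing_inv]
    simp [hSd]
  · rw [Matrix.transpose_nonsing_inv, hST, ← hSS]
    rw [← Matrix.mul_assoc, Matrix.nonsing_inv_mul _ hSu, Matrix.one_mul,
      Matrix.mul_nonsing_inv _ hSu]
  · rw [Matrix.det_nonsing_inv, ← hdet, Ring.inverse_eq_inv', abs_inv, Real.sqrt_mul_self_eq_abs]
    exact mul_inv_cancel₀ (abs_ne_zero.2 hSd)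

/-- the linear map of a matrix -/
def mlin (A : Matrix (Fin 4) (Fin 4) ℝ) : E4 →L[ℝ] E4 :=
  LinearMap.toContinuousLinearMap (Matrix.toEuclideanLin A)

theorem mlin_ee (A : Matrix (Fin 4) (Fin 4) ℝ) (k i : Fin 4) : (mlin A (ee k)) i = A i k := by
  simp [mlin, ee, Matrix.toEuclideanLin, Matrix.toLpLin]

theorem det_mlin (A : Matrix (Fin 4) (Fin 4) ℝ) :
    LinearMap.det ((mlin A : E4 →L[ℝ] E4) : E4 →ₗ[ℝ] E4) = A.det := by
  rw [det_eq]
  congr 1
  ext i j
  simp [mlin_ee]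

/-- change of variables for an invertible linear map -/
theorem integral_comp_lin {F : Type*} [NormedAddCommGroup F] [NormedSpace ℝ F]
    (A : E4 →L[ℝ] E4) (hA : LinearMap.det (A : E4 →ₗ[ℝ] E4) ≠ 0) (h : E4 → F) :
    ∫ x, h x = |LinearMap.det (A : E4 →ₗ[ℝ] E4)| • ∫ η, h (A η) := by
  have h1 := Measure.map_linearMap_addHaar_eq_smul_addHaar (volume : Measure E4)
    (f := (A : E4 →ₗ[ℝ] E4)) hA
  let e : E4 ≃L[ℝ] E4 := ((A : E4 →ₗ[ℝ] E4).equivOfDetNeZero hA).toContinuousLinearEquiv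
  have he : ∀ x, e x = A x := fun x => rfl
  have h2 : ∫ η, h (A η) = ∫ x, h x ∂(Measure.map (A : E4 →ₗ[ℝ] E4) volume) := by
    have := (e.toHomeomorph.measurableEmbedding).integral_map (μ := (volume : Measure E4)) h
    exact this.symm
  rw [h2, h1, integral_smul_measure, ENNReal.toReal_ofReal (abs_nonneg _), smul_smul, abs_inv,
    mul_inv_cancel₀ (abs_ne_zero.2 hA), one_smul]

theorem lap_comp_lin {F : Type*} [NormedAddCommGroup F] [NormedSpace ℝ F]
    (A : E4 →L[ℝ] E4) {rho : E4 → F} (hr : ContDiff ℝ ∞ rho) (z η : E4) :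
    lap (fun η => rho (z - A η)) η =
      ∑ k, fderiv ℝ (fderiv ℝ rho) (z - A η) (A (ee k)) (A (ee k)) := by
  unfold lap
  refine Finset.sum_congr rfl fun k _ => ?_
  have hz : ∀ η : E4, HasFDerivAt (fun η => z - A η) (-A) η := fun η =>
    (A.hasFDerivAt).const_sub z
  have h1 : (fun y => fderiv ℝ (fun η => rho (z - A η)) y (ee k)) =
      fun y => -(fderiv ℝ rho (z - A y) (A (ee k))) := by
    funext y
    have := ((hr.differentiable (by simp)) (z - A y)).hasFDerivAt.comp y (hz y)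
    rw [show (fun η => rho (z - A η)) = rho ∘ (fun η => z - A η) from rfl, this.fderiv]
    simp
  rw [h1]
  have hr' : ContDiff ℝ ∞ (fderiv ℝ rho) := hr.fderiv_right (by simp)
  have h2 := ((hr'.differentiable (by simp)) (z - A η)).hasFDerivAt.comp η (hz η)
  have h3 := (h2.clm_apply (hasFDerivAt_const (A (ee k)) η)).neg
  have h4 : (fun y => -(fderiv ℝ rho (z - A y) (A (ee k)))) =
    -(fun y => ((fderiv ℝ rho) ∘ fun η => z - A η) y (A (ee k))) := rfl
  rw [h4, h3.fderiv]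
  simp

theorem fund : ∃ c0 : ℝ, 0 < c0 ∧ ∀ (g : Bil) (_ : ∀ v w, g v w = g w v)
    (_ : ∀ v, v ≠ 0 → 0 < g v v) (G : Fin 4 → Fin 4 → ℝ)
    (_ : ∀ i k, ∑ j, G i j * g (ee j) (ee k) = if i = k then 1 else 0)
    (rho : E4 → ℝ), ContDiff ℝ ∞ rho → HasCompactSupport rho → ∀ z : E4,
    ∫ ζ, (∑ i, ∑ j, G i j * fderiv ℝ (fderiv ℝ rho) (z - ζ) (ee i) (ee j)) *
      (-(c0 * √ (Matrix.of fun i j => g (ee i) (ee j)).det) / g ζ ζ) = rho z := by
  refine ⟨cN, cN_pos, ?_⟩
  intro g hsym hpos G hG rho hr hrs z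
  set M : Matrix (Fin 4) (Fin 4) ℝ := Matrix.of fun i j => g (ee i) (ee j) with hMdef
  have hM : M.PosDef := by
    refine Matrix.PosDef.of_dotProduct_mulVec_pos ?_ ?_
    · ext i j
      simp [M, hsym]
    · intro x hx
      have hv : (WithLp.toLp 2 x : E4) ≠ 0 := by
        intro h
        apply hx
        ext i
        have := congrArg (fun w : E4 => w i) h
        simpa using this
      have h1 := hpos _ hv
      rw [bil_expand] at h1
      have h2 : star x ⬝ᵥ (M *ᵥ x) = ∑ i, ∑ j, (WithLp.toLp 2 x : E4) i * (WithLp.toLp 2 x : E4) j *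
          ent g i j := by
        simp only [dotProduct, Matrix.mulVec, M, Matrix.of_apply, ent, star_trivial]
        refine Finset.sum_congr rfl fun i _ => ?_
        rw [Finset.mul_sum]
        refine Finset.sum_congr rfl fun j _ => ?_
        ring
      rw [h2]; exact h1
  obtain ⟨Am, hAd, hAM, hAdet⟩ := exists_frame_matrix M hM
  set A := mlin Am with hAdef
  have hdetA : LinearMap.det (A : E4 →ₗ[ℝ] E4) ≠ 0 := by rw [hAdef, det_mlin]; exact hAd
  -- inverse matrix
  have hGM : (Matrix.of G) * M = 1 := by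
    ext i k
    rw [Matrix.mul_apply, Matrix.one_apply, ← hG i k]
    rfl
  have hMA : M * (Am * Am.transpose) = 1 := by
    have h1 : (Am.transpose * M) * Am = 1 := hAM
    have h2 := mul_eq_one_comm.1 h1
    rw [← Matrix.mul_assoc] at h2
    exact mul_eq_one_comm.1 h2
  have hGA : Matrix.of G = Am * Am.transpose := by
    calc Matrix.of G = Matrix.of G * (M * (Am * Am.transpose)) := by rw [hMA, Matrix.mul_one]
      _ = (Matrix.of G * M) * (Am * Am.transpose) := by rw [Matrix.mul_assoc]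
      _ = _ := by rw [hGM, Matrix.one_mul]
  have hGij : ∀ i j, G i j = ∑ k, Am i k * Am j k := by
    intro i j
    have := congrFun (congrFun hGA i) j
    rw [Matrix.mul_apply] at this
    simpa using this
  -- g in the frame
  have hgee : ∀ k l, ent (pull A g) k l = if k = l then 1 else 0 := by
    intro k l
    have h1 := congrFun (congrFun hAM k) l
    rw [Matrix.one_apply] at h1
    rw [← h1]
    unfold ent
    rw [pull_apply, bil_expand, Matrix.mul_apply]
    simp only [Matrix.mul_apply, Matrix.transpose_apply, M, Matrix.of_apply, ent, A, mlin_ee]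
    rw [Finset.sum_comm]
    refine Finset.sum_congr rfl fun j _ => ?_
    rw [Finset.sum_mul]
    refine Finset.sum_congr rfl fun i _ => ?_
    ring
  have hgA : ∀ η : E4, g (A η) (A η) = ‖η‖ ^ 2 := by
    intro η
    have h1 : g (A η) (A η) = pull A g η η := by simp
    rw [h1, bil_expand, norm_sq_sum]
    simp only [hgee]
    refine Finset.sum_congr rfl fun i _ => ?_
    rw [Finset.sum_eq_single i]
    · simp; ring
    · intro j _ hj
      simp [hj.symm]
    · simp
  rw [integral_comp_lin A hdetA]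
  have hcomp : ∀ η, (∑ i, ∑ j, G i j * fderiv ℝ (fderiv ℝ rho) (z - A η) (ee i) (ee j)) =
      lap (fun η => rho (z - A η)) η := by
    intro η
    rw [lap_comp_lin A hr]
    have h1 : ∀ k, fderiv ℝ (fderiv ℝ rho) (z - A η) (A (ee k)) (A (ee k)) =
        ∑ i, ∑ j, Am i k * Am j k * fderiv ℝ (fderiv ℝ rho) (z - A η) (ee i) (ee j) := by
      intro k
      rw [bil_expand (fderiv ℝ (fderiv ℝ rho) (z - A η))]
      simp only [A, mlin_ee, ent]
    simp_rw [h1, hGij, Finset.sum_mul]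
    rw [Finset.sum_comm]
    rw [Finset.sum_comm]
    conv_rhs => rw [Finset.sum_comm]
    refine Finset.sum_congr rfl fun i _ => ?_
    conv_rhs => rw [Finset.sum_comm]
  have hfs : HasCompactSupport (fun η => rho (z - A η)) := by
    let e : E4 ≃L[ℝ] E4 := ((A : E4 →ₗ[ℝ] E4).equivOfDetNeZero hdetA).toContinuousLinearEquiv
    have he : ∀ x, e x = A x := fun x => rfl
    have : (fun η => rho (z - A η)) = rho ∘ (e.toHomeomorph.trans (Homeomorph.subLeft z)) := by
      ext η; simp [he]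
    rw [this]
    exact hrs.comp_homeomorph _
  have hfc : ContDiff ℝ ∞ (fun η => rho (z - A η)) :=
    hr.comp (contDiff_const.sub A.contDiff)
  have hN := newton hfc hfs
  have hint : ∫ η, (∑ i, ∑ j, G i j * fderiv ℝ (fderiv ℝ rho) (z - A η) (ee i) (ee j)) *
      (-(cN * √ M.det) / g (A η) (A η)) = √ M.det * rho z := by
    have h1 : (fun η => (∑ i, ∑ j, G i j * fderiv ℝ (fderiv ℝ rho) (z - A η) (ee i) (ee j)) *
      (-(cN * √ M.det) / g (A η) (A η))) =
      fun η => √ M.det • (NK η • lap (fun η => rho (z - A η)) η) := by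
      funext η
      rw [hcomp, hgA]
      simp only [NK, smul_eq_mul]
      rw [div_eq_mul_inv]
      ring
    rw [h1, integral_smul, hN]
    simp
  rw [hint, smul_eq_mul, hAdef, det_mlin]
  rw [← mul_assoc, mul_comm |Am.det|, hAdet, one_mul]

end

end Crest.Agent.R240.Pot
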