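import Mathlib
import Crest.Agent.R240.Lin1

/-!
Row 240 (S0371), BLOCK C (helper822): forms on `R^4`, wedge coefficient, Stokes for closed 2-forms.
Uses 798's Lin1 (`W`, `wed`, `Jc`, `Alt`).
-/

set_option autoImplicit false
open scoped ContDiff
open MeasureTheory

namespace Crest.Agent.R240.En

/-- covectors -/
abbrev Cov := E4 →L[ℝ] ℝ

/-- exterior derivative of a 1-form on `R^4` -/
noncomputable def d1 (S : E4 → Cov) (x : E4) : Bil := fderiv ℝ S x - (fderiv ℝ S x).flip

@[simp] lemma d1_apply (S : E4 → Cov) (x v w : E4) :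
    d1 S x v w = fderiv ℝ S x v w - fderiv ℝ S x w v := by
  simp [d1]

/-- closedness of a 2-form at a point -/
def Cl (b : E4 → Bil) (x : E4) : Prop :=
  ∀ u v w : E4, fderiv ℝ b x u v w + fderiv ℝ b x v w u + fderiv ℝ b x w u v = 0

lemma alt_d1 (S : E4 → Cov) (x : E4) : Alt (d1 S x) := by intro v; simp

lemma wed_add_right (ξ η θ : Cov) : wed ξ (η + θ) = wed ξ η + wed ξ θ := by
  ext v w; simp; ring

lemma wed_add_left (ξ η θ : Cov) : wed (ξ + η) θ = wed ξ θ + wed η θ := by
  ext v w; simp; ring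

lemma wed_smul_right (r : ℝ) (ξ η : Cov) : wed ξ (r • η) = r • wed ξ η := by
  ext v w; simp; ring

lemma wed_smul_left (r : ℝ) (ξ η : Cov) : wed (r • ξ) η = r • wed ξ η := by
  ext v w; simp; ring


lemma wed_neg_left (ξ η : Cov) : wed (-ξ) η = - wed ξ η := by
  ext v w; simp; ring

/-- Leibniz rule for `d` of a function times a 1-form -/
lemma d1_smul {f : E4 → ℝ} {S : E4 → Cov} {x : E4} (hf : DifferentiableAt ℝ f x)
    (hS : DifferentiableAt ℝ S x) :
    d1 (fun y => f y • S y) x = wed (fderiv ℝ f x) (S x) + f x • d1 S x := by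
  ext v w
  have h : fderiv ℝ (fun y => f y • S y) x = f x • fderiv ℝ S x + (fderiv ℝ f x).smulRight (S x) :=
    fderiv_fun_smul hf hS
  simp [h]
  ring

lemma integral_fderiv_zero {g : E4 → ℝ} (hg : ContDiff ℝ 1 g) (hc : HasCompactSupport g) (v : E4) :
    ∫ x, fderiv ℝ g x v = 0 := by
  have h := integral_mul_fderiv_eq_neg_fderiv_mul_of_integrable (μ := (volume : Measure E4))
    (f := fun _ => (1 : ℝ)) (g := g) (v := v) ?_ ?_ ?_ ?_ ?_
  · simpa using h
  · simp
  · simp only [one_mul]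
    have h1 : Continuous fun x => fderiv ℝ g x v :=
      (hg.continuous_fderiv one_ne_zero).clm_apply continuous_const
    exact h1.integrable_of_hasCompactSupport (hc.fderiv_apply (𝕜 := ℝ) v)
  · simp only [one_mul]
    exact hg.continuous.integrable_of_hasCompactSupport hc
  · intro x _; exact differentiableAt_const _
  · intro x _; exact (hg.differentiable one_ne_zero) x

/-- integrable with zero integral -/
def IZ (f : E4 → ℝ) : Prop := Integrable f ∧ ∫ x, f x = 0

lemma IZ.add {f g : E4 → ℝ} (hf : IZ f) (hg : IZ g) : IZ (fun x => f x + g x) :=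
  ⟨hf.1.add hg.1, by rw [integral_add hf.1 hg.1, hf.2, hg.2, add_zero]⟩

lemma IZ.sub {f g : E4 → ℝ} (hf : IZ f) (hg : IZ g) : IZ (fun x => f x - g x) :=
  ⟨hf.1.sub hg.1, by rw [integral_sub hf.1 hg.1, hf.2, hg.2, sub_zero]⟩

lemma IZ.neg {f : E4 → ℝ} (hf : IZ f) : IZ (fun x => - f x) :=
  ⟨hf.1.neg, by rw [integral_neg, hf.2, neg_zero]⟩

/-- Stokes: the wedge pairing of a closed 2-form with `dS`, `S` compactly supported, vanishes. -/
theorem stokes {b : E4 → Bil} (hb : ContDiff ℝ 1 b) (halt : ∀ x, Alt (b x)) {S : E4 → Cov}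
    (hS : ContDiff ℝ 1 S) (hc : HasCompactSupport S) (hcl : ∀ x ∈ tsupport S, Cl b x) :
    ∫ x, W (b x) (d1 S x) = 0 := by
  -- the vector field
  set S0 : E4 → ℝ := fun x => S x (ee 0) with hS0
  set S1 : E4 → ℝ := fun x => S x (ee 1) with hS1
  set S2 : E4 → ℝ := fun x => S x (ee 2) with hS2
  set S3 : E4 → ℝ := fun x => S x (ee 3) with hS3
  have hbij : ∀ i j : Fin 4, ContDiff ℝ 1 (fun x => b x (ee i) (ee j)) := fun i j =>
    (hb.clm_apply contDiff_const).clm_apply contDiff_const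
  have hSi : ∀ i : Fin 4, ContDiff ℝ 1 (fun x => S x (ee i)) := fun i =>
    hS.clm_apply contDiff_const
  have hci : ∀ i : Fin 4, HasCompactSupport (fun x => S x (ee i)) := fun i => by
    refine hc.mono' ?_
    refine subset_trans ?_ subset_closure
    intro x hx hx'
    apply hx
    simp [hx']
  -- product pieces
  have key : ∀ (i j k l : Fin 4), ∫ x, fderiv ℝ (fun y => b y (ee i) (ee j) * S y (ee k)) x (ee l) = 0 :=
    fun i j k l => integral_fderiv_zero ((hbij i j).mul (hSi k)) ((hci k).mul_left) (ee l)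
  have hint : ∀ (i j k l : Fin 4),
      Integrable (fun x => fderiv ℝ (fun y => b y (ee i) (ee j) * S y (ee k)) x (ee l)) := by
    intro i j k l
    have h1 : Continuous fun x => fderiv ℝ (fun y => b y (ee i) (ee j) * S y (ee k)) x (ee l) :=
      (((hbij i j).mul (hSi k)).continuous_fderiv one_ne_zero).clm_apply continuous_const
    exact h1.integrable_of_hasCompactSupport
      ((HasCompactSupport.mul_left (hci k)).fderiv_apply (𝕜 := ℝ) (ee l))
  have hdb : ∀ x (i j l : Fin 4), fderiv ℝ (fun y => b y (ee i) (ee j)) x (ee l)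
      = fderiv ℝ b x (ee l) (ee i) (ee j) := by
    intro x i j l
    have h0 : HasFDerivAt b (fderiv ℝ b x) x := ((hb.differentiable one_ne_zero) x).hasFDerivAt
    have h1 : HasFDerivAt (fun y => b y (ee i)) _ x := h0.clm_apply (hasFDerivAt_const (ee i) x)
    have h2 : HasFDerivAt (fun y => b y (ee i) (ee j)) _ x :=
      h1.clm_apply (hasFDerivAt_const (ee j) x)
    rw [h2.fderiv]; simp
  have hdS : ∀ x (k l : Fin 4), fderiv ℝ (fun y => S y (ee k)) x (ee l)
      = fderiv ℝ S x (ee l) (ee k) := by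
    intro x k l
    have h0 : HasFDerivAt S (fderiv ℝ S x) x := ((hS.differentiable one_ne_zero) x).hasFDerivAt
    have h1 : HasFDerivAt (fun y => S y (ee k)) _ x := h0.clm_apply (hasFDerivAt_const (ee k) x)
    rw [h1.fderiv]; simp
  have hprod : ∀ x (i j k l : Fin 4),
      fderiv ℝ (fun y => b y (ee i) (ee j) * S y (ee k)) x (ee l)
        = b x (ee i) (ee j) * fderiv ℝ S x (ee l) (ee k)
          + S x (ee k) * fderiv ℝ b x (ee l) (ee i) (ee j) := by
    intro x i j k l
    rw [fderiv_fun_mul ((hbij i j).differentiable one_ne_zero x) ((hSi k).differentiable one_ne_zero x)]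
    simp [hdb, hdS]
  have hsw : ∀ x (i j l : Fin 4), fderiv ℝ b x (ee l) (ee i) (ee j)
      = - fderiv ℝ b x (ee l) (ee j) (ee i) := by
    intro x i j l
    rw [← hdb, ← hdb]
    have : (fun y => b y (ee i) (ee j)) = fun y => - (b y (ee j) (ee i)) := by
      funext y; exact (halt y).swap _ _
    rw [this, fderiv_fun_neg]; simp
  have hpt : ∀ x, W (b x) (d1 S x) =
      (fderiv ℝ (fun y => b y (ee 1) (ee 2) * S y (ee 3)) x (ee 0)
        - fderiv ℝ (fun y => b y (ee 1) (ee 3) * S y (ee 2)) x (ee 0)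
        + fderiv ℝ (fun y => b y (ee 2) (ee 3) * S y (ee 1)) x (ee 0))
      + (- fderiv ℝ (fun y => b y (ee 0) (ee 2) * S y (ee 3)) x (ee 1)
        + fderiv ℝ (fun y => b y (ee 0) (ee 3) * S y (ee 2)) x (ee 1)
        - fderiv ℝ (fun y => b y (ee 2) (ee 3) * S y (ee 0)) x (ee 1))
      + (fderiv ℝ (fun y => b y (ee 0) (ee 1) * S y (ee 3)) x (ee 2)
        - fderiv ℝ (fun y => b y (ee 0) (ee 3) * S y (ee 1)) x (ee 2)
        + fderiv ℝ (fun y => b y (ee 1) (ee 3) * S y (ee 0)) x (ee 2))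
      + (- fderiv ℝ (fun y => b y (ee 0) (ee 1) * S y (ee 2)) x (ee 3)
        + fderiv ℝ (fun y => b y (ee 0) (ee 2) * S y (ee 1)) x (ee 3)
        - fderiv ℝ (fun y => b y (ee 1) (ee 2) * S y (ee 0)) x (ee 3)) := by
    intro x
    simp only [hprod]
    by_cases hx : x ∈ tsupport S
    · have hc' := hcl x hx
      have c012 := hc' (ee 0) (ee 1) (ee 2)
      have c013 := hc' (ee 0) (ee 1) (ee 3)
      have c023 := hc' (ee 0) (ee 2) (ee 3)
      have c123 := hc' (ee 1) (ee 2) (ee 3)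
      rw [hsw x 2 0 1] at c012
      rw [hsw x 3 0 1] at c013
      rw [hsw x 3 0 2] at c023
      rw [hsw x 3 1 2] at c123
      simp only [W, ent, d1_apply]
      linear_combination (-(S x (ee 3))) * c012 + (S x (ee 2)) * c013 - (S x (ee 1)) * c023
        + (S x (ee 0)) * c123
    · have h0 : S x = 0 := image_eq_zero_of_notMem_tsupport hx
      simp only [W, ent, d1_apply, h0, zero_apply]
      ring
  have Z : ∀ i j k l : Fin 4, IZ (fun x => fderiv ℝ (fun y => b y (ee i) (ee j) * S y (ee k)) x (ee l)) :=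
    fun i j k l => ⟨hint i j k l, key i j k l⟩
  simp_rw [hpt]
  exact ((((((Z 1 2 3 0).sub (Z 1 3 2 0)).add (Z 2 3 1 0)).add
    (((Z 0 2 3 1).neg.add (Z 0 3 2 1)).sub (Z 2 3 0 1))).add
    (((Z 0 1 3 2).sub (Z 0 3 1 2)).add (Z 1 3 0 2))).add
    (((Z 0 1 2 3).neg.add (Z 0 2 1 3)).sub (Z 1 2 0 3))).2

end Crest.Agent.R240.En
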