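import Crest.Agent.R240.Lin4

/-!
Row 240, PART L (helper798): Cauchy–Schwarz, (Q), order unit.
-/

set_option autoImplicit false

namespace Crest.Agent.R240

noncomputable section

/-! ### bilinearity of `wed` -/

theorem wed_add_left (a b c : E4 →L[ℝ] ℝ) : wed (a + b) c = wed a c + wed b c := by
  ext u v
  have h : (wed a c + wed b c) u v = wed a c u v + wed b c u v := rfl
  rw [h]
  simp only [wed_apply, add_apply]
  ring

theorem wed_add_right (a b c : E4 →L[ℝ] ℝ) : wed a (b + c) = wed a b + wed a c := by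
  ext u v
  have h : (wed a b + wed a c) u v = wed a b u v + wed a c u v := rfl
  rw [h]
  simp only [wed_apply, add_apply]
  ring

theorem wed_smul_left (r : ℝ) (a c : E4 →L[ℝ] ℝ) : wed (r • a) c = r • wed a c := by
  ext u v
  have h : (r • wed a c) u v = r * wed a c u v := rfl
  rw [h]
  simp only [wed_apply, smul_apply, smul_eq_mul]
  ring

theorem wed_smul_right (r : ℝ) (a c : E4 →L[ℝ] ℝ) : wed a (r • c) = r • wed a c := by
  ext u v
  have h : (r • wed a c) u v = r * wed a c u v := rfl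
  rw [h]
  simp only [wed_apply, smul_apply, smul_eq_mul]
  ring

theorem wed_swap (a c : E4 →L[ℝ] ℝ) : wed a c = - wed c a := by
  ext u v
  have h : (- wed c a) u v = - wed c a u v := rfl
  rw [h, wed_apply, wed_apply]
  ring


theorem wed_neg_left (a c : E4 →L[ℝ] ℝ) : wed (-a) c = - wed a c := by
  ext u v
  have h : (- wed a c) u v = - wed a c u v := rfl
  rw [h, wed_apply, wed_apply]
  simp only [neg_apply]
  ring

theorem wed_neg_right (a c : E4 →L[ℝ] ℝ) : wed a (-c) = - wed a c := by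
  ext u v
  have h : (- wed a c) u v = - wed a c u v := rfl
  rw [h, wed_apply, wed_apply]
  simp only [neg_apply]
  ring

theorem q_neg_right (F b c : Bil) : q F b (-c) = - q F b c := by
  have := q_smul_right F (-1) b c
  rw [neg_one_smul] at this
  rw [this]; ring


theorem norm_wed_le (a c : E4 →L[ℝ] ℝ) : ‖wed a c‖ ≤ 2 * ‖a‖ * ‖c‖ := by
  refine ContinuousLinearMap.opNorm_le_bound₂ _ (by positivity) ?_
  intro u v
  rw [wed_apply]
  have h1 := a.le_opNorm u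
  have h2 := c.le_opNorm v
  have h3 := c.le_opNorm u
  have h4 := a.le_opNorm v
  calc ‖a u * c v - c u * a v‖ ≤ ‖a u * c v‖ + ‖c u * a v‖ := norm_sub_le _ _
    _ = ‖a u‖ * ‖c v‖ + ‖c u‖ * ‖a v‖ := by rw [norm_mul, norm_mul]
    _ ≤ (‖a‖ * ‖u‖) * (‖c‖ * ‖v‖) + (‖c‖ * ‖u‖) * (‖a‖ * ‖v‖) := by gcongr
    _ = _ := by ring

theorem Jc_Jc {J : E4 →L[ℝ] E4} (hJ : ∀ v, J (J v) = -v) (ξ : E4 →L[ℝ] ℝ) :
    Jc J (Jc J ξ) = - ξ := by
  ext v
  simp [hJ]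

theorem Jc_add (J : E4 →L[ℝ] E4) (a b : E4 →L[ℝ] ℝ) : Jc J (a + b) = Jc J a + Jc J b := by
  ext v; simp; ring

theorem Jc_smul (J : E4 →L[ℝ] E4) (r : ℝ) (a : E4 →L[ℝ] ℝ) : Jc J (r • a) = r • Jc J a := by
  ext v; simp

theorem norm_Jc_le (J : E4 →L[ℝ] E4) (a : E4 →L[ℝ] ℝ) : ‖Jc J a‖ ≤ ‖a‖ * ‖J‖ := by
  unfold Jc
  rw [norm_neg]
  exact a.opNorm_comp_le J

/-- `J^*(ξ∧η) = Jcξ ∧ Jcη`. -/
theorem pull_wed (J : E4 →L[ℝ] E4) (ξ η : E4 →L[ℝ] ℝ) :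
    pull J (wed ξ η) = wed (Jc J ξ) (Jc J η) := by
  ext u v
  rw [pull_apply, wed_apply, wed_apply]
  simp

namespace Bd

variable {J : E4 →L[ℝ] E4} {F : Bil} {m M : ℝ}

/-- for `P` invariant, `q(P,b) = q(P,b')`. -/
theorem q_inv_left (h : Bd J F m M) {P b : Bil} (hP' : Alt P) (hP : ∀ u v, P (J u) (J v) = P u v)
    (hb : Alt b) : q F P b = q F P (invp J b) := by
  conv_lhs => rw [← invp_add_antip J b]
  rw [q_add_right, h.q_mixed hP' (hb.antip J) hP (antip_anti h.sq b), add_zero]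


/-- for `P` invariant, `q(P, J^* b) = q(P, b)`. -/
theorem q_pullJ (h : Bd J F m M) {P b : Bil} (hP' : Alt P) (hP : ∀ u v, P (J u) (J v) = P u v)
    (hb : Alt b) : q F P (pull J b) = q F P b := by
  rw [h.q_inv_left hP' hP hb, h.q_inv_left hP' hP (hb.pull J)]
  congr 1
  ext u v
  rw [invp_apply, invp_apply, pull_apply, pull_apply, h.sq, h.sq, neg_neg_apply]
  ring

/-- the Hermitian-type symmetric form on covectors attached to an invariant `P`. -/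
theorem q_wedJ_symm (h : Bd J F m M) {P : Bil} (hP' : Alt P)
    (hP : ∀ u v, P (J u) (J v) = P u v) (ξ η : E4 →L[ℝ] ℝ) :
    q F P (wed ξ (Jc J η)) = q F P (wed η (Jc J ξ)) := by
  have h1 := h.q_pullJ hP' hP (wed_alt ξ (Jc J η))
  rw [pull_wed, Jc_Jc h.sq] at h1
  rw [← h1, wed_swap (Jc J ξ)]
  rw [wed_neg_left, neg_neg]

/-- `q(P, ξ ∧ Jc ξ) ≥ 0`. -/
theorem q_wedJ_nonneg (h : Bd J F m M) {P : Bil} (hP : Pos J P) (ξ : E4 →L[ℝ] ℝ) :
    0 ≤ q F P (wed ξ (Jc J ξ)) := h.q_pos_pos hP (wed_Jc_pos h.sq ξ)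

/-- Cauchy–Schwarz, Hermitian form. -/
theorem cs_wedJ (h : Bd J F m M) {P : Bil} (hP : Pos J P) (ξ η : E4 →L[ℝ] ℝ) :
    q F P (wed ξ (Jc J η)) ^ 2 ≤ q F P (wed ξ (Jc J ξ)) * q F P (wed η (Jc J η)) := by
  have key : ∀ t : ℝ, 0 ≤ q F P (wed η (Jc J η)) * (t * t) +
      (2 * q F P (wed ξ (Jc J η))) * t + q F P (wed ξ (Jc J ξ)) := by
    intro t
    have h1 := h.q_wedJ_nonneg hP (ξ + t • η)
    rw [Jc_add, Jc_smul, wed_add_left, wed_add_right, wed_add_right, wed_smul_left, wed_smul_left,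
      wed_smul_right, wed_smul_right, q_add_right, q_add_right, q_add_right, q_smul_right,
      q_smul_right, q_smul_right, q_smul_right, h.q_wedJ_symm hP.alt hP.inv η ξ] at h1
    linarith
  have h2 := discrim_le_zero key
  unfold discrim at h2
  nlinarith

/-- Cauchy–Schwarz: `q(P, ξ∧η)² ≤ q(P, ξ∧Jcξ) q(P, η∧Jcη)`. -/
theorem cs_wed (h : Bd J F m M) {P : Bil} (hP : Pos J P) (ξ η : E4 →L[ℝ] ℝ) :
    q F P (wed ξ η) ^ 2 ≤ q F P (wed ξ (Jc J ξ)) * q F P (wed η (Jc J η)) := by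
  have h1 := h.cs_wedJ hP ξ (Jc J η)
  rw [Jc_Jc h.sq] at h1
  rw [wed_neg_right, wed_neg_right, ← wed_swap η (Jc J η), q_neg_right, neg_sq] at h1
  exact h1


/-! ### order unit -/

/-- `Z + (|Z||J|/m) F ≥ 0` for invariant `Z`. -/
theorem pos_add (h : Bd J F m M) {Z : Bil} (hZ' : Alt Z) (hZ : ∀ u v, Z (J u) (J v) = Z u v)
    {s : ℝ} (hs : ∀ v, - (s * m) * ‖v‖ ^ 2 ≤ Z v (J v)) (hs0 : 0 ≤ s) : Pos J (Z + s • F) where
  alt := hZ'.add (h.spos.alt.smul s)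
  inv u v := by
    have e : ∀ a b, (Z + s • F) a b = Z a b + s * F a b := fun a b => rfl
    rw [e, e, hZ, h.spos.inv]
  nonneg v := by
    have e : (Z + s • F) v (J v) = Z v (J v) + s * F v (J v) := rfl
    rw [e]
    have h1 := hs v
    have h2 := mul_le_mul_of_nonneg_left (h.lo v) hs0
    nlinarith

theorem abs_diag_le (J : E4 →L[ℝ] E4) (Z : Bil) (v : E4) : |Z v (J v)| ≤ ‖Z‖ * ‖J‖ * ‖v‖ ^ 2 := by
  have h1 := Z.le_opNorm₂ v (J v)
  rw [Real.norm_eq_abs] at h1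
  have h2 := J.le_opNorm v
  calc |Z v (J v)| ≤ ‖Z‖ * ‖v‖ * ‖J v‖ := h1
    _ ≤ ‖Z‖ * ‖v‖ * (‖J‖ * ‖v‖) := by gcongr
    _ = _ := by ring



/-- `|F| ≤ M`-type bound: `F(u,v)² ≤ M² |u|²|v|²`. -/
theorem F_sq_le (h : Bd J F m M) (u v : E4) : (F u v) ^ 2 ≤ (M * ‖u‖ ^ 2) * (M * ‖v‖ ^ 2) := by
  -- Cauchy–Schwarz for the inner product g(u,w) = F(u,Jw), v = -J(Jv)
  have key : ∀ t : ℝ, 0 ≤ F v (J v) * (t * t) + (2 * F u v) * t + F u (J u) := by
    intro t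
    -- vector w = u + t • (-J v)... use g(u - t J v, u - t J v) ≥ 0
    have h1 := h.lo (u + t • (-(J v)))
    have h2 : (0:ℝ) ≤ m * ‖u + t • (-(J v))‖ ^ 2 := by have := h.m_pos; positivity
    have h3 := h2.trans h1
    have e1 : F u (J (-(J v))) = F u v := by rw [map_neg, h.sq, neg_neg]
    have e2 : F (-(J v)) (J u) = F u v := by
      rw [map_neg, neg_apply, h.spos.inv, h.spos.alt.swap v u, neg_neg]
    have e3 : F (-(J v)) (J (-(J v))) = F v (J v) := by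
      rw [map_neg, neg_apply, map_neg, map_neg, neg_neg, h.spos.inv v (J v)]
    rw [map_add, map_add, map_smul, map_smul, map_add, map_smul] at h3
    simp only [add_apply, smul_apply, smul_eq_mul, e1, e2, e3] at h3
    linarith
  have h2 := discrim_le_zero key
  unfold discrim at h2
  have h5 := h.hi u
  have h6 := h.hi v
  have h7 : 0 ≤ F v (J v) := (by have := h.m_pos; positivity : 0 ≤ m * ‖v‖ ^ 2).trans (h.lo v)
  have h8 : 0 ≤ F u (J u) := (by have := h.m_pos; positivity : 0 ≤ m * ‖u‖ ^ 2).trans (h.lo u)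
  have h9 : F u (J u) * F v (J v) ≤ (M * ‖u‖ ^ 2) * (M * ‖v‖ ^ 2) := by
    apply mul_le_mul h5 h6 h7 (by have := h.M_pos; positivity)
  nlinarith

theorem norm_F_le (h : Bd J F m M) : ‖F‖ ≤ M := by
  have hM := h.M_pos
  refine ContinuousLinearMap.opNorm_le_bound₂ _ hM.le ?_
  intro u v
  have h1 := h.F_sq_le u v
  rw [Real.norm_eq_abs]
  apply abs_le_of_sq_le_sq _ (by positivity)
  calc (F u v) ^ 2 ≤ (M * ‖u‖ ^ 2) * (M * ‖v‖ ^ 2) := h1
    _ = (M * ‖u‖ * ‖v‖) ^ 2 := by ring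

end Bd

/-! ### (Q): positivity is quadratic -/

/-- Cauchy–Schwarz for a `J1`-nonnegative form `X`. -/
theorem Pos.cs {J1 : E4 →L[ℝ] E4} (hJ1 : ∀ v, J1 (J1 v) = -v) {X : Bil} (hX : Pos J1 X)
    (u v : E4) : (X u v) ^ 2 ≤ X u (J1 u) * X v (J1 v) := by
  have key : ∀ t : ℝ, 0 ≤ X v (J1 v) * (t * t) + (2 * X u v) * t + X u (J1 u) := by
    intro t
    have h3 := hX.nonneg (u + t • (-(J1 v)))
    have e1 : X u (J1 (-(J1 v))) = X u v := by rw [map_neg, hJ1, neg_neg]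
    have e2 : X (-(J1 v)) (J1 u) = X u v := by
      rw [map_neg, neg_apply, hX.inv, hX.alt.swap v u, neg_neg]
    have e3 : X (-(J1 v)) (J1 (-(J1 v))) = X v (J1 v) := by
      rw [map_neg, neg_apply, map_neg, map_neg, neg_neg, hX.inv v (J1 v)]
    rw [map_add, map_add, map_smul, map_smul, map_add, map_smul] at h3
    simp only [add_apply, smul_apply, smul_eq_mul, e1, e2, e3] at h3
    linarith
  have h2 := discrim_le_zero key
  unfold discrim at h2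
  nlinarith

/-- (Q), first half: `X(v,Jv) ≥ -(1/4) |J - J1|² |J1| |X| |v|²`. -/
theorem Q_lower {J J1 : E4 →L[ℝ] E4} (hJ1 : ∀ v, J1 (J1 v) = -v) {X : Bil} (hX : Pos J1 X)
    (v : E4) : - (1 / 4 * ‖J - J1‖ ^ 2 * ‖J1‖ * ‖X‖ * ‖v‖ ^ 2) ≤ X v (J v) := by
  set w := (J - J1) v with hw
  have e : X v (J v) = X v (J1 v) + X v w := by
    have : J v = J1 v + w := by rw [hw]; simp
    rw [this, map_add]
  have h1 := hX.cs hJ1 v w
  have a1 := hX.nonneg v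
  have a2 := hX.nonneg w
  have h2 : X w (J1 w) ≤ ‖J - J1‖ ^ 2 * ‖J1‖ * ‖X‖ * ‖v‖ ^ 2 := by
    have h3 := (abs_le.1 (Bd.abs_diag_le J1 X w)).2
    have h4 : ‖w‖ ≤ ‖J - J1‖ * ‖v‖ := (J - J1).le_opNorm v
    calc X w (J1 w) ≤ ‖X‖ * ‖J1‖ * ‖w‖ ^ 2 := h3
      _ ≤ ‖X‖ * ‖J1‖ * (‖J - J1‖ * ‖v‖) ^ 2 := by gcongr
      _ = _ := by ring
  have h5 : - (X v (J1 v) + 1 / 4 * X w (J1 w)) ≤ X v w := by
    have h6 : |X v w| ≤ X v (J1 v) + 1 / 4 * X w (J1 w) := by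
      apply abs_le_of_sq_le_sq _ (by positivity)
      nlinarith [sq_nonneg (X v (J1 v) - 1 / 4 * X w (J1 w))]
    exact (abs_le.1 h6).1
  rw [e]
  linarith

/-- (Q), second half: the anti-invariant part is small. -/
theorem Q_anti {J J1 : E4 →L[ℝ] E4} {X : Bil} (hX : ∀ u v, X (J1 u) (J1 v) = X u v) :
    ‖antip J X‖ ≤ 1 / 2 * ‖J - J1‖ * (‖J1‖ + ‖J‖) * ‖X‖ := by
  refine ContinuousLinearMap.opNorm_le_bound₂ _ (by positivity) ?_
  intro u v
  rw [antip_apply, ← hX u v]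
  have e : X (J1 u) (J1 v) - X (J u) (J v) = - (X ((J - J1) u) (J1 v) + X (J u) ((J - J1) v)) := by
    simp only [sub_apply, map_sub]
    ring
  rw [e]
  have h1 := X.le_opNorm₂ ((J - J1) u) (J1 v)
  have h2 := X.le_opNorm₂ (J u) ((J - J1) v)
  have h3 := (J - J1).le_opNorm u
  have h4 := (J - J1).le_opNorm v
  have h5 := J1.le_opNorm v
  have h6 := J.le_opNorm u
  have h7 : ‖X ((J - J1) u) (J1 v)‖ ≤ ‖X‖ * (‖J - J1‖ * ‖u‖) * (‖J1‖ * ‖v‖) :=
    h1.trans (by gcongr)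
  have h8 : ‖X (J u) ((J - J1) v)‖ ≤ ‖X‖ * (‖J‖ * ‖u‖) * (‖J - J1‖ * ‖v‖) :=
    h2.trans (by gcongr)
  rw [norm_div, norm_neg]
  have h9 := norm_add_le (X ((J - J1) u) (J1 v)) (X (J u) ((J - J1) v))
  rw [Real.norm_ofNat]
  rw [div_le_iff₀ (by norm_num)]
  calc _ ≤ _ := h9
    _ ≤ ‖X‖ * (‖J - J1‖ * ‖u‖) * (‖J1‖ * ‖v‖) + ‖X‖ * (‖J‖ * ‖u‖) * (‖J - J1‖ * ‖v‖) := by
      gcongr
    _ = _ := by ring


end

end Crest.Agent.R240
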