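import Mathlib
import Crest.Agent.R240.Ch5

/-!
Row 240 (S0371), CH (helper955): compactness, uniform constants, order unit.
-/

set_option autoImplicit false
set_option maxSynthPendingDepth 3
set_option linter.unusedSectionVars false

open Set Function Filter Topology
open scoped Manifold ContDiff

namespace Crest.Agent.R240.Ch

noncomputable section

section Euclid

variable {E : Type*} [NormedAddCommGroup E] [NormedSpace ℝ E]
variable {F : Type*} [NormedAddCommGroup F] [NormedSpace ℝ F]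

lemma contDiffOn_continuousOn_iter {f : E → F} {U : Set E} (hU : IsOpen U)
    (hf : ContDiffOn ℝ ∞ f U) (j : ℕ) : ContinuousOn (iteratedFDeriv ℝ j f) U := by
  have h := hf.continuousOn_iteratedFDerivWithin (m := j) (by exact_mod_cast le_top)
    hU.uniqueDiffOn
  exact h.congr fun y hy => (iteratedFDerivWithin_of_isOpen j hU hy).symm

/-- derivatives are bounded on compact sets. -/
theorem bdd_iter {f : E → F} {U : Set E} (hU : IsOpen U) (hf : ContDiffOn ℝ ∞ f U)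
    {K : Set E} (hK : IsCompact K) (hKU : K ⊆ U) (m : ℕ) :
    ∃ C : ℝ, 0 ≤ C ∧ ∀ j ≤ m, ∀ y ∈ K, ‖iteratedFDeriv ℝ j f y‖ ≤ C := by
  induction m with
  | zero =>
    obtain ⟨C, hC⟩ := hK.exists_bound_of_continuousOn
      ((contDiffOn_continuousOn_iter hU hf 0).mono hKU)
    refine ⟨max C 0, le_max_right _ _, fun j hj y hy => ?_⟩
    obtain rfl : j = 0 := by omega
    exact (hC y hy).trans (le_max_left _ _)
  | succ m ih =>
    obtain ⟨C₁, hC₁, h₁⟩ := ih
    obtain ⟨C, hC⟩ := hK.exists_bound_of_continuousOn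
      ((contDiffOn_continuousOn_iter hU hf (m + 1)).mono hKU)
    refine ⟨max C C₁, le_max_of_le_right hC₁, fun j hj y hy => ?_⟩
    rcases Nat.lt_or_ge j (m + 1) with h | h
    · exact (h₁ j (by omega) y hy).trans (le_max_right _ _)
    · obtain rfl : j = m + 1 := by omega
      exact (hC y hy).trans (le_max_left _ _)

theorem bdd_on {f : E → F} {U : Set E} (hf : ContinuousOn f U)
    {K : Set E} (hK : IsCompact K) (hKU : K ⊆ U) :
    ∃ C : ℝ, 0 < C ∧ ∀ y ∈ K, ‖f y‖ ≤ C := by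
  obtain ⟨C, hC⟩ := hK.exists_bound_of_continuousOn (hf.mono hKU)
  exact ⟨max C 1, lt_max_of_lt_right one_pos, fun y hy => (hC y hy).trans (le_max_left _ _)⟩

/-- `C¹` functions are Lipschitz on compact sets. -/
theorem lip_on {f : E → F} {U : Set E} (hU : IsOpen U) (hf : ContDiffOn ℝ 1 f U)
    {K : Set E} (hK : IsCompact K) (hKU : K ⊆ U) :
    ∃ L : ℝ, 0 ≤ L ∧ ∀ y ∈ K, ∀ z ∈ K, ‖f y - f z‖ ≤ L * ‖y - z‖ := by
  have key : ∃ L : ℝ, 0 ≤ L ∧ ∀ w ∈ K ×ˢ K, ‖f w.1 - f w.2‖ ≤ L * ‖w.1 - w.2‖ := by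
    refine (hK.prod hK).induction_on (p := fun s : Set (E × E) => ∃ L : ℝ, 0 ≤ L ∧
      ∀ w ∈ s, ‖f w.1 - f w.2‖ ≤ L * ‖w.1 - w.2‖) ?_ ?_ ?_ ?_
    · exact ⟨0, le_rfl, fun w hw => hw.elim⟩
    · rintro s t hst ⟨L, hL, h⟩
      exact ⟨L, hL, fun w hw => h w (hst hw)⟩
    · rintro s t ⟨L, hL, h⟩ ⟨L', hL', h'⟩
      refine ⟨max L L', le_max_of_le_left hL, ?_⟩
      rintro w (hw | hw)
      · exact (h w hw).trans (mul_le_mul_of_nonneg_right (le_max_left _ _) (norm_nonneg _))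
      · exact (h' w hw).trans (mul_le_mul_of_nonneg_right (le_max_right _ _) (norm_nonneg _))
    · rintro ⟨y, z⟩ ⟨hy, hz⟩
      have hcy := hf.contDiffAt (hU.mem_nhds (hKU hy))
      have hcz := hf.contDiffAt (hU.mem_nhds (hKU hz))
      by_cases hyz : y = z
      · subst hyz
        obtain ⟨L, t, ht, hL⟩ := hcy.exists_lipschitzOnWith
        refine ⟨t ×ˢ t, mem_nhdsWithin_of_mem_nhds (prod_mem_nhds ht ht), L, L.2, ?_⟩
        rintro ⟨u, v⟩ ⟨hu, hv⟩
        have := hL.dist_le_mul u hu v hv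
        simpa [dist_eq_norm] using this
      · have hb0 : 0 < ‖y - z‖ := norm_pos_iff.2 (sub_ne_zero.2 hyz)
        have hc1 : ContinuousAt (fun w : E × E => ‖f w.1 - f w.2‖) (y, z) := by
          refine ContinuousAt.norm (ContinuousAt.sub ?_ ?_)
          · exact ContinuousAt.comp (f := Prod.fst) (g := f) hcy.continuousAt continuousAt_fst
          · exact ContinuousAt.comp (f := Prod.snd) (g := f) hcz.continuousAt continuousAt_snd
        have hc2 : ContinuousAt (fun w : E × E => ‖w.1 - w.2‖) (y, z) := by fun_prop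
        have e1 := hc1.eventually (Iio_mem_nhds (show ‖f y - f z‖ < ‖f y - f z‖ + 1 by linarith))
        have e2 := hc2.eventually (Ioi_mem_nhds (show ‖y - z‖ / 2 < ‖y - z‖ by linarith))
        refine ⟨_, mem_nhdsWithin_of_mem_nhds (e1.and e2),
          (‖f y - f z‖ + 1) / (‖y - z‖ / 2), by positivity, ?_⟩
        rintro ⟨u, v⟩ ⟨h1, h2⟩
        simp only at h1
        simp only at h2
        simp only
        calc ‖f u - f v‖ ≤ ‖f y - f z‖ + 1 := h1.le
          _ = (‖f y - f z‖ + 1) / (‖y - z‖ / 2) * (‖y - z‖ / 2) := by field_simp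
          _ ≤ _ := by gcongr
  obtain ⟨L, hL, h⟩ := key
  exact ⟨L, hL, fun y hy z hz => h (y, z) ⟨hy, hz⟩⟩

/-- a continuous family of positive quadratic forms is uniformly positive on compact sets. -/
theorem unif_pos_quad [FiniteDimensional ℝ E] {U : Set E} {a : E → E →L[ℝ] E →L[ℝ] ℝ}
    {j : E → E →L[ℝ] E} (ha : ContinuousOn a U) (hj : ContinuousOn j U) {K : Set E}
    (hK : IsCompact K) (hKU : K ⊆ U) (hpos : ∀ y ∈ K, ∀ v, v ≠ 0 → 0 < a y v (j y v)) :
    ∃ c : ℝ, 0 < c ∧ ∀ y ∈ K, ∀ v, c * ‖v‖ ^ 2 ≤ a y v (j y v) := by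
  have hcont : ContinuousOn (fun w : E × E => a w.1 w.2 (j w.1 w.2))
      (K ×ˢ Metric.sphere (0 : E) 1) := by
    have h1 : ContinuousOn (fun w : E × E => a w.1) (K ×ˢ Metric.sphere (0 : E) 1) :=
      (ha.mono hKU).comp continuousOn_fst (fun w hw => hw.1)
    have h2 : ContinuousOn (fun w : E × E => j w.1) (K ×ˢ Metric.sphere (0 : E) 1) :=
      (hj.mono hKU).comp continuousOn_fst (fun w hw => hw.1)
    exact (h1.clm_apply continuousOn_snd).clm_apply (h2.clm_apply continuousOn_snd)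
  have hcpt : IsCompact (K ×ˢ Metric.sphere (0 : E) 1) := hK.prod (isCompact_sphere 0 1)
  have key : ∃ c : ℝ, 0 < c ∧ ∀ w ∈ K ×ˢ Metric.sphere (0 : E) 1, c ≤ a w.1 w.2 (j w.1 w.2) := by
    rcases (K ×ˢ Metric.sphere (0 : E) 1).eq_empty_or_nonempty with he | hne
    · exact ⟨1, one_pos, fun w hw => by rw [he] at hw; exact hw.elim⟩
    · obtain ⟨w₀, hw₀, hmin⟩ := hcpt.exists_isMinOn hne hcont
      refine ⟨_, ?_, fun w hw => hmin hw⟩
      refine hpos _ hw₀.1 _ fun h0 => ?_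
      have := hw₀.2
      rw [h0] at this
      simp at this
  obtain ⟨c, hc, h⟩ := key
  refine ⟨c, hc, fun y hy v => ?_⟩
  by_cases hv : v = 0
  · subst hv; simp
  · have hn : ‖v‖ ≠ 0 := norm_ne_zero_iff.2 hv
    have h1 := h (y, ‖v‖⁻¹ • v) ⟨hy, by simp [norm_smul, hn]⟩
    simp only [map_smul, smul_apply, smul_eq_mul] at h1
    have h2 : a y v (j y v) = ‖v‖ ^ 2 * (‖v‖⁻¹ * (‖v‖⁻¹ * a y v (j y v))) := by
      field_simp
    rw [h2, mul_comm c]
    exact mul_le_mul_of_nonneg_left h1 (sq_nonneg _)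

end Euclid

section Manifold

variable {E : Type*} [NormedAddCommGroup E] [NormedSpace ℝ E]
variable {M : Type*} [TopologicalSpace M] [ChartedSpace E M] [IsManifold 𝓘(ℝ, E) ∞ M]

lemma Smooth2.continuousOn {a : F2 E M} (ha : Smooth2 a) (p : M) :
    ContinuousOn (rep p a) (chartAt E p).target := (ha.2 p).continuousOn

lemma SmoothJ.continuousOn {J : EndF E M} (hJ : SmoothJ J) (p : M) :
    ContinuousOn (repJ p J) (chartAt E p).target := (hJ p).continuousOn

theorem bdd_rep {a : F2 E M} (ha : Smooth2 a) (p : M) {K : Set E} (hK : IsCompact K)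
    (hKt : K ⊆ (chartAt E p).target) (m : ℕ) :
    ∃ C : ℝ, 0 ≤ C ∧ ∀ j ≤ m, ∀ y ∈ K, ‖iteratedFDeriv ℝ j (rep p a) y‖ ≤ C :=
  bdd_iter (chartAt E p).open_target (ha.2 p) hK hKt m




theorem lip_rep {a : F2 E M} (ha : Smooth2 a) (p : M) {K : Set E} (hK : IsCompact K)
    (hKt : K ⊆ (chartAt E p).target) :
    ∃ L : ℝ, 0 ≤ L ∧ ∀ y ∈ K, ∀ z ∈ K, ‖rep p a y - rep p a z‖ ≤ L * ‖y - z‖ :=
  lip_on (chartAt E p).open_target ((ha.2 p).of_le (by simp)) hK hKt

theorem lip_repJ {J : EndF E M} (hJ : SmoothJ J) (p : M) {K : Set E} (hK : IsCompact K)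
    (hKt : K ⊆ (chartAt E p).target) :
    ∃ L : ℝ, 0 ≤ L ∧ ∀ y ∈ K, ∀ z ∈ K, ‖repJ p J y - repJ p J z‖ ≤ L * ‖y - z‖ :=
  lip_on (chartAt E p).open_target ((hJ p).of_le (by simp)) hK hKt

/-- values at a point and in a chart, with the endomorphism. -/
lemma apply_J_eq_rep {p x : M} (hx : x ∈ (chartAt E p).source) (a : F2 E M) (J : EndF E M)
    (v : E) : at2 a x v (atJ J x v) =
      rep p a (chartAt E p x) (tcc x p x v) (repJ p J (chartAt E p x) (tcc x p x v)) := by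
  rw [apply_eq_rep hx, ← apply_eq_repJ hx]

lemma rep_J_eq_apply {p : M} {y : E} (hy : y ∈ (chartAt E p).target) (a : F2 E M) (J : EndF E M)
    (v : E) : rep p a y v (repJ p J y v) =
      at2 a ((chartAt E p).symm y) (tcc p ((chartAt E p).symm y) ((chartAt E p).symm y) v)
        (atJ J ((chartAt E p).symm y)
          (tcc p ((chartAt E p).symm y) ((chartAt E p).symm y) v)) := by
  rw [rep_apply, repJ_apply, tcc_cancel' (symm_mem hy)]

lemma tcc_ne_zero {p : M} {y : E} (hy : y ∈ (chartAt E p).target) {v : E} (hv : v ≠ 0) :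
    tcc (E := E) p ((chartAt E p).symm y) ((chartAt E p).symm y) v ≠ 0 := by
  intro h
  have := tcc_cancel (E := E) (symm_mem hy) v
  rw [h, map_zero] at this
  exact hv this.symm

theorem unif_pos [FiniteDimensional ℝ E] {a : F2 E M} {J : EndF E M} (ha : Smooth2 a)
    (hJ : SmoothJ J) (hpos : ∀ (x : M) (v : E), v ≠ 0 → 0 < at2 a x v (atJ J x v))
    (p : M) {K : Set E} (hK : IsCompact K) (hKt : K ⊆ (chartAt E p).target) :
    ∃ c : ℝ, 0 < c ∧ ∀ y ∈ K, ∀ v, c * ‖v‖ ^ 2 ≤ rep p a y v (repJ p J y v) := by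
  refine unif_pos_quad (ha.continuousOn p) (hJ.continuousOn p) hK hKt fun y hy v hv => ?_
  rw [rep_J_eq_apply (hKt hy)]
  exact hpos _ _ (tcc_ne_zero (hKt hy) hv)

/-- ORDER UNIT: a smooth form is bounded by a multiple of a taming form. -/
theorem order_unit [FiniteDimensional ℝ E] [T2Space M] [CompactSpace M] {a b : F2 E M}
    {J : EndF E M} (ha : Smooth2 a) (hb : Smooth2 b)
    (hJ : SmoothJ J) (hpos : ∀ (x : M) (v : E), v ≠ 0 → 0 < at2 a x v (atJ J x v)) :
    ∃ t : ℝ, 0 ≤ t ∧ ∀ (x : M) (v : E), |at2 b x v (atJ J x v)| ≤ t * at2 a x v (atJ J x v) := by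
  obtain ⟨A⟩ := exists_FA (E := E) (M := M)
  have h1 : ∀ i, ∃ t : ℝ, 0 ≤ t ∧ ∀ y ∈ A.K i, ∀ v,
      |rep (A.c i) b y v (repJ (A.c i) J y v)| ≤ t * rep (A.c i) a y v (repJ (A.c i) J y v) := by
    intro i
    obtain ⟨c, hc, hc'⟩ := unif_pos ha hJ hpos (A.c i) (A.isCompact_K i) (A.K_sub i)
    obtain ⟨B, hB, hB'⟩ := bdd_on (hb.continuousOn (A.c i)) (A.isCompact_K i) (A.K_sub i)
    obtain ⟨D, hD, hD'⟩ := bdd_on (hJ.continuousOn (A.c i)) (A.isCompact_K i) (A.K_sub i)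
    refine ⟨B * D / c, by positivity, fun y hy v => ?_⟩
    have h2 : |rep (A.c i) b y v (repJ (A.c i) J y v)| ≤ B * D * ‖v‖ ^ 2 := by
      calc |rep (A.c i) b y v (repJ (A.c i) J y v)|
          ≤ ‖rep (A.c i) b y‖ * ‖v‖ * ‖repJ (A.c i) J y v‖ := by
            rw [← Real.norm_eq_abs]; exact ContinuousLinearMap.le_opNorm₂ _ _ _
        _ ≤ ‖rep (A.c i) b y‖ * ‖v‖ * (‖repJ (A.c i) J y‖ * ‖v‖) := by
            gcongr; exact ContinuousLinearMap.le_opNorm _ _
        _ ≤ B * ‖v‖ * (D * ‖v‖) := by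
            gcongr
            · exact hB' y hy
            · exact hD' y hy
        _ = _ := by ring
    calc _ ≤ B * D * ‖v‖ ^ 2 := h2
      _ = B * D / c * (c * ‖v‖ ^ 2) := by field_simp
      _ ≤ _ := by
          have := hc' y hy v
          gcongr
  choose t ht ht' using h1
  refine ⟨∑ i, t i, Finset.sum_nonneg fun i _ => ht i, fun x v => ?_⟩
  obtain ⟨i, hi, hi'⟩ := A.cover x
  have h2 := ht' i _ (interior_subset hi') (tcc (E := E) x (A.c i) x v)
  rw [← apply_J_eq_rep hi b J, ← apply_J_eq_rep hi a J] at h2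
  have h3 : 0 ≤ at2 a x v (atJ J x v) := by
    by_cases hv : v = 0
    · subst hv; simp
    · exact (hpos x v hv).le
  refine h2.trans (mul_le_mul_of_nonneg_right ?_ h3)
  exact Finset.single_le_sum (f := t) (fun j _ => ht j) (Finset.mem_univ i)

end Manifold

end

end Crest.Agent.R240.Ch
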