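import Mathlib
import Crest.Agent.R240.Lin1
import Crest.Agent.R240.Ch3
import Crest.Agent.R240.FormDefs
import Crest.Agent.R240.IntMu

-- ▼ part R240/IntR4
section

/-!
Row 240, PART INT (helper240): Stokes on `ℝ⁴` in the form `∫ W (dS) c = 0`.
-/

set_option autoImplicit false

open MeasureTheory Set Filter Topology

namespace Crest.Agent.R240.Int

open Crest.Agent.R240 Crest.Agent.R240.Ch

noncomputable section

theorem d1_alt (S : E4 → E4 →L[ℝ] ℝ) (y : E4) : Alt (Ch.d1 S y) := by
  intro v; simp [Ch.d1_apply]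

/-- closedness of a two-form at a point (cyclic sum of derivatives). -/
def ClAt (c : E4 → Bil) (y : E4) : Prop :=
  ∀ u v w, Ch.dd c y u v w = 0

/-- the integral of a derivative of a compactly supported function vanishes. -/
theorem integral_fderiv_zero {V : E4 → ℝ} (hV : ContDiff ℝ 1 V) (hc : HasCompactSupport V)
    (v : E4) : ∫ y, fderiv ℝ V y v = 0 := by
  have hcont : Continuous (fun y => fderiv ℝ V y v) :=
    (hV.continuous_fderiv (by norm_num)).clm_apply continuous_const
  have hcs : HasCompactSupport (fun y => fderiv ℝ V y v) := by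
    have := hc.fderiv (𝕜 := ℝ)
    exact this.comp_left (g := fun L : E4 →L[ℝ] ℝ => L v) (by simp)
  have h := integral_mul_fderiv_eq_neg_fderiv_mul_of_integrable (𝕜 := ℝ) (μ := (volume : Measure E4))
    (f := fun _ => (1 : ℝ)) (g := V) (v := v) (by simp)
    (by simpa using hcont.integrable_of_hasCompactSupport hcs)
    (by simpa using hV.continuous.integrable_of_hasCompactSupport hc)
    (by intro x _; exact differentiableAt_const _) (by intro x _; exact hV.differentiable (by norm_num) x)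
  simpa using h

theorem comp1_diff {S : E4 → E4 →L[ℝ] ℝ} {y : E4} (h : DifferentiableAt ℝ S y) (j : Fin 4) :
    DifferentiableAt ℝ (fun z => S z (ee j)) y ∧
      ∀ v, fderiv ℝ (fun z => S z (ee j)) y v = fderiv ℝ S y v (ee j) := by
  have h1 := h.hasFDerivAt.clm_apply (hasFDerivAt_const (ee j) y)
  refine ⟨h1.differentiableAt, fun v => ?_⟩
  rw [h1.fderiv]
  simp

theorem comp2_diff {c : E4 → Bil} {y : E4} (h : DifferentiableAt ℝ c y) (k l : Fin 4) :
    DifferentiableAt ℝ (fun z => ent (c z) k l) y ∧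
      ∀ v, fderiv ℝ (fun z => ent (c z) k l) y v = fderiv ℝ c y v (ee k) (ee l) := by
  have h1 := (h.hasFDerivAt.clm_apply (hasFDerivAt_const (ee k) y)).clm_apply
    (hasFDerivAt_const (ee l) y)
  refine ⟨h1.differentiableAt, fun v => ?_⟩
  have h2 : fderiv ℝ (fun z => ent (c z) k l) y = _ := h1.fderiv
  rw [h2]
  simp

/-- elementary product of a component of `S` and a component of `c`. -/
def Pr (S : E4 → E4 →L[ℝ] ℝ) (c : E4 → Bil) (j k l : Fin 4) (z : E4) : ℝ :=
  S z (ee j) * ent (c z) k l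

theorem fderiv_Pr {S : E4 → E4 →L[ℝ] ℝ} {c : E4 → Bil} {y : E4} (hS : DifferentiableAt ℝ S y)
    (hc : DifferentiableAt ℝ c y) (j k l : Fin 4) (v : E4) :
    fderiv ℝ (Pr S c j k l) y v =
      fderiv ℝ S y v (ee j) * ent (c y) k l + S y (ee j) * fderiv ℝ c y v (ee k) (ee l) := by
  obtain ⟨d1', e1⟩ := comp1_diff hS j
  obtain ⟨d2', e2⟩ := comp2_diff hc k l
  have h2 : fderiv ℝ (Pr S c j k l) y = _ := (d1'.hasFDerivAt.mul d2'.hasFDerivAt).fderiv
  rw [h2]
  simp only [add_apply, smul_apply, smul_eq_mul, e1, e2]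
  ring

theorem contDiff_Pr {S : E4 → E4 →L[ℝ] ℝ} {c : E4 → Bil} {U : Set E4} (hU : IsOpen U)
    (hS : ContDiff ℝ 1 S) (hsupp : tsupport S ⊆ U) (hc : ContDiffOn ℝ 1 c U) (j k l : Fin 4) :
    ContDiff ℝ 1 (Pr S c j k l) := by
  rw [contDiff_iff_contDiffAt]
  intro y
  by_cases hy : y ∈ tsupport S
  · have hcy : ContDiffAt ℝ 1 c y := (hc y (hsupp hy)).contDiffAt (hU.mem_nhds (hsupp hy))
    have h1 : ContDiffAt ℝ 1 (fun z => S z (ee j)) y :=
      hS.contDiffAt.clm_apply contDiffAt_const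
    have h2 : ContDiffAt ℝ 1 (fun z => ent (c z) k l) y :=
      (hcy.clm_apply contDiffAt_const).clm_apply contDiffAt_const
    exact h1.mul h2
  · have : Pr S c j k l =ᶠ[𝓝 y] fun _ => 0 := by
      have h0 := notMem_tsupport_iff_eventuallyEq.mp hy
      filter_upwards [h0] with z hz
      simp [Pr, hz]
    exact (contDiffAt_const).congr_of_eventuallyEq this

theorem compact_Pr {S : E4 → E4 →L[ℝ] ℝ} {c : E4 → Bil} (hS : HasCompactSupport S) (j k l : Fin 4) :
    HasCompactSupport (Pr S c j k l) := by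
  refine hS.mono' ?_
  intro y hy
  apply subset_tsupport
  rw [Function.mem_support] at hy ⊢
  intro h0
  apply hy
  simp [Pr, h0]

theorem integral_Pr_zero {S : E4 → E4 →L[ℝ] ℝ} {c : E4 → Bil} {U : Set E4} (hU : IsOpen U)
    (hS : ContDiff ℝ 1 S) (hcs : HasCompactSupport S) (hsupp : tsupport S ⊆ U)
    (hc : ContDiffOn ℝ 1 c U) (j k l i : Fin 4) :
    ∫ y, fderiv ℝ (Pr S c j k l) y (ee i) = 0 ∧
      Integrable (fun y => fderiv ℝ (Pr S c j k l) y (ee i)) := by
  have h1 := contDiff_Pr hU hS hsupp hc j k l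
  have h2 := compact_Pr (c := c) hcs j k l
  refine ⟨integral_fderiv_zero h1 h2 _, ?_⟩
  have hcont : Continuous (fun y => fderiv ℝ (Pr S c j k l) y (ee i)) :=
    (h1.continuous_fderiv (by norm_num)).clm_apply continuous_const
  have hcs : HasCompactSupport (fun y => fderiv ℝ (Pr S c j k l) y (ee i)) := by
    have := h2.fderiv (𝕜 := ℝ)
    exact this.comp_left (g := fun L : E4 →L[ℝ] ℝ => L (ee i)) (by simp)
  exact hcont.integrable_of_hasCompactSupport hcs

/-- integrable with zero integral -/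
def IZ (f : E4 → ℝ) : Prop := Integrable f ∧ ∫ y, f y = 0

theorem IZ.add {f g : E4 → ℝ} (hf : IZ f) (hg : IZ g) : IZ (fun y => f y + g y) :=
  ⟨hf.1.add hg.1, by rw [integral_add hf.1 hg.1, hf.2, hg.2, add_zero]⟩

theorem IZ.sub {f g : E4 → ℝ} (hf : IZ f) (hg : IZ g) : IZ (fun y => f y - g y) :=
  ⟨hf.1.sub hg.1, by rw [integral_sub hf.1 hg.1, hf.2, hg.2, sub_zero]⟩

theorem IZ.neg {f : E4 → ℝ} (hf : IZ f) : IZ (fun y => - f y) :=
  ⟨hf.1.neg, by rw [integral_neg, hf.2, neg_zero]⟩

/-- pointwise: `W (dS) c` is a divergence when `c` is closed. -/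
theorem W_d1_eq {S : E4 → E4 →L[ℝ] ℝ} {c : E4 → Bil} {y : E4} (hS : DifferentiableAt ℝ S y)
    (hc : DifferentiableAt ℝ c y) (hcl : ClAt c y) :
    W (d1 S y) (c y) =
      (fderiv ℝ (Pr S c 1 2 3) y (ee 0) - fderiv ℝ (Pr S c 2 1 3) y (ee 0)
        + fderiv ℝ (Pr S c 3 1 2) y (ee 0))
      + (- fderiv ℝ (Pr S c 0 2 3) y (ee 1) + fderiv ℝ (Pr S c 2 0 3) y (ee 1)
        - fderiv ℝ (Pr S c 3 0 2) y (ee 1))
      + (fderiv ℝ (Pr S c 0 1 3) y (ee 2) - fderiv ℝ (Pr S c 1 0 3) y (ee 2)
        + fderiv ℝ (Pr S c 3 0 1) y (ee 2))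
      + (- fderiv ℝ (Pr S c 0 1 2) y (ee 3) + fderiv ℝ (Pr S c 1 0 2) y (ee 3)
        - fderiv ℝ (Pr S c 2 0 1) y (ee 3)) := by
  simp only [fderiv_Pr hS hc]
  have e1 : ∀ i j, ent (d1 S y) i j = fderiv ℝ S y (ee i) (ee j) - fderiv ℝ S y (ee j) (ee i) :=
    fun i j => d1_apply _ _ _ _
  unfold W
  simp only [e1]
  have h123 := hcl (ee 1) (ee 2) (ee 3)
  have h023 := hcl (ee 0) (ee 2) (ee 3)
  have h013 := hcl (ee 0) (ee 1) (ee 3)
  have h012 := hcl (ee 0) (ee 1) (ee 2)
  unfold Ch.dd at h123 h023 h013 h012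
  linear_combination (S y (ee 0)) * h123 - (S y (ee 1)) * h023 + (S y (ee 2)) * h013
    - (S y (ee 3)) * h012

/-- **Stokes on `ℝ⁴`**: `∫ dS ∧ c = 0` for `S` of class `C¹` with compact support in the open set
`U` on which `c` is `C¹` and closed. -/
theorem stokes_R4 {S : E4 → E4 →L[ℝ] ℝ} {c : E4 → Bil} {U : Set E4} (hU : IsOpen U)
    (hS : ContDiff ℝ 1 S) (hcs : HasCompactSupport S) (hsupp : tsupport S ⊆ U)
    (hc : ContDiffOn ℝ 1 c U) (hcl : ∀ y ∈ U, ClAt c y) :
    IZ (fun y => W (d1 S y) (c y)) := by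
  have key : (fun y => W (d1 S y) (c y)) = fun y =>
      (fderiv ℝ (Pr S c 1 2 3) y (ee 0) - fderiv ℝ (Pr S c 2 1 3) y (ee 0)
        + fderiv ℝ (Pr S c 3 1 2) y (ee 0))
      + (- fderiv ℝ (Pr S c 0 2 3) y (ee 1) + fderiv ℝ (Pr S c 2 0 3) y (ee 1)
        - fderiv ℝ (Pr S c 3 0 2) y (ee 1))
      + (fderiv ℝ (Pr S c 0 1 3) y (ee 2) - fderiv ℝ (Pr S c 1 0 3) y (ee 2)
        + fderiv ℝ (Pr S c 3 0 1) y (ee 2))
      + (- fderiv ℝ (Pr S c 0 1 2) y (ee 3) + fderiv ℝ (Pr S c 1 0 2) y (ee 3)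
        - fderiv ℝ (Pr S c 2 0 1) y (ee 3)) := by
    funext y
    by_cases hy : y ∈ tsupport S
    · have hcy : DifferentiableAt ℝ c y :=
        ((hc y (hsupp hy)).contDiffAt (hU.mem_nhds (hsupp hy))).differentiableAt (by norm_num)
      exact W_d1_eq (hS.differentiable (by norm_num) y) hcy (hcl y (hsupp hy))
    · have h0 := notMem_tsupport_iff_eventuallyEq.mp hy
      have hf : fderiv ℝ S y = 0 := by
        rw [h0.fderiv_eq]; simp
      have hd : d1 S y = 0 := by
        ext u v
        rw [d1_apply, hf]; simp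
      have hP : ∀ j k l, fderiv ℝ (Pr S c j k l) y = 0 := by
        intro j k l
        have : Pr S c j k l =ᶠ[𝓝 y] fun _ => 0 := by
          filter_upwards [h0] with z hz
          simp [Pr, hz]
        rw [this.fderiv_eq]; simp
      simp [hd, hP, W, ent]
  have I : ∀ j k l i, IZ (fun y => fderiv ℝ (Pr S c j k l) y (ee i)) := fun j k l i =>
    ⟨(integral_Pr_zero hU hS hcs hsupp hc j k l i).2, (integral_Pr_zero hU hS hcs hsupp hc j k l i).1⟩
  rw [key]
  exact (((((I 1 2 3 0).sub (I 2 1 3 0)).add (I 3 1 2 0)).add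
    (((I 0 2 3 1).neg.add (I 2 0 3 1)).sub (I 3 0 2 1))).add
    (((I 0 1 3 2).sub (I 1 0 3 2)).add (I 3 0 1 2))).add
    (((I 0 1 2 3).neg.add (I 1 0 2 3)).sub (I 2 0 1 3))

end

end Crest.Agent.R240.Int
end

-- ▼ part R240/IntPair

/-!
Row 240, PART INT (helper240): the pairing `I F b c = ∫ q(b,c) dμ_F`, continuity, Stokes on `M`.
-/

set_option autoImplicit false
set_option maxSynthPendingDepth 3

open MeasureTheory Set Filter Topology Function
open scoped Manifold ContDiff ENNReal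

namespace Crest.Agent.R240.Int

open Crest.Agent.R240 Crest.Agent.R240.Ch

noncomputable section

variable {M : Type*} [TopologicalSpace M] [ChartedSpace E4 M] [IsManifold 𝓘(ℝ, E4) ∞ M]

/-- continuous two-form, in charts. -/
def Cont2 (b : F2 E4 M) : Prop :=
  (∀ x, Alt (at2 b x)) ∧ ∀ p, ContinuousOn (rep p b) (chartAt E4 p).target

theorem Smooth2.cont2 {b : F2 E4 M} (hb : Smooth2 b) : Cont2 b :=
  ⟨hb.1, fun p => (hb.2 p).continuousOn⟩

theorem Vol.cont2 {F : F2 E4 M} (hF : Vol F) : Cont2 F := ⟨hF.alt, hF.cont⟩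

/-- the pairing in the chart at `p`. -/
theorem qG_chart {F b c : F2 E4 M} (hF : Vol F) (hb : ∀ x, Alt (at2 b x))
    (hc : ∀ x, Alt (at2 c x)) {p : M} {y : E4} (hy : y ∈ (chartAt E4 p).target) :
    qG F b c ((chartAt E4 p).symm y) = q (rep p F y) (rep p b y) (rep p c y) := by
  unfold qG q
  rw [W_rep hb hc, W_rep hF.alt hF.alt, mul_div_mul_left _ _ (det_tcc_ne (symm_mem hy))]

theorem qG_chart' {F b c : F2 E4 M} (hF : Vol F) (hb : ∀ x, Alt (at2 b x))
    (hc : ∀ x, Alt (at2 c x)) {p x : M} (hx : x ∈ (chartAt E4 p).source) :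
    qG F b c x = q (rep p F (chartAt E4 p x)) (rep p b (chartAt E4 p x))
      (rep p c (chartAt E4 p x)) := by
  have h := qG_chart hF hb hc ((chartAt E4 p).map_source hx)
  rwa [(chartAt E4 p).left_inv hx] at h

theorem continuous_qG {F b c : F2 E4 M} (hF : Vol F) (hb : Cont2 b) (hc : Cont2 c) :
    Continuous (qG F b c) := by
  rw [continuous_iff_continuousAt]
  intro x
  have hy := mem_chart_target E4 x
  have h1 : ContinuousOn (fun y => q (rep x F y) (rep x b y) (rep x c y)) (chartAt E4 x).target :=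
    (continuousOn_W (hb.2 x) (hc.2 x)).div (continuousOn_W (hF.cont x) (hF.cont x))
      (fun y hy => hF.rep_ne hy)
  have h2 : ContinuousAt (fun y => q (rep x F y) (rep x b y) (rep x c y)) (chartAt E4 x x) :=
    h1.continuousAt ((chartAt E4 x).open_target.mem_nhds hy)
  have h3 : ContinuousAt (fun z => q (rep x F (chartAt E4 x z)) (rep x b (chartAt E4 x z))
      (rep x c (chartAt E4 x z))) x :=
    ContinuousAt.comp (f := chartAt E4 x) h2
      ((chartAt E4 x).continuousAt (mem_chart_source E4 x))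
  refine h3.congr ?_
  filter_upwards [(chartAt E4 x).open_source.mem_nhds (mem_chart_source E4 x)] with z hz
  exact (qG_chart' hF hb.1 hc.1 hz).symm

/-! ### representation of the differential of a function -/

theorem rep1_dF' {f : M → ℝ} {p : M} {y : E4} (hy : y ∈ (chartAt E4 p).target)
    (hf : DifferentiableAt ℝ (repF ((chartAt E4 p).symm y) f)
      (chartAt E4 ((chartAt E4 p).symm y) ((chartAt E4 p).symm y))) :
    rep1 p (dF f) y = fderiv ℝ (repF p f) y := by
  set x : M := (chartAt E4 p).symm y with hx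
  have hyx : chartAt E4 p x = y := (chartAt E4 p).right_inv hy
  have hxs : x ∈ (chartAt E4 p).source := symm_mem hy
  have htr : ContDiffAt ℝ ∞ (trans (E := E4) p x) y := trans_contDiffAt hy (mem_chart_source E4 x)
  have ht0 : trans (E := E4) p x y = chartAt E4 x x := rfl
  have hev : repF p f =ᶠ[𝓝 y] (repF x f) ∘ (trans (E := E4) p x) := by
    have ho : IsOpen ((chartAt E4 p).target ∩ (chartAt E4 p).symm ⁻¹' (chartAt E4 x).source) :=
      (chartAt E4 p).isOpen_inter_preimage_symm (chartAt E4 x).open_source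
    filter_upwards [ho.mem_nhds ⟨hy, mem_chart_source E4 x⟩] with z hz
    show f ((chartAt E4 p).symm z) = f ((chartAt E4 x).symm (chartAt E4 x ((chartAt E4 p).symm z)))
    rw [(chartAt E4 x).left_inv hz.2]
  have h1 : fderiv ℝ (repF p f) y =
      (fderiv ℝ (repF x f) (chartAt E4 x x)).comp (fderiv ℝ (trans (E := E4) p x) y) := by
    rw [hev.fderiv_eq]
    exact fderiv_comp y (by rw [ht0]; exact hf) (htr.differentiableAt (by norm_num))
  rw [h1]
  have h2 : tcc p x x = fderiv ℝ (trans (E := E4) p x) y := by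
    rw [tcc_eq_fderiv_trans, hyx]
  rw [← h2]
  rfl

theorem SmoothF.diffAt {f : M → ℝ} (hf : SmoothF E4 f) {p : M} {y : E4}
    (hy : y ∈ (chartAt E4 p).target) : DifferentiableAt ℝ (repF p f) y :=
  ((hf p y hy).contDiffAt ((chartAt E4 p).open_target.mem_nhds hy)).differentiableAt (by norm_num)

theorem rep1_dF_eq {f : M → ℝ} (hf : SmoothF E4 f) {p : M} {y : E4}
    (hy : y ∈ (chartAt E4 p).target) : rep1 p (dF f) y = fderiv ℝ (repF p f) y :=
  rep1_dF' hy (SmoothF.diffAt hf (mem_chart_target E4 _))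

theorem rep_wedG_eq (s t : F1 E4 M) (p : M) (y : E4) :
    rep p (wedG s t) y = wed (rep1 p s y) (rep1 p t y) := by
  ext u v; rfl

theorem smoothF_of_contMDiff {f : M → ℝ} (hf : ContMDiff 𝓘(ℝ, E4) 𝓘(ℝ, ℝ) ∞ f) :
    SmoothF E4 f := by
  intro p y hy
  have hs : ContMDiffAt 𝓘(ℝ, E4) 𝓘(ℝ, E4) ∞ (chartAt E4 p).symm y :=
    (contMDiffOn_chart_symm (I := 𝓘(ℝ, E4)) (x := p)).contMDiffAt
      ((chartAt E4 p).open_target.mem_nhds hy)
  exact ((hf.contMDiffAt.comp y hs).contDiffAt).contDiffWithinAt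

/-! ### bilinearity -/

section Bilin

theorem qG_add_left (F a b c : F2 E4 M) (x : M) :
    qG F (a + b) c x = qG F a c x + qG F b c x := by
  unfold qG q
  have : at2 (a + b) x = at2 a x + at2 b x := rfl
  rw [this, W_add_left, add_div]

theorem qG_smul_left (F : F2 E4 M) (r : ℝ) (b c : F2 E4 M) (x : M) :
    qG F (r • b) c x = r * qG F b c x := by
  unfold qG q
  have : at2 (r • b) x = r • at2 b x := rfl
  rw [this, W_smul_left, mul_div_assoc]

theorem qG_comm (F b c : F2 E4 M) (x : M) : qG F b c x = qG F c b x := by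
  unfold qG q; rw [W_comm]

theorem qG_add_right (F a b c : F2 E4 M) (x : M) :
    qG F a (b + c) x = qG F a b x + qG F a c x := by
  rw [qG_comm, qG_add_left, qG_comm, qG_comm F c]

theorem qG_smul_right (F : F2 E4 M) (r : ℝ) (b c : F2 E4 M) (x : M) :
    qG F b (r • c) x = r * qG F b c x := by
  rw [qG_comm, qG_smul_left, qG_comm]

theorem qG_fmul_left (F : F2 E4 M) (f : M → ℝ) (b c : F2 E4 M) (x : M) :
    qG F (fmul f b) c x = f x * qG F b c x := by
  unfold qG q
  have : at2 (fmul f b) x = f x • at2 b x := rfl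
  rw [this, W_smul_left, mul_div_assoc]

theorem Cont2.add {a b : F2 E4 M} (ha : Cont2 a) (hb : Cont2 b) : Cont2 (a + b) := by
  refine ⟨fun x v => ?_, fun p => ?_⟩
  · show at2 a x v v + at2 b x v v = 0
    rw [ha.1 x v, hb.1 x v, add_zero]
  · have : rep p (a + b) = fun y => rep p a y + rep p b y := by
      funext y; ext u v; rfl
    rw [this]; exact (ha.2 p).add (hb.2 p)

theorem Cont2.smul {b : F2 E4 M} (r : ℝ) (hb : Cont2 b) : Cont2 (r • b) := by
  refine ⟨fun x v => ?_, fun p => ?_⟩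
  · show r • at2 b x v v = 0
    rw [hb.1 x v, smul_zero]
  · have : rep p (r • b) = fun y => r • rep p b y := by
      funext y; ext u v; rfl
    rw [this]; exact (hb.2 p).const_smul r

theorem Cont2.neg {b : F2 E4 M} (hb : Cont2 b) : Cont2 (-b) := by
  have : -b = (-1 : ℝ) • b := by simp
  rw [this]; exact hb.smul _

theorem Cont2.sub {a b : F2 E4 M} (ha : Cont2 a) (hb : Cont2 b) : Cont2 (a - b) := by
  rw [sub_eq_add_neg]; exact ha.add hb.neg

end Bilin

variable [MeasurableSpace M] [BorelSpace M] [T2Space M] [CompactSpace M]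

/-- **the pairing** `I(b,c) = ∫ q(b,c) dμ`. -/
def I (F b c : F2 E4 M) : ℝ := ∫ x, qG F b c x ∂(mu F)

theorem integrable_of_cont {F : F2 E4 M} (hF : Vol F) {f : M → ℝ} (hf : Continuous f) :
    Integrable f (mu F) := by
  have := isFinite_mu hF
  exact hf.integrable_of_hasCompactSupport (HasCompactSupport.of_compactSpace f)

theorem integrable_qG {F b c : F2 E4 M} (hF : Vol F) (hb : Cont2 b) (hc : Cont2 c) :
    Integrable (qG F b c) (mu F) := integrable_of_cont hF (continuous_qG hF hb hc)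

theorem I_comm (F b c : F2 E4 M) : I F b c = I F c b := by
  unfold I; congr 1; funext x; exact qG_comm F b c x

theorem I_add_left {F a b c : F2 E4 M} (hF : Vol F) (ha : Cont2 a) (hb : Cont2 b) (hc : Cont2 c) :
    I F (a + b) c = I F a c + I F b c := by
  unfold I
  rw [← integral_add (integrable_qG hF ha hc) (integrable_qG hF hb hc)]
  congr 1; funext x; exact qG_add_left F a b c x

theorem I_add_right {F a b c : F2 E4 M} (hF : Vol F) (ha : Cont2 a) (hb : Cont2 b) (hc : Cont2 c) :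
    I F a (b + c) = I F a b + I F a c := by
  rw [I_comm, I_add_left hF hb hc ha, I_comm F b, I_comm F c]

theorem I_smul_left (F : F2 E4 M) (r : ℝ) (b c : F2 E4 M) : I F (r • b) c = r * I F b c := by
  unfold I
  rw [← integral_const_mul]
  congr 1; funext x; exact qG_smul_left F r b c x

theorem I_smul_right (F : F2 E4 M) (r : ℝ) (b c : F2 E4 M) : I F b (r • c) = r * I F b c := by
  rw [I_comm, I_smul_left, I_comm]

/-! ### Stokes -/

/-- the sign of the chart orientation. -/
def sg (F : F2 E4 M) (p : M) (y : E4) : ℝ := SignType.sign (W (rep p F y) (rep p F y))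

theorem dens_mul_q {F : F2 E4 M} (hF : Vol F) {p : M} {y : E4} (hy : y ∈ (chartAt E4 p).target)
    (b c : Bil) : dens F p y * q (rep p F y) b c = sg F p y * W b c := by
  have h := hF.rep_ne hy
  unfold dens q sg
  rcases lt_or_gt_of_ne h with h1 | h1
  · rw [abs_of_neg h1, sign_neg h1]
    field_simp
    simp
  · rw [abs_of_pos h1, sign_pos h1]
    field_simp
    simp

theorem sg_locally_const {F : F2 E4 M} (hF : Vol F) {p : M} {y : E4}
    (hy : y ∈ (chartAt E4 p).target) : ∀ᶠ z in 𝓝 y, sg F p z = sg F p y := by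
  have hc : ContinuousAt (fun z => W (rep p F z) (rep p F z)) y :=
    (continuousOn_W (hF.cont p) (hF.cont p)).continuousAt ((chartAt E4 p).open_target.mem_nhds hy)
  rcases lt_or_gt_of_ne (hF.rep_ne hy) with h1 | h1
  · filter_upwards [hc.eventually (gt_mem_nhds h1)] with z hz
    unfold sg
    rw [sign_neg hz, sign_neg h1]
  · filter_upwards [hc.eventually (lt_mem_nhds h1)] with z hz
    unfold sg
    rw [sign_pos hz, sign_pos h1]

omit [MeasurableSpace M] [BorelSpace M] [T2Space M] [CompactSpace M]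
  [IsManifold 𝓘(ℝ, E4) ∞ M] in
theorem SmoothF.cont {g : M → ℝ} (hg : SmoothF E4 g) : Continuous g := by
  rw [continuous_iff_continuousAt]
  intro x
  have h1 : ContinuousAt (repF x g) (chartAt E4 x x) :=
    (hg x).continuousOn.continuousAt ((chartAt E4 x).open_target.mem_nhds (mem_chart_target E4 x))
  have h2 : ContinuousAt (fun z => repF x g (chartAt E4 x z)) x :=
    ContinuousAt.comp (f := chartAt E4 x) h1
      ((chartAt E4 x).continuousAt (mem_chart_source E4 x))
  refine h2.congr ?_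
  filter_upwards [(chartAt E4 x).open_source.mem_nhds (mem_chart_source E4 x)] with z hz
  show g ((chartAt E4 x).symm (chartAt E4 x z)) = g z
  rw [(chartAt E4 x).left_inv hz]

omit [MeasurableSpace M] [BorelSpace M] [T2Space M] [CompactSpace M]
  [IsManifold 𝓘(ℝ, E4) ∞ M] in
theorem at1_dF_zero {g : M → ℝ} {x : M} (hx : x ∉ tsupport g) : at1 (dF (E := E4) g) x = 0 := by
  have h0 := notMem_tsupport_iff_eventuallyEq.mp hx
  have h1 : repF (E := E4) x g =ᶠ[𝓝 (chartAt E4 x x)] fun _ => 0 := by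
    have hc : ContinuousAt (chartAt E4 x).symm (chartAt E4 x x) :=
      (chartAt E4 x).continuousAt_symm (mem_chart_target E4 x)
    have hc' : Tendsto (chartAt E4 x).symm (𝓝 (chartAt E4 x x)) (𝓝 x) := by
      have := hc.tendsto
      rwa [(chartAt E4 x).left_inv (mem_chart_source E4 x)] at this
    exact hc'.eventually h0
  show fderiv ℝ (repF x g) (chartAt E4 x x) = 0
  rw [h1.fderiv_eq]; simp

omit [MeasurableSpace M] [BorelSpace M] [T2Space M] [CompactSpace M] in
theorem cont2_of_d1 {S : F1 E4 M} {D : F2 E4 M}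
    (hS : ∀ p, ContDiffOn ℝ 1 (rep1 p S) (chartAt E4 p).target)
    (hD : ∀ p, ∀ y ∈ (chartAt E4 p).target, rep p D y = Ch.d1 (rep1 p S) y)
    (hDa : ∀ x, Alt (at2 D x)) : Cont2 D := by
  refine ⟨hDa, fun p => ?_⟩
  have h1 : ContinuousOn (fderiv ℝ (rep1 p S)) (chartAt E4 p).target :=
    (hS p).continuousOn_fderiv_of_isOpen (chartAt E4 p).open_target le_rfl
  have h2 : ContinuousOn (fun y => (fderiv ℝ (rep1 p S) y).flip) (chartAt E4 p).target :=
    (ContinuousLinearMap.flipₗᵢ ℝ E4 E4 ℝ).continuous.comp_continuousOn h1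
  exact (h1.sub h2).congr (fun y hy => hD p y hy)

omit [MeasurableSpace M] [BorelSpace M] [T2Space M] [CompactSpace M] in
theorem cont2_wedG_dF {g : M → ℝ} (hg : SmoothF E4 g) {S : F1 E4 M}
    (hS : ∀ p, ContinuousOn (rep1 p S) (chartAt E4 p).target) : Cont2 (wedG (dF g) S) := by
  refine ⟨fun x v => ?_, fun p => ?_⟩
  · exact wed_alt (at1 (dF g) x) (at1 S x) v
  · have h1 : ContinuousOn (fun y => fderiv ℝ (repF p g) y) (chartAt E4 p).target :=
      (hg p).continuousOn_fderiv_of_isOpen (chartAt E4 p).open_target (by simp)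
    have h2 := hS p
    have h3 : ContinuousOn (fun y => (fderiv ℝ (repF p g) y).smulRight (rep1 p S y))
        (chartAt E4 p).target :=
      ((ContinuousLinearMap.smulRightL ℝ E4 (E4 →L[ℝ] ℝ)).continuous.comp_continuousOn
        h1).clm_apply h2
    have h4 : ContinuousOn (fun y => (rep1 p S y).smulRight (fderiv ℝ (repF p g) y))
        (chartAt E4 p).target :=
      ((ContinuousLinearMap.smulRightL ℝ E4 (E4 →L[ℝ] ℝ)).continuous.comp_continuousOn
        h2).clm_apply h1
    refine (h3.sub h4).congr (fun y hy => ?_)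
    rw [rep_wedG_eq, rep1_dF_eq hg hy]
    rfl

/-- product rule for `d1`. -/
theorem d1_smul' {a : E4 → ℝ} {s : E4 → E4 →L[ℝ] ℝ} {y : E4} (ha : DifferentiableAt ℝ a y)
    (hs : DifferentiableAt ℝ s y) :
    Ch.d1 (fun z => a z • s z) y = a y • Ch.d1 s y + wed (fderiv ℝ a y) (s y) := by
  ext u v
  have h : fderiv ℝ (fun z => a z • s z) y = a y • fderiv ℝ s y + (fderiv ℝ a y).smulRight (s y) :=
    (ha.hasFDerivAt.smul hs.hasFDerivAt).fderiv
  rw [Ch.d1_apply, h]
  simp only [add_apply, smul_apply, ContinuousLinearMap.smulRight_apply, smul_eq_mul,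
    wed_apply, Ch.d1_apply]
  ring

/-- **Stokes in one chart**: `∫ (g q(dS,c) + q(dg∧S,c)) dμ = 0` for `g` supported in the chart. -/
theorem stokes_chart {F : F2 E4 M} (hF : Vol F) {p : M} {g : M → ℝ} (hg : SmoothF E4 g)
    (hgs : tsupport g ⊆ (chartAt E4 p).source) {S : F1 E4 M} {D c : F2 E4 M}
    (hS : ∀ p, ContDiffOn ℝ 1 (rep1 p S) (chartAt E4 p).target)
    (hD : ∀ p, ∀ y ∈ (chartAt E4 p).target, rep p D y = Ch.d1 (rep1 p S) y)
    (hDa : ∀ x, Alt (at2 D x))
    (hca : ∀ x, Alt (at2 c x)) (hc : ∀ p, ContDiffOn ℝ 1 (rep p c) (chartAt E4 p).target)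
    (hcl : ∀ p, ∀ y ∈ (chartAt E4 p).target, ClAt (rep p c) y) :
    ∫ x, (g x * qG F D c x + qG F (wedG (dF g) S) c x) ∂(mu F) = 0 := by
  set U := (chartAt E4 p).target with hU
  have hUo : IsOpen U := (chartAt E4 p).open_target
  have hwa : ∀ x, Alt (at2 (wedG (dF g) S) x) := fun x => wed_alt (at1 (dF g) x) (at1 S x)
  have hcC : Cont2 c := ⟨hca, fun p => (hc p).continuousOn⟩
  have hgS : DifferentiableOn ℝ (repF p g) U := (hg p).differentiableOn (by simp)
  classical
  set T : E4 → E4 →L[ℝ] ℝ := fun y =>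
    if y ∈ U then (sg F p y * repF p g y) • rep1 p S y else 0 with hT
  set K : Set E4 := chartAt E4 p '' tsupport g with hK
  have hKc : IsCompact K := (isClosed_tsupport g).isCompact.image_of_continuousOn
    ((chartAt E4 p).continuousOn.mono hgs)
  have hKU : K ⊆ U := by
    rintro _ ⟨x, hx, rfl⟩
    exact (chartAt E4 p).map_source (hgs hx)
  have hzero : ∀ y, y ∉ K → T y = 0 := by
    intro y hy
    by_cases hyU : y ∈ U
    · have h1 : (chartAt E4 p).symm y ∉ tsupport g := by
        intro h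
        exact hy ⟨_, h, (chartAt E4 p).right_inv hyU⟩
      have h2 : repF p g y = 0 := image_eq_zero_of_notMem_tsupport (f := g) h1
      simp [hT, hyU, h2]
    · simp [hT, hyU]
  have hloc : ∀ y ∈ U, T =ᶠ[𝓝 y] fun z => (sg F p y * repF p g z) • rep1 p S z := by
    intro y hy
    filter_upwards [hUo.mem_nhds hy, sg_locally_const hF hy] with z hz hs
    simp [hT, hz, hs]
  have hTd : ContDiff ℝ 1 T := by
    rw [contDiff_iff_contDiffAt]
    intro y
    by_cases hy : y ∈ K
    · have hyU := hKU hy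
      have h1 : ContDiffAt ℝ 1 (fun z => (sg F p y * repF p g z) • rep1 p S z) y := by
        have h2 : ContDiffAt ℝ 1 (repF p g) y :=
          ((hg p).contDiffAt (hUo.mem_nhds hyU)).of_le (by simp)
        have h3 : ContDiffAt ℝ 1 (rep1 p S) y := (hS p).contDiffAt (hUo.mem_nhds hyU)
        have h4 : ContDiffAt ℝ 1 (fun z => sg F p y * repF p g z) y := contDiffAt_const.mul h2
        exact h4.smul h3
      exact h1.congr_of_eventuallyEq (hloc y hyU)
    · have : T =ᶠ[𝓝 y] fun _ => 0 := by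
        filter_upwards [hKc.isClosed.isOpen_compl.mem_nhds hy] with z hz
        exact hzero z hz
      exact contDiffAt_const.congr_of_eventuallyEq this
  have hTc : HasCompactSupport T := HasCompactSupport.intro hKc hzero
  have hTs : tsupport T ⊆ U := by
    refine (closure_minimal ?_ hKc.isClosed).trans hKU
    intro y hy
    by_contra h
    exact hy (hzero y h)
  have hmain := stokes_R4 hUo hTd hTc hTs (hc p) (hcl p)
  have hd1 : ∀ y ∈ U, Ch.d1 T y =
      sg F p y • (repF p g y • rep p D y + rep p (wedG (dF g) S) y) := by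
    intro y hy
    have h1 : Ch.d1 T y = Ch.d1 (fun z => (sg F p y * repF p g z) • rep1 p S z) y := by
      unfold Ch.d1
      rw [(hloc y hy).fderiv_eq]
    have hga : DifferentiableAt ℝ (repF p g) y := SmoothF.diffAt hg hy
    have hSa : DifferentiableAt ℝ (rep1 p S) y :=
      ((hS p).contDiffAt (hUo.mem_nhds hy)).differentiableAt (by simp)
    rw [h1, d1_smul' (hga.const_mul _) hSa, hD p y hy, rep_wedG_eq, rep1_dF_eq hg hy,
      fderiv_const_mul hga]
    ext u v
    simp only [add_apply, smul_apply, smul_eq_mul, wed_apply]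
    ring
  have hGc : Continuous (fun x => g x * qG F D c x + qG F (wedG (dF g) S) c x) :=
    ((SmoothF.cont hg).mul (continuous_qG hF (cont2_of_d1 hS hD hDa) hcC)).add
      (continuous_qG hF (cont2_wedG_dF hg (fun p => (hS p).continuousOn)) hcC)
  have hG0 : ∀ x, x ∉ (chartAt E4 p).source →
      g x * qG F D c x + qG F (wedG (dF g) S) c x = 0 := by
    intro x hx
    have hx' : x ∉ tsupport g := fun h => hx (hgs h)
    have h1 : g x = 0 := image_eq_zero_of_notMem_tsupport hx'
    have h2 : at2 (wedG (dF g) S) x = 0 := by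
      have h3 := at1_dF_zero hx'
      show wed (at1 (dF g) x) (at1 S x) = 0
      rw [h3]
      ext u v; simp
    have h4 : qG F (wedG (dF g) S) c x = 0 := by
      unfold qG q
      rw [h2]
      simp [W, ent]
    rw [h1, h4]; simp
  have hmu := isFinite_mu hF
  rw [integral_mu_of_supp hF p hGc.aestronglyMeasurable hG0]
  have h5 : ∀ y ∈ U, dens F p y • (g ((chartAt E4 p).symm y) * qG F D c ((chartAt E4 p).symm y)
      + qG F (wedG (dF g) S) c ((chartAt E4 p).symm y)) = W (Ch.d1 T y) (rep p c y) := by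
    intro y hy
    rw [qG_chart hF hDa hca hy, qG_chart hF hwa hca hy, hd1 y hy, W_smul_left, W_add_left,
      W_smul_left, smul_eq_mul, mul_add, mul_add, mul_left_comm, dens_mul_q hF hy, dens_mul_q hF hy]
    show _ = _
    unfold repF
    ring
  rw [setIntegral_congr_fun hUo.measurableSet h5, setIntegral_eq_integral_of_forall_compl_eq_zero]
  · exact hmain.2
  · intro y hy
    have hyK : y ∉ K := fun h => hy (hKU h)
    have : T =ᶠ[𝓝 y] fun _ => 0 := by
      filter_upwards [hKc.isClosed.isOpen_compl.mem_nhds hyK] with z hz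
      exact hzero z hz
    have hd : Ch.d1 T y = 0 := by
      ext u v
      rw [Ch.d1_apply, this.fderiv_eq]; simp
    rw [hd]; simp [W, ent]

/-- **Stokes on `M`**, `C¹` version: `∫ q(dS, c) dμ = 0` for `c` closed. -/
theorem stokes_M {F : F2 E4 M} (hF : Vol F) {S : F1 E4 M} {D c : F2 E4 M}
    (hS : ∀ p, ContDiffOn ℝ 1 (rep1 p S) (chartAt E4 p).target)
    (hD : ∀ p, ∀ y ∈ (chartAt E4 p).target, rep p D y = Ch.d1 (rep1 p S) y)
    (hDa : ∀ x, Alt (at2 D x))
    (hca : ∀ x, Alt (at2 c x)) (hc : ∀ p, ContDiffOn ℝ 1 (rep p c) (chartAt E4 p).target)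
    (hcl : ∀ p, ∀ y ∈ (chartAt E4 p).target, ClAt (rep p c) y) : I F D c = 0 := by
  classical
  obtain ⟨P⟩ := nonempty_PU M
  have hcC : Cont2 c := ⟨hca, fun p => (hc p).continuousOn⟩
  have hχ : ∀ p, SmoothF E4 (P.χ p) := fun p => smoothF_of_contMDiff (P.smooth p)
  have hsum : ∀ x, ∑ p ∈ P.t, at1 (dF (E := E4) (P.χ p)) x = 0 := by
    intro x
    have hd : ∀ p ∈ P.t, DifferentiableAt ℝ (repF x (P.χ p)) (chartAt E4 x x) := fun p _ =>
      SmoothF.diffAt (hχ p) (mem_chart_target E4 x)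
    have h1 : ∑ p ∈ P.t, fderiv ℝ (repF x (P.χ p)) (chartAt E4 x x) =
        fderiv ℝ (fun y => ∑ p ∈ P.t, repF x (P.χ p) y) (chartAt E4 x x) :=
      (fderiv_fun_sum hd).symm
    show ∑ p ∈ P.t, fderiv ℝ (repF x (P.χ p)) (chartAt E4 x x) = 0
    rw [h1]
    have h2 : (fun y => ∑ p ∈ P.t, repF (E := E4) x (P.χ p) y) = fun _ => 1 := by
      funext y; exact P.sum_one _
    rw [h2]; simp
  have hpt : ∀ x, qG F D c x = ∑ p ∈ P.t,
      (P.χ p x * qG F D c x + qG F (wedG (dF (P.χ p)) S) c x) := by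
    intro x
    rw [Finset.sum_add_distrib, ← Finset.sum_mul, P.sum_one x, one_mul]
    have h3 : ∑ p ∈ P.t, qG F (wedG (dF (P.χ p)) S) c x = 0 := by
      unfold qG q
      rw [← Finset.sum_div]
      have h4 : ∑ p ∈ P.t, W (at2 (wedG (dF (P.χ p)) S) x) (at2 c x) =
          W (∑ p ∈ P.t, at2 (wedG (dF (P.χ p)) S) x) (at2 c x) := by
        induction P.t using Finset.induction_on with
        | empty => simp [W, ent]
        | insert a s ha ih => rw [Finset.sum_insert ha, Finset.sum_insert ha, W_add_left, ih]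
      have h5 : ∑ p ∈ P.t, at2 (wedG (dF (P.χ p)) S) x = 0 := by
        have h6 : ∑ p ∈ P.t, at2 (wedG (dF (P.χ p)) S) x =
            wed (∑ p ∈ P.t, at1 (dF (E := E4) (P.χ p)) x) (at1 S x) := by
          induction P.t using Finset.induction_on with
          | empty => ext u v; simp
          | insert a s ha ih =>
            rw [Finset.sum_insert ha, Finset.sum_insert ha, ih]
            ext u v
            show (at1 (dF (E := E4) (P.χ a)) x u * at1 S x v - at1 S x u * at1 (dF (P.χ a)) x v) +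
              wed (∑ p ∈ s, at1 (dF (E := E4) (P.χ p)) x) (at1 S x) u v =
              wed (at1 (dF (E := E4) (P.χ a)) x + ∑ p ∈ s, at1 (dF (E := E4) (P.χ p)) x)
                (at1 S x) u v
            simp only [wed_apply, add_apply]
            ring
        rw [h6, hsum x]
        ext u v; simp
      rw [h4, h5]; simp [W, ent]
    rw [h3, add_zero]
  unfold I
  rw [show (fun x => qG F D c x) = fun x => ∑ p ∈ P.t,
      (P.χ p x * qG F D c x + qG F (wedG (dF (P.χ p)) S) c x) from funext hpt]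
  rw [integral_finsetSum]
  · exact Finset.sum_eq_zero fun p hp => stokes_chart hF (hχ p) (P.supp p hp) hS hD hDa hca hc hcl
  · intro p _
    exact integrable_of_cont hF
      (((P.continuous p).mul (continuous_qG hF (cont2_of_d1 hS hD hDa) hcC)).add
      (continuous_qG hF (cont2_wedG_dF (hχ p) (fun p => (hS p).continuousOn)) hcC))

/-- Stokes on `M` for smooth forms. -/
theorem stokes_smooth {F : F2 E4 M} (hF : Vol F) {S : F1 E4 M} {D c : F2 E4 M}
    (hS : Smooth1 S)
    (hD : ∀ p, ∀ y ∈ (chartAt E4 p).target, rep p D y = Ch.d1 (rep1 p S) y)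
    (hc : Smooth2 c) (hcl : Closed2 c) : I F D c = 0 := by
  refine stokes_M hF (fun p => (hS p).of_le (by simp)) hD ?_ hc.1
    (fun p => (hc.2 p).of_le (by simp)) hcl
  intro x v
  have h1 : rep x D (chartAt E4 x x) v v = at2 D x v v := rep_self x D v v
  rw [← h1, hD x _ (mem_chart_target E4 x)]
  exact d1_alt _ _ v

end

end Crest.Agent.R240.Int
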