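import Mathlib
import Crest.Agent.R240.FormDefs

-- ▼ part R240/Sm1
section

/-!
# Row 240, block R (smoothing), part Sm1 (helper950)

One-chart translations `tau z y = y + θ y • z` of a finite dimensional space, their inverses.
-/

set_option autoImplicit false
set_option linter.unusedSectionVars false
set_option linter.style.haveILetI false

open Set Function Filter Metric
open scoped ContDiff Topology NNReal

namespace Crest.Agent.R240.Sm

noncomputable section

variable {E : Type*} [NormedAddCommGroup E] [NormedSpace ℝ E]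

/-- a cut-off function with a radius `z0` of allowed translations. -/
structure Cut (E : Type*) [NormedAddCommGroup E] [NormedSpace ℝ E] where
  θ : E → ℝ
  smooth : ContDiff ℝ ∞ θ
  comp : HasCompactSupport θ
  z0 : ℝ
  z0_pos : 0 < z0
  lip : ∀ y, ‖fderiv ℝ θ y‖ * z0 ≤ 1 / 2

namespace Cut

variable (c : Cut E)

/-- the one-chart translation -/
def tau (z y : E) : E := y + c.θ y • z

lemma tau_zero (y : E) : c.tau 0 y = y := by simp [tau]

lemma tau_eq_self {y : E} (hy : y ∉ tsupport c.θ) (z : E) : c.tau z y = y := by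
  simp [tau, image_eq_zero_of_notMem_tsupport hy]

lemma contDiff_tau : ContDiff ℝ ∞ (fun p : E × E => c.tau p.1 p.2) := by
  unfold tau
  exact contDiff_snd.add ((c.smooth.comp contDiff_snd).smul contDiff_fst)

lemma contDiff_tau' (z : E) : ContDiff ℝ ∞ (c.tau z) := by
  unfold tau
  exact contDiff_id.add (c.smooth.smul contDiff_const)

lemma differentiable_θ : Differentiable ℝ c.θ := c.smooth.differentiable (by simp)

/-- the derivative of the translation -/
def dtau (z y : E) : E →L[ℝ] E :=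
  ContinuousLinearMap.id ℝ E + (fderiv ℝ c.θ y).smulRight z

lemma dtau_apply (z y v : E) : c.dtau z y v = v + (fderiv ℝ c.θ y v) • z := by
  simp [dtau]

lemma hasFDerivAt_tau (z y : E) : HasFDerivAt (c.tau z) (c.dtau z y) y := by
  have h1 : HasFDerivAt c.θ (fderiv ℝ c.θ y) y := (c.differentiable_θ y).hasFDerivAt
  have h2 := (hasFDerivAt_id y).add (h1.smul_const z)
  exact h2

lemma fderiv_tau (z y : E) : fderiv ℝ (c.tau z) y = c.dtau z y := (c.hasFDerivAt_tau z y).fderiv

lemma contDiff_dtau : ContDiff ℝ ∞ (fun p : E × E => c.dtau p.1 p.2) := by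
  unfold dtau
  refine contDiff_const.add ?_
  have h1 : ContDiff ℝ ∞ (fun p : E × E => fderiv ℝ c.θ p.2) :=
    (c.smooth.fderiv_right (m := ∞) (by simp)).comp contDiff_snd
  exact h1.smulRight contDiff_fst

lemma dtau_eq_id {y : E} (hy : y ∉ tsupport c.θ) (z : E) :
    c.dtau z y = ContinuousLinearMap.id ℝ E := by
  have : fderiv ℝ c.θ y = 0 := by
    have h := support_fderiv_subset ℝ (f := c.θ)
    by_contra hne
    exact hy (h hne)
  ext v
  simp [dtau_apply, this]

lemma norm_dtau_sub_id_le (z y : E) :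
    ‖c.dtau z y - ContinuousLinearMap.id ℝ E‖ ≤ ‖fderiv ℝ c.θ y‖ * ‖z‖ := by
  have : c.dtau z y - ContinuousLinearMap.id ℝ E = (fderiv ℝ c.θ y).smulRight z := by
    simp [dtau]
  rw [this, ContinuousLinearMap.norm_smulRight_apply]

lemma norm_dtau_sub_id_le_half {z : E} (hz : ‖z‖ ≤ c.z0) (y : E) :
    ‖c.dtau z y - ContinuousLinearMap.id ℝ E‖ ≤ 1 / 2 :=
  (c.norm_dtau_sub_id_le z y).trans
    ((mul_le_mul_of_nonneg_left hz (norm_nonneg _)).trans (c.lip y))

/-- `θ` is bounded -/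
lemma exists_bound : ∃ B, 0 ≤ B ∧ ∀ y, |c.θ y| ≤ B := by
  obtain ⟨B, hB⟩ := c.comp.exists_bound_of_continuous c.smooth.continuous
  exact ⟨B, (norm_nonneg _).trans (hB 0), hB⟩

/-- Lipschitz estimate for `θ • z` -/
lemma norm_tau_tau_le {z : E} (hz : ‖z‖ ≤ c.z0) (y y' : E) :
    ‖(c.tau z y - c.tau z y') - (y - y')‖ ≤ 1 / 2 * ‖y - y'‖ := by
  have h1 : (c.tau z y - c.tau z y') - (y - y') = (c.θ y - c.θ y') • z := by
    simp only [tau, sub_smul]; abel
  rw [h1, norm_smul]
  have hC : ∀ x ∈ (univ : Set E), ‖fderiv ℝ c.θ x‖ ≤ 1 / 2 / c.z0 := by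
    intro x _
    rw [le_div_iff₀ c.z0_pos]
    exact c.lip x
  have h2 : ‖c.θ y - c.θ y'‖ ≤ 1 / 2 / c.z0 * ‖y - y'‖ :=
    convex_univ.norm_image_sub_le_of_norm_fderiv_le (𝕜 := ℝ)
      (fun x _ => (c.differentiable_θ x)) hC (mem_univ _) (mem_univ _)
  calc ‖c.θ y - c.θ y'‖ * ‖z‖ ≤ (1 / 2 / c.z0 * ‖y - y'‖) * c.z0 := by
        apply mul_le_mul h2 hz (norm_nonneg _)
        have := c.z0_pos.le
        positivity
    _ = 1 / 2 * ‖y - y'‖ := by
        have := c.z0_pos.ne'
        field_simp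

lemma antilip {z : E} (hz : ‖z‖ ≤ c.z0) (y y' : E) :
    ‖y - y'‖ ≤ 2 * ‖c.tau z y - c.tau z y'‖ := by
  have h1 := c.norm_tau_tau_le hz y y'
  have h2 : ‖y - y'‖ ≤ ‖c.tau z y - c.tau z y'‖ + ‖(c.tau z y - c.tau z y') - (y - y')‖ := by
    have : y - y' = (c.tau z y - c.tau z y') - ((c.tau z y - c.tau z y') - (y - y')) := by abel
    calc ‖y - y'‖ = ‖(c.tau z y - c.tau z y') - ((c.tau z y - c.tau z y') - (y - y'))‖ := by
          rw [← this]
      _ ≤ _ := norm_sub_le _ _
  linarith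

lemma tau_injective {z : E} (hz : ‖z‖ ≤ c.z0) : Injective (c.tau z) := by
  intro y y' h
  have := c.antilip hz y y'
  rw [h, sub_self, norm_zero, mul_zero] at this
  exact sub_eq_zero.mp (norm_le_zero_iff.mp this)

variable [CompleteSpace E]

lemma tau_surjective {z : E} (hz : ‖z‖ ≤ c.z0) : Surjective (c.tau z) := by
  have hf : ApproximatesLinearOn (c.tau z) ((ContinuousLinearEquiv.refl ℝ E : E ≃L[ℝ] E) :
      E →L[ℝ] E) univ (1 / 2) := by
    intro y _ y' _
    have := c.norm_tau_tau_le hz y y'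
    simpa using this
  refine hf.surjective ?_
  rcases subsingleton_or_nontrivial E with h | h
  · exact Or.inl h
  · right
    have : ‖((ContinuousLinearEquiv.refl ℝ E).symm : E →L[ℝ] E)‖₊ = 1 := by
      have h1 : ((ContinuousLinearEquiv.refl ℝ E).symm : E →L[ℝ] E)
        = ContinuousLinearMap.id ℝ E := rfl
      rw [h1]
      ext
      simp
    rw [this, inv_one]
    exact NNReal.half_lt_self one_ne_zero

lemma tau_bijective {z : E} (hz : ‖z‖ ≤ c.z0) : Bijective (c.tau z) :=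
  ⟨c.tau_injective hz, c.tau_surjective hz⟩

open Classical in
/-- the inverse of `tau z` -/
def sig (z x : E) : E :=
  if h : ‖z‖ ≤ c.z0 then (Equiv.ofBijective _ (c.tau_bijective h)).symm x else x

lemma tau_sig {z : E} (hz : ‖z‖ ≤ c.z0) (x : E) : c.tau z (c.sig z x) = x := by
  rw [sig, dif_pos hz]
  exact (Equiv.ofBijective _ (c.tau_bijective hz)).apply_symm_apply x

lemma sig_tau {z : E} (hz : ‖z‖ ≤ c.z0) (y : E) : c.sig z (c.tau z y) = y :=
  c.tau_injective hz (c.tau_sig hz _)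

lemma sig_eq_self {x : E} (hx : x ∉ tsupport c.θ) (z : E) : c.sig z x = x := by
  by_cases hz : ‖z‖ ≤ c.z0
  · apply c.tau_injective hz
    rw [c.tau_sig hz, c.tau_eq_self hx]
  · rw [sig, dif_neg hz]

/-- `tau z` preserves the support of `θ`. -/
lemma tau_mem {z : E} (hz : ‖z‖ ≤ c.z0) {y : E} (hy : y ∈ tsupport c.θ) :
    c.tau z y ∈ tsupport c.θ := by
  by_contra h
  have h1 : c.sig z (c.tau z y) = c.tau z y := c.sig_eq_self h z
  rw [c.sig_tau hz] at h1
  exact h (h1 ▸ hy)

lemma sig_mem {z : E} (hz : ‖z‖ ≤ c.z0) {y : E} (hy : y ∈ tsupport c.θ) :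
    c.sig z y ∈ tsupport c.θ := by
  by_contra h
  have h1 : c.tau z (c.sig z y) = c.sig z y := c.tau_eq_self h z
  rw [c.tau_sig hz] at h1
  exact h (h1 ▸ hy)

/-- `tau z` preserves every set containing the support of `θ`. -/
lemma tau_mem' {z : E} (hz : ‖z‖ ≤ c.z0) {Ω : Set E} (hΩ : tsupport c.θ ⊆ Ω) {y : E}
    (hy : y ∈ Ω) : c.tau z y ∈ Ω := by
  by_cases h : y ∈ tsupport c.θ
  · exact hΩ (c.tau_mem hz h)
  · rwa [c.tau_eq_self h]

lemma sig_mem' {z : E} (hz : ‖z‖ ≤ c.z0) {Ω : Set E} (hΩ : tsupport c.θ ⊆ Ω) {y : E}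
    (hy : y ∈ Ω) : c.sig z y ∈ Ω := by
  by_cases h : y ∈ tsupport c.θ
  · exact hΩ (c.sig_mem hz h)
  · rwa [c.sig_eq_self h]

lemma norm_tau_sub (z y : E) {B : ℝ} (hB : ∀ y, |c.θ y| ≤ B) : ‖c.tau z y - y‖ ≤ B * ‖z‖ := by
  have : c.tau z y - y = c.θ y • z := by simp [tau]
  rw [this, norm_smul]
  exact mul_le_mul_of_nonneg_right (hB y) (norm_nonneg _)

lemma norm_sig_sub {z : E} (hz : ‖z‖ ≤ c.z0) (x : E) {B : ℝ} (hB : ∀ y, |c.θ y| ≤ B) :
    ‖c.sig z x - x‖ ≤ B * ‖z‖ := by
  have h := c.norm_tau_sub z (c.sig z x) hB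
  rw [c.tau_sig hz] at h
  rwa [norm_sub_rev]

/-- joint Lipschitz estimate for the inverse -/
lemma norm_sig_sub_sig {z z' : E} (hz : ‖z‖ ≤ c.z0) (hz' : ‖z'‖ ≤ c.z0) (x x' : E) {B : ℝ}
    (hB : ∀ y, |c.θ y| ≤ B) :
    ‖c.sig z x - c.sig z' x'‖ ≤ 2 * (‖x - x'‖ + B * ‖z - z'‖) := by
  have h1 := c.antilip hz (c.sig z x) (c.sig z' x')
  rw [c.tau_sig hz] at h1
  have h2 : c.tau z (c.sig z' x') = x' + c.θ (c.sig z' x') • (z - z') := by
    have h0 := c.tau_sig hz' x'
    rw [tau] at h0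
    have h0' : x' = c.sig z' x' + c.θ (c.sig z' x') • z' := h0.symm
    generalize c.sig z' x' = w at h0' ⊢
    rw [tau, h0', smul_sub]
    abel
  rw [h2] at h1
  refine h1.trans (mul_le_mul_of_nonneg_left ?_ (by norm_num))
  have h3 : x - (x' + c.θ (c.sig z' x') • (z - z'))
      = (x - x') - c.θ (c.sig z' x') • (z - z') := by abel
  rw [h3]
  refine (norm_sub_le _ _).trans (add_le_add le_rfl ?_)
  rw [norm_smul]
  exact mul_le_mul_of_nonneg_right (hB _) (norm_nonneg _)

lemma continuousOn_sig :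
    ContinuousOn (fun p : E × E => c.sig p.1 p.2) (closedBall 0 c.z0 ×ˢ univ) := by
  obtain ⟨B, hB0, hB⟩ := c.exists_bound
  intro p hp
  have hp1 : ‖p.1‖ ≤ c.z0 := by simpa using hp.1
  rw [ContinuousWithinAt, tendsto_iff_norm_sub_tendsto_zero]
  have hlim : Tendsto (fun q : E × E => 2 * (‖q.2 - p.2‖ + B * ‖q.1 - p.1‖))
      (𝓝[closedBall 0 c.z0 ×ˢ univ] p) (𝓝 0) := by
    have : Continuous (fun q : E × E => 2 * (‖q.2 - p.2‖ + B * ‖q.1 - p.1‖)) := by fun_prop
    have h := (this.tendsto p).mono_left (nhdsWithin_le_nhds (s := closedBall 0 c.z0 ×ˢ univ))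
    simpa using h
  refine squeeze_zero' (Eventually.of_forall fun q => norm_nonneg _) ?_ hlim
  filter_upwards [self_mem_nhdsWithin] with q hq
  have hq1 : ‖q.1‖ ≤ c.z0 := by simpa using hq.1
  exact c.norm_sig_sub_sig hq1 hp1 _ _ hB

section Smooth

variable [FiniteDimensional ℝ E]

/-- the derivative of `(z, y) ↦ (z, tau z y)`. -/
def dTT (z y : E) : E × E →L[ℝ] E × E :=
  (ContinuousLinearMap.fst ℝ E E).prod
    (c.θ y • ContinuousLinearMap.fst ℝ E E + (c.dtau z y).comp (ContinuousLinearMap.snd ℝ E E))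

lemma hasFDerivAt_TT (z y : E) :
    HasFDerivAt (fun p : E × E => (p.1, c.tau p.1 p.2)) (c.dTT z y) (z, y) := by
  have h1 : HasFDerivAt c.θ (fderiv ℝ c.θ y) y := (c.differentiable_θ y).hasFDerivAt
  have h2 : HasFDerivAt (fun p : E × E => c.θ p.2)
      ((fderiv ℝ c.θ y).comp (ContinuousLinearMap.snd ℝ E E)) (z, y) :=
    HasFDerivAt.comp (z, y) h1 hasFDerivAt_snd
  have h3 : HasFDerivAt (fun p : E × E => c.θ p.2 • p.1) _ (z, y) := h2.smul hasFDerivAt_fst
  have h4 : HasFDerivAt (fun p : E × E => p.2 + c.θ p.2 • p.1) _ (z, y) :=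
    hasFDerivAt_snd.add h3
  have h5 := (hasFDerivAt_fst (𝕜 := ℝ) (p := ((z, y) : E × E))).prodMk h4
  have h6 : (ContinuousLinearMap.fst ℝ E E).prod
      (ContinuousLinearMap.snd ℝ E E +
        (c.θ (z, y).2 • ContinuousLinearMap.fst ℝ E E +
          ((fderiv ℝ c.θ y).comp (ContinuousLinearMap.snd ℝ E E)).smulRight (z, y).1))
      = c.dTT z y := by
    ext v
    · simp [dTT]
    · simp [dTT]
    · simp [dTT]
    · simp [dTT, dtau_apply]
  rw [← h6]
  exact h5

lemma dtau_injective {z : E} (hz : ‖z‖ ≤ c.z0) (y : E) : Injective (c.dtau z y) := by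
  rw [injective_iff_map_eq_zero]
  intro v hv
  have h := c.norm_dtau_sub_id_le_half hz y
  have h1 : ‖(c.dtau z y - ContinuousLinearMap.id ℝ E) v‖ ≤ 1 / 2 * ‖v‖ :=
    (ContinuousLinearMap.le_opNorm _ _).trans (mul_le_mul_of_nonneg_right h (norm_nonneg _))
  have h2 : (c.dtau z y - ContinuousLinearMap.id ℝ E) v = - v := by
    simp [hv]
  rw [h2, norm_neg] at h1
  have : ‖v‖ ≤ 0 := by linarith
  exact norm_le_zero_iff.mp this

lemma dTT_injective {z : E} (hz : ‖z‖ ≤ c.z0) (y : E) : Injective (c.dTT z y) := by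
  rw [injective_iff_map_eq_zero]
  rintro ⟨a, b⟩ h
  have h1 : a = 0 := by
    have := congrArg Prod.fst h
    simpa [dTT] using this
  subst h1
  have h2 : c.dtau z y b = 0 := by
    have := congrArg Prod.snd h
    simpa [dTT] using this
  have h3 : b = 0 := by
    apply c.dtau_injective hz y
    rw [h2, map_zero]
  rw [h3]
  rfl

/-- the derivative as an equivalence -/
def dTTe {z : E} (hz : ‖z‖ ≤ c.z0) (y : E) : (E × E) ≃L[ℝ] (E × E) :=
  (LinearEquiv.ofInjectiveEndo (c.dTT z y : E × E →ₗ[ℝ] E × E)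
    (c.dTT_injective hz y)).toContinuousLinearEquiv

lemma dTTe_coe {z : E} (hz : ‖z‖ ≤ c.z0) (y : E) :
    ((c.dTTe hz y : (E × E) ≃L[ℝ] (E × E)) : E × E →L[ℝ] E × E) = c.dTT z y := by
  ext v <;> rfl

/-- `(z, y) ↦ (z, tau z y)` as an open partial homeomorphism. -/
def TT : OpenPartialHomeomorph (E × E) (E × E) where
  toFun p := (p.1, c.tau p.1 p.2)
  invFun p := (p.1, c.sig p.1 p.2)
  source := ball 0 c.z0 ×ˢ univ
  target := ball 0 c.z0 ×ˢ univ
  map_source' := fun p hp => ⟨hp.1, mem_univ _⟩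
  map_target' := fun p hp => ⟨hp.1, mem_univ _⟩
  left_inv' := by
    rintro ⟨z, y⟩ hp
    have hz : ‖z‖ ≤ c.z0 := by
      have := hp.1
      simp only [mem_ball, dist_zero_right] at this
      exact this.le
    simp [c.sig_tau hz]
  right_inv' := by
    rintro ⟨z, y⟩ hp
    have hz : ‖z‖ ≤ c.z0 := by
      have := hp.1
      simp only [mem_ball, dist_zero_right] at this
      exact this.le
    simp [c.tau_sig hz]
  open_source := isOpen_ball.prod isOpen_univ
  open_target := isOpen_ball.prod isOpen_univ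
  continuousOn_toFun := (continuous_fst.prodMk c.contDiff_tau.continuous).continuousOn
  continuousOn_invFun := by
    refine continuousOn_fst.prodMk (c.continuousOn_sig.mono ?_)
    exact prod_mono ball_subset_closedBall le_rfl

/-- the inverse is jointly smooth. -/
lemma contDiffOn_sig :
    ContDiffOn ℝ ∞ (fun p : E × E => c.sig p.1 p.2) (ball 0 c.z0 ×ˢ univ) := by
  rintro ⟨z, x⟩ hp
  have hz : ‖z‖ ≤ c.z0 := by
    have := hp.1
    simp only [mem_ball, dist_zero_right] at this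
    exact this.le
  have h : ContDiffAt ℝ ∞ c.TT.symm (z, x) := by
    refine c.TT.contDiffAt_symm (f₀' := c.dTTe hz (c.sig z x)) hp ?_ ?_
    · rw [dTTe_coe]
      exact c.hasFDerivAt_TT z (c.sig z x)
    · exact (contDiff_fst.prodMk c.contDiff_tau).contDiffAt
  have h2 : ContDiffAt ℝ ∞ (fun p : E × E => c.sig p.1 p.2) (z, x) :=
    (contDiff_snd.contDiffAt (x := c.TT.symm (z, x))).comp (z, x) h
  exact h2.contDiffWithinAt

lemma contDiff_sig' {z : E} (hz : ‖z‖ < c.z0) : ContDiff ℝ ∞ (c.sig z) := by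
  rw [contDiff_iff_contDiffAt]
  intro x
  have hmem : (z, x) ∈ (ball (0 : E) c.z0 ×ˢ (univ : Set E)) := ⟨by simpa using hz, mem_univ _⟩
  have h : ContDiffAt ℝ ∞ (fun p : E × E => c.sig p.1 p.2) (z, x) :=
    (c.contDiffOn_sig (z, x) hmem).contDiffAt
      ((isOpen_ball.prod isOpen_univ).mem_nhds hmem)
  exact h.comp x (contDiff_const.prodMk contDiff_id).contDiffAt

end Smooth

end Cut

/-- existence of a cut-off equal to one on a neighbourhood of a compact set, supported in an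
open set. -/
theorem exists_cut [FiniteDimensional ℝ E] {K Ω : Set E} (hK : IsCompact K) (hΩ : IsOpen Ω)
    (hKΩ : K ⊆ Ω) :
    ∃ c : Cut E, tsupport c.θ ⊆ Ω ∧ (∀ᶠ y in 𝓝ˢ K, c.θ y = 1) ∧ ∀ y, c.θ y ∈ Icc (0 : ℝ) 1 := by
  have : ProperSpace E := FiniteDimensional.proper ℝ E
  obtain ⟨V, hVo, hKV, hVΩ, hVc⟩ := exists_open_between_and_isCompact_closure hK hΩ hKΩ
  obtain ⟨f, hf1, hf0, hf⟩ := exists_contMDiffMap_one_nhds_of_subset_interior
    (modelWithCornersSelf ℝ E) (n := (⊤ : ℕ∞)) hK.isClosed (t := V)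
    (hKV.trans (interior_eq_iff_isOpen.mpr hVo).ge)
  have hsm : ContDiff ℝ ∞ (f : E → ℝ) := f.contMDiff.contDiff
  have hts : tsupport (f : E → ℝ) ⊆ closure V := by
    apply closure_mono
    intro x hx
    by_contra h
    exact hx (hf0 x h)
  have hcs : HasCompactSupport (f : E → ℝ) := hVc.of_isClosed_subset isClosed_closure hts
  have hcs' : HasCompactSupport (fderiv ℝ (f : E → ℝ)) := hcs.fderiv (𝕜 := ℝ)
  obtain ⟨C, hC⟩ := hcs'.exists_bound_of_continuous (hsm.continuous_fderiv (by simp))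
  have hC0 : 0 ≤ C := (norm_nonneg _).trans (hC 0)
  refine ⟨⟨f, hsm, hcs, 1 / (2 * (C + 1)), by positivity, ?_⟩, hts.trans hVΩ, hf1, hf⟩
  intro y
  have h1 := hC y
  calc ‖fderiv ℝ (f : E → ℝ) y‖ * (1 / (2 * (C + 1))) ≤ (C + 1) * (1 / (2 * (C + 1))) := by
        apply mul_le_mul_of_nonneg_right (by linarith); positivity
    _ = 1 / 2 := by field_simp

/-- a smooth family of diffeomorphisms of `E`, equal to the identity off a compact set. -/
structure Fam (E : Type*) [NormedAddCommGroup E] [NormedSpace ℝ E] where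
  r : ℝ
  r_pos : 0 < r
  K : Set E
  isCompact : IsCompact K
  g : E → E → E
  gi : E → E → E
  smooth : ContDiffOn ℝ ∞ (fun p : E × E => g p.1 p.2) (ball 0 r ×ˢ univ)
  smoothi : ContDiffOn ℝ ∞ (fun p : E × E => gi p.1 p.2) (ball 0 r ×ˢ univ)
  left_inv : ∀ z ∈ ball (0 : E) r, ∀ y, gi z (g z y) = y
  right_inv : ∀ z ∈ ball (0 : E) r, ∀ y, g z (gi z y) = y
  id_off : ∀ z ∈ ball (0 : E) r, ∀ y, y ∉ K → g z y = y
  g_zero : ∀ y, g 0 y = y

namespace Fam

variable (G : Fam E)

lemma id_off' {z : E} (hz : z ∈ ball (0 : E) G.r) {y : E} (hy : y ∉ G.K) : G.gi z y = y := by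
  conv_lhs => rw [← G.id_off z hz y hy]
  exact G.left_inv z hz y

/-- the family of inverses -/
def symm : Fam E where
  r := G.r
  r_pos := G.r_pos
  K := G.K
  isCompact := G.isCompact
  g := G.gi
  gi := G.g
  smooth := G.smoothi
  smoothi := G.smooth
  left_inv := G.right_inv
  right_inv := G.left_inv
  id_off := fun _ hz _ hy => G.id_off' hz hy
  g_zero := fun y => by
    have h0 : (0 : E) ∈ ball (0 : E) G.r := by simpa using G.r_pos
    conv_lhs => rw [← G.g_zero y]
    exact G.left_inv 0 h0 y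

@[simp] lemma symm_r : G.symm.r = G.r := rfl
@[simp] lemma symm_K : G.symm.K = G.K := rfl
@[simp] lemma symm_g : G.symm.g = G.gi := rfl
@[simp] lemma symm_gi : G.symm.gi = G.g := rfl
@[simp] lemma symm_symm : G.symm.symm = G := rfl

lemma mem_K {z : E} (hz : z ∈ ball (0 : E) G.r) {y : E} (hy : y ∈ G.K) : G.g z y ∈ G.K := by
  by_contra h
  have h1 : G.gi z (G.g z y) = G.g z y := G.id_off' hz h
  rw [G.left_inv z hz] at h1
  exact h (h1 ▸ hy)

/-- a set containing `K` is preserved. -/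
lemma mem_of_mem {z : E} (hz : z ∈ ball (0 : E) G.r) {Ω : Set E} (hΩ : G.K ⊆ Ω) {y : E}
    (hy : y ∈ Ω) : G.g z y ∈ Ω := by
  by_cases h : y ∈ G.K
  · exact hΩ (G.mem_K hz h)
  · rwa [G.id_off z hz y h]

lemma mem_iff {z : E} (hz : z ∈ ball (0 : E) G.r) {Ω : Set E} (hΩ : G.K ⊆ Ω) {y : E} :
    G.g z y ∈ Ω ↔ y ∈ Ω := by
  refine ⟨fun h => ?_, G.mem_of_mem hz hΩ⟩
  have := G.symm.mem_of_mem (z := z) hz (Ω := Ω) hΩ h
  simpa [G.left_inv z hz] using this

lemma contDiff_g {z : E} (hz : z ∈ ball (0 : E) G.r) : ContDiff ℝ ∞ (G.g z) := by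
  rw [contDiff_iff_contDiffAt]
  intro y
  have hmem : (z, y) ∈ (ball (0 : E) G.r ×ˢ (univ : Set E)) := ⟨hz, mem_univ _⟩
  have h : ContDiffAt ℝ ∞ (fun p : E × E => G.g p.1 p.2) (z, y) :=
    (G.smooth (z, y) hmem).contDiffAt ((isOpen_ball.prod isOpen_univ).mem_nhds hmem)
  exact h.comp y (contDiff_const.prodMk contDiff_id).contDiffAt

/-- the derivative -/
def dg (z y : E) : E →L[ℝ] E := fderiv ℝ (G.g z) y

lemma hasFDerivAt_g {z : E} (hz : z ∈ ball (0 : E) G.r) (y : E) :
    HasFDerivAt (G.g z) (G.dg z y) y :=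
  ((G.contDiff_g hz).differentiable (by simp) y).hasFDerivAt

lemma dg_comp {z : E} (hz : z ∈ ball (0 : E) G.r) (y : E) :
    (G.symm.dg z (G.g z y)).comp (G.dg z y) = ContinuousLinearMap.id ℝ E := by
  have h1 : HasFDerivAt (G.gi z) (G.symm.dg z (G.g z y)) (G.g z y) := G.symm.hasFDerivAt_g hz _
  have h2 := h1.comp y (G.hasFDerivAt_g hz y)
  have h3 : G.gi z ∘ G.g z = id := funext fun y => G.left_inv z hz y
  rw [h3] at h2
  exact h2.unique (hasFDerivAt_id y)

lemma dg_comp' {z : E} (hz : z ∈ ball (0 : E) G.r) (x : E) :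
    (G.dg z (G.gi z x)).comp (G.symm.dg z x) = ContinuousLinearMap.id ℝ E := by
  have := G.symm.dg_comp hz x
  simpa using this

lemma dg_id_off {z : E} (hz : z ∈ ball (0 : E) G.r) {y : E} (hy : y ∉ G.K) :
    G.dg z y = ContinuousLinearMap.id ℝ E := by
  have h : G.g z =ᶠ[𝓝 y] id := by
    filter_upwards [G.isCompact.isClosed.isOpen_compl.mem_nhds hy] with x hx
    exact G.id_off z hz x hx
  rw [dg, h.fderiv_eq, fderiv_id]

/-- joint smoothness of the derivative -/
lemma contDiffOn_dg :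
    ContDiffOn ℝ ∞ (fun p : E × E => G.dg p.1 p.2) (ball 0 G.r ×ˢ univ) := by
  have ho : IsOpen (ball (0 : E) G.r ×ˢ (univ : Set E)) := isOpen_ball.prod isOpen_univ
  have h1 : ContDiffOn ℝ ∞ (fderiv ℝ (fun p : E × E => G.g p.1 p.2)) (ball 0 G.r ×ˢ univ) :=
    G.smooth.fderiv_of_isOpen ho (by simp)
  have h2 : ContDiffOn ℝ ∞ (fun p : E × E =>
      (fderiv ℝ (fun p : E × E => G.g p.1 p.2) p).comp (ContinuousLinearMap.inr ℝ E E))
      (ball 0 G.r ×ˢ univ) := h1.clm_comp contDiffOn_const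
  refine h2.congr ?_
  rintro ⟨z, y⟩ hp
  have h3 : HasFDerivAt (fun p : E × E => G.g p.1 p.2)
      (fderiv ℝ (fun p : E × E => G.g p.1 p.2) (z, y)) (z, y) :=
    (((G.smooth (z, y) hp).contDiffAt (ho.mem_nhds hp)).differentiableAt (by simp)).hasFDerivAt
  have h4 := h3.comp y (hasFDerivAt_prodMk_right z y)
  exact h4.fderiv

end Fam

section

variable [FiniteDimensional ℝ E]

/-- the family of one-chart translations. -/
def Cut.fam (c : Cut E) : Fam E :=
  haveI : CompleteSpace E := FiniteDimensional.complete ℝ E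
  { r := c.z0
    r_pos := c.z0_pos
    K := tsupport c.θ
    isCompact := c.comp
    g := c.tau
    gi := c.sig
    smooth := c.contDiff_tau.contDiffOn
    smoothi := c.contDiffOn_sig
    left_inv := fun z hz y => c.sig_tau (by simpa using (mem_ball_zero_iff.mp hz).le) y
    right_inv := fun z hz y => c.tau_sig (by simpa using (mem_ball_zero_iff.mp hz).le) y
    id_off := fun z _ y hy => c.tau_eq_self hy z
    g_zero := c.tau_zero }

lemma Cut.fam_g (c : Cut E) : c.fam.g = c.tau := rfl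
lemma Cut.fam_K (c : Cut E) : c.fam.K = tsupport c.θ := rfl
lemma Cut.fam_r (c : Cut E) : c.fam.r = c.z0 := rfl
lemma Cut.fam_dg (c : Cut E) (z y : E) : c.fam.dg z y = c.dtau z y := c.fderiv_tau z y

end

end

end Crest.Agent.R240.Sm
end

-- ▼ part R240/Sm2

/-!
# Row 240, block R (smoothing), part Sm2 (helper950)

The diffeomorphisms `psi G p z` of `M` given by a family `G` of diffeomorphisms of the model space
supported in the target of the chart at `p`, and the pull-back `pullG G p z b` of two-forms.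
-/

set_option autoImplicit false
set_option linter.unusedSectionVars false

open Set Function Filter Metric Bundle
open scoped Manifold ContDiff Topology

namespace Crest.Agent.R240.Sm

open Crest.Agent.R240.Ch

noncomputable section

section Defs

variable {E : Type*} [NormedAddCommGroup E] [NormedSpace ℝ E]
variable {M : Type*} [TopologicalSpace M] [ChartedSpace E M] [IsManifold 𝓘(ℝ, E) ∞ M]

/-- the pull-back of a bilinear form by a linear map. -/
def pb (b : E →L[ℝ] E →L[ℝ] ℝ) (D : E →L[ℝ] E) : E →L[ℝ] E →L[ℝ] ℝ := b.bilinearComp D D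

@[simp] lemma pb_apply (b : E →L[ℝ] E →L[ℝ] ℝ) (D : E →L[ℝ] E) (u v : E) :
    pb b D u v = b (D u) (D v) := rfl

lemma pb_comp (b : E →L[ℝ] E →L[ℝ] ℝ) (D D' : E →L[ℝ] E) :
    pb (pb b D) D' = pb b (D.comp D') := rfl

@[simp] lemma pb_id (b : E →L[ℝ] E →L[ℝ] ℝ) : pb b (ContinuousLinearMap.id ℝ E) = b := rfl

@[simp] lemma pb_zero (D : E →L[ℝ] E) : pb (0 : E →L[ℝ] E →L[ℝ] ℝ) D = 0 := rfl

lemma pb_add (b b' : E →L[ℝ] E →L[ℝ] ℝ) (D : E →L[ℝ] E) : pb (b + b') D = pb b D + pb b' D := rfl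

lemma pb_smul (t : ℝ) (b : E →L[ℝ] E →L[ℝ] ℝ) (D : E →L[ℝ] E) : pb (t • b) D = t • pb b D := rfl

/-- `pb` as a composition of continuous maps -/
lemma pb_eq (b : E →L[ℝ] E →L[ℝ] ℝ) (D : E →L[ℝ] E) :
    pb b D = ((ContinuousLinearMap.compL ℝ E E ℝ).flip D).comp (b.comp D) := by
  ext u v; rfl

lemma contDiff_pb {n : WithTop ℕ∞} :
    ContDiff ℝ n (fun w : (E →L[ℝ] E →L[ℝ] ℝ) × (E →L[ℝ] E) => pb w.1 w.2) := by
  simp only [pb_eq]
  have h0 : ContDiff ℝ n (fun D : E →L[ℝ] E => (ContinuousLinearMap.compL ℝ E E ℝ).flip D) :=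
    ContinuousLinearMap.contDiff _
  have h1 : ContDiff ℝ n (fun w : (E →L[ℝ] E →L[ℝ] ℝ) × (E →L[ℝ] E) =>
      (ContinuousLinearMap.compL ℝ E E ℝ).flip w.2) := h0.comp contDiff_snd
  have h2 : ContDiff ℝ n (fun w : (E →L[ℝ] E →L[ℝ] ℝ) × (E →L[ℝ] E) => w.1.comp w.2) :=
    contDiff_fst.clm_comp contDiff_snd
  exact h1.clm_comp h2

variable (G : Fam E) (p : M)

open Classical in
/-- the diffeomorphism of `M` given by `G.g z` in the chart at `p`. -/
def psi (z : E) (x : M) : M :=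
  if x ∈ (chartAt E p).source then (chartAt E p).symm (G.g z (chartAt E p x)) else x

open Classical in
/-- the pull-back of a two-form by `psi G p z`. -/
def pullG (z : E) (b : F2 E M) : F2 E M := fun x =>
  (if x ∈ (chartAt E p).source then
    pb (rep p b (G.g z (chartAt E p x))) ((G.dg z (chartAt E p x)).comp (tcc x p x))
   else at2 b x : E →L[ℝ] E →L[ℝ] ℝ)

/-- the pull-back of a function by `psi G p z`. -/
def pullF (z : E) (f : M → ℝ) : M → ℝ := fun x => f (psi G p z x)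

/-- the compact set off which nothing moves. -/
def KM : Set M := (chartAt E p).symm '' G.K

end Defs

section Basic

variable {E : Type*} [NormedAddCommGroup E] [NormedSpace ℝ E]
variable {M : Type*} [TopologicalSpace M] [ChartedSpace E M] [IsManifold 𝓘(ℝ, E) ∞ M]
variable {G : Fam E} {p : M}

omit [IsManifold 𝓘(ℝ, E) ∞ M] in
lemma psi_of_mem {x : M} (hx : x ∈ (chartAt E p).source) (z : E) :
    psi G p z x = (chartAt E p).symm (G.g z (chartAt E p x)) := if_pos hx

omit [IsManifold 𝓘(ℝ, E) ∞ M] in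
lemma psi_of_notMem {x : M} (hx : x ∉ (chartAt E p).source) (z : E) : psi G p z x = x := if_neg hx

lemma at2_pullG_of_mem {x : M} (hx : x ∈ (chartAt E p).source) (z : E) (b : F2 E M) :
    at2 (pullG G p z b) x =
      pb (rep p b (G.g z (chartAt E p x))) ((G.dg z (chartAt E p x)).comp (tcc x p x)) := if_pos hx

lemma at2_pullG_of_notMem {x : M} (hx : x ∉ (chartAt E p).source) (z : E) (b : F2 E M) :
    at2 (pullG G p z b) x = at2 b x := if_neg hx

lemma rep_eq_pb (q : M) (a : F2 E M) (y : E) :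
    rep q a y = pb (at2 a ((chartAt E q).symm y))
      (tcc q ((chartAt E q).symm y) ((chartAt E q).symm y)) := rfl

/-- the form at a point from its representation. -/
lemma at2_eq_pb {q x : M} (hx : x ∈ (chartAt E q).source) (a : F2 E M) :
    at2 a x = pb (rep q a (chartAt E q x)) (tcc x q x) := by
  ext u v
  exact apply_eq_rep hx a u v

lemma at2_eq_of_rep {q x : M} (hx : x ∈ (chartAt E q).source) {a b : F2 E M}
    (h : rep q a (chartAt E q x) = rep q b (chartAt E q x)) : at2 a x = at2 b x := by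
  rw [at2_eq_pb hx, at2_eq_pb hx, h]

/-- **the pull-back in the chart at `p`.** -/
lemma rep_pullG {y : E} (hy : y ∈ (chartAt E p).target) (z : E) (b : F2 E M) :
    rep p (pullG G p z b) y = pb (rep p b (G.g z y)) (G.dg z y) := by
  rw [rep_eq_pb, at2_pullG_of_mem (symm_mem hy), (chartAt E p).right_inv hy, pb_comp]
  ext u v
  simp only [pb_apply, ContinuousLinearMap.comp_apply]
  rw [tcc_cancel (symm_mem hy), tcc_cancel (symm_mem hy)]

omit [IsManifold 𝓘(ℝ, E) ∞ M] in
lemma isCompact_KM (hG : G.K ⊆ (chartAt E p).target) : IsCompact (KM G p) :=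
  G.isCompact.image_of_continuousOn ((chartAt E p).continuousOn_symm.mono hG)

omit [IsManifold 𝓘(ℝ, E) ∞ M] in
lemma isClosed_KM [T2Space M] (hG : G.K ⊆ (chartAt E p).target) : IsClosed (KM G p) :=
  (isCompact_KM hG).isClosed

omit [IsManifold 𝓘(ℝ, E) ∞ M] in
lemma KM_subset (hG : G.K ⊆ (chartAt E p).target) : KM G p ⊆ (chartAt E p).source := by
  rintro _ ⟨y, hy, rfl⟩
  exact symm_mem (hG hy)

omit [IsManifold 𝓘(ℝ, E) ∞ M] in
lemma notMem_K_of {x : M} (hx : x ∈ (chartAt E p).source) (h : x ∉ KM G p) :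
    chartAt E p x ∉ G.K := fun h' => h ⟨_, h', (chartAt E p).left_inv hx⟩

omit [IsManifold 𝓘(ℝ, E) ∞ M] in
/-- the chart at `p` of the moved point -/
lemma chart_psi (hG : G.K ⊆ (chartAt E p).target) {z : E} (hz : z ∈ ball (0 : E) G.r) {x : M}
    (hx : x ∈ (chartAt E p).source) :
    psi G p z x ∈ (chartAt E p).source ∧ chartAt E p (psi G p z x) = G.g z (chartAt E p x) := by
  have h1 : G.g z (chartAt E p x) ∈ (chartAt E p).target :=
    G.mem_of_mem hz hG ((chartAt E p).map_source hx)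
  rw [psi_of_mem hx]
  exact ⟨symm_mem h1, (chartAt E p).right_inv h1⟩

omit [IsManifold 𝓘(ℝ, E) ∞ M] in
lemma psi_symm (z : E) {y : E}
    (hy : y ∈ (chartAt E p).target) :
    psi G p z ((chartAt E p).symm y) = (chartAt E p).symm (G.g z y) := by
  rw [psi_of_mem (symm_mem hy), (chartAt E p).right_inv hy]

omit [IsManifold 𝓘(ℝ, E) ∞ M] in
lemma psi_off {z : E} (hz : z ∈ ball (0 : E) G.r) {x : M} (hx : x ∉ KM G p) :
    psi G p z x = x := by
  by_cases h : x ∈ (chartAt E p).source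
  · rw [psi_of_mem h, G.id_off z hz _ (notMem_K_of h hx), (chartAt E p).left_inv h]
  · exact psi_of_notMem h z

omit [IsManifold 𝓘(ℝ, E) ∞ M] in
lemma psi_zero (x : M) : psi G p 0 x = x := by
  by_cases h : x ∈ (chartAt E p).source
  · rw [psi_of_mem h, G.g_zero, (chartAt E p).left_inv h]
  · exact psi_of_notMem h 0

omit [IsManifold 𝓘(ℝ, E) ∞ M] in
lemma psi_mem_iff (hG : G.K ⊆ (chartAt E p).target) {z : E} (hz : z ∈ ball (0 : E) G.r) (x : M) :
    psi G p z x ∈ (chartAt E p).source ↔ x ∈ (chartAt E p).source := by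
  by_cases h : x ∈ (chartAt E p).source
  · exact ⟨fun _ => h, fun _ => (chart_psi hG hz h).1⟩
  · rw [psi_of_notMem h]

omit [IsManifold 𝓘(ℝ, E) ∞ M] in
lemma psi_symm_psi (hG : G.K ⊆ (chartAt E p).target) {z : E} (hz : z ∈ ball (0 : E) G.r)
    (x : M) : psi G.symm p z (psi G p z x) = x := by
  by_cases h : x ∈ (chartAt E p).source
  · obtain ⟨h1, h2⟩ := chart_psi hG hz h
    rw [psi_of_mem h1, h2, Fam.symm_g, G.left_inv z hz, (chartAt E p).left_inv h]
  · rw [psi_of_notMem h, psi_of_notMem h]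

omit [IsManifold 𝓘(ℝ, E) ∞ M] in
lemma psi_psi_symm (hG : G.K ⊆ (chartAt E p).target) {z : E} (hz : z ∈ ball (0 : E) G.r)
    (x : M) : psi G p z (psi G.symm p z x) = x :=
  psi_symm_psi (G := G.symm) hG hz x

/-- off the compact set the pull-back does not change anything. -/
lemma pullG_off {z : E} (hz : z ∈ ball (0 : E) G.r) {x : M} (hx : x ∉ KM G p) (b : F2 E M) :
    at2 (pullG G p z b) x = at2 b x := by
  by_cases h : x ∈ (chartAt E p).source
  · have h1 := notMem_K_of h hx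
    rw [at2_pullG_of_mem h, G.id_off z hz _ h1, G.dg_id_off hz h1, at2_eq_pb h b]
    rfl
  · exact at2_pullG_of_notMem h z b

lemma pullG_zero (b : F2 E M) : pullG G p 0 b = b := by
  funext x
  change at2 (pullG G p 0 b) x = at2 b x
  by_cases h : x ∈ (chartAt E p).source
  · have h2 : G.g 0 = id := funext G.g_zero
    have h1 : G.dg 0 (chartAt E p x) = ContinuousLinearMap.id ℝ E := by
      rw [Fam.dg, h2, fderiv_id]
    rw [at2_pullG_of_mem h, G.g_zero, h1, at2_eq_pb h b]
    rfl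
  · exact at2_pullG_of_notMem h 0 b

lemma pullG_add (z : E) (a b : F2 E M) : pullG G p z (a + b) = pullG G p z a + pullG G p z b := by
  funext x
  change at2 (pullG G p z (a + b)) x = at2 (pullG G p z a) x + at2 (pullG G p z b) x
  by_cases h : x ∈ (chartAt E p).source
  · rw [at2_pullG_of_mem h, at2_pullG_of_mem h, at2_pullG_of_mem h, ← pb_add]
    rfl
  · rw [at2_pullG_of_notMem h, at2_pullG_of_notMem h, at2_pullG_of_notMem h]
    rfl

lemma pullG_smul (z : E) (t : ℝ) (b : F2 E M) : pullG G p z (t • b) = t • pullG G p z b := by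
  funext x
  change at2 (pullG G p z (t • b)) x = t • at2 (pullG G p z b) x
  by_cases h : x ∈ (chartAt E p).source
  · rw [at2_pullG_of_mem h, at2_pullG_of_mem h, ← pb_smul]
    rfl
  · rw [at2_pullG_of_notMem h, at2_pullG_of_notMem h]
    rfl

lemma pullG_symm_pullG (hG : G.K ⊆ (chartAt E p).target) {z : E} (hz : z ∈ ball (0 : E) G.r)
    (b : F2 E M) : pullG G.symm p z (pullG G p z b) = b := by
  funext x
  change at2 (pullG G.symm p z (pullG G p z b)) x = at2 b x
  by_cases h : x ∈ (chartAt E p).source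
  · have ht := (chartAt E p).map_source h
    refine at2_eq_of_rep h ?_
    have ht' : G.symm.g z (chartAt E p x) ∈ (chartAt E p).target := G.symm.mem_of_mem hz hG ht
    rw [rep_pullG ht, rep_pullG ht', Fam.symm_g, G.right_inv z hz, pb_comp, G.dg_comp' hz, pb_id]
  · rw [at2_pullG_of_notMem h, at2_pullG_of_notMem h]

lemma pullG_pullG_symm (hG : G.K ⊆ (chartAt E p).target) {z : E} (hz : z ∈ ball (0 : E) G.r)
    (b : F2 E M) : pullG G p z (pullG G.symm p z b) = b :=
  pullG_symm_pullG (G := G.symm) hG hz b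

lemma pullG_fmul (z : E)
    (f : M → ℝ) (b : F2 E M) :
    pullG G p z (fmul f b) = fmul (pullF G p z f) (pullG G p z b) := by
  funext x
  change at2 (pullG G p z (fmul f b)) x = f (psi G p z x) • at2 (pullG G p z b) x
  by_cases h : x ∈ (chartAt E p).source
  · rw [at2_pullG_of_mem h, at2_pullG_of_mem h, psi_of_mem h]
    rfl
  · rw [at2_pullG_of_notMem h, at2_pullG_of_notMem h, psi_of_notMem h]
    rfl

lemma pullG_alt {b : F2 E M} (hb : ∀ x v, at2 b x v v = 0) (z : E) (x : M) (v : E) :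
    at2 (pullG G p z b) x v v = 0 := by
  by_cases h : x ∈ (chartAt E p).source
  · rw [at2_pullG_of_mem h, pb_apply, rep_eq_pb, pb_apply]
    exact hb _ _
  · rw [at2_pullG_of_notMem h]
    exact hb _ _

omit [IsManifold 𝓘(ℝ, E) ∞ M] in
/-- a function in the chart at `p` -/
lemma repF_pullF {y : E} (hy : y ∈ (chartAt E p).target) (z : E) (f : M → ℝ) :
    repF (E := E) p (pullF G p z f) y = repF p f (G.g z y) := by
  rw [repF, repF, pullF, psi_of_mem (symm_mem hy), (chartAt E p).right_inv hy]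

end Basic

/-! ### smooth dependence -/

section Smooth

variable {E : Type*} [NormedAddCommGroup E] [NormedSpace ℝ E]
variable {M : Type*} [TopologicalSpace M] [ChartedSpace E M] [IsManifold 𝓘(ℝ, E) ∞ M]
variable {G : Fam E} {p : M}
variable {Z : Type*} [NormedAddCommGroup Z] [NormedSpace ℝ Z]

lemma tcc_eq_fderiv_at {q p : M} {y : E} (hy : y ∈ (chartAt E q).target) :
    tcc q p ((chartAt E q).symm y) = fderiv ℝ (Ch.trans (E := E) q p) y := by
  rw [tcc_eq_fderiv_trans, (chartAt E q).right_inv hy]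

/-- change of chart for representations. -/
lemma rep_change {q p : M} {y : E} (hy : y ∈ (chartAt E q).target)
    (hp : (chartAt E q).symm y ∈ (chartAt E p).source) (a : F2 E M) :
    rep q a y = pb (rep p a (Ch.trans (E := E) q p y)) (fderiv ℝ (Ch.trans (E := E) q p) y) := by
  ext u v
  exact rep_pullback hy hp a u v

/-- joint smoothness at a point of a family of forms does not depend on the chart. -/
lemma jsmooth_change {β : Z → F2 E M} {q p x : M} (hq : x ∈ (chartAt E q).source)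
    (hp : x ∈ (chartAt E p).source) {z : Z}
    (h : ContDiffAt ℝ ∞ (fun w : Z × E => rep p (β w.1) w.2) (z, chartAt E p x)) :
    ContDiffAt ℝ ∞ (fun w : Z × E => rep q (β w.1) w.2) (z, chartAt E q x) := by
  have hy : chartAt E q x ∈ (chartAt E q).target := (chartAt E q).map_source hq
  have hpx : (chartAt E q).symm (chartAt E q x) ∈ (chartAt E p).source := by
    rw [(chartAt E q).left_inv hq]; exact hp
  have ht := trans_contDiffAt hy hpx
  have ht' : ContDiffAt ℝ ∞ (fderiv ℝ (Ch.trans (E := E) q p)) (chartAt E q x) :=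
    ht.fderiv_right (by simp)
  have htx : Ch.trans (E := E) q p (chartAt E q x) = chartAt E p x := trans_apply hq
  have h1 : ContDiffAt ℝ ∞ (fun w : Z × E => rep p (β w.1) (Ch.trans (E := E) q p w.2))
      (z, chartAt E q x) := by
    have h2 : ContDiffAt ℝ ∞ (fun w : Z × E => (w.1, Ch.trans (E := E) q p w.2))
        (z, chartAt E q x) :=
      contDiffAt_fst.prodMk (ContDiffAt.comp (z, chartAt E q x) (g := Ch.trans (E := E) q p)
        (f := fun w : Z × E => w.2) ht contDiffAt_snd)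
    have h3 : ContDiffAt ℝ ∞ (fun w : Z × E => rep p (β w.1) w.2)
        ((fun w : Z × E => (w.1, Ch.trans (E := E) q p w.2)) (z, chartAt E q x)) := by
      simp only [htx]; exact h
    exact ContDiffAt.comp (z, chartAt E q x) (g := fun w : Z × E => rep p (β w.1) w.2)
      (f := fun w : Z × E => (w.1, Ch.trans (E := E) q p w.2)) h3 h2
  have h4 : ContDiffAt ℝ ∞ (fun w : Z × E => fderiv ℝ (Ch.trans (E := E) q p) w.2)
      (z, chartAt E q x) :=
    ContDiffAt.comp (z, chartAt E q x) (g := fderiv ℝ (Ch.trans (E := E) q p))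
      (f := fun w : Z × E => w.2) ht' contDiffAt_snd
  have h5 := (contDiff_pb (E := E) (n := ∞)).contDiffAt.comp (z, chartAt E q x) (h1.prodMk h4)
  refine h5.congr_of_eventuallyEq ?_
  have hev : ∀ᶠ y in 𝓝 (chartAt E q x), y ∈ (chartAt E q).target ∧
      (chartAt E q).symm y ∈ (chartAt E p).source := by
    have h6 := (chartAt E q).open_target.mem_nhds hy
    have h7 : (chartAt E q).symm ⁻¹' (chartAt E p).source ∈ 𝓝 (chartAt E q x) :=
      ((chartAt E q).continuousAt_symm hy).preimage_mem_nhds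
        ((chartAt E p).open_source.mem_nhds hpx)
    filter_upwards [h6, h7] with y h6 h7 using ⟨h6, h7⟩
  have hev2 : ∀ᶠ w : Z × E in 𝓝 (z, chartAt E q x), w.2 ∈ (chartAt E q).target ∧
      (chartAt E q).symm w.2 ∈ (chartAt E p).source :=
    (continuous_snd.tendsto (z, chartAt E q x)).eventually hev
  filter_upwards [hev2] with w hw
  exact rep_change hw.1 hw.2 (β w.1)

/-- **joint smoothness of the pull-back** in all charts. -/
theorem contDiffOn_rep_pullG [T2Space M] (hG : G.K ⊆ (chartAt E p).target) {b : F2 E M}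
    (hb : Smooth2 b) (q : M) :
    ContDiffOn ℝ ∞ (fun w : E × E => rep q (pullG G p w.1 b) w.2)
      (ball 0 G.r ×ˢ (chartAt E q).target) := by
  rintro ⟨z, y⟩ ⟨hz, hy⟩
  apply ContDiffAt.contDiffWithinAt
  have hbz : ball (0 : E) G.r ∈ 𝓝 z := isOpen_ball.mem_nhds hz
  by_cases hx : (chartAt E q).symm y ∈ (chartAt E p).source
  · have h := jsmooth_change (β := fun z => pullG G p z b) (symm_mem hy) hx (z := z) ?_
    · rwa [(chartAt E q).right_inv hy] at h
    set t := chartAt E p ((chartAt E q).symm y) with ht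
    have htt : t ∈ (chartAt E p).target := (chartAt E p).map_source hx
    have hgt : G.g z t ∈ (chartAt E p).target := G.mem_of_mem hz hG htt
    have hmem : (z, t) ∈ (ball (0 : E) G.r ×ˢ (univ : Set E)) := ⟨hz, mem_univ _⟩
    have ho : (ball (0 : E) G.r ×ˢ (univ : Set E)) ∈ 𝓝 (z, t) :=
      (isOpen_ball.prod isOpen_univ).mem_nhds hmem
    have h1 : ContDiffAt ℝ ∞ (fun w : E × E => G.g w.1 w.2) (z, t) :=
      (G.smooth (z, t) hmem).contDiffAt ho
    have h2 : ContDiffAt ℝ ∞ (fun w : E × E => G.dg w.1 w.2) (z, t) :=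
      (G.contDiffOn_dg (z, t) hmem).contDiffAt ho
    have h3 : ContDiffAt ℝ ∞ (rep p b) (G.g z t) := contDiffOn_chart_iff.1 (hb.2 p) _ hgt
    have h4 : ContDiffAt ℝ ∞ (fun w : E × E => rep p b (G.g w.1 w.2)) (z, t) :=
      ContDiffAt.comp (z, t) (g := rep p b) (f := fun w : E × E => G.g w.1 w.2) h3 h1
    have h5 := (contDiff_pb (E := E) (n := ∞)).contDiffAt.comp (z, t) (h4.prodMk h2)
    refine h5.congr_of_eventuallyEq ?_
    have h6 : ∀ᶠ w : E × E in 𝓝 (z, t), w.2 ∈ (chartAt E p).target :=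
      (continuous_snd.tendsto (z, t)).eventually ((chartAt E p).open_target.mem_nhds htt)
    filter_upwards [h6] with w hw
    exact rep_pullG hw w.1 b
  · have hx' : (chartAt E q).symm y ∉ KM G p := fun h => hx (KM_subset hG h)
    have h1 : ContDiffAt ℝ ∞ (fun w : E × E => rep q b w.2) (z, y) :=
      ContDiffAt.comp (z, y) (g := rep q b) (f := fun w : E × E => w.2)
        (contDiffOn_chart_iff.1 (hb.2 q) y hy) contDiffAt_snd
    refine h1.congr_of_eventuallyEq ?_
    have h2 : ∀ᶠ y' in 𝓝 y, (chartAt E q).symm y' ∉ KM G p :=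
      ((chartAt E q).continuousAt_symm hy).preimage_mem_nhds
        ((isClosed_KM hG).isOpen_compl.mem_nhds hx')
    have h3 : ∀ᶠ w : E × E in 𝓝 (z, y), (chartAt E q).symm w.2 ∉ KM G p :=
      (continuous_snd.tendsto (z, y)).eventually h2
    have h4 : ∀ᶠ w : E × E in 𝓝 (z, y), w.1 ∈ ball (0 : E) G.r :=
      (continuous_fst.tendsto (z, y)).eventually hbz
    filter_upwards [h3, h4] with w hw hw2
    rw [rep_eq_pb, rep_eq_pb, pullG_off hw2 hw]

theorem smooth2_pullG [T2Space M] (hG : G.K ⊆ (chartAt E p).target) {b : F2 E M}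
    (hb : Smooth2 b) {z : E} (hz : z ∈ ball (0 : E) G.r) : Smooth2 (pullG G p z b) := by
  refine ⟨fun x v => pullG_alt hb.1 z x v, fun q y hy => ?_⟩
  have h := (contDiffOn_rep_pullG hG hb q (z, y) ⟨hz, hy⟩).contDiffAt
    ((isOpen_ball.prod (chartAt E q).open_target).mem_nhds ⟨hz, hy⟩)
  exact (ContDiffAt.comp y (g := fun w : E × E => rep q (pullG G p w.1 b) w.2)
    (f := fun y => (z, y)) h (contDiffAt_const.prodMk contDiffAt_id)).contDiffWithinAt

end Smooth

end

end Crest.Agent.R240.Sm
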