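import Crest.Agent.R240.SmJet

/-!
# Row 240, block R (helper245): jets in a parameter family

* `jy j g (x, y)` : the `j`-th derivative of `g (x, ·)` at `y`; jointly smooth (`contDiffOn_jy`);
* `jy_dx` : commutes with the directional derivative in `x`;
* `exists_ext` : a functional bounded by `‖T b‖` extends to the target of `T`.
-/

set_option autoImplicit false
set_option linter.unusedSectionVars false
open Set Filter Topology
open scoped ContDiff

namespace Crest.Agent.R240.SmJ

section jets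
variable {E E' : Type} [NormedAddCommGroup E] [NormedSpace ℝ E]
  [NormedAddCommGroup E'] [NormedSpace ℝ E']
  {V : Type} [NormedAddCommGroup V] [NormedSpace ℝ V]

/-- the `j`-th derivative in the second variable -/
noncomputable def jy (j : ℕ) (g : E × E' → V) (p : E × E') : E' [×j]→L[ℝ] V :=
  iteratedFDeriv ℝ j (fun y => g (p.1, y)) p.2

/-- currying, order zero -/
noncomputable def cur0 (E' : Type) [NormedAddCommGroup E'] [NormedSpace ℝ E'] (V : Type)
    [NormedAddCommGroup V] [NormedSpace ℝ V] : V →L[ℝ] (E' [×0]→L[ℝ] V) :=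
  (continuousMultilinearCurryFin0 ℝ E' V).symm.toContinuousLinearEquiv

/-- currying -/
noncomputable def curL (E' : Type) [NormedAddCommGroup E'] [NormedSpace ℝ E'] (V : Type)
    [NormedAddCommGroup V] [NormedSpace ℝ V] (j : ℕ) :
    (E' →L[ℝ] (E' [×j]→L[ℝ] V)) →L[ℝ] (E' [×(j + 1)]→L[ℝ] V) :=
  (continuousMultilinearCurryLeftEquiv ℝ (fun _ : Fin (j + 1) => E') V).symm.toContinuousLinearEquiv

theorem jy_zero (g : E × E' → V) : jy 0 g = fun p => cur0 E' V (g p) := rfl

theorem jy_succ {s : Set (E × E')} (hs : IsOpen s) {j : ℕ} {g : E × E' → V}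
    (hg : ContDiffOn ℝ ∞ (jy j g) s) {p : E × E'} (hp : p ∈ s) :
    jy (j + 1) g p = curL E' V j (dy (jy j g) p) := by
  have h1 : fderiv ℝ (fun y => jy j g (p.1, y)) p.2 = dy (jy j g) p :=
    (hasFDerivAt_dy ((hg.contDiffAt (hs.mem_nhds hp)).differentiableAt (by simp))).fderiv
  rw [← h1]
  rfl

theorem contDiffOn_jy {s : Set (E × E')} (hs : IsOpen s) {g : E × E' → V}
    (hg : ContDiffOn ℝ ∞ g s) (j : ℕ) : ContDiffOn ℝ ∞ (jy j g) s := by
  induction j with
  | zero =>
    rw [jy_zero]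
    exact (cur0 E' V).contDiff.comp_contDiffOn hg
  | succ j ih =>
    have h0 : ContDiff ℝ ∞ (curL E' V j) := ContinuousLinearMap.contDiff _
    have h1 : ContDiffOn ℝ ∞ (fun p => curL E' V j (dy (jy j g) p)) s :=
      h0.comp_contDiffOn (contDiffOn_dy hs ih)
    exact h1.congr fun p hp => jy_succ hs ih hp


theorem dx_eventuallyEq {g g' : E × E' → V} {p : E × E'} (h : g =ᶠ[𝓝 p] g') :
    dx g p = dx g' p := by
  unfold dx
  rw [h.fderiv_eq]

theorem dy_eventuallyEq {g g' : E × E' → V} {p : E × E'} (h : g =ᶠ[𝓝 p] g') :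
    dy g p = dy g' p := by
  unfold dy
  rw [h.fderiv_eq]


end jets

/-! ### extension of functionals -/

/-- Hahn-Banach through a linear map. -/
theorem exists_ext {Ω : Type} [AddCommGroup Ω] [Module ℝ Ω] {X : Type} [NormedAddCommGroup X]
    [NormedSpace ℝ X] (T : Ω →ₗ[ℝ] X) (L : Ω →ₗ[ℝ] ℝ) (C : ℝ) (h : ∀ b, |L b| ≤ C * ‖T b‖) :
    ∃ Λ : X →L[ℝ] ℝ, ∀ b, Λ (T b) = L b := by
  have hker : L ∈ (LinearMap.ker T).dualAnnihilator := by
    rw [Submodule.mem_dualAnnihilator]
    intro b hb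
    have h1 := h b
    rw [LinearMap.mem_ker.1 hb, norm_zero, mul_zero] at h1
    exact abs_nonpos_iff.1 h1
  rw [← LinearMap.range_dualMap_eq_dualAnnihilator_ker, LinearMap.mem_range] at hker
  obtain ⟨f, hf⟩ := hker
  have hfT : ∀ b, f (T b) = L b := fun b => by
    have := LinearMap.congr_fun hf b
    simpa using this
  let f0 : StrongDual ℝ (LinearMap.range T) :=
    LinearMap.mkContinuous (f.comp (LinearMap.range T).subtype) C (by
      rintro ⟨x, b, rfl⟩
      have := h b
      rw [← hfT] at this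
      simpa using this)
  obtain ⟨g, hg, -⟩ := _root_.exists_extension_norm_eq (LinearMap.range T) f0
  refine ⟨g, fun b => ?_⟩
  have h1 := hg ⟨T b, b, rfl⟩
  have h2 : f0 ⟨T b, b, rfl⟩ = f (T b) := rfl
  rw [← hfT, ← h2]
  exact h1

end Crest.Agent.R240.SmJ
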