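import Mathlib
import Crest.Agent.R240.Sm2
import Crest.Agent.R240.SmJoint
import Crest.Agent.R240.SmJet2
import Crest.Agent.R240.XDefs
import Crest.Agent.R240.Sm2d
import Crest.Agent.R240.SmCr2
import Crest.Agent.R240.Sm7b

-- ▼ part R240/LkT
section

/-!
# Row 240, block R (smoothing), LEAK part (ii) (helper404)

Composed one-chart pull-backs `PP z`, their inverses `QQ z`, the conjugated projections
`TT z = QQ z ∘ bpp J ∘ PP z`; joint smoothness; tensoriality.
-/

set_option autoImplicit false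
set_option maxSynthPendingDepth 3
set_option linter.unusedSectionVars false

open Set Function Filter Metric Bundle
open scoped Manifold ContDiff Topology

namespace Crest.Agent.R240.Leak

open Crest.Agent.R240.Ch Crest.Agent.R240.Sm

noncomputable section

section General

variable {E : Type*} [NormedAddCommGroup E] [NormedSpace ℝ E]
variable {M : Type*} [TopologicalSpace M] [ChartedSpace E M] [IsManifold 𝓘(ℝ, E) ∞ M]
variable {W : Type*} [NormedAddCommGroup W] [NormedSpace ℝ W]

/-! ### joint smoothness of a family of forms at a point -/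

/-- joint smoothness at `(w, x)` of a family of forms. -/
def JAt (β : W → F2 E M) (w : W) (x : M) : Prop :=
  ∀ q : M, x ∈ (chartAt E q).source →
    ContDiffAt ℝ ∞ (fun v : W × E => rep q (β v.1) v.2) (w, chartAt E q x)

lemma JAt.of {β : W → F2 E M} {w : W} {x p : M} (hp : x ∈ (chartAt E p).source)
    (h : ContDiffAt ℝ ∞ (fun v : W × E => rep p (β v.1) v.2) (w, chartAt E p x)) : JAt β w x :=
  fun _ hq => jsmooth_change hq hp h

lemma JAt.of_contDiffOn {β : W → F2 E M} {U : Set W} (hU : IsOpen U)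
    (h : ∀ q : M, ContDiffOn ℝ ∞ (fun v : W × E => rep q (β v.1) v.2) (U ×ˢ (chartAt E q).target))
    {w : W} (hw : w ∈ U) (x : M) : JAt β w x := fun q hq =>
  (h q (w, chartAt E q x) ⟨hw, (chartAt E q).map_source hq⟩).contDiffAt
    ((hU.prod (chartAt E q).open_target).mem_nhds ⟨hw, (chartAt E q).map_source hq⟩)

lemma contDiffOn_of_JAt {β : W → F2 E M} {U : Set W}
    (h : ∀ w ∈ U, ∀ x : M, JAt β w x) (q : M) :
    ContDiffOn ℝ ∞ (fun v : W × E => rep q (β v.1) v.2) (U ×ˢ (chartAt E q).target) := by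
  rintro ⟨w, y⟩ ⟨hw, hy⟩
  have h1 := h w hw _ q (symm_mem hy)
  rw [(chartAt E q).right_inv hy] at h1
  exact h1.contDiffWithinAt

lemma JAt.const {b : F2 E M} (hb : Smooth2 b) (w : W) (x : M) : JAt (fun _ => b) w x := by
  intro q hq
  exact ContDiffAt.comp (w, chartAt E q x) (g := rep q b) (f := fun v : W × E => v.2)
    (contDiffOn_chart_iff.1 (hb.2 q) _ ((chartAt E q).map_source hq)) contDiffAt_snd

/-- eventual equality near a point of `W × M`, in charts. -/
lemma JAt.congr {β γ : W → F2 E M} {w : W} {x p : M} (hp : x ∈ (chartAt E p).source)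
    (h : JAt γ w x)
    (he : ∀ᶠ v : W × E in 𝓝 (w, chartAt E p x), rep p (β v.1) v.2 = rep p (γ v.1) v.2) :
    JAt β w x :=
  JAt.of hp ((h p hp).congr_of_eventuallyEq he)



lemma rep_fmul (q : M) (f : M → ℝ) (a : F2 E M) (y : E) :
    rep q (fmul f a) y = repF q f y • rep q a y := rfl

lemma JAt.add {β γ : W → F2 E M} {w : W} {x : M} (h : JAt β w x) (h' : JAt γ w x) :
    JAt (fun v => β v + γ v) w x := fun q hq => (h q hq).add (h' q hq)

lemma JAt.smul {β : W → F2 E M} {r : W → ℝ} {w : W} {x : M} (hr : ContDiffAt ℝ ∞ r w)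
    (h : JAt β w x) : JAt (fun v => r v • β v) w x := by
  intro q hq
  have h1 : ContDiffAt ℝ ∞ (fun v : W × E => r v.1) (w, chartAt E q x) :=
    ContDiffAt.comp (w, chartAt E q x) (g := r) (f := fun v : W × E => v.1) hr contDiffAt_fst
  have h2 : ContDiffAt ℝ ∞ (fun v : W × E => r v.1 • rep q (β v.1) v.2) (w, chartAt E q x) :=
    h1.smul (h q hq)
  exact h2

lemma JAt.sum {κ : Type*} (s : Finset κ) {β : κ → W → F2 E M} {w : W} {x : M}
    (h : ∀ k ∈ s, JAt (β k) w x) : JAt (fun v => ∑ k ∈ s, β k v) w x := by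
  classical
  induction s using Finset.induction_on with
  | empty =>
    intro q hq
    have : (fun v : W × E => rep q (∑ k ∈ (∅ : Finset κ), β k v.1) v.2)
        = fun _ => (0 : E →L[ℝ] E →L[ℝ] ℝ) := by
      funext v
      simp only [Finset.sum_empty]
      rfl
    rw [this]
    exact contDiffAt_const
  | insert a s ha ih =>
    simp only [Finset.sum_insert ha]
    exact (h a (Finset.mem_insert_self a s)).add (ih fun k hk => h k (Finset.mem_insert_of_mem hk))


/-- **joint smoothness of the pull-back, parameter version** -/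
theorem JAt.pullG [T2Space M] {G : Fam E} {p : M} (hG : G.K ⊆ (chartAt E p).target) {ζ : W → E}
    {β : W → F2 E M} {w : W} {x : M} (hζ : ContDiffAt ℝ ∞ ζ w) (hz : ζ w ∈ ball (0 : E) G.r)
    (h : JAt β w (psi G p (ζ w) x)) : JAt (fun v => pullG G p (ζ v) (β v)) w x := by
  by_cases hx : x ∈ (chartAt E p).source
  · refine JAt.of hx ?_
    obtain ⟨h1, h2⟩ := chart_psi hG hz hx
    set t := chartAt E p x with ht
    have htt : t ∈ (chartAt E p).target := (chartAt E p).map_source hx
    have hgt : G.g (ζ w) t ∈ (chartAt E p).target := G.mem_of_mem hz hG htt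
    have hmem : (ζ w, t) ∈ (ball (0 : E) G.r ×ˢ (univ : Set E)) := ⟨hz, mem_univ _⟩
    have ho : (ball (0 : E) G.r ×ˢ (univ : Set E)) ∈ 𝓝 (ζ w, t) :=
      (isOpen_ball.prod isOpen_univ).mem_nhds hmem
    have hζ2 : ContDiffAt ℝ ∞ (fun v : W × E => (ζ v.1, v.2)) (w, t) :=
      (ContDiffAt.comp (w, t) (g := ζ) (f := fun v : W × E => v.1) hζ
        contDiffAt_fst).prodMk contDiffAt_snd
    have h3 : ContDiffAt ℝ ∞ (fun v : W × E => G.g (ζ v.1) v.2) (w, t) :=
      ContDiffAt.comp (w, t) (g := fun v : E × E => G.g v.1 v.2)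
        (f := fun v : W × E => (ζ v.1, v.2)) ((G.smooth (ζ w, t) hmem).contDiffAt ho) hζ2
    have h4 : ContDiffAt ℝ ∞ (fun v : W × E => G.dg (ζ v.1) v.2) (w, t) :=
      ContDiffAt.comp (w, t) (g := fun v : E × E => G.dg v.1 v.2)
        (f := fun v : W × E => (ζ v.1, v.2)) ((G.contDiffOn_dg (ζ w, t) hmem).contDiffAt ho) hζ2
    have h5 := h p h1
    rw [h2] at h5
    have h6 : ContDiffAt ℝ ∞ (fun v : W × E => (v.1, G.g (ζ v.1) v.2)) (w, t) :=
      contDiffAt_fst.prodMk h3
    have h7 : ContDiffAt ℝ ∞ (fun v : W × E => rep p (β v.1) (G.g (ζ v.1) v.2)) (w, t) :=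
      ContDiffAt.comp (w, t) (g := fun v : W × E => rep p (β v.1) v.2)
        (f := fun v : W × E => (v.1, G.g (ζ v.1) v.2)) h5 h6
    have h8 := (contDiff_pb (E := E) (n := ∞)).contDiffAt.comp (w, t) (h7.prodMk h4)
    refine h8.congr_of_eventuallyEq ?_
    have h9 : ∀ᶠ v : W × E in 𝓝 (w, t), v.2 ∈ (chartAt E p).target :=
      (continuous_snd.tendsto (w, t)).eventually ((chartAt E p).open_target.mem_nhds htt)
    filter_upwards [h9] with v hv
    exact rep_pullG hv (ζ v.1) (β v.1)
  · have hx' : x ∉ KM G p := fun h => hx (KM_subset hG h)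
    rw [psi_off hz hx'] at h
    refine JAt.congr (mem_chart_source E x) h ?_
    have hc : ContinuousAt (chartAt E x).symm (chartAt E x x) :=
      (chartAt E x).continuousAt_symm (mem_chart_target E x)
    have hn : (KM G p)ᶜ ∈ 𝓝 ((chartAt E x).symm (chartAt E x x)) := by
      rw [(chartAt E x).left_inv (mem_chart_source E x)]
      exact (isClosed_KM hG).isOpen_compl.mem_nhds hx'
    have h2 : ∀ᶠ y' in 𝓝 (chartAt E x x), (chartAt E x).symm y' ∉ KM G p :=
      hc.preimage_mem_nhds hn
    have h3 : ∀ᶠ v : W × E in 𝓝 (w, chartAt E x x), (chartAt E x).symm v.2 ∉ KM G p :=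
      (continuous_snd.tendsto (w, chartAt E x x)).eventually h2
    have h4 : ∀ᶠ v in 𝓝 w, ζ v ∈ ball (0 : E) G.r :=
      hζ.continuousAt.preimage_mem_nhds (isOpen_ball.mem_nhds hz)
    have h5 : ∀ᶠ v : W × E in 𝓝 (w, chartAt E x x), ζ v.1 ∈ ball (0 : E) G.r :=
      (continuous_fst.tendsto (w, chartAt E x x)).eventually h4
    filter_upwards [h3, h5] with v hv hv2
    rw [rep_eq_pb, rep_eq_pb, pullG_off hv2 hv]

/-- the pull-back at `x` depends only on the form at `psi x`. -/
lemma pullG_local {G : Fam E} {p : M} (hG : G.K ⊆ (chartAt E p).target) {z : E}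
    (hz : z ∈ ball (0 : E) G.r) {b b' : F2 E M} {x : M}
    (h : at2 b (psi G p z x) = at2 b' (psi G p z x)) :
    at2 (pullG G p z b) x = at2 (pullG G p z b') x := by
  by_cases hx : x ∈ (chartAt E p).source
  · obtain ⟨h1, h2⟩ := chart_psi hG hz hx
    rw [at2_pullG_of_mem hx, at2_pullG_of_mem hx, rep_eq_pb, rep_eq_pb, ← psi_of_mem hx, h]
  · rw [psi_of_notMem hx] at h
    rw [at2_pullG_of_notMem hx, at2_pullG_of_notMem hx, h]

/-! ### composed pull-backs -/

variable {ι : Type*}

/-- the composed pull-back. -/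
def PP (G : ι → Fam E) (p : ι → M) (l : List ι) (z : ι → E) (b : F2 E M) : F2 E M :=
  l.foldr (fun i b => pullG (G i) (p i) (z i) b) b

/-- the inverse of `PP`. -/
def QQ (G : ι → Fam E) (p : ι → M) (l : List ι) (z : ι → E) (b : F2 E M) : F2 E M :=
  l.foldl (fun b i => pullG (G i).symm (p i) (z i) b) b

/-- the composed diffeomorphism: `PP z b = (PS z)^* b`. -/
def PS (G : ι → Fam E) (p : ι → M) (l : List ι) (z : ι → E) (x : M) : M :=
  l.foldl (fun x i => psi (G i) (p i) (z i) x) x

/-- the inverse of `PS`. -/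
def QS (G : ι → Fam E) (p : ι → M) (l : List ι) (z : ι → E) (x : M) : M :=
  l.foldr (fun i x => psi (G i).symm (p i) (z i) x) x

variable {G : ι → Fam E} {p : ι → M} {l : List ι}

@[simp] lemma PP_nil (z : ι → E) (b : F2 E M) : PP G p [] z b = b := rfl
@[simp] lemma QQ_nil (z : ι → E) (b : F2 E M) : QQ G p [] z b = b := rfl
omit [IsManifold 𝓘(ℝ, E) ∞ M] in
@[simp] lemma PS_nil (z : ι → E) (x : M) : PS G p [] z x = x := rfl
omit [IsManifold 𝓘(ℝ, E) ∞ M] in
@[simp] lemma QS_nil (z : ι → E) (x : M) : QS G p [] z x = x := rfl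

lemma PP_cons (i : ι) (l : List ι) (z : ι → E) (b : F2 E M) :
    PP G p (i :: l) z b = pullG (G i) (p i) (z i) (PP G p l z b) := rfl

lemma QQ_cons (i : ι) (l : List ι) (z : ι → E) (b : F2 E M) :
    QQ G p (i :: l) z b = QQ G p l z (pullG (G i).symm (p i) (z i) b) := rfl

omit [IsManifold 𝓘(ℝ, E) ∞ M] in
lemma PS_cons (i : ι) (l : List ι) (z : ι → E) (x : M) :
    PS G p (i :: l) z x = PS G p l z (psi (G i) (p i) (z i) x) := rfl

omit [IsManifold 𝓘(ℝ, E) ∞ M] in
lemma QS_cons (i : ι) (l : List ι) (z : ι → E) (x : M) :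
    QS G p (i :: l) z x = psi (G i).symm (p i) (z i) (QS G p l z x) := rfl

/-- admissible parameters. -/
def UU (G : ι → Fam E) : Set (ι → E) := {z | ∀ i, z i ∈ ball (0 : E) (G i).r}

lemma isOpen_UU [Finite ι] : IsOpen (UU G) := by
  have : UU G = Set.pi univ fun i => ball (0 : E) (G i).r := by
    ext z; simp [UU]
  rw [this]
  exact isOpen_set_pi finite_univ fun i _ => isOpen_ball


lemma smul_mem_UU {z : ι → E} (hz : z ∈ UU G) {t : ℝ} (h0 : 0 ≤ t) (h1 : t ≤ 1) :
    t • z ∈ UU G := by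
  intro i
  have := hz i
  simp only [mem_ball, dist_zero_right, Pi.smul_apply, norm_smul, Real.norm_eq_abs] at this ⊢
  rw [abs_of_nonneg h0]
  have h2 := norm_nonneg (z i)
  nlinarith


/-- the standing hypothesis: the supports lie in the charts. -/
abbrev HG (G : ι → Fam E) (p : ι → M) : Prop := ∀ i, (G i).K ⊆ (chartAt E (p i)).target

lemma PP_zero : PP G p l (0 : ι → E) = (id : F2 E M → F2 E M) := by
  funext b
  induction l with
  | nil => rfl
  | cons i l ih => rw [PP_cons, ih]; exact pullG_zero b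


lemma QQ_zero : QQ G p l (0 : ι → E) = (id : F2 E M → F2 E M) := by
  induction l with
  | nil => rfl
  | cons i l ih =>
    funext b
    rw [QQ_cons, ih]; exact pullG_zero b


lemma PP_QQ (hG : HG G p) {z : ι → E} (hz : z ∈ UU G) (b : F2 E M) :
    PP G p l z (QQ G p l z b) = b := by
  induction l generalizing b with
  | nil => rfl
  | cons i l ih => rw [QQ_cons, PP_cons, ih, pullG_pullG_symm (hG i) (hz i)]

omit [IsManifold 𝓘(ℝ, E) ∞ M] in
lemma PS_QS (hG : HG G p) {z : ι → E} (hz : z ∈ UU G) (x : M) :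
    PS G p l z (QS G p l z x) = x := by
  induction l with
  | nil => rfl
  | cons i l ih => rw [QS_cons, PS_cons, psi_psi_symm (hG i) (hz i), ih]


lemma PP_add (z : ι → E) (a b : F2 E M) : PP G p l z (a + b) = PP G p l z a + PP G p l z b := by
  induction l with
  | nil => rfl
  | cons i l ih => rw [PP_cons, ih, pullG_add]; rfl

lemma PP_smul (z : ι → E) (t : ℝ) (a : F2 E M) : PP G p l z (t • a) = t • PP G p l z a := by
  induction l with
  | nil => rfl
  | cons i l ih => rw [PP_cons, ih, pullG_smul]; rfl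

lemma QQ_add (z : ι → E) (a b : F2 E M) : QQ G p l z (a + b) = QQ G p l z a + QQ G p l z b := by
  induction l generalizing a b with
  | nil => rfl
  | cons i l ih => rw [QQ_cons, pullG_add, ih]; rfl

lemma QQ_smul (z : ι → E) (t : ℝ) (a : F2 E M) : QQ G p l z (t • a) = t • QQ G p l z a := by
  induction l generalizing a with
  | nil => rfl
  | cons i l ih => rw [QQ_cons, pullG_smul, ih]; rfl

lemma PP_local (hG : HG G p) {z : ι → E} (hz : z ∈ UU G) {b b' : F2 E M} {x : M}
    (h : at2 b (PS G p l z x) = at2 b' (PS G p l z x)) :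
    at2 (PP G p l z b) x = at2 (PP G p l z b') x := by
  induction l generalizing x with
  | nil => exact h
  | cons i l ih =>
    rw [PP_cons, PP_cons]
    exact pullG_local (hG i) (hz i) (ih h)

lemma QQ_local (hG : HG G p) {z : ι → E} (hz : z ∈ UU G) {b b' : F2 E M} {x : M}
    (h : at2 b (QS G p l z x) = at2 b' (QS G p l z x)) :
    at2 (QQ G p l z b) x = at2 (QQ G p l z b') x := by
  induction l generalizing b b' with
  | nil => exact h
  | cons i l ih =>
    rw [QQ_cons, QQ_cons]
    exact ih (pullG_local (G := (G i).symm) (hG i) (hz i) h)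

lemma PP_alt {b : F2 E M} (hb : ∀ x v, at2 b x v v = 0) (z : ι → E) (x : M) (v : E) :
    at2 (PP G p l z b) x v v = 0 := by
  induction l generalizing x v with
  | nil => exact hb x v
  | cons i l ih => exact pullG_alt (fun x v => ih x v) _ _ _

lemma QQ_alt {b : F2 E M} (hb : ∀ x v, at2 b x v v = 0) (z : ι → E) (x : M) (v : E) :
    at2 (QQ G p l z b) x v v = 0 := by
  induction l generalizing b with
  | nil => exact hb x v
  | cons i l ih => exact ih (fun x v => pullG_alt hb _ _ _)

theorem JAt.PP [T2Space M] [Fintype ι] (hG : HG G p) {ζ : W → ι → E} {β : W → F2 E M} {w : W}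
    {x : M} (hζ : ContDiffAt ℝ ∞ ζ w) (hz : ζ w ∈ UU G) (h : JAt β w (PS G p l (ζ w) x)) :
    JAt (fun v => Leak.PP G p l (ζ v) (β v)) w x := by

  have hi : ∀ i, ContDiffAt ℝ ∞ (fun v => ζ v i) w := fun i => contDiffAt_pi.1 hζ i
  induction l generalizing x with
  | nil => exact h
  | cons i l ih => exact JAt.pullG (hG i) (hi i) (hz i) (ih h)

theorem JAt.QQ [T2Space M] [Fintype ι] (hG : HG G p) {ζ : W → ι → E} {β : W → F2 E M} {w : W}
    {x : M} (hζ : ContDiffAt ℝ ∞ ζ w) (hz : ζ w ∈ UU G) (h : JAt β w (QS G p l (ζ w) x)) :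
    JAt (fun v => Leak.QQ G p l (ζ v) (β v)) w x := by

  have hi : ∀ i, ContDiffAt ℝ ∞ (fun v => ζ v i) w := fun i => contDiffAt_pi.1 hζ i
  induction l generalizing β with
  | nil => exact h
  | cons i l ih => exact ih (JAt.pullG (G := (G i).symm) (hG i) (hi i) (hz i) h)

end General

section Four

variable {M : Type*} [TopologicalSpace M] [ChartedSpace E4 M] [IsManifold 𝓘(ℝ, E4) ∞ M]
variable {W : Type*} [NormedAddCommGroup W] [NormedSpace ℝ W]

lemma JAt.of_JSm {β : W → F2 E4 M} {U : Set W} (hU : IsOpen U) (h : JSm U β) {w : W}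
    (hw : w ∈ U) (x : M) : JAt β w x := JAt.of_contDiffOn hU h.2 hw x

lemma JSm.of_JAt {β : W → F2 E4 M} {U : Set W} (h0 : ∀ w ∈ U, ∀ x v, at2 (β w) x v v = 0)
    (h : ∀ w ∈ U, ∀ x : M, JAt β w x) : JSm U β := ⟨h0, fun q => contDiffOn_of_JAt h q⟩

/-- joint smoothness is preserved by the projection to the anti-invariant part. -/
lemma JAt.bpp {J : EndF E4 M} (hJ : SmoothJ J) {β : W → F2 E4 M} {w : W} {x : M}
    (h : JAt β w x) : JAt (fun v => Ch.bpp J (β v)) w x := by
  intro q hq
  have hy : chartAt E4 q x ∈ (chartAt E4 q).target := (chartAt E4 q).map_source hq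
  have hJ1 : ContDiffAt ℝ ∞ (fun v : W × E4 => repJ q J v.2) (w, chartAt E4 q x) :=
    ContDiffAt.comp (w, chartAt E4 q x) (g := repJ q J) (f := fun v : W × E4 => v.2)
      (contDiffOn_chart_iff.1 (hJ q) _ hy) contDiffAt_snd
  have h1 := h q hq
  have h2 := contDiffAt_pull hJ1 h1
  have h3 : ContDiffAt ℝ ∞ (fun v : W × E4 => antip (repJ q J v.2) (rep q (β v.1) v.2))
      (w, chartAt E4 q x) := by
    unfold antip
    exact (h1.sub h2).const_smul _
  refine h3.congr_of_eventuallyEq ?_
  have h6 : ∀ᶠ v : W × E4 in 𝓝 (w, chartAt E4 q x), v.2 ∈ (chartAt E4 q).target :=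
    (continuous_snd.tendsto (w, chartAt E4 q x)).eventually
      ((chartAt E4 q).open_target.mem_nhds hy)
  filter_upwards [h6] with v hv
  exact rep_bpp hv

/-- joint smoothness is preserved by the projection to the invariant part. -/
lemma JAt.bp {J : EndF E4 M} (hJ : SmoothJ J) {β : W → F2 E4 M} {w : W} {x : M}
    (h : JAt β w x) : JAt (fun v => Ch.bp J (β v)) w x := by
  intro q hq
  have hy : chartAt E4 q x ∈ (chartAt E4 q).target := (chartAt E4 q).map_source hq
  have hJ1 : ContDiffAt ℝ ∞ (fun v : W × E4 => repJ q J v.2) (w, chartAt E4 q x) :=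
    ContDiffAt.comp (w, chartAt E4 q x) (g := repJ q J) (f := fun v : W × E4 => v.2)
      (contDiffOn_chart_iff.1 (hJ q) _ hy) contDiffAt_snd
  have h1 := h q hq
  have h2 := contDiffAt_pull hJ1 h1
  have h3 : ContDiffAt ℝ ∞ (fun v : W × E4 => invp (repJ q J v.2) (rep q (β v.1) v.2))
      (w, chartAt E4 q x) := by
    unfold invp
    exact (h1.add h2).const_smul _
  refine h3.congr_of_eventuallyEq ?_
  have h6 : ∀ᶠ v : W × E4 in 𝓝 (w, chartAt E4 q x), v.2 ∈ (chartAt E4 q).target :=
    (continuous_snd.tendsto (w, chartAt E4 q x)).eventually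
      ((chartAt E4 q).open_target.mem_nhds hy)
  filter_upwards [h6] with v hv
  exact rep_bp hv

/-! ### pointwise properties of the projections -/

lemma at2_bp (J : EndF E4 M) (b : F2 E4 M) (x : M) :
    at2 (Ch.bp J b) x = invp (atJ J x) (at2 b x) := rfl

lemma at2_bpp (J : EndF E4 M) (b : F2 E4 M) (x : M) :
    at2 (Ch.bpp J b) x = antip (atJ J x) (at2 b x) := rfl

lemma bpp_local {J : EndF E4 M} {b b' : F2 E4 M} {x : M} (h : at2 b x = at2 b' x) :
    at2 (Ch.bpp J b) x = at2 (Ch.bpp J b') x := by rw [at2_bpp, at2_bpp, h]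

lemma bp_local {J : EndF E4 M} {b b' : F2 E4 M} {x : M} (h : at2 b x = at2 b' x) :
    at2 (Ch.bp J b) x = at2 (Ch.bp J b') x := by rw [at2_bp, at2_bp, h]

lemma bpp_add (J : EndF E4 M) (a b : F2 E4 M) :
    Ch.bpp J (a + b) = Ch.bpp J a + Ch.bpp J b := by
  funext x
  change antip (atJ J x) (at2 a x + at2 b x) = antip (atJ J x) (at2 a x) + antip (atJ J x) (at2 b x)
  ext u v
  rw [add_apply, add_apply, antip_apply, antip_apply, antip_apply]
  simp only [add_apply]
  ring

lemma bpp_smul (J : EndF E4 M) (r : ℝ) (a : F2 E4 M) :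
    Ch.bpp J (r • a) = r • Ch.bpp J a := by
  funext x
  change antip (atJ J x) (r • at2 a x) = r • antip (atJ J x) (at2 a x)
  ext u v
  rw [smul_apply, smul_apply, antip_apply, antip_apply]
  simp only [smul_apply, smul_eq_mul]
  ring

lemma bp_add (J : EndF E4 M) (a b : F2 E4 M) :
    Ch.bp J (a + b) = Ch.bp J a + Ch.bp J b := by
  funext x
  change invp (atJ J x) (at2 a x + at2 b x) = invp (atJ J x) (at2 a x) + invp (atJ J x) (at2 b x)
  ext u v
  rw [add_apply, add_apply, invp_apply, invp_apply, invp_apply]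
  simp only [add_apply]
  ring

lemma bp_smul (J : EndF E4 M) (r : ℝ) (a : F2 E4 M) :
    Ch.bp J (r • a) = r • Ch.bp J a := by
  funext x
  change invp (atJ J x) (r • at2 a x) = r • invp (atJ J x) (at2 a x)
  ext u v
  rw [smul_apply, smul_apply, invp_apply, invp_apply]
  simp only [smul_apply, smul_eq_mul]
  ring

lemma bpp_alt {J : EndF E4 M} {b : F2 E4 M} (hb : ∀ x v, at2 b x v v = 0) (x : M) (v : E4) :
    at2 (Ch.bpp J b) x v v = 0 := by
  rw [at2_bpp, antip_apply, hb, hb]; norm_num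

lemma bp_alt {J : EndF E4 M} {b : F2 E4 M} (hb : ∀ x v, at2 b x v v = 0) (x : M) (v : E4) :
    at2 (Ch.bp J b) x v v = 0 := by
  rw [at2_bp, invp_apply, hb, hb]; norm_num



lemma bpp_bp {J : EndF E4 M} (hJ : ∀ x v, atJ J x (atJ J x v) = -v) (b : F2 E4 M) :
    Ch.bpp J (Ch.bp J b) = 0 := by
  funext x
  change antip (atJ J x) (invp (atJ J x) (at2 b x)) = 0
  ext u v
  rw [antip_apply, invp_apply, invp_apply, hJ, hJ]
  simp only [map_neg, neg_apply, neg_neg, zero_apply]
  ring

/-! ### the conjugated projection -/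

variable {ι : Type*}

/-- `T z b = (PP z)⁻¹ (PP z b')''`. -/
def TT (J : EndF E4 M) (G : ι → Fam E4) (p : ι → M) (l : List ι) (z : ι → E4) (b : F2 E4 M) :
    F2 E4 M := QQ G p l z (Ch.bpp J (PP G p l z (Ch.bp J b)))

variable {J : EndF E4 M} {G : ι → Fam E4} {p : ι → M} {l : List ι}

lemma TT_zero (hJ : ∀ x v, atJ J x (atJ J x v) = -v) (b : F2 E4 M) :
    TT J G p l (0 : ι → E4) b = 0 := by
  rw [TT, PP_zero, QQ_zero, id, id, bpp_bp hJ]

/-- **the leak is a pull-back** -/
lemma bpp_PP (hG : HG G p) {z : ι → E4} (hz : z ∈ UU G) (b : F2 E4 M) :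
    Ch.bpp J (PP G p l z (Ch.bp J b)) = PP G p l z (TT J G p l z b) := by
  rw [TT, PP_QQ hG hz]


lemma TT_add (z : ι → E4) (a b : F2 E4 M) :
    TT J G p l z (a + b) = TT J G p l z a + TT J G p l z b := by
  rw [TT, bp_add, PP_add, bpp_add, QQ_add]; rfl

lemma TT_smul (z : ι → E4) (r : ℝ) (a : F2 E4 M) :
    TT J G p l z (r • a) = r • TT J G p l z a := by
  rw [TT, bp_smul, PP_smul, bpp_smul, QQ_smul]; rfl

/-- `TT z` is tensorial. -/
lemma TT_local (hG : HG G p) {z : ι → E4} (hz : z ∈ UU G) {b b' : F2 E4 M} {x : M}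
    (h : at2 b x = at2 b' x) : at2 (TT J G p l z b) x = at2 (TT J G p l z b') x := by
  refine QQ_local hG hz (bpp_local (PP_local hG hz (bp_local ?_)))
  rw [PS_QS hG hz, h]

lemma TT_alt {b : F2 E4 M} (hb : ∀ x v, at2 b x v v = 0) (z : ι → E4) (x : M) (v : E4) :
    at2 (TT J G p l z b) x v v = 0 :=
  QQ_alt (fun x v => bpp_alt (fun x v => PP_alt (fun x v => bp_alt hb x v) z x v) x v) z x v

/-- **joint smoothness of the conjugated projection, parameter version** -/
theorem JAt.TT [T2Space M] [Fintype ι] (hJ : SmoothJ J) (hG : HG G p) {ζ : W → ι → E4}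
    {β : W → F2 E4 M} {w : W} {x : M} (hζ : ContDiffAt ℝ ∞ ζ w) (hz : ζ w ∈ UU G)
    (h : JAt β w x) : JAt (fun v => Leak.TT J G p l (ζ v) (β v)) w x := by
  refine JAt.QQ hG hζ hz (JAt.bpp hJ (JAt.PP hG hζ hz (JAt.bp hJ ?_)))
  rw [PS_QS hG hz]
  exact h

theorem JSm.PP [T2Space M] [Fintype ι] (hG : HG G p) {U : Set W} (hU : IsOpen U) {ζ : W → ι → E4}
    (hζ : ContDiffOn ℝ ∞ ζ U) (hz : ∀ w ∈ U, ζ w ∈ UU G) {β : W → F2 E4 M} (h : JSm U β) :
    JSm U (fun v => Leak.PP G p l (ζ v) (β v)) :=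
  JSm.of_JAt (fun w hw x v => PP_alt (h.1 w hw) _ x v) fun w hw _ =>
    JAt.PP hG (hζ.contDiffAt (hU.mem_nhds hw)) (hz w hw) (JAt.of_JSm hU h hw _)


theorem JSm.TT [T2Space M] [Fintype ι] (hJ : SmoothJ J) (hG : HG G p) {U : Set W} (hU : IsOpen U)
    {ζ : W → ι → E4} (hζ : ContDiffOn ℝ ∞ ζ U) (hz : ∀ w ∈ U, ζ w ∈ UU G) {β : W → F2 E4 M}
    (h : JSm U β) : JSm U (fun v => Leak.TT J G p l (ζ v) (β v)) :=
  JSm.of_JAt (fun w hw x v => TT_alt (h.1 w hw) _ x v) fun w hw x =>
    JAt.TT hJ hG (hζ.contDiffAt (hU.mem_nhds hw)) (hz w hw) (JAt.of_JSm hU h hw x)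

/-- the families of a fixed smooth form -/
theorem jsm_PP [T2Space M] [Fintype ι] (hG : HG G p) {b : F2 E4 M} (hb : Smooth2 b) :
    JSm (UU G) (fun z => Leak.PP G p l z b) :=
  JSm.PP hG isOpen_UU contDiffOn_id (fun _ h => h) (JSm.const hb _)


theorem jsm_TT [T2Space M] [Fintype ι] (hJ : SmoothJ J) (hG : HG G p) {b : F2 E4 M}
    (hb : Smooth2 b) : JSm (UU G) (fun z => Leak.TT J G p l z b) :=
  JSm.TT hJ hG isOpen_UU contDiffOn_id (fun _ h => h) (JSm.const hb _)

end Four

end

end Crest.Agent.R240.Leak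
end

-- ▼ part R240/SmCrM
section

/-!
# Row 240, block R (smoothing): the local form of the composed pull-backs (helper950)

Input of `SmCr2.exists_dat` / `local_crude` on `M`.
-/

set_option autoImplicit false
set_option maxSynthPendingDepth 3
set_option linter.unusedSectionVars false

open Set Function Filter Metric Bundle
open scoped Manifold ContDiff Topology

namespace Crest.Agent.R240.SmCrM

open Crest.Agent.R240.Ch Crest.Agent.R240.Sm Crest.Agent.R240.Leak Crest.Agent.R240.SmJ

noncomputable section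

section General

variable {E : Type*} [NormedAddCommGroup E] [NormedSpace ℝ E]
variable {M : Type*} [TopologicalSpace M] [ChartedSpace E M] [IsManifold 𝓘(ℝ, E) ∞ M]
variable {ι : Type*} [Fintype ι] {G : ι → Fam E} {p : ι → M}

/-- the composed pull-backs are a smooth family over the composed diffeomorphisms. -/
theorem LF_PP [T2Space M] (hG : ∀ i, (G i).K ⊆ (chartAt E (p i)).target) (l : List ι) :
    LF (UU G) (fun z : ι → E => PP (M := M) G p l z) (fun z => PS G p l z) := by
  induction l with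
  | nil => exact LF.id isOpen_UU
  | cons i l ih =>
    have h1 : LF (UU G) (fun z : ι → E => pullG (G i) (p i) (z i))
        (fun z => psi (G i) (p i) (z i)) :=
      LF.pullG (hG i) isOpen_UU (contDiff_apply ℝ E i).contDiffOn (fun z hz => hz i)
    exact h1.comp ih

omit [IsManifold 𝓘(ℝ, E) ∞ M] [Fintype ι] in
lemma PS_eq_self {l : List ι} {z : ι → E} (h : ∀ i ∈ l, z i = 0) (x : M) :
    PS G p l z x = x := by
  induction l generalizing x with
  | nil => rfl
  | cons i l ih =>
    rw [PS_cons, h i List.mem_cons_self, psi_zero]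
    exact ih (fun j hj => h j (List.mem_cons_of_mem _ hj)) x

omit [IsManifold 𝓘(ℝ, E) ∞ M] [Fintype ι] in
lemma PS_single {l : List ι} (hn : l.Nodup) {i : ι} (hi : i ∈ l) {z : ι → E}
    (hz : ∀ j, j ≠ i → z j = 0) (x : M) : PS G p l z x = psi (G i) (p i) (z i) x := by
  induction l generalizing x with
  | nil => simp at hi
  | cons k l ih =>
    rw [List.nodup_cons] at hn
    rw [PS_cons]
    by_cases hk : k = i
    · subst hk
      exact PS_eq_self (fun j hj => hz j (fun h => hn.1 (h ▸ hj))) _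
    · have hi' : i ∈ l := by
        rcases List.mem_cons.1 hi with h | h
        · exact absurd h.symm hk
        · exact h
      rw [hz k hk, psi_zero]
      exact ih hn.2 hi' x

omit [IsManifold 𝓘(ℝ, E) ∞ M] [Fintype ι] in
lemma PS_zero (l : List ι) (x : M) : PS G p l (0 : ι → E) x = x :=
  PS_eq_self (fun _ _ => rfl) x

end General

section Four

variable {M : Type*} [TopologicalSpace M] [ChartedSpace E4 M] [IsManifold 𝓘(ℝ, E4) ∞ M]
variable {ι : Type} [Fintype ι] [DecidableEq ι] {p : ι → M}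

/-- inclusion of the `i`-th slot. -/
def slot (i : ι) : E4 →L[ℝ] (ι → E4) := ContinuousLinearMap.single ℝ (fun _ : ι => E4) i

omit [Fintype ι] in
lemma slot_apply (i : ι) (ζ : E4) : slot i ζ = Pi.single i ζ := rfl

lemma norm_slot_le (i : ι) : ‖slot i‖ ≤ 1 := by
  refine ContinuousLinearMap.opNorm_le_bound _ zero_le_one fun ζ => ?_
  rw [slot_apply, one_mul, pi_norm_le_iff_of_nonneg (norm_nonneg _)]
  intro j
  by_cases h : j = i
  · subst h; simp
  · simp [Pi.single_eq_of_ne h]

variable {c : ι → Cut E4}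

/-- the families -/
abbrev GG (c : ι → Cut E4) : ι → Fam E4 := fun i => (c i).fam



end Four

end

end Crest.Agent.R240.SmCrM
end

-- ▼ part R240/LkF

/-!
# Row 240, block R (smoothing), FUBINI (helper404)

The composition of one-chart averages is one average over the product of the parameter spaces.
-/

set_option autoImplicit false
set_option maxSynthPendingDepth 3
set_option linter.unusedSectionVars false

open Set Function Filter Metric Bundle MeasureTheory
open scoped Manifold ContDiff Topology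

namespace Crest.Agent.R240.Leak

open Crest.Agent.R240.Ch Crest.Agent.R240.Sm

noncomputable section

/-! ### integration over `Fin (n + 1) → E4` -/

lemma integral_cons {n : ℕ} {V : Type*} [NormedAddCommGroup V] [NormedSpace ℝ V]
    {F : (Fin (n + 1) → E4) → V} (hF : Integrable F) :
    ∫ z, F z = ∫ z0 : E4, ∫ z' : Fin n → E4, F (Fin.cons z0 z') := by
  have mp := (volume_preserving_piFinSuccAbove (fun _ : Fin (n + 1) => E4) 0).symm
  have e1 : ∀ a : E4 × (Fin n → E4),
      (MeasurableEquiv.piFinSuccAbove (fun _ : Fin (n + 1) => E4) 0).symm a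
        = Fin.cons a.1 a.2 := by
    intro a
    rw [MeasurableEquiv.piFinSuccAbove_symm_apply, Fin.insertNthEquiv_zero]
    rfl
  have hint : Integrable (fun a : E4 × (Fin n → E4) => F (Fin.cons a.1 a.2))
      ((volume : Measure E4).prod (volume : Measure (Fin n → E4))) := by
    have h1 := (mp.integrable_comp_emb (MeasurableEquiv.measurableEmbedding _) (g := F)).2 hF
    refine h1.congr (Eventually.of_forall fun a => ?_)
    simp only [comp_apply, e1]
  rw [← mp.integral_comp' F]
  simp only [e1]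
  exact integral_prod _ hint

/-! ### the product kernel -/

section ker

variable {ι : Type*} [Fintype ι]

/-- the product kernel -/
def kp (κ : ι → E4 → ℝ) (z : ι → E4) : ℝ := ∏ i, κ i (z i)

lemma continuous_kp {κ : ι → E4 → ℝ} (h : ∀ i, Continuous (κ i)) : Continuous (kp κ) :=
  continuous_finsetProd _ fun i _ => (h i).comp (continuous_apply i)

lemma tsupport_kp (κ : ι → E4 → ℝ) :
    tsupport (kp κ) ⊆ Set.pi univ fun i => tsupport (κ i) := by
  refine closure_minimal ?_ (isClosed_set_pi fun i _ => isClosed_tsupport _)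
  intro z hz i _
  apply subset_tsupport
  intro h
  exact hz (Finset.prod_eq_zero (Finset.mem_univ i) h)

lemma hasCompactSupport_kp {κ : ι → E4 → ℝ} (h : ∀ i, HasCompactSupport (κ i)) :
    HasCompactSupport (kp κ) :=
  (isCompact_univ_pi fun i => h i).of_isClosed_subset (isClosed_tsupport _) (tsupport_kp κ)

end ker

variable {M : Type*} [TopologicalSpace M] [ChartedSpace E4 M] [IsManifold 𝓘(ℝ, E4) ∞ M]

/-- the pull-back at `x` is a linear function of the value of the form at `psi x`. -/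
lemma exists_pb (G : Fam E4) (p : M) (z : E4) (x : M) :
    ∃ D : E4 →L[ℝ] E4, ∀ b : F2 E4 M, at2 (pullG G p z b) x = pull D (at2 b (psi G p z x)) := by
  by_cases hx : x ∈ (chartAt E4 p).source
  · refine ⟨(tcc p (psi G p z x) (psi G p z x)).comp
      ((G.dg z (chartAt E4 p x)).comp (tcc x p x)), fun b => ?_⟩
    rw [at2_pullG_of_mem hx, rep_eq_pb, pb_comp, ← psi_of_mem hx]
    rfl
  · refine ⟨ContinuousLinearMap.id ℝ E4, fun b => ?_⟩
    rw [at2_pullG_of_notMem hx, psi_of_notMem hx, pull_id]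

/-- data of a one-chart average -/
structure AdmK {ι : Type*} (G : ι → Fam E4) (κ : ι → E4 → ℝ) (e : ℝ) : Prop where
  cont : ∀ i, Continuous (κ i)
  comp : ∀ i, HasCompactSupport (κ i)
  supp : ∀ i, ∀ z ∈ tsupport (κ i), e • z ∈ ball (0 : E4) (G i).r

/-- composition of one-chart averages -/
def AA {ι : Type*} (G : ι → Fam E4) (p : ι → M) (κ : ι → E4 → ℝ) (e : ℝ) (l : List ι)
    (b : F2 E4 M) : F2 E4 M :=
  l.foldr (fun i b => avg (κ i) (fun z => pullG (G i) (p i) (e • z) b)) b

lemma AA_cons {ι : Type*} (G : ι → Fam E4) (p : ι → M) (κ : ι → E4 → ℝ) (e : ℝ) (i : ι)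
    (l : List ι) (b : F2 E4 M) : AA G p κ e (i :: l) b =
      avg (κ i) (fun z => pullG (G i) (p i) (e • z) (AA G p κ e l b)) := rfl

lemma AA_map {ι ι' : Type*} (G : ι → Fam E4) (p : ι → M) (κ : ι → E4 → ℝ) (e : ℝ) (f : ι' → ι)
    (l : List ι') (b : F2 E4 M) :
    AA G p κ e (l.map f) b = AA (fun i => G (f i)) (fun i => p (f i)) (fun i => κ (f i)) e l b := by
  unfold AA
  rw [List.foldr_map]

lemma PP_map {ι ι' : Type*} (G : ι → Fam E4) (p : ι → M) (z : ι → E4) (f : ι' → ι)
    (l : List ι') (b : F2 E4 M) :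
    PP G p (l.map f) z b = PP (fun i => G (f i)) (fun i => p (f i)) l (fun i => z (f i)) b := by
  unfold PP
  rw [List.foldr_map]

/-- parameters admissible at scale `e`. -/
def UE {ι : Type*} (G : ι → Fam E4) (e : ℝ) : Set (ι → E4) := {z | e • z ∈ UU G}

lemma isOpen_UE {ι : Type*} [Fintype ι] {G : ι → Fam E4} (e : ℝ) : IsOpen (UE G e) :=
  isOpen_UU.preimage (continuous_const_smul e)

lemma tsupport_kp_UE {ι : Type*} [Fintype ι] {G : ι → Fam E4} {κ : ι → E4 → ℝ} {e : ℝ}
    (h : AdmK G κ e) : tsupport (kp κ) ⊆ UE G e := by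
  intro z hz i
  exact h.supp i _ (tsupport_kp κ hz i (mem_univ i))

lemma jsm_PPe {ι : Type*} [Fintype ι] [T2Space M] {G : ι → Fam E4} {p : ι → M} {l : List ι}
    (hG : HG G p) {b : F2 E4 M} (hb : Smooth2 b) (e : ℝ) :
    JSm (UE G e) (fun z => PP G p l (e • z) b) := by
  have h1 : ContDiff ℝ ∞ (fun z : ι → E4 => e • z) := contDiff_const_smul e
  exact JSm.PP hG (isOpen_UE e) h1.contDiffOn (fun _ h => h) (JSm.const hb _)

lemma integrable_PP {ι : Type} [Fintype ι] [T2Space M] {G : ι → Fam E4} {p : ι → M}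
    {l : List ι} (hG : HG G p) {κ : ι → E4 → ℝ} {e : ℝ} (h : AdmK G κ e) {b : F2 E4 M}
    (hb : Smooth2 b) (x : M) :
    Integrable (fun z : ι → E4 => kp κ z • at2 (PP G p l (e • z) b) x) :=
  integrable_smul_of (isOpen_UE e) (continuous_kp h.cont) (hasCompactSupport_kp h.comp)
    (tsupport_kp_UE h) ((jsm_PPe hG hb e).continuousOn_at2 x)

/-- **FUBINI** -/
theorem at2_AA [T2Space M] : ∀ {N : ℕ} {G : Fin N → Fam E4} {p : Fin N → M} (_ : HG G p)
    {κ : Fin N → E4 → ℝ} {e : ℝ} (_ : AdmK G κ e) {b : F2 E4 M} (_ : Smooth2 b) (x : M),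
    at2 (AA G p κ e (List.finRange N) b) x =
      ∫ z : Fin N → E4, kp κ z • at2 (PP G p (List.finRange N) (e • z) b) x := by
  intro N
  induction N with
  | zero =>
    intro G p hG κ e h b hb x
    have hv : (volume : Measure (Fin 0 → E4)) = Measure.dirac isEmptyElim := Measure.volume_pi_eq_dirac _
    rw [hv, integral_dirac]
    simp only [kp, Finset.univ_eq_empty, Finset.prod_empty, one_smul, List.finRange_zero]
    rfl
  | succ N ih =>
    intro G p hG κ e h b hb x
    rw [integral_cons (integrable_PP hG h hb x)]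
    simp only [List.finRange_succ, AA_cons, PP_cons, AA_map, PP_map, at2_avg]
    refine integral_congr_ae (Eventually.of_forall fun z0 => ?_)
    simp only
    have hG' : HG (fun i => G (Fin.succ i)) (fun i => p (Fin.succ i)) := fun i => hG _
    have h' : AdmK (fun i => G (Fin.succ i)) (fun i => κ (Fin.succ i)) e :=
      ⟨fun i => h.cont _, fun i => h.comp _, fun i => h.supp _⟩
    obtain ⟨D, hD⟩ := exists_pb (G 0) (p 0) (e • z0) x
    have e1 : ∀ z' : Fin N → E4, kp κ (Fin.cons z0 z' : Fin (N + 1) → E4)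
        = κ 0 z0 * kp (fun i => κ (Fin.succ i)) z' := by
      intro z'
      unfold kp
      rw [Fin.prod_univ_succ]
      simp only [Fin.cons_zero, Fin.cons_succ]
    have e2 : ∀ z' : Fin N → E4, (e • (Fin.cons z0 z' : Fin (N + 1) → E4)) 0 = e • z0 := by
      intro z'
      simp only [Pi.smul_apply, Fin.cons_zero]
    have e3 : ∀ z' : Fin N → E4, (fun i : Fin N => (e • (Fin.cons z0 z' : Fin (N + 1) → E4))
        (Fin.succ i)) = e • z' := by
      intro z'
      funext i
      simp only [Pi.smul_apply, Fin.cons_succ]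
    simp only [e1, e2, e3, hD, mul_smul]
    rw [integral_smul]
    congr 1
    rw [ih hG' h' hb, ← pullL_apply, ← ContinuousLinearMap.integral_comp_comm _
      (integrable_PP hG' h' hb _)]
    refine integral_congr_ae (Eventually.of_forall fun z' => ?_)
    simp only
    rw [map_smul, pullL_apply]


lemma AL_eq_AA {ι : Type*} (G : ι → Fam E4) (p : ι → M) (κ : ι → E4 → ℝ) (l : List ι) (e : ℝ)
    (b : F2 E4 M) : Sm7.AL G p κ l e b = AA G p κ e l b := rfl

/-! ### general index types -/

section general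

variable {ι : Type} [Fintype ι]

/-- **FUBINI**, for an enumeration of the index type. -/
theorem at2_AL_of [T2Space M] {G : ι → Fam E4} {p : ι → M} (hG : HG G p)
    {κ : ι → E4 → ℝ} {e : ℝ} (h : AdmK G κ e) {n : ℕ} (σ : Fin n ≃ ι)
    {b : F2 E4 M} (hb : Smooth2 b) (x : M) :
    at2 (AA G p κ e ((List.finRange n).map σ) b) x =
      ∫ z : ι → E4, (∏ i, κ i (z i)) • at2 (PP G p ((List.finRange n).map σ) (e • z) b) x := by
  have h' : AdmK (fun i => G (σ i)) (fun i => κ (σ i)) e :=
    ⟨fun i => h.cont _, fun i => h.comp _, fun i => h.supp _⟩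
  rw [AA_map, at2_AA (fun i => hG _) h' hb x]
  have mp := volume_measurePreserving_piCongrLeft (fun _ : ι => E4) σ
  rw [← mp.integral_comp' (fun z : ι → E4 => (∏ i, κ i (z i)) •
    at2 (PP G p ((List.finRange n).map σ) (e • z) b) x)]
  refine integral_congr_ae (Eventually.of_forall fun z => ?_)
  simp only
  have e1 : ∀ i, (MeasurableEquiv.piCongrLeft (fun _ : ι => E4) σ z) (σ i) = z i := by
    intro i
    rw [MeasurableEquiv.coe_piCongrLeft]
    exact Equiv.piCongrLeft_apply_apply (fun _ : ι => E4) σ z i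
  have e2 : kp (fun i => κ (σ i)) z
      = ∏ i, κ i ((MeasurableEquiv.piCongrLeft (fun _ : ι => E4) σ z) i) := by
    rw [kp, ← σ.prod_comp]
    refine Finset.prod_congr rfl fun i _ => ?_
    rw [e1]
  have e3 : PP G p ((List.finRange n).map σ)
        (e • (MeasurableEquiv.piCongrLeft (fun _ : ι => E4) σ z)) b
      = PP (fun i => G (σ i)) (fun i => p (σ i)) (List.finRange n) (e • z) b := by
    rw [PP_map]
    congr 1
    funext i
    simp only [Pi.smul_apply, e1]
  rw [e2, e3]

/-- **FUBINI**, general index type: `l` enumerates `ι`. -/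
theorem at2_AL [T2Space M] {G : ι → Fam E4} {p : ι → M} (hG : HG G p)
    {κ : ι → E4 → ℝ} {e : ℝ} (h : AdmK G κ e) {l : List ι} (hl : l.Nodup) (hm : ∀ i, i ∈ l)
    {b : F2 E4 M} (hb : Smooth2 b) (x : M) :
    at2 (Sm7.AL G p κ l e b) x =
      ∫ z : ι → E4, (∏ i, κ i (z i)) • at2 (PP G p l (e • z) b) x := by
  classical
  have key := at2_AL_of hG h (List.Nodup.getEquivOfForallMemList l hl hm) hb x
  have hl2 : (List.finRange l.length).map (List.Nodup.getEquivOfForallMemList l hl hm) = l :=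
    List.map_get_finRange l
  rw [hl2] at key
  exact key

theorem AL_eq_avg [T2Space M] {G : ι → Fam E4} {p : ι → M} (hG : HG G p)
    {κ : ι → E4 → ℝ} {e : ℝ} (h : AdmK G κ e) {l : List ι} (hl : l.Nodup) (hm : ∀ i, i ∈ l)
    {b : F2 E4 M} (hb : Smooth2 b) :
    Sm7.AL G p κ l e b = avg (kp κ) (fun z => PP G p l (e • z) b) := by
  funext x
  exact at2_AL hG h hl hm hb x

end general

end

end Crest.Agent.R240.Leak
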