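import Crest.Agent.R240.Nsq
import Crest.Agent.R240.Iface
import Crest.Agent.R240.IntTop
import Crest.Agent.R240.Cmp

/-!
Row 240 (S0371), helper456: the Hodge norm on `M` for the data `D : Dat M`: continuity, smoothness,
positivity, the `L²` norm, Cauchy-Schwarz, the seminorms `cm`.
-/

set_option autoImplicit false
set_option maxSynthPendingDepth 3

open Set Function Filter MeasureTheory Metric
open scoped Manifold ContDiff Topology ENNReal

namespace Crest.Agent.R240.NM

open Ch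

noncomputable section

/-! ### smoothness of `q` in charts -/

section Local

theorem contDiffOn_ent {n : WithTop ℕ∞} {s : Set E4} {b : E4 → Bil} (hb : ContDiffOn ℝ n b s)
    (i j : Fin 4) : ContDiffOn ℝ n (fun y => ent (b y) i j) s :=
  (hb.clm_apply contDiffOn_const).clm_apply contDiffOn_const

theorem contDiffOn_W {n : WithTop ℕ∞} {s : Set E4} {b c : E4 → Bil} (hb : ContDiffOn ℝ n b s)
    (hc : ContDiffOn ℝ n c s) : ContDiffOn ℝ n (fun y => W (b y) (c y)) s := by
  unfold W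
  have e := fun i j => contDiffOn_ent hb i j
  have f := fun i j => contDiffOn_ent hc i j
  exact (((((e 0 1).mul (f 2 3)).sub ((e 0 2).mul (f 1 3))).add ((e 0 3).mul (f 1 2))).add
    ((e 1 2).mul (f 0 3))).sub ((e 1 3).mul (f 0 2)) |>.add ((e 2 3).mul (f 0 1))

theorem contDiffOn_q {n : WithTop ℕ∞} {s : Set E4} {F b c : E4 → Bil} (hF : ContDiffOn ℝ n F s)
    (hF0 : ∀ y ∈ s, W (F y) (F y) ≠ 0) (hb : ContDiffOn ℝ n b s)
    (hc : ContDiffOn ℝ n c s) : ContDiffOn ℝ n (fun y => q (F y) (b y) (c y)) s := by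
  unfold q
  exact (contDiffOn_W hb hc).div (contDiffOn_W hF hF) hF0

end Local

section Gen

variable {M : Type*}


theorem posG_fmul {J : EndF E4 M} {P : F2 E4 M} (hP : PosG J P) {f : M → ℝ} (hf : ∀ x, 0 ≤ f x) :
    PosG J (Ch.fmul f P) := fun x => Ns.pos_smul (hP x) (hf x)


variable [TopologicalSpace M] [ChartedSpace E4 M] [IsManifold 𝓘(ℝ, E4) ∞ M]

theorem alt_at {b : F2 E4 M} (hb : Smooth2 b) (x : M) : Alt (at2 b x) := fun v => hb.1 x v


theorem _root_.Crest.Agent.R240.Ch.Smooth2.neg' {b : F2 E4 M} (hb : Smooth2 b) : Smooth2 (-b) := by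
  have := Smooth2.smul (-1) hb
  rwa [neg_one_smul] at this

theorem _root_.Crest.Agent.R240.Ch.Smooth2.sub_nm {b c : F2 E4 M} (hb : Smooth2 b)
    (hc : Smooth2 c) : Smooth2 (b - c) := by
  rw [sub_eq_add_neg]; exact hb.add hc.neg'

end Gen

theorem le_of_sq_le_sq' {x y : ℝ} (h : x ^ 2 ≤ y ^ 2) (hy : 0 ≤ y) : x ≤ y :=
  le_trans (le_abs_self x) (abs_le_of_sq_le_sq h hy)

variable {M : Type*} [MetricSpace M] [CompactSpace M] [ChartedSpace E4 M]
    [IsManifold 𝓘(ℝ, E4) ∞ M] [MeasurableSpace M] [BorelSpace M]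

/-! ### data at a point -/

theorem dJ (D : Dat M) (x : M) : ∀ v, atJ D.J x (atJ D.J x v) = -v := D.sq x

theorem dF (D : Dat M) (x : M) : SPos (atJ D.J x) (at2 D.F x) := Int.dat_sposF D x

theorem smF (D : Dat M) : Smooth2 D.F := Int.dat_smF D


theorem smoothF_qG (D : Dat M) {b c : F2 E4 M} (hb : Smooth2 b) (hc : Smooth2 c) :
    SmoothF E4 (qG D.F b c) := by
  intro p
  have h1 := contDiffOn_q ((smF D).2 p) (fun y hy => (Int.dat_volF D).rep_ne hy) (hb.2 p) (hc.2 p)
  refine h1.congr fun y hy => ?_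
  exact Int.qG_chart (Int.dat_volF D) (fun x => alt_at hb x) (fun x => alt_at hc x) hy

theorem continuous_qG (D : Dat M) {b c : F2 E4 M} (hb : Smooth2 b) (hc : Smooth2 c) :
    Continuous (qG D.F b c) :=
  Int.continuous_qG (Int.dat_volF D) (Int.Smooth2.cont2 hb) (Int.Smooth2.cont2 hc)

theorem nsqG_eq (D : Dat M) (b : F2 E4 M) (x : M) : nsqG D.J D.F b x =
    2 * qG D.F b D.F x * qG D.F b D.F x - qG D.F (bp D.J b) (bp D.J b) x
      + qG D.F (bpp D.J b) (bpp D.J b) x := rfl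


theorem continuous_nsq (D : Dat M) {b : F2 E4 M} (hb : Smooth2 b) :
    Continuous (nsqG D.J D.F b) := by
  have h1 := continuous_qG D hb (smF D)
  have h2 := continuous_qG D (Smooth2.bp D.smJ hb) (Smooth2.bp D.smJ hb)
  have h3 := continuous_qG D (Smooth2.bpp D.smJ hb) (Smooth2.bpp D.smJ hb)
  exact (((continuous_const.mul h1).mul h1).sub h2).add h3

/-- continuity of `x ↦ |b|_x`. -/
theorem continuous_nr (D : Dat M) {b : F2 E4 M} (hb : Smooth2 b) : Continuous (D.nr b) :=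
  Real.continuous_sqrt.comp (continuous_nsq D hb)

theorem nr_nonneg (D : Dat M) (b : F2 E4 M) (x : M) : 0 ≤ D.nr b x := Real.sqrt_nonneg _

theorem nsq_nonneg (D : Dat M) {b : F2 E4 M} (hb : Smooth2 b) (x : M) : 0 ≤ nsqG D.J D.F b x :=
  Ns.nsq_nonneg (dJ D x) (dF D x) (alt_at hb x)

theorem nr_sq (D : Dat M) {b : F2 E4 M} (hb : Smooth2 b) (x : M) :
    D.nr b x ^ 2 = nsqG D.J D.F b x := Real.sq_sqrt (nsq_nonneg D hb x)

theorem abs_qG_le (D : Dat M) {b c : F2 E4 M} (hb : Smooth2 b) (hc : Smooth2 c) (x : M) :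
    |qG D.F b c x| ≤ D.nr b x * D.nr c x :=
  Ns.abs_q_le' (dJ D x) (dF D x) (alt_at hb x) (alt_at hc x)

theorem nr_add_le (D : Dat M) {b c : F2 E4 M} (hb : Smooth2 b) (hc : Smooth2 c) (x : M) :
    D.nr (b + c) x ≤ D.nr b x + D.nr c x :=
  Ns.pn_add_le (dJ D x) (dF D x) (alt_at hb x) (alt_at hc x)


theorem nr_smul (D : Dat M) (r : ℝ) (b : F2 E4 M) (x : M) : D.nr (r • b) x = |r| * D.nr b x :=
  Ns.pn_smul _ _ r _

theorem nr_fmul (D : Dat M) (f : M → ℝ) (b : F2 E4 M) (x : M) :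
    D.nr (fmul f b) x = |f x| * D.nr b x := Ns.pn_smul _ _ (f x) _


theorem nr_zero (D : Dat M) (x : M) : D.nr 0 x = 0 := Ns.pn_zero _ _

theorem nr_F (D : Dat M) (x : M) : D.nr D.F x = 1 := Ns.pn_F (dJ D x) (dF D x)



theorem nsq_split (D : Dat M) {b : F2 E4 M} (hb : Smooth2 b) (x : M) :
    nsqG D.J D.F b x = nsqG D.J D.F (bp D.J b) x + nsqG D.J D.F (bpp D.J b) x :=
  Ns.nsq_split (dJ D x) (dF D x) (alt_at hb x)



theorem q_split (D : Dat M) {b c : F2 E4 M} (hb : Smooth2 b) (hc : Smooth2 c) (x : M) :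
    qG D.F b c x = qG D.F (bp D.J b) (bp D.J c) x + qG D.F (bpp D.J b) (bpp D.J c) x :=
  Ns.q_split' (dJ D x) (dF D x) (alt_at hb x) (alt_at hc x)





theorem q_F_F (D : Dat M) (x : M) : qG D.F D.F D.F x = 1 := Ns.q_FF (dJ D x) (dF D x)

/-! ### positivity -/















/-! ### the `L²` norm and the pairing -/

instance instFin (D : Dat M) : IsFiniteMeasure D.μ := D.fin

theorem integrable_cont (D : Dat M) {f : M → ℝ} (hf : Continuous f) : Integrable f D.μ :=
  hf.integrable_of_hasCompactSupport (HasCompactSupport.of_compactSpace f)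


theorem I_add_left (D : Dat M) {a b c : F2 E4 M} (ha : Smooth2 a) (hb : Smooth2 b)
    (hc : Smooth2 c) : D.I (a + b) c = D.I a c + D.I b c := by
  unfold Dat.I IG
  rw [← integral_add (integrable_cont D (continuous_qG D ha hc))
    (integrable_cont D (continuous_qG D hb hc))]
  refine integral_congr_ae (Eventually.of_forall fun x => ?_)
  exact Int.qG_add_left _ _ _ _ x

theorem I_comm (D : Dat M) (b c : F2 E4 M) : D.I b c = D.I c b := by
  unfold Dat.I IG
  refine integral_congr_ae (Eventually.of_forall fun x => ?_)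
  exact Int.qG_comm _ _ _ x

theorem I_add_right (D : Dat M) {a b c : F2 E4 M} (ha : Smooth2 a) (hb : Smooth2 b)
    (hc : Smooth2 c) : D.I a (b + c) = D.I a b + D.I a c := by
  rw [I_comm, I_add_left D hb hc ha, I_comm D b, I_comm D c]

theorem I_smul_left (D : Dat M) (r : ℝ) (b c : F2 E4 M) : D.I (r • b) c = r * D.I b c := by
  unfold Dat.I IG
  rw [← integral_const_mul]
  refine integral_congr_ae (Eventually.of_forall fun x => ?_)
  exact Int.qG_smul_left _ _ _ _ x

theorem I_smul_right (D : Dat M) (r : ℝ) (b c : F2 E4 M) : D.I b (r • c) = r * D.I b c := by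
  rw [I_comm, I_smul_left, I_comm]

theorem I_neg_left (D : Dat M) (b c : F2 E4 M) : D.I (-b) c = - D.I b c := by
  have h := I_smul_left D (-1) b c
  rw [neg_one_smul] at h
  linarith


theorem I_sub_left (D : Dat M) {a b c : F2 E4 M} (ha : Smooth2 a) (hb : Smooth2 b)
    (hc : Smooth2 c) : D.I (a - b) c = D.I a c - D.I b c := by
  have hn : Smooth2 (-b) := hb.neg'
  rw [sub_eq_add_neg, I_add_left D ha hn hc, I_neg_left]; ring



theorem n2_nonneg (D : Dat M) (b : F2 E4 M) : 0 ≤ D.n2 b := Real.sqrt_nonneg _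

theorem n2_sq (D : Dat M) {b : F2 E4 M} (hb : Smooth2 b) :
    D.n2 b ^ 2 = ∫ x, nsqG D.J D.F b x ∂D.μ :=
  Real.sq_sqrt (integral_nonneg fun x => nsq_nonneg D hb x)

/-- Cauchy-Schwarz for continuous functions. -/
theorem cs_cont (D : Dat M) {f g : M → ℝ} (hf : Continuous f) (hg : Continuous g) :
    |∫ x, f x * g x ∂D.μ| ≤ √(∫ x, f x ^ 2 ∂D.μ) * √(∫ x, g x ^ 2 ∂D.μ) := by
  have hA : 0 ≤ ∫ x, f x ^ 2 ∂D.μ := integral_nonneg fun x => sq_nonneg _
  have hB : 0 ≤ ∫ x, g x ^ 2 ∂D.μ := integral_nonneg fun x => sq_nonneg _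
  have iA : Integrable (fun x => f x ^ 2) D.μ := integrable_cont D (hf.pow 2)
  have iB : Integrable (fun x => g x ^ 2) D.μ := integrable_cont D (hg.pow 2)
  have iC : Integrable (fun x => f x * g x) D.μ := integrable_cont D (hf.mul hg)
  have key : ∀ t : ℝ, 0 ≤ (∫ x, g x ^ 2 ∂D.μ) * (t * t) + (2 * ∫ x, f x * g x ∂D.μ) * t
      + ∫ x, f x ^ 2 ∂D.μ := by
    intro t
    have h1 : 0 ≤ ∫ x, (f x + t * g x) ^ 2 ∂D.μ := integral_nonneg fun x => sq_nonneg _
    have h2 : ∫ x, (f x + t * g x) ^ 2 ∂D.μ = (∫ x, f x ^ 2 ∂D.μ) + ((2 * t) * ∫ x, f x * g x ∂D.μ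
        + (t * t) * ∫ x, g x ^ 2 ∂D.μ) := by
      have iD : Integrable (fun x => 2 * t * (f x * g x)) D.μ := iC.const_mul _
      have iE : Integrable (fun x => t * t * g x ^ 2) D.μ := iB.const_mul _
      have iF : Integrable (fun x => 2 * t * (f x * g x) + t * t * g x ^ 2) D.μ := iD.add iE
      rw [← integral_const_mul, ← integral_const_mul, ← integral_add iD iE, ← integral_add iA iF]
      refine integral_congr_ae (Eventually.of_forall fun x => ?_)
      simp only
      ring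
    rw [h2] at h1
    linarith
  have hd := discrim_le_zero key
  unfold discrim at hd
  have h3 : (∫ x, f x * g x ∂D.μ) ^ 2 ≤ (∫ x, f x ^ 2 ∂D.μ) * ∫ x, g x ^ 2 ∂D.μ := by
    nlinarith
  rw [← Real.sqrt_mul hA, ← Real.sqrt_sq_eq_abs]
  exact Real.sqrt_le_sqrt h3

theorem n2_eq (D : Dat M) {b : F2 E4 M} (hb : Smooth2 b) :
    D.n2 b = √(∫ x, D.nr b x ^ 2 ∂D.μ) := by
  have : ∀ x, D.nr b x ^ 2 = nsqG D.J D.F b x := fun x => nr_sq D hb x
  simp only [this]
  rfl

theorem int_nr_mul_le (D : Dat M) {b c : F2 E4 M} (hb : Smooth2 b) (hc : Smooth2 c) :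
    ∫ x, D.nr b x * D.nr c x ∂D.μ ≤ D.n2 b * D.n2 c := by
  rw [n2_eq D hb, n2_eq D hc]
  exact (le_abs_self _).trans (cs_cont D (continuous_nr D hb) (continuous_nr D hc))

/-- `|I(b,c)| ≤ ‖b‖₂‖c‖₂`. -/
theorem abs_I_le (D : Dat M) {b c : F2 E4 M} (hb : Smooth2 b) (hc : Smooth2 c) :
    |D.I b c| ≤ D.n2 b * D.n2 c := by
  refine le_trans ?_ (int_nr_mul_le D hb hc)
  unfold Dat.I IG
  rw [← Real.norm_eq_abs]
  refine (norm_integral_le_integral_norm _).trans ?_
  refine integral_mono (integrable_cont D (continuous_qG D hb hc).norm)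
    (integrable_cont D ((continuous_nr D hb).mul (continuous_nr D hc))) fun x => ?_
  exact abs_qG_le D hb hc x

theorem n2_add_le (D : Dat M) {b c : F2 E4 M} (hb : Smooth2 b) (hc : Smooth2 c) :
    D.n2 (b + c) ≤ D.n2 b + D.n2 c := by
  have h1 := n2_sq D (Smooth2.add hb hc)
  have h2 := int_nr_mul_le D hb hc
  have h3 : ∫ x, nsqG D.J D.F (b + c) x ∂D.μ ≤ (D.n2 b + D.n2 c) ^ 2 := by
    have h4 : ∫ x, nsqG D.J D.F (b + c) x ∂D.μ ≤ ∫ x, (nsqG D.J D.F b x
        + (2 * (D.nr b x * D.nr c x) + nsqG D.J D.F c x)) ∂D.μ := by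
      refine integral_mono (integrable_cont D (continuous_nsq D (Smooth2.add hb hc)))
        (integrable_cont D ((continuous_nsq D hb).add ((continuous_const.mul
          ((continuous_nr D hb).mul (continuous_nr D hc))).add (continuous_nsq D hc))))
        fun x => ?_
      show nsqG D.J D.F (b + c) x ≤ nsqG D.J D.F b x
        + (2 * (D.nr b x * D.nr c x) + nsqG D.J D.F c x)
      rw [← nr_sq D (Smooth2.add hb hc), ← nr_sq D hb, ← nr_sq D hc]
      have := nr_add_le D hb hc x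
      have := nr_nonneg D (b + c) x
      have := nr_nonneg D b x
      have := nr_nonneg D c x
      nlinarith
    have i1 : Integrable (fun x => nsqG D.J D.F b x) D.μ := integrable_cont D (continuous_nsq D hb)
    have i2 : Integrable (fun x => nsqG D.J D.F c x) D.μ := integrable_cont D (continuous_nsq D hc)
    have i3 : Integrable (fun x => 2 * (D.nr b x * D.nr c x)) D.μ :=
      integrable_cont D (continuous_const.mul ((continuous_nr D hb).mul (continuous_nr D hc)))
    have i4 : Integrable (fun x => 2 * (D.nr b x * D.nr c x) + nsqG D.J D.F c x) D.μ := i3.add i2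
    rw [integral_add i1 i4, integral_add i3 i2, integral_const_mul, ← n2_sq D hb,
      ← n2_sq D hc] at h4
    nlinarith
  rw [← h1] at h3
  exact le_of_sq_le_sq' h3 (add_nonneg (n2_nonneg D b) (n2_nonneg D c))

theorem n2_smul (D : Dat M) (r : ℝ) (b : F2 E4 M) : D.n2 (r • b) = |r| * D.n2 b := by
  unfold Dat.n2 R240.n2
  have : ∀ x, nsqG D.J D.F (r • b) x = r ^ 2 * nsqG D.J D.F b x := fun x =>
    nsq_smul _ _ r _
  simp only [this]
  rw [integral_const_mul, Real.sqrt_mul (sq_nonneg r), Real.sqrt_sq_eq_abs]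









/-- `I(b,c) = I(b',c') + I(b'',c'')`. -/
theorem I_split (D : Dat M) {b c : F2 E4 M} (hb : Smooth2 b) (hc : Smooth2 c) :
    D.I b c = D.I (bp D.J b) (bp D.J c) + D.I (bpp D.J b) (bpp D.J c) := by
  have h1 := Smooth2.bp D.smJ hb
  have h2 := Smooth2.bpp D.smJ hb
  have h3 := Smooth2.bp D.smJ hc
  have h4 := Smooth2.bpp D.smJ hc
  unfold Dat.I IG
  rw [← integral_add (integrable_cont D (continuous_qG D h1 h3))
    (integrable_cont D (continuous_qG D h2 h4))]
  exact integral_congr_ae (Eventually.of_forall fun x => q_split D hb hc x)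


/-! ### the star -/





/-! ### the seminorms `cm` -/

/-- the `C^m` seminorm on `X2 M`. -/
def cmS {M : Type*} [TopologicalSpace M] [ChartedSpace E4 M] [IsManifold 𝓘(ℝ, E4) ∞ M]
    (𝒰 : Cover M) (m : ℕ) : Seminorm ℝ (X2 M) :=
  Seminorm.of (fun b => 𝒰.cm m b.1) (fun a b => cm_add_le 𝒰 m a.2 b.2)
    (fun r a => by
      rw [Real.norm_eq_abs]
      exact cm_smul 𝒰 m a.2 r)


end

end Crest.Agent.R240.NM
-- keep-prune
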