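import Crest.Agent.R240.En4D

/-!
Row 240 (helper744): duality on `M` (R4b), the dual cone and the anti-invariant part.
-/

set_option autoImplicit false
set_option maxSynthPendingDepth 3

open Set Function Filter MeasureTheory
open scoped Manifold ContDiff Topology ENNReal

namespace Crest.Agent.R240.En4

open Crest.Agent.R240 Crest.Agent.R240.Ch

noncomputable section

/-! ### pointwise facts -/

section Pt

variable {J : E4 →L[ℝ] E4} {F : Bil} (hJ : ∀ v, J (J v) = -v) (hF : SPos J F)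

/-- the primitive part of `X'`. -/
def prim (J : E4 →L[ℝ] E4) (F X : Bil) : Bil := invp J X - (q F X F) • F

include hJ hF

theorem prim_inv (X : Bil) (u v : E4) : prim J F X (J u) (J v) = prim J F X u v := by
  have h : ∀ a b, prim J F X a b = invp J X a b - q F X F * F a b := fun a b => rfl
  rw [h, h, invp_inv hJ, hF.inv]

theorem prim_alt {X : Bil} (hX : Alt X) : Alt (prim J F X) :=
  (hX.invp J).sub (hF.alt.smul _)

theorem q_prim_F {X : Bil} (hX : Alt X) : q F (prim J F X) F = 0 := by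
  unfold prim
  rw [q_sub_left, q_smul_left, q_F_F hJ hF, q_F_invp hJ hF hX]; ring

theorem nsq_prim {X : Bil} (hX : Alt X) :
    nsq J F (prim J F X) = - q F (prim J F X) (prim J F X) := by
  rw [nsq_inv hJ hF (prim_inv hJ hF X), q_prim_F hJ hF hX]; ring

/-- `t F + X₀` has `q`-square `t² - |X₀|²`. -/
theorem q_tF_prim {X : Bil} (hX : Alt X) (t : ℝ) :
    q F (t • F + prim J F X) (t • F + prim J F X) = t ^ 2 - nsq J F (prim J F X) := by
  rw [q_add_left, q_add_right, q_add_right, q_smul_left, q_smul_left, q_smul_right,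
    q_smul_right, q_F_F hJ hF, q_comm F F (prim J F X), q_prim_F hJ hF hX, nsq_prim hJ hF hX]
  ring

theorem q_tF_prim_F {X : Bil} (hX : Alt X) (t : ℝ) :
    q F (t • F + prim J F X) F = t := by
  rw [q_add_left, q_smul_left, q_F_F hJ hF, q_prim_F hJ hF hX]; ring

theorem tF_prim_inv (X : Bil) (t : ℝ) (u v : E4) :
    (t • F + prim J F X) (J u) (J v) = (t • F + prim J F X) u v := by
  have h : ∀ a b, (t • F + prim J F X) a b = t * F a b + prim J F X a b := fun a b => rfl
  rw [h, h, prim_inv hJ hF, hF.inv]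

theorem tF_prim_pos {X : Bil} (hX : Alt X) {t : ℝ} (ht : 0 ≤ t)
    (h : nsq J F (prim J F X) ≤ t ^ 2) (v : E4) : 0 ≤ (t • F + prim J F X) v (J v) := by
  refine (pos_iff hJ hF ((hF.alt.smul _).add (prim_alt hJ hF hX)) (tF_prim_inv hJ hF X t)).2 ?_ v
  rw [q_tF_prim hJ hF hX, q_tF_prim_F hJ hF hX]
  exact ⟨ht, by linarith⟩

/-- `q(X, t F + X₀) = q(X,F) t - |X₀|²`. -/
theorem q_X_tF_prim {X : Bil} (hX : Alt X) (t : ℝ) :
    q F X (t • F + prim J F X) = q F X F * t - nsq J F (prim J F X) := by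
  have h1 : q F X (prim J F X) = q F (invp J X) (prim J F X) := by
    rw [q_split hJ hF hX (prim_alt hJ hF hX), antip_of_inv (prim_inv hJ hF X),
      invp_of_inv (prim_inv hJ hF X), q_zero_right, add_zero]
  have h2 : invp J X = (q F X F) • F + prim J F X := by
    unfold prim; ext u v
    simp only [add_apply, sub_apply, smul_apply, smul_eq_mul]; ring
  rw [q_add_right, q_smul_right, h1, h2, q_add_left, q_smul_left, q_comm F F (prim J F X),
    q_prim_F hJ hF hX, nsq_prim hJ hF hX]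
  ring

theorem pos_of_prim {X : Bil} (hX : Alt X) {g : ℝ} (h0 : 0 ≤ q F X F + g)
    (h : nsq J F (prim J F X) ≤ (q F X F + g) ^ 2) (v : E4) :
    0 ≤ X v (J v) + g * F v (J v) := by
  have h1 := tF_prim_pos hJ hF hX h0 h v
  have h2 : ((q F X F + g) • F + prim J F X) v (J v) =
      (q F X F + g) * F v (J v) + (invp J X v (J v) - q F X F * F v (J v)) := rfl
  rw [h2, invp_diag hJ hX] at h1
  linarith

/-- lower bound ⇒ size bound for the invariant part. -/
theorem nsq_le_of_lower {X : Bil} (hX : Alt X) {s a : ℝ} (hs : 0 ≤ s) (ha0 : 0 ≤ a)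
    (ha : q F X F ≤ a)
    (h : ∀ v, 0 ≤ X v (J v) + s * F v (J v)) :
    nsq J F (invp J X) ≤ (2 * (a + s)) ^ 2 := by
  have hinv : ∀ u v, (invp J X + s • F) (J u) (J v) = (invp J X + s • F) u v := by
    intro u v
    have h : ∀ a b, (invp J X + s • F) a b = invp J X a b + s * F a b := fun a b => rfl
    rw [h, h, invp_inv hJ, hF.inv]
  have hpos : ∀ v, 0 ≤ (invp J X + s • F) v (J v) := by
    intro v
    have h2 : (invp J X + s • F) v (J v) = invp J X v (J v) + s * F v (J v) := rfl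
    rw [h2, invp_diag hJ hX]
    exact h v
  obtain ⟨h1, h2⟩ := (pos_iff hJ hF ((hX.invp J).add (hF.alt.smul _)) hinv).1 hpos
  rw [q_add_left, q_smul_left, q_F_F hJ hF, q_F_invp hJ hF hX] at h1
  rw [q_add_left, q_add_right, q_add_right, q_smul_left, q_smul_left, q_smul_right, q_smul_right,
    q_F_F hJ hF, q_comm F F (invp J X), q_F_invp hJ hF hX] at h2
  rw [nsq_inv hJ hF (invp_inv hJ X), q_F_invp hJ hF hX]
  generalize q F (invp J X) (invp J X) = Q at *
  generalize q F X F = c at *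
  have h3 : 0 ≤ c + s := by linarith
  have h4 : c + s ≤ a + s := by linarith
  have h5 : s ≤ a + s := by linarith
  have h6 : 0 ≤ a + s := by linarith
  have h7 : (c + s) ^ 2 ≤ (a + s) ^ 2 := by gcongr
  have h8 : s ^ 2 ≤ (a + s) ^ 2 := by gcongr
  have h9 : 0 ≤ (c + s) * s := mul_nonneg h3 hs
  nlinarith

end Pt

/-! ### duality on `M` -/

variable {M : Type*} [MetricSpace M] [CompactSpace M] [ChartedSpace E4 M]
    [IsManifold 𝓘(ℝ, E4) ∞ M] [MeasurableSpace M] [BorelSpace M] (D : Dat M)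

/-- primitive part on `M`. -/
def primX (X : X2 M) : X2 M :=
  D.pi' X - fX (qG D.F X.1 D.F) (sF_qG D X.2 (smF D)) D.FX


theorem mem_Pp {P : X2 M} (h1 : ∀ x u v, at2 P.1 x (atJ D.J x u) (atJ D.J x v) = at2 P.1 x u v)
    (h2 : ∀ x v, 0 ≤ at2 P.1 x v (atJ D.J x v)) : P ∈ D.Pp :=
  fun x => ⟨alt2 P x, h1 x, h2 x⟩

theorem fX_mem_Pp {f : M → ℝ} (hf : SmoothF E4 f) (h0 : ∀ x, 0 ≤ f x) {P : X2 M} (hP : P ∈ D.Pp) :
    fX f hf P ∈ D.Pp := by
  refine mem_Pp D (fun x u v => ?_) (fun x v => ?_)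
  · have h : ∀ a b, at2 (fX f hf P).1 x a b = f x * at2 P.1 x a b := fun a b => rfl
    rw [h, h, (hP x).inv]
  · have h : at2 (fX f hf P).1 x v (atJ D.J x v) = f x * at2 P.1 x v (atJ D.J x v) := rfl
    rw [h]
    exact mul_nonneg (h0 x) ((hP x).nonneg v)

theorem FX_mem_Pp : D.FX ∈ D.Pp := by
  refine mem_Pp D (fun x u v => (spos D x).inv u v) (fun x v => ?_)
  by_cases hv : v = 0
  · subst hv; rw [map_zero]; exact le_of_eq rfl
  · exact ((spos D x).pos v hv).le

/-- the test form `√(|X₀|² + δ) F + X₀`. -/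
def testX (X : X2 M) (δ : ℝ) (hδ : 0 < δ) : X2 M :=
  fX (fun x => √(nsqG D.J D.F (primX D X).1 x + δ))
    (sF_sqrt (sF_add (sF_nsqG D (primX D X).2) (sF_const δ)) (fun x => by
      have := nsqG_nonneg D (primX D X).2.1 x
      exact ne_of_gt (by linarith))) D.FX + primX D X

theorem testX_mem (X : X2 M) (δ : ℝ) (hδ : 0 < δ) : testX D X δ hδ ∈ D.Pp := by
  refine mem_Pp D (fun x u v => ?_) (fun x v => ?_)
  · exact tF_prim_inv (D.sq x) (spos D x) (at2 X.1 x) _ u v
  · refine tF_prim_pos (D.sq x) (spos D x) (alt2 X x) (Real.sqrt_nonneg _) ?_ v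
    have := nsqG_nonneg D (primX D X).2.1 x
    rw [Real.sq_sqrt (by linarith)]
    have h : nsq (atJ D.J x) (at2 D.F x) (prim (atJ D.J x) (at2 D.F x) (at2 X.1 x)) =
      nsqG D.J D.F (primX D X).1 x := rfl
    rw [h]; linarith

theorem geF_of_dual (X : X2 M) {g : M → ℝ} (hg : Continuous g)
    (h : ∀ P ∈ D.Pp, 0 ≤ D.I X.1 P.1 + ∫ x, g x * qG D.F P.1 D.F x ∂D.μ) :
    GeF D.J D.F X.1 (fun x => - g x) := by
  -- localised version
  have hloc : ∀ P ∈ D.Pp, ∀ x, 0 ≤ qG D.F X.1 P.1 x + g x * qG D.F P.1 D.F x := by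
    intro P hP
    apply loc D (g := fun x => qG D.F X.1 P.1 x + g x * qG D.F P.1 D.F x)
      ((sF_continuous (sF_qG D X.2 P.2)).add (hg.mul (sF_continuous (sF_qG D P.2 (smF D)))))
    intro f hf hf0
    have h1 := h _ (fX_mem_Pp D hf hf0 hP)
    rw [I_fX, ← integral_add] at h1
    · refine h1.trans_eq ?_
      congr 1
      funext x
      have : qG D.F (fX f hf P).1 D.F x = f x * qG D.F P.1 D.F x := q_smul_left _ _ _ _
      rw [this]; ring
    · exact integrable_cont D ((sF_continuous hf).mul (sF_continuous (sF_qG D X.2 P.2)))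
    · exact integrable_cont D (hg.mul (sF_continuous (sF_qG D (fX f hf P).2 (smF D))))
  intro x v
  set n0 := nsqG D.J D.F (primX D X).1 x with hn0
  have hn0' : 0 ≤ n0 := nsqG_nonneg D (primX D X).2.1 x
  set a := qG D.F X.1 D.F x with ha
  -- test with F
  have h1 : 0 ≤ a + g x := by
    have h2 := hloc _ (FX_mem_Pp D) x
    have h3 : qG D.F D.FX.1 D.F x = 1 := q_F_F (D.sq x) (spos D x)
    rw [h3, mul_one] at h2
    exact h2
  have h2 : ∀ δ : ℝ, 0 < δ → n0 ≤ (a + g x) * √(n0 + δ) := by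
    intro δ hδ
    have h3 := hloc _ (testX_mem D X δ hδ) x
    have e1 : qG D.F X.1 (testX D X δ hδ).1 x = a * √(n0 + δ) - n0 :=
      q_X_tF_prim (D.sq x) (spos D x) (alt2 X x) _
    have e2 : qG D.F (testX D X δ hδ).1 D.F x = √(n0 + δ) :=
      q_tF_prim_F (D.sq x) (spos D x) (alt2 X x) _
    rw [e1, e2] at h3
    linarith
  have h3 : n0 ≤ (a + g x) * √n0 := by
    have hc : Tendsto (fun δ : ℝ => (a + g x) * √(n0 + δ)) (𝓝[>] 0) (𝓝 ((a + g x) * √(n0 + 0))) := by
      have : Continuous (fun δ : ℝ => (a + g x) * √(n0 + δ)) := by fun_prop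
      exact this.continuousAt.mono_left nhdsWithin_le_nhds
    rw [add_zero] at hc
    refine ge_of_tendsto hc ?_
    filter_upwards [self_mem_nhdsWithin] with δ hδ using h2 δ hδ
  have h4 : n0 ≤ (a + g x) ^ 2 := by
    have hs : √n0 * √n0 = n0 := Real.mul_self_sqrt hn0'
    rcases hn0'.lt_or_eq with h5 | h5
    · have h6 : 0 < √n0 := Real.sqrt_pos.2 h5
      have h7 : √n0 ≤ a + g x := by
        by_contra hcon
        push Not at hcon
        nlinarith
      nlinarith
    · rw [← h5]; positivity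
  have h5 := pos_of_prim (D.sq x) (spos D x) (alt2 X x) h1 h4 v
  have h6 : at2 X.1 x v (atJ D.J x v) = at2 X.1 x v (atJ D.J x v) := rfl
  change -g x * at2 D.F x v (atJ D.J x v) ≤ at2 X.1 x v (atJ D.J x v)
  linarith


theorem nr_fX {f : M → ℝ} (hf : SmoothF E4 f) (h0 : ∀ x, 0 ≤ f x) (b : X2 M) (x : M) :
    D.nr (fX f hf b).1 x = f x * D.nr b.1 x := by
  have h : nsqG D.J D.F (fX f hf b).1 x = f x ^ 2 * nsqG D.J D.F b.1 x := by
    have e : nsqG D.J D.F (fX f hf b).1 x =
      ip (atJ D.J x) (at2 D.F x) (f x • at2 b.1 x) (f x • at2 b.1 x) := rfl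
    rw [e, ip_smul_left, ip_smul_right]
    have e2 : nsqG D.J D.F b.1 x = ip (atJ D.J x) (at2 D.F x) (at2 b.1 x) (at2 b.1 x) := rfl
    rw [e2]; ring
  have e3 : D.nr (fX f hf b).1 x = √(nsqG D.J D.F (fX f hf b).1 x) := rfl
  have e4 : D.nr b.1 x = √(nsqG D.J D.F b.1 x) := rfl
  rw [e3, e4, h, Real.sqrt_mul (sq_nonneg _), Real.sqrt_sq (h0 x)]

theorem nr_anti_le_of_dual (X : X2 M) {g : M → ℝ} (hg : Continuous g) (hg0 : ∀ x, 0 ≤ g x)
    (h : ∀ (b : X2 M) (u : M → ℝ), SmoothF E4 u → (∀ x, D.nr b.1 x ≤ u x) →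
      |D.I X.1 (D.pi'' b).1| ≤ ∫ x, u x * g x ∂D.μ) (x : M) :
    D.nr (D.pi'' X).1 x ≤ g x := by
  set n : M → ℝ := nsqG D.J D.F (D.pi'' X).1 with hn
  have hn0 : ∀ x, 0 ≤ n x := nsqG_nonneg D (D.pi'' X).2.1
  have hns : SmoothF E4 n := sF_nsqG D (D.pi'' X).2
  have h1 : ∀ δ : ℝ, 0 < δ → ∀ x, 0 ≤ √(n x + δ) * g x - n x := by
    intro δ hδ
    have hsd : SmoothF E4 (fun x => √(n x + δ)) := sF_sqrt (sF_add hns (sF_const δ)) (fun x => by
      have := hn0 x
      exact ne_of_gt (by linarith))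
    apply loc D (g := fun x => √(n x + δ) * g x - n x)
      (((sF_continuous hsd).mul hg).sub (sF_continuous hns))
    intro f hf hf0
    have h2 := h (fX f hf (D.pi'' X)) (fun x => f x * √(n x + δ)) (sF_mul hf hsd) (by
      intro x
      rw [nr_fX D hf hf0]
      apply mul_le_mul_of_nonneg_left _ (hf0 x)
      exact Real.sqrt_le_sqrt (by
        have : nsq (atJ D.J x) (at2 D.F x) (at2 (D.pi'' X).1 x) = n x := rfl
        rw [this]; linarith))
    have e1 : D.pi'' (fX f hf (D.pi'' X)) = fX f hf (D.pi'' X) := by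
      apply ext_at2
      intro x
      apply antip_of_anti
      intro u v
      have h : ∀ a b, at2 (fX f hf (D.pi'' X)).1 x a b = f x * at2 (D.pi'' X).1 x a b :=
        fun a b => rfl
      rw [h, h, at2_pi'', antip_anti (D.sq x)]; ring
    rw [e1, I_fX] at h2
    have e2 : ∀ x, qG D.F X.1 (D.pi'' X).1 x = n x := by
      intro x
      have h3 := q_split (D.sq x) (spos D x) (alt2 X x) ((alt2 X x).antip (atJ D.J x))
      rw [invp_of_anti (antip_anti (D.sq x) _), antip_of_anti (antip_anti (D.sq x) _),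
        q_zero_right, zero_add] at h3
      have h4 := nsq_anti (D.sq x) (spos D x) ((alt2 X x).antip (atJ D.J x))
        (antip_anti (D.sq x) _)
      exact h3.trans h4.symm
    have h3 := (le_abs_self _).trans h2
    have hi1 : Integrable (fun x => f x * √(n x + δ) * g x) D.μ :=
      integrable_cont D (((sF_continuous hf).mul (sF_continuous hsd)).mul hg)
    have hi2 : Integrable (fun x => f x * n x) D.μ :=
      integrable_cont D ((sF_continuous hf).mul (sF_continuous hns))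
    have h4 : ∫ x, f x * (√(n x + δ) * g x - n x) ∂D.μ =
        ∫ x, f x * √(n x + δ) * g x ∂D.μ - ∫ x, f x * n x ∂D.μ := by
      rw [← integral_sub hi1 hi2]
      congr 1
      funext x
      ring
    rw [h4]
    simp only [e2] at h3
    linarith
  have h3 : n x ≤ √(n x) * g x := by
    have hc : Tendsto (fun δ : ℝ => √(n x + δ) * g x) (𝓝[>] 0) (𝓝 (√(n x + 0) * g x)) := by
      have : Continuous (fun δ : ℝ => √(n x + δ) * g x) := by fun_prop
      exact this.continuousAt.mono_left nhdsWithin_le_nhds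
    rw [add_zero] at hc
    refine ge_of_tendsto hc ?_
    filter_upwards [self_mem_nhdsWithin] with δ hδ
    have := h1 δ hδ x
    linarith
  have e : D.nr (D.pi'' X).1 x = √(n x) := rfl
  rw [e]
  have hs : √(n x) * √(n x) = n x := Real.mul_self_sqrt (hn0 x)
  rcases (Real.sqrt_nonneg (n x)).lt_or_eq with h6 | h6
  · by_contra hcon
    push Not at hcon
    nlinarith
  · rw [← h6]; exact hg0 x

end

end Crest.Agent.R240.En4
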