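import Mathlib
import Crest.Agent.R240.Lin1
import Crest.Agent.R240.Sm2d
import Crest.Agent.R240.SmAvg
import Crest.Agent.R240.IntTop

-- ▼ part R240/Sm3a
section

/-!
Row 240, block SM, part Sm3a (helper375): change of variables in `E4` for the wedge pairing.
-/

set_option autoImplicit false

open Set MeasureTheory

namespace Crest.Agent.R240.Sm

noncomputable section

/-- **Change of variables** for the wedge pairing under an orientation preserving
diffeomorphism `τ` of an open set `Ω`; `σ` is a sign function invariant under `τ`. -/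
theorem integral_W_pull {Ω : Set E4} (hΩ : MeasurableSet Ω) {τ : E4 → E4}
    {τ' : E4 → E4 →L[ℝ] E4} (hτ' : ∀ y ∈ Ω, HasFDerivAt τ (τ' y) y) (hinj : InjOn τ Ω)
    (himg : τ '' Ω = Ω) (hdet : ∀ y ∈ Ω, 0 < LinearMap.det (τ' y : E4 →ₗ[ℝ] E4))
    {σ : E4 → ℝ} (hσ : ∀ y ∈ Ω, σ (τ y) = σ y) {a b : E4 → Bil}
    (ha : ∀ y ∈ Ω, Alt (a y)) (hb : ∀ y ∈ Ω, Alt (b y)) :
    ∫ y in Ω, σ y * W (pull (τ' y) (a (τ y))) (pull (τ' y) (b (τ y))) =
      ∫ y in Ω, σ y * W (a y) (b y) := by
  have h1 : ∫ y in Ω, σ y * W (a y) (b y) = ∫ y in τ '' Ω, σ y * W (a y) (b y) := by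
    rw [himg]
  rw [h1, integral_image_eq_integral_abs_det_fderiv_smul volume hΩ
    (fun y hy => (hτ' y hy).hasFDerivWithinAt) hinj]
  apply setIntegral_congr_fun hΩ
  intro y hy
  have hty : τ y ∈ Ω := by rw [← himg]; exact mem_image_of_mem _ hy
  have hd : |(τ' y).det| = LinearMap.det (τ' y : E4 →ₗ[ℝ] E4) := by
    rw [ContinuousLinearMap.det, abs_of_pos (hdet y hy)]
  simp only [smul_eq_mul]
  rw [W_pull (ha _ hty) (hb _ hty), hd, hσ y hy]
  ring

end

end Crest.Agent.R240.Sm
end

-- ▼ part R240/Sm3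

/-!
Row 240, block R (smoothing), part Sm3 (helper375): invariance of the pairing `I` under the
one-chart diffeomorphisms, transposes of the one-chart averaging operators.
-/

set_option autoImplicit false
set_option maxSynthPendingDepth 3
set_option linter.unusedSectionVars false
set_option linter.style.haveILetI false

open Set Function Filter Bundle MeasureTheory Metric
open scoped Manifold ContDiff Topology
open Crest.Agent.R240.Ch

namespace Crest.Agent.R240.Sm

noncomputable section

/-! ### signs along paths -/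

/-- a continuous nonvanishing function on `[0,1]` does not change sign. -/
lemma pos_of_path {f : ℝ → ℝ} (hf : ContinuousOn f (Icc 0 1))
    (h0 : ∀ t ∈ Icc (0 : ℝ) 1, f t ≠ 0) (hp : 0 < f 0) : 0 < f 1 := by
  by_contra h
  have h1 : f 1 ≤ 0 := not_lt.mp h
  obtain ⟨t, ht, ht0⟩ := intermediate_value_Icc' zero_le_one hf ⟨h1, hp.le⟩
  exact h0 t ht ht0

lemma sign_of_path {f : ℝ → ℝ} (hf : ContinuousOn f (Icc 0 1))
    (h0 : ∀ t ∈ Icc (0 : ℝ) 1, f t ≠ 0) : SignType.sign (f 1) = SignType.sign (f 0) := by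
  rcases lt_or_gt_of_ne (h0 0 (by simp)) with h | h
  · have h2 := pos_of_path (f := fun t => - f t) hf.neg
      (fun t ht => neg_ne_zero.mpr (h0 t ht)) (by simpa using h)
    rw [sign_neg h, sign_neg (by simpa using h2)]
  · have h2 := pos_of_path hf h0 h
    rw [sign_pos h, sign_pos h2]

lemma smul_mem_ball {r : ℝ} {z : E4} (hz : z ∈ ball (0 : E4) r) {t : ℝ}
    (ht : t ∈ Icc (0 : ℝ) 1) : t • z ∈ ball (0 : E4) r := by
  rw [mem_ball_zero_iff] at hz ⊢
  rw [norm_smul, Real.norm_eq_abs, abs_of_nonneg ht.1]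
  exact (mul_le_of_le_one_left (norm_nonneg _) ht.2).trans_lt hz

lemma Fam.det_dg_ne (G : Fam E4) {z : E4} (hz : z ∈ ball (0 : E4) G.r) (y : E4) :
    (G.dg z y).det ≠ 0 := by
  have h := G.dg_comp hz y
  have h2 : LinearMap.det ((G.symm.dg z (G.g z y) : E4 →ₗ[ℝ] E4).comp (G.dg z y : E4 →ₗ[ℝ] E4)) =
      1 := by
    have h3 : (G.symm.dg z (G.g z y) : E4 →ₗ[ℝ] E4).comp (G.dg z y : E4 →ₗ[ℝ] E4) =
        LinearMap.id := by
      ext1 v
      exact congrArg (fun A : E4 →L[ℝ] E4 => A v) h
    rw [h3, LinearMap.det_id]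
  rw [LinearMap.det_comp] at h2
  intro h0
  unfold ContinuousLinearMap.det at h0
  rw [h0, mul_zero] at h2
  exact zero_ne_one h2

/-- the diffeomorphisms preserve the orientation of the model space. -/
lemma Fam.det_dg_pos (G : Fam E4) {z : E4} (hz : z ∈ ball (0 : E4) G.r) (y : E4) :
    0 < (G.dg z y).det := by
  have hc : ContinuousOn (fun t : ℝ => G.dg (t • z) y) (Icc 0 1) :=
    G.contDiffOn_dg.continuousOn.comp (f := fun t : ℝ => ((t • z, y) : E4 × E4))
      (by fun_prop) fun t ht => ⟨smul_mem_ball hz ht, mem_univ _⟩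
  have h1 := pos_of_path (f := fun t : ℝ => (G.dg (t • z) y).det)
    (ContinuousLinearMap.continuous_det.comp_continuousOn hc)
    (fun t ht => G.det_dg_ne (smul_mem_ball hz ht) y) (by
      have h2 : G.g (0 : E4) = id := funext G.g_zero
      have h3 : G.dg (0 : E4) y = ContinuousLinearMap.id ℝ E4 := by
        rw [Fam.dg, h2, fderiv_id]
      simp only [zero_smul, h3]
      unfold ContinuousLinearMap.det
      simp)
  simpa using h1

variable {M : Type*} [TopologicalSpace M] [ChartedSpace E4 M] [IsManifold 𝓘(ℝ, E4) ∞ M]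

/-- the chart orientation sign is invariant. -/
lemma sg_g {F : F2 E4 M} (hF : Int.Vol F) {G : Fam E4} {p : M}
    (hG : G.K ⊆ (chartAt E4 p).target) {z : E4} (hz : z ∈ ball (0 : E4) G.r) {y : E4}
    (hy : y ∈ (chartAt E4 p).target) : Int.sg F p (G.g z y) = Int.sg F p y := by
  unfold Int.sg
  have hm : ∀ t ∈ Icc (0 : ℝ) 1, G.g (t • z) y ∈ (chartAt E4 p).target := fun t ht =>
    G.mem_of_mem (smul_mem_ball hz ht) hG hy
  have hc : ContinuousOn (fun t : ℝ => G.g (t • z) y) (Icc 0 1) :=
    G.smooth.continuousOn.comp (f := fun t : ℝ => ((t • z, y) : E4 × E4))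
      (by fun_prop) fun t ht => ⟨smul_mem_ball hz ht, mem_univ _⟩
  have hW := Int.continuousOn_W (hF.cont p) (hF.cont p)
  have h1 := sign_of_path (f := fun t : ℝ => W (rep p F (G.g (t • z) y))
    (rep p F (G.g (t • z) y))) (hW.comp hc hm) (fun t ht => hF.rep_ne (hm t ht))
  simp only [one_smul, zero_smul, G.g_zero] at h1
  rw [h1]

variable [T2Space M] [CompactSpace M] [MeasurableSpace M] [BorelSpace M]

/-- **invariance of the pairing** under the one-chart diffeomorphisms. -/
theorem I_pullG {F a b : F2 E4 M} (hF : Int.Vol F) {G : Fam E4} {p : M}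
    (hG : G.K ⊆ (chartAt E4 p).target) {z : E4} (hz : z ∈ ball (0 : E4) G.r)
    (ha : Smooth2 a) (hb : Smooth2 b) :
    Int.I F (pullG G p z a) (pullG G p z b) = Int.I F a b := by
  have ha' := Int.Smooth2.cont2 ha
  have hb' := Int.Smooth2.cont2 hb
  have hpa := Int.Smooth2.cont2 (smooth2_pullG hG ha hz)
  have hpb := Int.Smooth2.cont2 (smooth2_pullG hG hb hz)
  have hi1 := Int.integrable_qG hF hpa hpb
  have hi2 := Int.integrable_qG hF ha' hb'
  have hms : MeasurableSet (chartAt E4 p).source := (chartAt E4 p).open_source.measurableSet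
  have hmt : MeasurableSet (chartAt E4 p).target := (chartAt E4 p).open_target.measurableSet
  unfold Int.I
  rw [← integral_add_compl hms hi1, ← integral_add_compl hms hi2]
  congr 1
  · rw [Int.integral_mu hF p hi1.aestronglyMeasurable,
      Int.integral_mu hF p hi2.aestronglyMeasurable]
    have e1 : ∀ y ∈ (chartAt E4 p).target,
        Int.dens F p y • qG F (pullG G p z a) (pullG G p z b) ((chartAt E4 p).symm y) =
          Int.sg F p y * W (pull (G.dg z y) (rep p a (G.g z y)))
            (pull (G.dg z y) (rep p b (G.g z y))) := by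
      intro y hy
      rw [Int.qG_chart hF hpa.1 hpb.1 hy, smul_eq_mul, Int.dens_mul_q hF hy, rep_pullG hy,
        rep_pullG hy, pb_eq_pull, pb_eq_pull]
    have e2 : ∀ y ∈ (chartAt E4 p).target,
        Int.dens F p y • qG F a b ((chartAt E4 p).symm y) =
          Int.sg F p y * W (rep p a y) (rep p b y) := by
      intro y hy
      rw [Int.qG_chart hF ha'.1 hb'.1 hy, smul_eq_mul, Int.dens_mul_q hF hy]
    rw [setIntegral_congr_fun hmt e1, setIntegral_congr_fun hmt e2]
    refine integral_W_pull hmt (fun y _ => G.hasFDerivAt_g hz y) ?_ ?_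
      (fun y _ => G.det_dg_pos hz y) (fun y hy => sg_g hF hG hz hy)
      (fun y _ => alt_rep ha.1 y) (fun y _ => alt_rep hb.1 y)
    · intro y _ y' _ h
      rw [← G.left_inv z hz y, ← G.left_inv z hz y', h]
    · apply Subset.antisymm
      · rintro _ ⟨y, hy, rfl⟩
        exact G.mem_of_mem hz hG hy
      · intro y hy
        exact ⟨G.gi z y, G.symm.mem_of_mem (z := z) hz hG hy, G.right_inv z hz y⟩
  · refine setIntegral_congr_fun hms.compl fun x hx => ?_
    simp only [qG]
    rw [at2_pullG_of_notMem hx, at2_pullG_of_notMem hx]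

/-- **the transpose of the pull-back** is the pull-back by the inverse. -/
theorem I_pullG_adj {F h b : F2 E4 M} (hF : Int.Vol F) {G : Fam E4} {p : M}
    (hG : G.K ⊆ (chartAt E4 p).target) {z : E4} (hz : z ∈ ball (0 : E4) G.r)
    (hh : Smooth2 h) (hb : Smooth2 b) :
    Int.I F h (pullG G p z b) = Int.I F (pullG G.symm p z h) b := by
  have h1 := I_pullG hF hG hz (smooth2_pullG (G := G.symm) hG hh hz) hb
  rw [pullG_pullG_symm hG hz] at h1
  exact h1

/-! ### Fubini -/

/-- the pairing with a fixed form as a continuous functional. -/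
def qL (F h : Bil) : Bil →L[ℝ] ℝ :=
  LinearMap.toContinuousLinearMap
    { toFun := fun c => q F h c
      map_add' := fun c d => by
        unfold q; rw [W_comm h (c + d), W_add_left, add_div, W_comm c, W_comm d]
      map_smul' := fun r c => by
        unfold q; rw [W_comm h (r • c), W_smul_left, W_comm c, RingHom.id_apply, smul_eq_mul,
          mul_div_assoc] }

@[simp] lemma qL_apply (F h c : Bil) : qL F h c = q F h c := rfl

section Fubini

variable {Z : Type} [NormedAddCommGroup Z] [NormedSpace ℝ Z] [MeasureSpace Z] [BorelSpace Z]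
  [IsFiniteMeasureOnCompacts (volume : Measure Z)]

lemma qG_avg {U : Set Z} (hU : IsOpen U) {κ : Z → ℝ} (hκ : Continuous κ)
    (hc : HasCompactSupport κ) (hs : tsupport κ ⊆ U) {β : Z → F2 E4 M} (hβ : JSm U β)
    (F h : F2 E4 M) (x : M) :
    qG F h (Sm.avg κ β) x = ∫ z, κ z * qG F h (β z) x := by
  unfold qG
  rw [at2_avg, ← qL_apply, ← ContinuousLinearMap.integral_comp_comm _
    (integrable_smul_of hU hκ hc hs (hβ.continuousOn_at2 x))]
  refine integral_congr_ae (Eventually.of_forall fun z => ?_)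
  simp only
  rw [map_smul, qL_apply, smul_eq_mul]

lemma continuous_qG_family {U : Set Z} (hU : IsOpen U) {κ : Z → ℝ} (hκ : Continuous κ)
    (hs : tsupport κ ⊆ U) {β : Z → F2 E4 M} (hβ : JSm U β)
    {F h : F2 E4 M} (hF : Int.Vol F) (hh : Int.Cont2 h) :
    Continuous (fun w : M × Z => κ w.2 * qG F h (β w.2) w.1) := by
  rw [continuous_iff_continuousAt]
  rintro ⟨x, z⟩
  by_cases hz : z ∈ U
  · refine ContinuousAt.mul (hκ.comp continuous_snd).continuousAt ?_
    have hy := mem_chart_target E4 x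
    have hr : ContinuousOn (fun w : Z × E4 => rep x (β w.1) w.2) (U ×ˢ (chartAt E4 x).target) :=
      (hβ.2 x).continuousOn
    have hmem : (z, chartAt E4 x x) ∈ U ×ˢ (chartAt E4 x).target := ⟨hz, hy⟩
    have ho : U ×ˢ (chartAt E4 x).target ∈ 𝓝 (z, chartAt E4 x x) :=
      (hU.prod (chartAt E4 x).open_target).mem_nhds hmem
    have hsnd : ContinuousOn (fun w : Z × E4 => w.2) (U ×ˢ (chartAt E4 x).target) :=
      continuous_snd.continuousOn
    have hm2 : MapsTo (fun w : Z × E4 => w.2) (U ×ˢ (chartAt E4 x).target)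
      (chartAt E4 x).target := fun w hw => hw.2
    have hF2 : ContinuousOn (fun w : Z × E4 => rep x F w.2) (U ×ˢ (chartAt E4 x).target) :=
      (hF.cont x).comp hsnd hm2
    have hh2 : ContinuousOn (fun w : Z × E4 => rep x h w.2) (U ×ˢ (chartAt E4 x).target) :=
      (hh.2 x).comp hsnd hm2
    have h1 : ContinuousOn (fun w : Z × E4 => q (rep x F w.2) (rep x h w.2)
        (rep x (β w.1) w.2)) (U ×ˢ (chartAt E4 x).target) :=
      (Int.continuousOn_W hh2 hr).div (Int.continuousOn_W hF2 hF2) (fun w hw => hF.rep_ne hw.2)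
    have h2 : ContinuousAt (fun w : Z × E4 => q (rep x F w.2) (rep x h w.2)
        (rep x (β w.1) w.2)) (z, chartAt E4 x x) := h1.continuousAt ho
    have hch : ContinuousAt (chartAt E4 x) x := (chartAt E4 x).continuousAt (mem_chart_source E4 x)
    have h3 : ContinuousAt (fun w : M × Z => ((w.2, chartAt E4 x w.1) : Z × E4)) (x, z) :=
      continuousAt_snd.prodMk (ContinuousAt.comp (g := chartAt E4 x) (f := fun w : M × Z => w.1)
        (x := (x, z)) hch continuousAt_fst)
    have h4 := ContinuousAt.comp (g := fun w : Z × E4 => q (rep x F w.2) (rep x h w.2)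
        (rep x (β w.1) w.2)) (f := fun w : M × Z => ((w.2, chartAt E4 x w.1) : Z × E4))
        (x := (x, z)) h2 h3
    refine h4.congr ?_
    have ho2 : (chartAt E4 x).source ×ˢ U ∈ 𝓝 (x, z) :=
      ((chartAt E4 x).open_source.prod hU).mem_nhds ⟨mem_chart_source E4 x, hz⟩
    filter_upwards [ho2] with w hw
    exact (Int.qG_chart' hF hh.1 (fun x v => hβ.1 w.2 hw.2 x v) hw.1).symm
  · have hz' : z ∉ tsupport κ := fun h => hz (hs h)
    have hev : (fun w : M × Z => κ w.2 * qG F h (β w.2) w.1) =ᶠ[𝓝 (x, z)] fun _ => 0 := by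
      have h5 : ∀ᶠ w : M × Z in 𝓝 (x, z), w.2 ∈ (tsupport κ)ᶜ :=
        (continuous_snd.tendsto (x, z)).eventually
          ((isClosed_tsupport κ).isOpen_compl.mem_nhds hz')
      filter_upwards [h5] with w hw
      rw [image_eq_zero_of_notMem_tsupport hw, zero_mul]
    exact continuousAt_const.congr hev.symm

/-- **Fubini**: the pairing with an average. -/
theorem I_avg [SecondCountableTopology Z] [SFinite (volume : Measure Z)] {U : Set Z}
    (hU : IsOpen U) {κ : Z → ℝ}
    (hκ : Continuous κ) (hc : HasCompactSupport κ) (hs : tsupport κ ⊆ U) {β : Z → F2 E4 M}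
    (hβ : JSm U β) {F h : F2 E4 M} (hF : Int.Vol F) (hh : Int.Cont2 h) :
    Int.I F h (Sm.avg κ β) = ∫ z, κ z * Int.I F h (β z) := by
  have := Int.isFinite_mu hF
  unfold Int.I
  have e1 : ∀ x, qG F h (Sm.avg κ β) x = ∫ z, κ z * qG F h (β z) x := fun x =>
    qG_avg hU hκ hc hs hβ F h x
  simp only [e1]
  have hcont := continuous_qG_family hU hκ hs hβ hF hh
  have hsupp : HasCompactSupport (fun w : M × Z => κ w.2 * qG F h (β w.2) w.1) := by
    refine HasCompactSupport.intro (K := univ ×ˢ tsupport κ) (isCompact_univ.prod hc) ?_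
    intro w hw
    have : w.2 ∉ tsupport κ := fun h' => hw ⟨mem_univ _, h'⟩
    rw [image_eq_zero_of_notMem_tsupport this, zero_mul]
  have hint : Integrable (fun w : M × Z => κ w.2 * qG F h (β w.2) w.1)
      ((Int.mu F).prod volume) := hcont.integrable_of_hasCompactSupport hsupp
  have hsw := integral_integral_swap (μ := Int.mu F) (ν := (volume : Measure Z))
    (f := fun x z => κ z * qG F h (β z) x) hint
  rw [hsw]
  refine integral_congr_ae (Eventually.of_forall fun z => ?_)
  simp only
  rw [integral_const_mul]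

end Fubini

end

end Crest.Agent.R240.Sm
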