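import Mathlib
import Crest.Agent.R240.Sm3
import Crest.Agent.R240.Iface

/-!
Row 240, block R (smoothing), part Sm3b (helper375): the transpose of a one-chart averaging.
-/

set_option autoImplicit false
set_option maxSynthPendingDepth 3
set_option linter.unusedSectionVars false

open Set Function Filter Bundle MeasureTheory Metric
open scoped Manifold ContDiff Topology
open Crest.Agent.R240.Ch

namespace Crest.Agent.R240.Sm

noncomputable section

section Top

variable {M : Type*} [TopologicalSpace M] [ChartedSpace E4 M] [IsManifold 𝓘(ℝ, E4) ∞ M]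
  [T2Space M]

/-- the open set of admissible parameters at scale `e`. -/
def Ue (G : Fam E4) (e : ℝ) : Set E4 := (fun z : E4 => e • z) ⁻¹' ball (0 : E4) G.r

lemma isOpen_Ue (G : Fam E4) (e : ℝ) : IsOpen (Ue G e) :=
  isOpen_ball.preimage (continuous_const_smul e)

/-- the scaled family of pull-backs is jointly smooth. -/
theorem jsm_scaled {G : Fam E4} {p : M} (hG : G.K ⊆ (chartAt E4 p).target) (e : ℝ)
    {b : F2 E4 M} (hb : Smooth2 b) : JSm (Ue G e) (fun z => Sm.pullG G p (e • z) b) :=
  JSm.pullG hG (isOpen_Ue G e) (ζ := fun z : E4 => e • z) (by fun_prop) (fun _ hz => hz)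
    (JSm.const hb _)

variable [CompactSpace M] [MeasurableSpace M] [BorelSpace M]

/-- **the transpose of a one-chart averaging** is the averaging with the inverse family. -/
theorem I_avg_pull {F h b : F2 E4 M} (hF : Int.Vol F) {G : Fam E4} {p : M}
    (hG : G.K ⊆ (chartAt E4 p).target) {κ : E4 → ℝ} (hκ : Continuous κ)
    (hc : HasCompactSupport κ) {e : ℝ} (hs : ∀ z ∈ tsupport κ, e • z ∈ ball (0 : E4) G.r)
    (hh : Smooth2 h) (hb : Smooth2 b) :
    Int.I F h (Sm.avg κ (fun z => Sm.pullG G p (e • z) b)) =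
      Int.I F (Sm.avg κ (fun z => Sm.pullG G.symm p (e • z) h)) b := by
  have h1 := I_avg (isOpen_Ue G e) hκ hc (fun z hz => hs z hz) (jsm_scaled hG e hb) hF
    (Int.Smooth2.cont2 hh)
  have h2 := I_avg (isOpen_Ue G.symm e) hκ hc (fun z hz => hs z hz)
    (jsm_scaled (G := G.symm) hG e hh) hF (Int.Smooth2.cont2 hb)
  rw [h1, Int.I_comm F _ b, h2]
  refine integral_congr_ae (Eventually.of_forall fun z => ?_)
  simp only
  by_cases hz : z ∈ tsupport κ
  · rw [I_pullG_adj hF hG (hs z hz) hh hb, Int.I_comm]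
  · rw [image_eq_zero_of_notMem_tsupport hz, zero_mul, zero_mul]

end Top

section DatSec

variable {M : Type*} [MetricSpace M] [CompactSpace M] [ChartedSpace E4 M]
    [IsManifold 𝓘(ℝ, E4) ∞ M] [MeasurableSpace M] [BorelSpace M]

/-- the pairing of the data is the pairing of the volume measure. -/
theorem datVol (D : Dat M) : Int.Vol D.F :=
  Int.vol_of_SPosG D.sq (Smooth2.bp D.smJ D.sm_al) (Int.sposG_bp D.sq D.sm_al.1 D.tames)

theorem datI_eq (D : Dat M) (b c : F2 E4 M) : D.I b c = Int.I D.F b c := by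
  unfold R240.Dat.I IG Int.I
  rw [Int.isVol_eq_mu (datVol D) D.vol]

theorem datI_avg_pull (D : Dat M) {h b : F2 E4 M} {G : Fam E4} {p : M}
    (hG : G.K ⊆ (chartAt E4 p).target) {κ : E4 → ℝ} (hκ : Continuous κ)
    (hc : HasCompactSupport κ) {e : ℝ} (hs : ∀ z ∈ tsupport κ, e • z ∈ ball (0 : E4) G.r)
    (hh : Smooth2 h) (hb : Smooth2 b) :
    D.I h (Sm.avg κ (fun z => Sm.pullG G p (e • z) b)) =
      D.I (Sm.avg κ (fun z => Sm.pullG G.symm p (e • z) h)) b := by
  rw [datI_eq, datI_eq]
  exact Sm.I_avg_pull (datVol D) hG hκ hc hs hh hb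


end DatSec

end

end Crest.Agent.R240.Sm
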