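import Mathlib
import Crest.Agent.R240.Ch4
import Crest.Agent.R240.Met
import Crest.Agent.R240.Sm2

/-!
# Row 240, block R (helper259): mass facts for the smoothed measure, and displacement bounds

`Loc δ S a` : the averaging operator `a` (on the class `S` of functions) only looks at distance
`≤ δ`. From the representation `∫ a f ds = ∫ f g dμ`: total mass, lower and upper mass bounds.
-/

set_option autoImplicit false
set_option linter.unusedSectionVars false

open Set Function Filter Metric MeasureTheory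
open scoped Manifold ContDiff Topology

namespace Crest.Agent.R240.Sm

open Crest.Agent.R240.Ch

noncomputable section

/-! ### operators of small propagation -/

section Loc

variable {M : Type*} [MetricSpace M]

/-- the operator `a` is an average over the ball of radius `δ`. -/
structure Loc (δ : ℝ) (S : Set (M → ℝ)) (a : (M → ℝ) → M → ℝ) : Prop where
  lo : ∀ f ∈ S, ∀ x c, (∀ y, dist y x ≤ δ → c ≤ f y) → c ≤ a f x
  up : ∀ f ∈ S, ∀ x c, (∀ y, dist y x ≤ δ → f y ≤ c) → a f x ≤ c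

lemma Loc.id (S : Set (M → ℝ)) : Loc 0 S (fun f => f) :=
  ⟨fun _ _ x _ h => h x (by simp), fun _ _ x _ h => h x (by simp)⟩

lemma Loc.mono {δ δ' : ℝ} {S : Set (M → ℝ)} {a : (M → ℝ) → M → ℝ} (h : Loc δ S a)
    (hδ : δ ≤ δ') : Loc δ' S a :=
  ⟨fun f hf x c h' => h.lo f hf x c fun y hy => h' y (hy.trans hδ),
    fun f hf x c h' => h.up f hf x c fun y hy => h' y (hy.trans hδ)⟩

lemma Loc.comp {δ δ' : ℝ} {S : Set (M → ℝ)} {a a' : (M → ℝ) → M → ℝ} (h : Loc δ S a)
    (h' : Loc δ' S a') (hS : ∀ f ∈ S, a' f ∈ S) : Loc (δ + δ') S (fun f => a (a' f)) := by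
  refine ⟨fun f hf x c hc => h.lo _ (hS f hf) x c fun y hy => h'.lo f hf y c fun z hz =>
      hc z ?_, fun f hf x c hc => h.up _ (hS f hf) x c fun y hy => h'.up f hf y c fun z hz =>
      hc z ?_⟩
  all_goals
    calc dist z x ≤ dist z y + dist y x := dist_triangle _ _ _
      _ ≤ δ' + δ := add_le_add hz hy
      _ = δ + δ' := add_comm _ _

lemma Loc.nonneg {δ : ℝ} {S : Set (M → ℝ)} {a : (M → ℝ) → M → ℝ} (h : Loc δ S a) {f : M → ℝ}
    (hf : f ∈ S) (h0 : ∀ y, 0 ≤ f y) (x : M) : 0 ≤ a f x := h.lo f hf x 0 fun y _ => h0 y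

lemma Loc.le_one {δ : ℝ} {S : Set (M → ℝ)} {a : (M → ℝ) → M → ℝ} (h : Loc δ S a) {f : M → ℝ}
    (hf : f ∈ S) (h1 : ∀ y, f y ≤ 1) (x : M) : a f x ≤ 1 := h.up f hf x 1 fun y _ => h1 y

lemma Loc.const {δ : ℝ} {S : Set (M → ℝ)} {a : (M → ℝ) → M → ℝ} (h : Loc δ S a) {f : M → ℝ}
    (hf : f ∈ S) {c : ℝ} (hc : ∀ y, f y = c) (x : M) : a f x = c :=
  le_antisymm (h.up f hf x c fun y _ => (hc y).le) (h.lo f hf x c fun y _ => (hc y).ge)

/-- an average of compositions with maps moving points by at most `δ`. -/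
lemma Loc.avg {E : Type*} [NormedAddCommGroup E] [MeasurableSpace E] {ν : Measure E}
    {S : Set (M → ℝ)} {k : E → ℝ} {ψ : E → M → M} {δ : ℝ}
    (hk : ∀ z, 0 ≤ k z) (hki : Integrable k ν) (hk1 : ∫ z, k z ∂ν = 1)
    (hd : ∀ z, k z ≠ 0 → ∀ x, dist (ψ z x) x ≤ δ)
    (hi : ∀ f ∈ S, ∀ x, Integrable (fun z => k z * f (ψ z x)) ν) :
    Loc δ S (fun f x => ∫ z, k z * f (ψ z x) ∂ν) := by
  refine ⟨fun f hf x c hc => ?_, fun f hf x c hc => ?_⟩
  · calc c = ∫ z, k z * c ∂ν := by rw [integral_mul_const, hk1, one_mul]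
      _ ≤ ∫ z, k z * f (ψ z x) ∂ν := by
        refine integral_mono (hki.mul_const c) (hi f hf x) fun z => ?_
        by_cases h : k z = 0
        · simp [h]
        · exact mul_le_mul_of_nonneg_left (hc _ (hd z h x)) (hk z)
  · calc ∫ z, k z * f (ψ z x) ∂ν ≤ ∫ z, k z * c ∂ν := by
          refine integral_mono (hi f hf x) (hki.mul_const c) fun z => ?_
          by_cases h : k z = 0
          · simp [h]
          · exact mul_le_mul_of_nonneg_left (hc _ (hd z h x)) (hk z)
      _ = c := by rw [integral_mul_const, hk1, one_mul]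

end Loc

/-! ### mass facts -/

section Mass

variable {E : Type*} [NormedAddCommGroup E] [NormedSpace ℝ E] [FiniteDimensional ℝ E]
variable {M : Type*} [MetricSpace M] [CompactSpace M] [ChartedSpace E M]
  [IsManifold 𝓘(ℝ, E) ∞ M] [MeasurableSpace M] [BorelSpace M]

/-- a smooth function `= 1` on a ball and `= 0` off a larger ball. -/
lemma exists_bump_ball (x : M) {r R : ℝ} (h : r < R) :
    ∃ f : M → ℝ, SmoothF E f ∧ (∀ y, dist y x ≤ r → f y = 1) ∧ (∀ y, R ≤ dist y x → f y = 0) ∧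
      ∀ y, f y ∈ Icc (0 : ℝ) 1 := by
  obtain ⟨f, h0, h1, hf⟩ := exists_contMDiffMap_zero_one_of_isClosed 𝓘(ℝ, E) (M := M)
    (n := (⊤ : ℕ∞)) (s := {y : M | R ≤ dist y x}) (t := closedBall x r)
    (isClosed_le continuous_const (continuous_id.dist continuous_const)) isClosed_closedBall
    (by
      rw [disjoint_left]
      intro y hy hy'
      exact absurd (mem_closedBall.1 hy') (not_le.2 (h.trans_le hy)))
  exact ⟨f, (smoothF_iff _).1 f.contMDiff, fun y hy => h1 (mem_closedBall.2 hy),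
    fun y hy => h0 hy, hf⟩

variable {a : (M → ℝ) → M → ℝ} {s μ : Measure M} [IsFiniteMeasure s] [IsFiniteMeasure μ]
  {δ : ℝ} {g : M → ℝ}


/-- **mass lower bound**: `s(B_r x) ≤ ∫_{B_{r+2δ} x} g dμ`. -/
theorem mass_low (hδ : 0 < δ) (ha : Loc δ {f | SmoothF E f} a)
    (hc : ∀ f : M → ℝ, SmoothF E f → Continuous (a f)) (hg : Continuous g) (hg0 : ∀ x, 0 ≤ g x)
    (hrep : ∀ f : M → ℝ, SmoothF E f → ∫ x, a f x ∂s = ∫ x, f x * g x ∂μ) (x : M) (r : ℝ) :
    s.real (ball x r) ≤ ∫ y in ball x (r + 2 * δ), g y ∂μ := by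
  obtain ⟨f, hf, h1, h0, h01⟩ := exists_bump_ball (E := E) x (r := r + δ) (R := r + 2 * δ)
    (by linarith)
  have hfc : Continuous f := ((smoothF_iff _).2 hf).continuous
  have hgi : Integrable g μ := hg.integrable_of_hasCompactSupport (HasCompactSupport.of_compactSpace g)
  have hai : Integrable (a f) s :=
    (hc f hf).integrable_of_hasCompactSupport (HasCompactSupport.of_compactSpace _)
  have h2 : ∀ y, (ball x r).indicator (fun _ => (1 : ℝ)) y ≤ a f y := by
    intro y
    by_cases hy : y ∈ ball x r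
    · rw [indicator_of_mem hy]
      refine ha.lo f hf y 1 fun z hz => ?_
      rw [h1 z]
      calc dist z x ≤ dist z y + dist y x := dist_triangle _ _ _
        _ ≤ δ + r := add_le_add hz (mem_ball.1 hy).le
        _ = r + δ := add_comm _ _
    · rw [indicator_of_notMem hy]
      exact ha.nonneg hf (fun z => (h01 z).1) y
  calc s.real (ball x r) = ∫ y, (ball x r).indicator (fun _ => (1 : ℝ)) y ∂s := by
        rw [integral_indicator measurableSet_ball]
        simp
    _ ≤ ∫ y, a f y ∂s := by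
        refine integral_mono ?_ hai h2
        exact (integrable_const (1 : ℝ)).indicator measurableSet_ball
    _ = ∫ y, f y * g y ∂μ := hrep f hf
    _ ≤ ∫ y, (ball x (r + 2 * δ)).indicator g y ∂μ := by
        refine integral_mono ?_ (hgi.indicator measurableSet_ball) fun y => ?_
        · exact (hfc.mul hg).integrable_of_hasCompactSupport (HasCompactSupport.of_compactSpace _)
        · by_cases hy : y ∈ ball x (r + 2 * δ)
          · rw [indicator_of_mem hy]
            exact mul_le_of_le_one_left (hg0 y) (h01 y).2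
          · rw [indicator_of_notMem hy]
            have : f y = 0 := h0 y (not_lt.1 fun h => hy (mem_ball.2 h))
            simp [this]
    _ = ∫ y in ball x (r + 2 * δ), g y ∂μ := integral_indicator measurableSet_ball



/-- `s(B_r x) ≤ ∫_{B_{Cr} x} g dμ` for `r ≥ e`, `δ = c e`, `C = 1 + 2c`. -/
theorem mass_low' {c e : ℝ} (hc0 : 0 < c) (he : 0 < e) (ha : Loc (c * e) {f | SmoothF E f} a)
    (hc : ∀ f : M → ℝ, SmoothF E f → Continuous (a f)) (hg : Continuous g) (hg0 : ∀ x, 0 ≤ g x)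
    (hrep : ∀ f : M → ℝ, SmoothF E f → ∫ x, a f x ∂s = ∫ x, f x * g x ∂μ) (x : M) {r : ℝ}
    (hr : e ≤ r) {C : ℝ} (hC : 1 + 2 * c ≤ C) :
    s.real (ball x r) ≤ C * ∫ y in ball x (C * r), g y ∂μ := by
  have h1 := mass_low (E := E) (mul_pos hc0 he) ha hc hg hg0 hrep x r
  have hgi : Integrable g μ := hg.integrable_of_hasCompactSupport (HasCompactSupport.of_compactSpace g)
  have h2 : r + 2 * (c * e) ≤ C * r := by nlinarith
  have h3 : ∫ y in ball x (r + 2 * (c * e)), g y ∂μ ≤ ∫ y in ball x (C * r), g y ∂μ := by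
    refine setIntegral_mono_set hgi.integrableOn (Eventually.of_forall hg0) ?_
    exact (ball_subset_ball h2).eventuallyLE
  have h4 : 0 ≤ ∫ y in ball x (C * r), g y ∂μ := integral_nonneg hg0
  nlinarith

end Mass

/-! ### displacement of the diffeomorphisms -/

section Disp

variable {E : Type*} [NormedAddCommGroup E] [NormedSpace ℝ E] [FiniteDimensional ℝ E]
variable {M : Type*} [MetricSpace M] [ChartedSpace E M]

/-- a family of diffeomorphisms moves the points by at most `C ‖z‖`. -/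
lemma Fam.exists_disp (G : Fam E) {r' : ℝ} (hr' : r' < G.r) :
    ∃ C : ℝ, 0 ≤ C ∧ ∀ z ∈ closedBall (0 : E) r', ∀ y ∈ G.K, ‖G.g z y - y‖ ≤ C * ‖z‖ := by
  rcases lt_or_ge r' 0 with h0 | h0
  · exact ⟨0, le_rfl, fun z hz => by
      rw [closedBall_eq_empty.2 h0] at hz
      exact absurd hz (notMem_empty _)⟩
  have : ProperSpace E := FiniteDimensional.proper ℝ E
  have ho : IsOpen (ball (0 : E) G.r ×ˢ (univ : Set E)) := isOpen_ball.prod isOpen_univ
  have h1 : ContDiffOn ℝ ∞ (fun p : E × E => fderiv ℝ (fun p : E × E => G.g p.1 p.2) p)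
      (ball 0 G.r ×ˢ univ) := G.smooth.fderiv_of_isOpen ho (by simp)
  have hsub : closedBall (0 : E) r' ×ˢ G.K ⊆ ball (0 : E) G.r ×ˢ (univ : Set E) :=
    prod_mono (closedBall_subset_ball hr') (subset_univ _)
  obtain ⟨C, hC⟩ := ((isCompact_closedBall (0 : E) r').prod G.isCompact).exists_bound_of_continuousOn
    (h1.continuousOn.mono hsub)
  refine ⟨max C 0, le_max_right _ _, fun z hz y hy => ?_⟩
  have hconv : Convex ℝ (closedBall (0 : E) r') := convex_closedBall _ _
  have hz0 : (0 : E) ∈ closedBall (0 : E) r' := mem_closedBall_self h0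
  have hd : ∀ z ∈ closedBall (0 : E) r', HasFDerivWithinAt (fun z => G.g z y)
      ((fderiv ℝ (fun p : E × E => G.g p.1 p.2) (z, y)).comp (ContinuousLinearMap.inl ℝ E E))
      (closedBall (0 : E) r') z := by
    intro z hz
    have hmem : (z, y) ∈ (ball (0 : E) G.r ×ˢ (univ : Set E)) :=
      ⟨closedBall_subset_ball hr' hz, mem_univ _⟩
    have h2 : HasFDerivAt (fun p : E × E => G.g p.1 p.2)
        (fderiv ℝ (fun p : E × E => G.g p.1 p.2) (z, y)) (z, y) :=
      ((G.smooth.contDiffAt (ho.mem_nhds hmem)).differentiableAt (by simp)).hasFDerivAt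
    have h3 : HasFDerivAt (fun z : E => (z, y)) (ContinuousLinearMap.inl ℝ E E) z :=
      hasFDerivAt_prodMk_left z y
    exact (HasFDerivAt.comp z (g := fun p : E × E => G.g p.1 p.2) h2 h3).hasFDerivWithinAt
  have hb : ∀ z ∈ closedBall (0 : E) r',
      ‖(fderiv ℝ (fun p : E × E => G.g p.1 p.2) (z, y)).comp (ContinuousLinearMap.inl ℝ E E)‖
        ≤ max C 0 := by
    intro z hz
    refine (ContinuousLinearMap.opNorm_comp_le _ _).trans ?_
    have h4 := hC (z, y) ⟨hz, hy⟩
    have h5 : ‖ContinuousLinearMap.inl ℝ E E‖ ≤ 1 :=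
      ContinuousLinearMap.opNorm_le_bound _ zero_le_one fun v => by simp
    calc _ ≤ C * 1 := mul_le_mul h4 h5 (norm_nonneg _) ((norm_nonneg _).trans h4)
      _ ≤ max C 0 := by rw [mul_one]; exact le_max_left _ _
  have := hconv.norm_image_sub_le_of_norm_hasFDerivWithin_le hd hb hz0 hz
  simpa [G.g_zero] using this

/-- **displacement on `M`**: `dist (ψ_z x) x ≤ C ‖z‖`. -/
theorem exists_disp_psi (hb : Met.BiLip E M) (G : Fam E) {p : M}
    (hG : G.K ⊆ (chartAt E p).target) {r' : ℝ} (hr' : r' < G.r) :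
    ∃ C : ℝ, 0 ≤ C ∧ ∀ z ∈ closedBall (0 : E) r', ∀ x, dist (psi G p z x) x ≤ C * ‖z‖ := by
  obtain ⟨C1, hC1, h1⟩ := G.exists_disp hr'
  obtain ⟨c, C2, hc, hC2, h2⟩ := hb p G.K G.isCompact hG
  refine ⟨C2 * C1, by positivity, fun z hz x => ?_⟩
  have hz' : z ∈ ball (0 : E) G.r := closedBall_subset_ball hr' hz
  by_cases hx : x ∈ KM G p
  · obtain ⟨y, hy, rfl⟩ := hx
    rw [psi_symm z (hG hy)]
    calc _ ≤ C2 * ‖G.g z y - y‖ := (h2 _ (G.mem_K hz' hy) y hy).2
      _ ≤ C2 * (C1 * ‖z‖) := mul_le_mul_of_nonneg_left (h1 z hz y hy) hC2.le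
      _ = C2 * C1 * ‖z‖ := by ring
  · rw [psi_off hz' hx, dist_self]
    positivity

end Disp

end

end Crest.Agent.R240.Sm
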