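import Mathlib
import Crest.Agent.R240.SmAvg
import Crest.Agent.R240.Sm2d
import Crest.Agent.R240.XInst

/-!
Row 240, block SM (helper915): the one-chart smoothing operators on two-forms and functions,
`A1 G p κ e b = ∫ κ(z) (psi_{e z})^* b dz` and `a1 G p κ e f = ∫ κ(z) f (psi_{e z} x) dz`.
-/

set_option autoImplicit false
set_option maxSynthPendingDepth 3
set_option linter.unusedSectionVars false

open Set Function Filter Metric MeasureTheory
open scoped Manifold ContDiff Topology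
open Crest.Agent.R240.Ch

namespace Crest.Agent.R240.Sm

noncomputable section

variable {M : Type*} [TopologicalSpace M] [ChartedSpace E4 M] [IsManifold 𝓘(ℝ, E4) ∞ M]

/-- the one-chart smoothing of two-forms. -/
def A1 (G : Fam E4) (p : M) (κ : E4 → ℝ) (e : ℝ) (b : F2 E4 M) : F2 E4 M :=
  avg κ (fun z => pullG G p (e • z) b)

/-- the one-chart smoothing of functions. -/
def a1 (G : Fam E4) (p : M) (κ : E4 → ℝ) (e : ℝ) (f : M → ℝ) : M → ℝ :=
  fun x => ∫ z, κ z * f (psi G p (e • z) x)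

/-- admissible kernels at scale `e`. -/
structure Adm (G : Fam E4) (κ : E4 → ℝ) (e : ℝ) : Prop where
  cont : Continuous κ
  comp : HasCompactSupport κ
  mem : ∀ z ∈ tsupport κ, e • z ∈ ball (0 : E4) G.r

/-- the parameters at scale `e`. -/
def dom (G : Fam E4) (e : ℝ) : Set E4 := {z | e • z ∈ ball (0 : E4) G.r}

lemma isOpen_dom (G : Fam E4) (e : ℝ) : IsOpen (dom G e) :=
  isOpen_ball.preimage (continuous_const_smul e)


lemma Adm.sub {G : Fam E4} {κ : E4 → ℝ} {e : ℝ} (h : Adm G κ e) : tsupport κ ⊆ dom G e := h.mem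

lemma Adm.symm {G : Fam E4} {κ : E4 → ℝ} {e : ℝ} (h : Adm G κ e) : Adm G.symm κ e :=
  ⟨h.cont, h.comp, h.mem⟩

lemma Adm.mem' {G : Fam E4} {κ : E4 → ℝ} {e : ℝ} (h : Adm G κ e) {z : E4} (hz : κ z ≠ 0) :
    e • z ∈ ball (0 : E4) G.r := h.mem z (subset_tsupport _ hz)

lemma Adm.add {G : Fam E4} {κ κ' : E4 → ℝ} {e : ℝ} (h : Adm G κ e) (h' : Adm G κ' e) :
    Adm G (fun z => κ z + κ' z) e := by
  refine ⟨h.cont.add h'.cont, h.comp.add h'.comp, fun z hz => ?_⟩
  rcases (tsupport_add κ κ' (by simpa [Pi.add_def] using hz)) with hz | hz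
  · exact h.mem z hz
  · exact h'.mem z hz

lemma Adm.mul_left {G : Fam E4} {κ : E4 → ℝ} {e : ℝ} (h : Adm G κ e) {p : E4 → ℝ}
    (hp : Continuous p) : Adm G (fun z => p z * κ z) e :=
  ⟨hp.mul h.cont, h.comp.mul_left, fun z hz => h.mem z (tsupport_mul_subset_right hz)⟩

/-- kernels supported in the unit ball are admissible for `e < r`. -/
lemma Adm.of_ball {G : Fam E4} {κ : E4 → ℝ} {e : ℝ} (hc : Continuous κ)
    (hs : tsupport κ ⊆ closedBall 0 1) (he : |e| < G.r) : Adm G κ e := by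
  refine ⟨hc, (isCompact_closedBall 0 1).of_isClosed_subset (isClosed_tsupport κ) hs, ?_⟩
  intro z hz
  have h1 : ‖z‖ ≤ 1 := by simpa using hs hz
  rw [mem_ball_zero_iff, norm_smul, Real.norm_eq_abs]
  calc |e| * ‖z‖ ≤ |e| * 1 := mul_le_mul_of_nonneg_left h1 (abs_nonneg _)
    _ < G.r := by rwa [mul_one]

section forms

variable {G : Fam E4} {p : M} {κ : E4 → ℝ} {e : ℝ}

theorem jsm_pullG_smul [T2Space M] (hG : G.K ⊆ (chartAt E4 p).target) {b : F2 E4 M}
    (hb : Smooth2 b) (e : ℝ) : JSm (dom G e) (fun z => pullG G p (e • z) b) :=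
  (jsm_pullG hG hb).comp (f := fun z => e • z) (contDiff_const_smul e).contDiffOn fun _ hz => hz

theorem smooth2_A1 [T2Space M] (hG : G.K ⊆ (chartAt E4 p).target) (h : Adm G κ e)
    {b : F2 E4 M} (hb : Smooth2 b) : Smooth2 (A1 G p κ e b) :=
  smooth2_avg (isOpen_dom G e) h.cont h.comp h.sub (jsm_pullG_smul hG hb e)

theorem closed2_A1 [T2Space M] (hG : G.K ⊆ (chartAt E4 p).target) (h : Adm G κ e)
    {b : F2 E4 M} (hb : Smooth2 b) (hc : Closed2 b) : Closed2 (A1 G p κ e b) :=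
  closed2_avg (isOpen_dom G e) h.cont h.comp h.sub (jsm_pullG_smul hG hb e)
    fun _ hz => closed2_pullG hG hb hc hz

lemma integrable_A1 [T2Space M] (hG : G.K ⊆ (chartAt E4 p).target) (h : Adm G κ e)
    {b : F2 E4 M} (hb : Smooth2 b) (x : M) :
    Integrable (fun z => κ z • at2 (pullG G p (e • z) b) x) :=
  integrable_smul_of (isOpen_dom G e) h.cont h.comp h.sub
    ((jsm_pullG_smul hG hb e).continuousOn_at2 x)

lemma at2_A1 (b : F2 E4 M) (x : M) :
    at2 (A1 G p κ e b) x = ∫ z, κ z • at2 (pullG G p (e • z) b) x := rfl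






lemma A1_add [T2Space M] (hG : G.K ⊆ (chartAt E4 p).target) (h : Adm G κ e)
    {b c : F2 E4 M} (hb : Smooth2 b) (hc : Smooth2 c) :
    A1 G p κ e (b + c) = A1 G p κ e b + A1 G p κ e c := by
  funext x
  change at2 (A1 G p κ e (b + c)) x = at2 (A1 G p κ e b) x + at2 (A1 G p κ e c) x
  rw [at2_A1, at2_A1, at2_A1, ← integral_add (integrable_A1 hG h hb x) (integrable_A1 hG h hc x)]
  refine integral_congr_ae (Eventually.of_forall fun z => ?_)
  simp only
  rw [pullG_add, ← smul_add]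
  rfl

lemma A1_smul (t : ℝ) (b : F2 E4 M) : A1 G p κ e (t • b) = t • A1 G p κ e b := by
  funext x
  change at2 (A1 G p κ e (t • b)) x = t • at2 (A1 G p κ e b) x
  rw [at2_A1, at2_A1, ← integral_smul]
  refine integral_congr_ae (Eventually.of_forall fun z => ?_)
  simp only
  rw [pullG_smul, smul_comm]
  rfl

/-- the one-chart operator on smooth two-forms. -/
def A1L [T2Space M] (hG : G.K ⊆ (chartAt E4 p).target) (h : Adm G κ e) : X2 M →ₗ[ℝ] X2 M where
  toFun b := ⟨A1 G p κ e b.1, smooth2_A1 hG h b.2⟩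
  map_add' b c := Subtype.ext (A1_add hG h b.2 c.2)
  map_smul' t b := Subtype.ext (A1_smul t b.1)

@[simp] lemma A1L_coe [T2Space M] (hG : G.K ⊆ (chartAt E4 p).target) (h : Adm G κ e) (b : X2 M) :
    (A1L hG h b : F2 E4 M) = A1 G p κ e (b : F2 E4 M) := rfl

lemma A1L_mem_Z2 [T2Space M] (hG : G.K ⊆ (chartAt E4 p).target) (h : Adm G κ e) {b : X2 M}
    (hb : b ∈ Z2 M) : A1L hG h b ∈ Z2 M :=
  closed2_A1 hG h b.2 hb


lemma A1_smul_left (t : ℝ) (b : F2 E4 M) :
    A1 G p (fun z => t * κ z) e b = t • A1 G p κ e b := by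
  funext x
  change at2 (A1 G p (fun z => t * κ z) e b) x = t • at2 (A1 G p κ e b) x
  rw [at2_A1, at2_A1, ← integral_smul]
  refine integral_congr_ae (Eventually.of_forall fun z => ?_)
  simp only
  rw [mul_smul]

end forms

/-! ### functions -/

section functions

variable {G : Fam E4} {p : M} {κ : E4 → ℝ} {e : ℝ}

/-- joint smoothness in all charts of `(z, x) ↦ f (psi_z x)`. -/
theorem contDiffOn_repF_pullF [T2Space M] (hG : G.K ⊆ (chartAt E4 p).target) {f : M → ℝ}
    (hf : SmoothF E4 f) (q : M) :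
    ContDiffOn ℝ ∞ (fun w : E4 × E4 => f (psi G p w.1 ((chartAt E4 q).symm w.2)))
      (ball 0 G.r ×ˢ (chartAt E4 q).target) := by
  rintro ⟨z, y⟩ ⟨hz, hy⟩
  apply ContDiffAt.contDiffWithinAt
  have hbz : ball (0 : E4) G.r ∈ 𝓝 z := isOpen_ball.mem_nhds hz
  by_cases hx : (chartAt E4 q).symm y ∈ (chartAt E4 p).source
  · set t := Ch.trans (E := E4) q p y with ht
    have htd : t = chartAt E4 p ((chartAt E4 q).symm y) := rfl
    have htt : t ∈ (chartAt E4 p).target := (chartAt E4 p).map_source hx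
    have hgt : G.g z t ∈ (chartAt E4 p).target := G.mem_of_mem hz hG htt
    have hmem : (z, t) ∈ (ball (0 : E4) G.r ×ˢ (univ : Set E4)) := ⟨hz, mem_univ _⟩
    have ho : (ball (0 : E4) G.r ×ˢ (univ : Set E4)) ∈ 𝓝 (z, t) :=
      (isOpen_ball.prod isOpen_univ).mem_nhds hmem
    have h1 : ContDiffAt ℝ ∞ (fun w : E4 × E4 => G.g w.1 w.2) (z, t) :=
      (G.smooth (z, t) hmem).contDiffAt ho
    have h3 : ContDiffAt ℝ ∞ (repF (E := E4) p f) (G.g z t) :=
      contDiffOn_chart_iff.1 (hf p) _ hgt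
    have h4 : ContDiffAt ℝ ∞ (fun w : E4 × E4 => repF (E := E4) p f (G.g w.1 w.2)) (z, t) :=
      ContDiffAt.comp (z, t) (g := repF (E := E4) p f) (f := fun w : E4 × E4 => G.g w.1 w.2) h3 h1
    have h5 : ContDiffAt ℝ ∞ (fun w : E4 × E4 => (w.1, Ch.trans (E := E4) q p w.2)) (z, y) :=
      contDiffAt_fst.prodMk (ContDiffAt.comp (z, y) (g := Ch.trans (E := E4) q p)
        (f := fun w : E4 × E4 => w.2) (trans_contDiffAt hy hx) contDiffAt_snd)
    have h6 := ContDiffAt.comp (z, y)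
      (g := fun w : E4 × E4 => repF (E := E4) p f (G.g w.1 w.2))
      (f := fun w : E4 × E4 => (w.1, Ch.trans (E := E4) q p w.2)) h4 h5
    refine h6.congr_of_eventuallyEq ?_
    have h7 : (chartAt E4 q).symm ⁻¹' (chartAt E4 p).source ∈ 𝓝 y :=
      ((chartAt E4 q).continuousAt_symm hy).preimage_mem_nhds
        ((chartAt E4 p).open_source.mem_nhds hx)
    have h8 : ∀ᶠ w : E4 × E4 in 𝓝 (z, y), (chartAt E4 q).symm w.2 ∈ (chartAt E4 p).source :=
      (continuous_snd.tendsto (z, y)).eventually h7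
    filter_upwards [h8] with w hw
    simp only [comp_apply]
    rw [psi_of_mem hw]
    rfl
  · have hx' : (chartAt E4 q).symm y ∉ KM G p := fun h => hx (KM_subset hG h)
    have h1 : ContDiffAt ℝ ∞ (fun w : E4 × E4 => repF (E := E4) q f w.2) (z, y) :=
      ContDiffAt.comp (z, y) (g := repF (E := E4) q f) (f := fun w : E4 × E4 => w.2)
        (contDiffOn_chart_iff.1 (hf q) y hy) contDiffAt_snd
    refine h1.congr_of_eventuallyEq ?_
    have h2 : ∀ᶠ y' in 𝓝 y, (chartAt E4 q).symm y' ∉ KM G p :=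
      ((chartAt E4 q).continuousAt_symm hy).preimage_mem_nhds
        ((isClosed_KM hG).isOpen_compl.mem_nhds hx')
    have h3 : ∀ᶠ w : E4 × E4 in 𝓝 (z, y), (chartAt E4 q).symm w.2 ∉ KM G p :=
      (continuous_snd.tendsto (z, y)).eventually h2
    have h4 : ∀ᶠ w : E4 × E4 in 𝓝 (z, y), w.1 ∈ ball (0 : E4) G.r :=
      (continuous_fst.tendsto (z, y)).eventually hbz
    filter_upwards [h3, h4] with w hw hw2
    rw [psi_off hw2 hw]
    rfl

theorem contDiffOn_repF_pullF_smul [T2Space M] (hG : G.K ⊆ (chartAt E4 p).target) {f : M → ℝ}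
    (hf : SmoothF E4 f) (e : ℝ) (q : M) :
    ContDiffOn ℝ ∞ (fun w : E4 × E4 => f (psi G p (e • w.1) ((chartAt E4 q).symm w.2)))
      (dom G e ×ˢ (chartAt E4 q).target) :=
  contDiffOn_param (G := fun w : E4 × E4 => f (psi G p w.1 ((chartAt E4 q).symm w.2)))
    (contDiffOn_repF_pullF hG hf q) (f := fun z => e • z) (contDiff_const_smul e).contDiffOn
    fun _ hz => hz

theorem smoothF_a1 [T2Space M] (hG : G.K ⊆ (chartAt E4 p).target) (h : Adm G κ e) {f : M → ℝ}
    (hf : SmoothF E4 f) : SmoothF E4 (a1 G p κ e f) := fun q =>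
  (contDiffOn_integral (isOpen_dom G e) (chartAt E4 q).open_target h.cont h.comp h.sub
    (contDiffOn_swap (contDiffOn_repF_pullF_smul hG hf e q))).congr fun _ _ => rfl

lemma continuousOn_pullF [T2Space M] (hG : G.K ⊆ (chartAt E4 p).target) {f : M → ℝ}
    (hf : SmoothF E4 f) (e : ℝ) (x : M) : ContinuousOn (fun z => f (psi G p (e • z) x)) (dom G e) := by
  have h1 := (contDiffOn_repF_pullF_smul hG hf e x).continuousOn.comp
    (f := fun z : E4 => ((z, chartAt E4 x x) : E4 × E4)) (by fun_prop)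
    fun z hz => ⟨hz, mem_chart_target E4 x⟩
  refine h1.congr fun z _ => ?_
  simp only [comp_apply]
  rw [(chartAt E4 x).left_inv (mem_chart_source E4 x)]

lemma integrable_a1 [T2Space M] (hG : G.K ⊆ (chartAt E4 p).target) (h : Adm G κ e) {f : M → ℝ}
    (hf : SmoothF E4 f) (x : M) : Integrable (fun z => κ z * f (psi G p (e • z) x)) := by
  have := integrable_smul_of (isOpen_dom G e) h.cont h.comp h.sub (continuousOn_pullF hG hf e x)
  simpa only [smul_eq_mul] using this

lemma a1_add [T2Space M] (hG : G.K ⊆ (chartAt E4 p).target) (h : Adm G κ e) {f g : M → ℝ}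
    (hf : SmoothF E4 f) (hg : SmoothF E4 g) (x : M) :
    a1 G p κ e (fun y => f y + g y) x = a1 G p κ e f x + a1 G p κ e g x := by
  simp only [a1]
  rw [← integral_add (integrable_a1 hG h hf x) (integrable_a1 hG h hg x)]
  refine integral_congr_ae (Eventually.of_forall fun z => ?_)
  simp only
  ring

lemma a1_smul (r : ℝ) (f : M → ℝ) (x : M) :
    a1 G p κ e (fun y => r * f y) x = r * a1 G p κ e f x := by
  simp only [a1]
  rw [← integral_const_mul]
  refine integral_congr_ae (Eventually.of_forall fun z => ?_)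
  simp only
  ring

lemma a1_const (c : ℝ) (x : M) : a1 G p κ e (fun _ => c) x = (∫ z, κ z) * c := by
  simp only [a1]
  rw [integral_mul_const]

lemma a1_nonneg (hκ : ∀ z, 0 ≤ κ z) {f : M → ℝ} (hf : ∀ x, 0 ≤ f x) (x : M) :
    0 ≤ a1 G p κ e f x :=
  integral_nonneg fun z => mul_nonneg (hκ z) (hf _)

lemma a1_mono [T2Space M] (hG : G.K ⊆ (chartAt E4 p).target) (h : Adm G κ e)
    (hκ : ∀ z, 0 ≤ κ z) {f g : M → ℝ}
    (hf : SmoothF E4 f) (hg : SmoothF E4 g) (hfg : ∀ x, f x ≤ g x) (x : M) :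
    a1 G p κ e f x ≤ a1 G p κ e g x :=
  integral_mono (integrable_a1 hG h hf x) (integrable_a1 hG h hg x)
    fun z => mul_le_mul_of_nonneg_left (hfg _) (hκ z)

end functions

end

end Crest.Agent.R240.Sm
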