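import Mathlib
import Crest.Agent.R240.SmA1
import Crest.Agent.R240.Sm7b
import Crest.Agent.R240.IfaceR

/-!
Row 240, N8 (helper915): the concrete smoothing system on `M`: a finite system of charts with
cut-offs, the operators `S.A e q` on smooth two-forms and `S.a e` on functions, the kernel
classes, and the exact form of every field of `SmPack` (`FExact`, `FApprox`, ...).
-/

set_option autoImplicit false
set_option maxSynthPendingDepth 3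
set_option linter.unusedSectionVars false

open Set Function Filter Metric MeasureTheory
open scoped Manifold ContDiff Topology
open Crest.Agent.R240.Ch

namespace Crest.Agent.R240.Sm

noncomputable section

/-! ### kernels -/

/-- the fixed bump function. -/
def bump0 : ContDiffBump (0 : E4) := ⟨1 / 2, 1, by norm_num, by norm_num⟩

/-- the fixed kernel: smooth, `≥ 0`, supported in the unit ball, integral one. -/
def kap0 : E4 → ℝ := bump0.normed volume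

lemma kap0_smooth : ContDiff ℝ ∞ kap0 := bump0.contDiff_normed

lemma kap0_cont : Continuous kap0 := kap0_smooth.continuous

lemma kap0_nonneg (z : E4) : 0 ≤ kap0 z := bump0.nonneg_normed z

lemma kap0_integral : ∫ z, kap0 z = 1 := bump0.integral_normed

lemma kap0_comp : HasCompactSupport kap0 := bump0.hasCompactSupport_normed

lemma tsupport_kap0 : tsupport kap0 = closedBall (0 : E4) 1 := by
  have := bump0.tsupport_normed_eq (μ := (volume : Measure E4))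
  simpa [kap0, bump0] using this

lemma support_kap0 : support kap0 = ball (0 : E4) 1 := by
  have := bump0.support_normed_eq (μ := (volume : Measure E4))
  simpa [kap0, bump0] using this

lemma kap0_integrable : Integrable kap0 := kap0_cont.integrable_of_hasCompactSupport kap0_comp

lemma norm_lt_of_kap0 {z : E4} (hz : kap0 z ≠ 0) : ‖z‖ < 1 := by
  have h : z ∈ support kap0 := hz
  rw [support_kap0] at h
  simpa using h

/-- smooth kernel factors. -/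
abbrev KF : Type := {q : E4 → ℝ // ContDiff ℝ ∞ q}

/-- the kernel with the factor `q`. -/
def kk (q : E4 → ℝ) : E4 → ℝ := fun z => q z * kap0 z

lemma kk_one : kk (fun _ => 1) = kap0 := by
  funext z; simp [kk]

lemma kk_smooth {q : E4 → ℝ} (hq : ContDiff ℝ ∞ q) : ContDiff ℝ ∞ (kk q) := hq.mul kap0_smooth

lemma kk_supp (q : E4 → ℝ) : tsupport (kk q) ⊆ closedBall (0 : E4) 1 := by
  rw [← tsupport_kap0]
  exact tsupport_mul_subset_right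

lemma kk_ne {q : E4 → ℝ} {z : E4} (hz : kk q z ≠ 0) : ‖z‖ < 1 :=
  norm_lt_of_kap0 (right_ne_zero_of_mul hz)

lemma kk_ker {q : E4 → ℝ} (hq : ContDiff ℝ ∞ q) : Sm7.Ker (kk q) :=
  ⟨(kk_smooth hq).continuous, kk_supp q⟩

lemma kk_nonneg {q : E4 → ℝ} (hq : ∀ z ∈ closedBall (0 : E4) 1, 0 ≤ q z) (z : E4) :
    0 ≤ kk q z := by
  by_cases h : kap0 z = 0
  · simp [kk, h]
  · exact mul_nonneg (hq z (by simpa using (norm_lt_of_kap0 h).le)) (kap0_nonneg z)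

lemma kk_le {q : E4 → ℝ} (hq : ∀ z ∈ closedBall (0 : E4) 1, q z ≤ 1) (z : E4) :
    kk q z ≤ kap0 z := by
  by_cases h : kap0 z = 0
  · simp [kk, h]
  · have := hq z (by simpa using (norm_lt_of_kap0 h).le)
    have h0 := kap0_nonneg z
    simp only [kk]
    nlinarith

/-! ### the system -/

/-- a finite system of charts with cut-offs. -/
structure Sys (M : Type*) [TopologicalSpace M] [ChartedSpace E4 M] where
  /-- number of charts -/
  n : ℕ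
  /-- centres of the charts -/
  p : Fin n → M
  /-- cut-off functions -/
  c : Fin n → Cut E4
  sub : ∀ i, tsupport (c i).θ ⊆ (chartAt E4 (p i)).target
  c01 : ∀ i y, (c i).θ y ∈ Icc (0 : ℝ) 1
  /-- compact cores -/
  K : Fin n → Set E4
  /-- open sets with `θ = 1` -/
  Ω : Fin n → Set E4
  cpt : ∀ i, IsCompact (K i)
  op : ∀ i, IsOpen (Ω i)
  KΩ : ∀ i, K i ⊆ Ω i
  one : ∀ i, ∀ y ∈ Ω i, (c i).θ y = 1
  cover : ∀ x : M, ∃ i, x ∈ (chartAt E4 (p i)).source ∧ chartAt E4 (p i) x ∈ interior (K i)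

/-- the class of kernels `|q|_{C^k} ≤ 1` on the unit ball. -/
def ClK (n k : ℕ) : Set (Fin n → KF) :=
  {q | ∀ i, ∀ j ≤ k, ∀ z ∈ closedBall (0 : E4) 1, ‖iteratedFDeriv ℝ j (q i).1 z‖ ≤ 1}

/-- the class of non-negative kernels. -/
def ClpK (n k : ℕ) : Set (Fin n → KF) :=
  {q | q ∈ ClK n k ∧ ∀ i, ∀ z ∈ closedBall (0 : E4) 1, 0 ≤ (q i).1 z}

/-- the kernel `1`. -/
def oneK (n : ℕ) : Fin n → KF := fun _ => ⟨fun _ => 1, contDiff_const⟩

namespace Sys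

section defs

variable {M : Type*} [TopologicalSpace M] [ChartedSpace E4 M] [IsManifold 𝓘(ℝ, E4) ∞ M]
variable (S : Sys M)

/-- the family of diffeomorphisms of the `i`-th chart. -/
def G (i : Fin S.n) : Fam E4 := (S.c i).fam

lemma hG (i : Fin S.n) : (S.G i).K ⊆ (chartAt E4 (S.p i)).target := S.sub i

lemma G_r (i : Fin S.n) : (S.G i).r = (S.c i).z0 := rfl

lemma Ω_sub (i : Fin S.n) : S.Ω i ⊆ (chartAt E4 (S.p i)).target := fun y hy =>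
  S.sub i (subset_tsupport _ (by rw [mem_support, S.one i y hy]; exact one_ne_zero))

lemma K_sub (i : Fin S.n) : S.K i ⊆ (chartAt E4 (S.p i)).target := (S.KΩ i).trans (S.Ω_sub i)

/-- the admissible scales. -/
def Ok (e : ℝ) : Prop := 0 < e ∧ ∀ i, e < (S.c i).z0

variable {S} in
lemma Ok.adm {e : ℝ} (h : S.Ok e) (i : Fin S.n) {κ : E4 → ℝ} (hκ : Continuous κ)
    (hs : tsupport κ ⊆ closedBall (0 : E4) 1) : Adm (S.G i) κ e :=
  Adm.of_ball hκ hs (by rw [abs_of_pos h.1]; exact h.2 i)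

variable {S} in
lemma Ok.adm_kk {e : ℝ} (h : S.Ok e) (i : Fin S.n) {q : E4 → ℝ} (hq : ContDiff ℝ ∞ q) :
    Adm (S.G i) (kk q) e := h.adm i (kk_smooth hq).continuous (kk_supp q)

variable {S} in
lemma Ok.adm_kap0 {e : ℝ} (h : S.Ok e) (i : Fin S.n) : Adm (S.G i) kap0 e :=
  h.adm i kap0_cont tsupport_kap0.subset

lemma exists_ok : ∃ e1 : ℝ, 0 < e1 ∧ e1 ≤ 1 ∧ ∀ e, 0 < e → e ≤ e1 → S.Ok e := by
  have h : ∀ᶠ e : ℝ in 𝓝[>] 0, ∀ i, e < (S.c i).z0 := by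
    rw [eventually_all]
    intro i
    exact mem_nhdsWithin_of_mem_nhds ((isOpen_gt' _).mem_nhds (S.c i).z0_pos)
  rw [eventually_nhdsWithin_iff] at h
  obtain ⟨δ, hδ, hδ'⟩ := Metric.eventually_nhds_iff.1 h
  refine ⟨min (δ / 2) 1, lt_min (half_pos hδ) one_pos, min_le_right _ _, fun e he he' => ⟨he, ?_⟩⟩
  refine hδ' ?_ he
  rw [Real.dist_eq, sub_zero, abs_of_pos he]
  exact lt_of_le_of_lt (he'.trans (min_le_left _ _)) (half_lt_self hδ)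

open Classical in
/-- the `i`-th one-chart operator on smooth two-forms (zero for inadmissible scales). -/
def op1 [T2Space M] (e : ℝ) (i : Fin S.n) (q : E4 → ℝ) : X2 M →ₗ[ℝ] X2 M :=
  if h : Adm (S.G i) (kk q) e then A1L (S.hG i) h else 0

/-- the `i`-th one-chart operator on functions. -/
def f1 (e : ℝ) (i : Fin S.n) (f : M → ℝ) : M → ℝ := a1 (S.G i) (S.p i) kap0 e f

/-- composition of the one-chart operators over a list. -/
def opL [T2Space M] (e : ℝ) (q : Fin S.n → KF) (l : List (Fin S.n)) : X2 M →ₗ[ℝ] X2 M :=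
  l.foldr (fun i T => (S.op1 e i (q i).1).comp T) LinearMap.id

/-- composition of the one-chart operators on functions over a list. -/
def fL (e : ℝ) (l : List (Fin S.n)) (f : M → ℝ) : M → ℝ :=
  l.foldr (fun i f => S.f1 e i f) f

/-- **the smoothing operator on two-forms.** -/
def A [T2Space M] (e : ℝ) (q : Fin S.n → KF) : X2 M →ₗ[ℝ] X2 M := S.opL e q (List.finRange S.n)

/-- **the smoothing operator on functions.** -/
def a (e : ℝ) : (M → ℝ) → M → ℝ := S.fL e (List.finRange S.n)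

end defs

section lemmas

variable {M : Type*} [TopologicalSpace M] [ChartedSpace E4 M] [IsManifold 𝓘(ℝ, E4) ∞ M]
variable {S : Sys M} [T2Space M]

lemma op1_eq {e : ℝ} (h : S.Ok e) (i : Fin S.n) {q : E4 → ℝ} (hq : ContDiff ℝ ∞ q) :
    S.op1 e i q = A1L (S.hG i) (h.adm_kk i hq) := dif_pos (h.adm_kk i hq)

lemma op1_coe {e : ℝ} (h : S.Ok e) (i : Fin S.n) {q : E4 → ℝ} (hq : ContDiff ℝ ∞ q) (b : X2 M) :
    (S.op1 e i q b : F2 E4 M) = A1 (S.G i) (S.p i) (kk q) e (b : F2 E4 M) := by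
  rw [op1_eq h i hq]; rfl

@[simp] lemma opL_nil (e : ℝ) (q : Fin S.n → KF) : S.opL e q [] = LinearMap.id := rfl

lemma opL_cons (e : ℝ) (q : Fin S.n → KF) (i : Fin S.n) (l : List (Fin S.n)) :
    S.opL e q (i :: l) = (S.op1 e i (q i).1).comp (S.opL e q l) := rfl

omit [T2Space M] in
@[simp] lemma fL_nil (e : ℝ) (f : M → ℝ) : S.fL e [] f = f := rfl

omit [T2Space M] in
lemma fL_cons (e : ℝ) (i : Fin S.n) (l : List (Fin S.n)) (f : M → ℝ) :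
    S.fL e (i :: l) f = S.f1 e i (S.fL e l f) := rfl


/-- the operator as 245's `AL`. -/
lemma opL_coe {e : ℝ} (h : S.Ok e) (q : Fin S.n → KF) (l : List (Fin S.n)) (b : X2 M) :
    (S.opL e q l b : F2 E4 M) =
      Sm7.AL S.G S.p (fun i => kk (q i).1) l e (b : F2 E4 M) := by
  induction l with
  | nil => rfl
  | cons i l ih =>
    rw [Sm7.AL_cons, ← ih, opL_cons, LinearMap.comp_apply, op1_coe h i (q i).2]
    rfl



/-! ### closed forms -/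

lemma op1_mem_Z2 {e : ℝ} (h : S.Ok e) (i : Fin S.n) {q : E4 → ℝ} (hq : ContDiff ℝ ∞ q)
    {b : X2 M} (hb : b ∈ Z2 M) : S.op1 e i q b ∈ Z2 M := by
  rw [op1_eq h i hq]
  exact A1L_mem_Z2 (S.hG i) _ hb

lemma opL_mem_Z2 {e : ℝ} (h : S.Ok e) (q : Fin S.n → KF) (l : List (Fin S.n))
    {b : X2 M} (hb : b ∈ Z2 M) : S.opL e q l b ∈ Z2 M := by
  induction l with
  | nil => exact hb
  | cons i l ih =>
    rw [opL_cons, LinearMap.comp_apply]
    exact op1_mem_Z2 h i (q i).2 ih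

/-! ### functions -/

lemma smoothF_f1 {e : ℝ} (h : S.Ok e) (i : Fin S.n) {f : M → ℝ} (hf : SmoothF E4 f) :
    SmoothF E4 (S.f1 e i f) := smoothF_a1 (S.hG i) (h.adm_kap0 i) hf

lemma smoothF_fL {e : ℝ} (h : S.Ok e) (l : List (Fin S.n)) {f : M → ℝ} (hf : SmoothF E4 f) :
    SmoothF E4 (S.fL e l f) := by
  induction l with
  | nil => exact hf
  | cons i l ih => exact smoothF_f1 h i ih

omit [T2Space M] in
lemma f1_nonneg (e : ℝ) (i : Fin S.n) {f : M → ℝ} (h0 : ∀ x, 0 ≤ f x) (x : M) :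
    0 ≤ S.f1 e i f x := a1_nonneg kap0_nonneg h0 x

omit [T2Space M] in
lemma fL_nonneg (e : ℝ) (l : List (Fin S.n)) {f : M → ℝ} (h0 : ∀ x, 0 ≤ f x) (x : M) :
    0 ≤ S.fL e l f x := by
  induction l generalizing x with
  | nil => exact h0 x
  | cons i l ih => exact f1_nonneg e i ih x

omit [T2Space M] in
lemma f1_const (e : ℝ) (i : Fin S.n) (c : ℝ) : S.f1 e i (fun _ => c) = fun _ => c := by
  funext x
  rw [f1, a1_const, kap0_integral, one_mul]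

omit [T2Space M] in
lemma fL_const (e : ℝ) (l : List (Fin S.n)) (c : ℝ) : S.fL e l (fun _ => c) = fun _ => c := by
  induction l with
  | nil => rfl
  | cons i l ih => rw [fL_cons, ih, f1_const]

lemma f1_add {e : ℝ} (h : S.Ok e) (i : Fin S.n) {f g : M → ℝ} (hf : SmoothF E4 f)
    (hg : SmoothF E4 g) : S.f1 e i (fun y => f y + g y) = fun y => S.f1 e i f y + S.f1 e i g y :=
  funext fun x => a1_add (S.hG i) (h.adm_kap0 i) hf hg x

lemma fL_add {e : ℝ} (h : S.Ok e) (l : List (Fin S.n)) {f g : M → ℝ} (hf : SmoothF E4 f)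
    (hg : SmoothF E4 g) :
    S.fL e l (fun y => f y + g y) = fun y => S.fL e l f y + S.fL e l g y := by
  induction l with
  | nil => rfl
  | cons i l ih =>
    rw [fL_cons, ih, f1_add h i (smoothF_fL h l hf) (smoothF_fL h l hg)]
    rfl

omit [T2Space M] in
lemma f1_smul (e : ℝ) (i : Fin S.n) (r : ℝ) (f : M → ℝ) :
    S.f1 e i (fun y => r * f y) = fun y => r * S.f1 e i f y :=
  funext fun x => a1_smul r f x

omit [T2Space M] in
lemma fL_smul (e : ℝ) (l : List (Fin S.n)) (r : ℝ) (f : M → ℝ) :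
    S.fL e l (fun y => r * f y) = fun y => r * S.fL e l f y := by
  induction l with
  | nil => rfl
  | cons i l ih => rw [fL_cons, ih, f1_smul]; rfl

lemma f1_mono {e : ℝ} (h : S.Ok e) (i : Fin S.n) {f g : M → ℝ} (hf : SmoothF E4 f)
    (hg : SmoothF E4 g) (hfg : ∀ x, f x ≤ g x) (x : M) : S.f1 e i f x ≤ S.f1 e i g x :=
  a1_mono (S.hG i) (h.adm_kap0 i) kap0_nonneg hf hg hfg x


end lemmas

end Sys

/-! ### the kernel classes -/

lemma oneK_mem (n k : ℕ) : oneK n ∈ ClpK n k := by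
  refine ⟨fun i j _ z _ => ?_, fun i z _ => zero_le_one⟩
  rcases j with _ | j
  · rw [norm_iteratedFDeriv_zero]
    simp [oneK]
  · simp only [oneK]
    rw [iteratedFDeriv_succ_const]
    simp

lemma ClpK_sub (n k : ℕ) : ClpK n k ⊆ ClK n k := fun _ h => h.1

lemma ClK_anti (n k l : ℕ) (h : k ≤ l) : ClK n l ⊆ ClK n k :=
  fun _ hq i j hj z hz => hq i j (hj.trans h) z hz

lemma ClpK_anti (n k l : ℕ) (h : k ≤ l) : ClpK n l ⊆ ClpK n k :=
  fun _ hq => ⟨ClK_anti n k l h hq.1, hq.2⟩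

lemma ClK.abs_le {n k : ℕ} {q : Fin n → KF} (hq : q ∈ ClK n k) (i : Fin n) {z : E4}
    (hz : z ∈ closedBall (0 : E4) 1) : |(q i).1 z| ≤ 1 := by
  have := hq i 0 (Nat.zero_le _) z hz
  rwa [norm_iteratedFDeriv_zero, Real.norm_eq_abs] at this

lemma ClpK.kk_nonneg {n k : ℕ} {q : Fin n → KF} (hq : q ∈ ClpK n k) (i : Fin n) (z : E4) :
    0 ≤ kk (q i).1 z := Sm.kk_nonneg (hq.2 i) z

lemma ClpK.kk_le {n k : ℕ} {q : Fin n → KF} (hq : q ∈ ClpK n k) (i : Fin n) (z : E4) :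
    kk (q i).1 z ≤ kap0 z :=
  Sm.kk_le (fun _ hz => (le_abs_self _).trans (ClK.abs_le hq.1 i hz)) z

/-! ### the fields of `SmPack` for the system -/

section fields

variable {M : Type*} [MetricSpace M] [CompactSpace M] [ChartedSpace E4 M]
    [IsManifold 𝓘(ℝ, E4) ∞ M] [MeasurableSpace M] [BorelSpace M]

/-- `SmPack.exact` (461). -/
def FExact (S : Sys M) : Prop :=
  ∃ e1 : ℝ, 0 < e1 ∧ ∀ e (p : Fin S.n → KF), 0 < e → e ≤ e1 → ∀ b : X2 M,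
    IsEx (b : F2 E4 M) → IsEx (S.A e p b : F2 E4 M)

/-- `SmPack.approx` (955, 245). -/
def FApprox (𝒰 : Cover M) (S : Sys M) : Prop :=
  ∃ e1 : ℝ, 0 < e1 ∧ ∀ l : ℕ, ∃ C : ℝ, ∀ e, 0 < e → e ≤ e1 → ∀ b : X2 M,
    𝒰.cm l (S.A e (oneK S.n) b : F2 E4 M) ≤ C * 𝒰.cm l (b : F2 E4 M) ∧
    𝒰.cm l ((S.A e (oneK S.n) b - b : X2 M) : F2 E4 M) ≤ C * e * 𝒰.cm (l + 1) (b : F2 E4 M)

/-- `SmPack.bd` (83 + 822). -/
def FBd (D : Dat M) (S : Sys M) : Prop :=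
  ∃ e1 : ℝ, 0 < e1 ∧ ∃ C : ℝ, ∀ e p, 0 < e → e ≤ e1 → p ∈ ClpK S.n 0 → ∀ (b : X2 M) (h : M → ℝ),
    SmoothF E4 h → (∀ x, D.nr (b : F2 E4 M) x ≤ h x) →
    ∀ x, D.nr (S.A e p b : F2 E4 M) x ≤ C * S.a e h x

/-- `SmPack.pos` (83 + 822). -/
def FPos (D : Dat M) (S : Sys M) : Prop :=
  ∃ e1 : ℝ, 0 < e1 ∧ ∃ C : ℝ, ∀ e p, 0 < e → e ≤ e1 → p ∈ ClpK S.n 0 → ∀ P ∈ D.Pp,
    ∀ h : M → ℝ, SmoothF E4 h → (∀ x, D.nr (P : F2 E4 M) x ≤ h x) →
    GeF D.J D.F (S.A e p P : F2 E4 M) (fun x => - (C * e ^ 2 * S.a e h x))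

/-- `SmPack.leak1` (83 + 822). -/
def FLeak1 (D : Dat M) (S : Sys M) : Prop :=
  ∃ e1 : ℝ, 0 < e1 ∧ ∃ C : ℝ, ∀ e p, 0 < e → e ≤ e1 → p ∈ ClpK S.n 0 → ∀ (b : X2 M) (h : M → ℝ),
    SmoothF E4 h → (∀ x, D.nr (b : F2 E4 M) x ≤ h x) →
    ∀ x, D.nr (D.pi'' (S.A e p (D.pi' b)) : F2 E4 M) x ≤ C * e * S.a e h x

/-- `SmPack.leak2` (83 + 822). -/
def FLeak2 (D : Dat M) (S : Sys M) : Prop :=
  ∃ e1 : ℝ, 0 < e1 ∧ ∃ C : ℝ, ∀ e p, 0 < e → e ≤ e1 → p ∈ ClpK S.n 0 → ∀ (b : X2 M) (h : M → ℝ),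
    SmoothF E4 h → (∀ x, D.nr (b : F2 E4 M) x ≤ h x) →
    ∀ x, D.nr (D.pi' (S.A e p (D.pi'' b)) : F2 E4 M) x ≤ C * e * S.a e h x

/-- `SmPack.low` (83 + 822). -/
def FLow (D : Dat M) (S : Sys M) : Prop :=
  ∃ e1 : ℝ, 0 < e1 ∧ ∃ C : ℝ, ∀ e, 0 < e → e ≤ e1 → ∀ f : M → ℝ, SmoothF E4 f →
    (∀ x, 0 ≤ f x) → ∀ b : X2 M, (b : F2 E4 M) = fmul f D.F →
    GeF D.J D.F (S.A e (oneK S.n) b : F2 E4 M) (fun x => (1 - C * e) * S.a e f x)

/-- `SmPack.rep` (599). -/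
def FRep (D : Dat M) (𝒰 : Cover M) (S : Sys M) : Prop :=
  ∃ e1 : ℝ, 0 < e1 ∧ ∀ L : X2 M →ₗ[ℝ] ℝ, FOrd 𝒰 L → ∀ e (p : Fin S.n → KF), 0 < e → e ≤ e1 →
    ∃ η : X2 M, ∀ b : X2 M, L (S.A e p b) = D.I (η : F2 E4 M) (b : F2 E4 M)

/-- `SmPack.repm` (837 + 259). -/
def FRepm (D : Dat M) (S : Sys M) : Prop :=
  ∃ e1 : ℝ, 0 < e1 ∧ ∃ C : ℝ, 1 ≤ C ∧ ∀ s : Measure M, IsFiniteMeasure s → ∀ e, 0 < e → e ≤ e1 →
    ∃ g : M → ℝ, SmoothF E4 g ∧ (∀ x, 0 ≤ g x) ∧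
      (∀ f, SmoothF E4 f → ∫ x, S.a e f x ∂s = ∫ x, f x * g x ∂D.μ) ∧
      (∀ x, g x ≤ C / e ^ 4 * s.real (ball x (C * e))) ∧
      (∀ x r, e ≤ r → s.real (ball x r) ≤ C * ∫ y in ball x (C * r), g y ∂D.μ)

/-- `SmPack.crude` (609). -/
def FCrude (D : Dat M) (𝒰 : Cover M) (S : Sys M) : Prop :=
  ∃ e1 : ℝ, 0 < e1 ∧ ∀ l : ℕ, ∃ (k n : ℕ) (C : ℝ), ∀ e p, 0 < e → e ≤ e1 → p ∈ ClK S.n k →
    ∀ b : X2 M, 𝒰.cm l (S.A e p b : F2 E4 M) ≤ C / e ^ n * D.n2 (b : F2 E4 M)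

/-- `SmPack.leak` (895). -/
def FLeak (D : Dat M) (𝒰 : Cover M) (S : Sys M) : Prop :=
  ∃ e1 : ℝ, 0 < e1 ∧ ∀ k : ℕ, ∃ C : ℝ, ∀ e, 0 < e → e ≤ e1 → ∀ L : X2 M →ₗ[ℝ] ℝ, FOrd 𝒰 L →
    (∀ b, L b = L (D.pi'' b)) → ∀ N : ℝ, 0 ≤ N →
    (∀ p ∈ ClK S.n k, ∀ b : X2 M, |L (S.A e p b)| ≤ N * D.n2 (b : F2 E4 M)) →
    ∀ p ∈ ClK S.n k, ∀ b : X2 M, |L (S.A e p (D.pi' b))| ≤ C * e * N * D.n2 (b : F2 E4 M)

/-- `SmPack.adj` (461). -/
def FAdj (D : Dat M) (S : Sys M) : Prop :=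
  ∃ e1 : ℝ, 0 < e1 ∧ ∃ C : ℝ, ∀ e, 0 < e → e ≤ e1 → ∀ P ∈ D.Pp,
    (1 - C * e) * D.I (P : F2 E4 M) D.F ≤ D.I (S.A e (oneK S.n) P : F2 E4 M) D.F

/-- `SmPack.sign` (136). -/
def FSign (S : Sys M) : Prop :=
  ∃ e1 : ℝ, 0 < e1 ∧ ∀ k : ℕ, ∃ C : ℝ, ∀ e, 0 < e → e ≤ e1 → ∀ (L : X2 M →ₗ[ℝ] ℝ) (b : X2 M)
    (R : ℝ), (∀ p ∈ ClpK S.n k, |L (S.A e p b)| ≤ R) → ∀ p ∈ ClK S.n k, |L (S.A e p b)| ≤ C * R

/-- **assembly of the smoothing package.** -/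
theorem smPack_of (D : Dat M) (𝒰 : Cover M) (S : Sys M) (h1 : FExact S) (h2 : FApprox 𝒰 S)
    (h3 : FBd D S) (h4 : FPos D S) (h5 : FLeak1 D S) (h6 : FLeak2 D S) (h7 : FLow D S)
    (h8 : FRep D 𝒰 S) (h9 : FRepm D S) (h10 : FCrude D 𝒰 S) (h11 : FLeak D 𝒰 S)
    (h12 : FAdj D S) (h13 : FSign S) : Nonempty (SmPack D 𝒰) := by
  obtain ⟨e1, he1, h1⟩ := h1
  obtain ⟨e2, he2, h2⟩ := h2
  obtain ⟨e3, he3, C3, h3⟩ := h3
  obtain ⟨e4, he4, C4, h4⟩ := h4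
  obtain ⟨e5, he5, C5, h5⟩ := h5
  obtain ⟨e6, he6, C6, h6⟩ := h6
  obtain ⟨e7, he7, C7, h7⟩ := h7
  obtain ⟨e8, he8, h8⟩ := h8
  obtain ⟨e9, he9, C9, hC9, h9⟩ := h9
  obtain ⟨e10, he10, h10⟩ := h10
  obtain ⟨e11, he11, h11⟩ := h11
  obtain ⟨e12, he12, C12, h12⟩ := h12
  obtain ⟨e13, he13, h13⟩ := h13
  obtain ⟨e14, he14, he14', h14⟩ := S.exists_ok
  obtain ⟨e0, he0, hle⟩ : ∃ e0 : ℝ, 0 < e0 ∧ e0 ≤ e1 ∧ e0 ≤ e2 ∧ e0 ≤ e3 ∧ e0 ≤ e4 ∧ e0 ≤ e5 ∧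
      e0 ≤ e6 ∧ e0 ≤ e7 ∧ e0 ≤ e8 ∧ e0 ≤ e9 ∧ e0 ≤ e10 ∧ e0 ≤ e11 ∧ e0 ≤ e12 ∧ e0 ≤ e13 ∧
      e0 ≤ e14 := by
    refine ⟨min e1 (min e2 (min e3 (min e4 (min e5 (min e6 (min e7 (min e8 (min e9 (min e10
      (min e11 (min e12 (min e13 e14)))))))))))), ?_, ?_⟩
    · simp only [lt_min_iff]
      exact ⟨he1, he2, he3, he4, he5, he6, he7, he8, he9, he10, he11, he12, he13, he14⟩
    · simp only [min_le_iff, le_refl, true_or, or_true, and_self]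
  obtain ⟨l1, l2, l3, l4, l5, l6, l7, l8, l9, l10, l11, l12, l13, l14⟩ := hle
  have hok : ∀ e, 0 < e → e ≤ e0 → S.Ok e := fun e h h' => h14 e h (h'.trans l14)
  exact ⟨{
    κ := Fin S.n → KF
    one := oneK S.n
    cl := ClK S.n
    clp := ClpK S.n
    one_mem := oneK_mem S.n
    clp_sub := ClpK_sub S.n
    cl_anti := fun k l h => ClK_anti S.n k l h
    clp_anti := fun k l h => ClpK_anti S.n k l h
    e0 := e0
    e0_pos := he0
    e0_le := l14.trans he14'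
    A := S.A
    a := S.a
    closed := fun e p h h' b hb => Sys.opL_mem_Z2 (hok e h h') p _ hb
    exact := fun e p h h' b hb => h1 e p h (h'.trans l1) b hb
    approx := fun l => by
      obtain ⟨C, hC⟩ := h2 l
      exact ⟨C, fun e h h' b => hC e h (h'.trans l2) b⟩
    a_smooth := fun e h h' f hf => Sys.smoothF_fL (hok e h h') _ hf
    a_nonneg := fun e _ _ f _ h0 x => Sys.fL_nonneg e _ h0 x
    a_one := fun e _ _ x => congrFun (Sys.fL_const (S := S) e _ 1) x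
    a_add := fun e h h' f g hf hg x => congrFun (Sys.fL_add (hok e h h') _ hf hg) x
    a_smul := fun e _ _ r f _ x => congrFun (Sys.fL_smul (S := S) e _ r f) x
    bd := ⟨C3, fun e p h h' hp b f hf hb x => h3 e p h (h'.trans l3) hp b f hf hb x⟩
    pos := ⟨C4, fun e p h h' hp P hP f hf hb => h4 e p h (h'.trans l4) hp P hP f hf hb⟩
    leak1 := ⟨C5, fun e p h h' hp b f hf hb x => h5 e p h (h'.trans l5) hp b f hf hb x⟩
    leak2 := ⟨C6, fun e p h h' hp b f hf hb x => h6 e p h (h'.trans l6) hp b f hf hb x⟩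
    low := ⟨C7, fun e h h' f hf h0 b hb => h7 e h (h'.trans l7) f hf h0 b hb⟩
    rep := fun L hL e p h h' => h8 L hL e p h (h'.trans l8)
    repm := ⟨C9, hC9, fun s hs e h h' => h9 s hs e h (h'.trans l9)⟩
    crude := fun l => by
      obtain ⟨k, n, C, hC⟩ := h10 l
      exact ⟨k, n, C, fun e p h h' hp b => hC e p h (h'.trans l10) hp b⟩
    leak := fun k => by
      obtain ⟨C, hC⟩ := h11 k
      exact ⟨C, fun e h h' L hL hL' N hN hb p hp b => hC e h (h'.trans l11) L hL hL' N hN hb p hp b⟩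
    adj := ⟨C12, fun e h h' P hP => h12 e h (h'.trans l12) P hP⟩
    sign := fun k => by
      obtain ⟨C, hC⟩ := h13 k
      exact ⟨C, fun e h h' L b R hR p hp => hC e h (h'.trans l13) L b R hR p hp⟩ }⟩

end fields

end

end Crest.Agent.R240.Sm
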