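import Mathlib
import Crest.Agent.R240.IfaceR
import Crest.Agent.R240.Sm4b
import Crest.Agent.R240.Sm5
import Crest.Agent.R240.SmMass
import Crest.Agent.R240.IntTop
import Crest.Agent.R240.Sm7c
import Crest.Agent.R240.Sm3b
import Crest.Agent.R240.SmSys
import Crest.Agent.R240.En4L
import Crest.Agent.R240.Sm2
import Crest.Agent.R240.Ch6
import Crest.Agent.R240.IntPair
import Crest.Agent.R240.XDefs
import Crest.Agent.R240.TopDefs
import Crest.Agent.R240.En4G
import Crest.Agent.R240.SmA1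

-- ▼ part R240/SmRep
section

/-!
Row 240 (S0371), block R (helper599): field `rep` of `SmPack`: a functional of finite order
composed with the product of the one-chart averagings is represented by a smooth form.
-/

set_option autoImplicit false
set_option maxSynthPendingDepth 3
set_option linter.unusedSectionVars false

open Set Function Filter MeasureTheory Metric
open scoped Manifold ContDiff Topology

namespace Crest.Agent.R240.SmRep

open Crest.Agent.R240.Ch Crest.Agent.R240.Sm Crest.Agent.R240.Sm4 Crest.Agent.R240.Sm5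
open Crest.Agent.R240.Int Crest.Agent.R240.Vm

noncomputable section

section PropSupp

variable {M : Type*} [TopologicalSpace M] [ChartedSpace E4 M] [IsManifold 𝓘(ℝ, E4) ∞ M]

/-- the pull-back vanishes at `x` if the form vanishes at `ψ x` -/
lemma at2_pullG_zero {G : Fam E4} {p : M} {z : E4} {b : F2 E4 M} {x : M}
    (h : at2 b (psi G p z x) = 0) : at2 (pullG G p z b) x = 0 := by
  by_cases hx : x ∈ (chartAt E4 p).source
  · rw [at2_pullG_of_mem hx, rep_eq_pb, ← psi_of_mem hx, h]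
    rfl
  · rw [at2_pullG_of_notMem hx]
    rwa [psi_of_notMem hx] at h

end PropSupp

section Main

variable {M : Type*} [MetricSpace M] [CompactSpace M] [ChartedSpace E4 M]
    [IsManifold 𝓘(ℝ, E4) ∞ M] [MeasurableSpace M] [BorelSpace M]

/-- support propagation of one averaging -/
theorem vOff_avg {p : M} (c : Cut E4) {κ : E4 → ℝ} (hκ : ∀ z, κ z ≠ 0 → ‖z‖ ≤ 1)
    {e : ℝ} (he : 0 < e) (hez : e ≤ c.z0 / 2) {C : ℝ} (hC : 0 ≤ C)
    (hdisp : ∀ z ∈ closedBall (0 : E4) (c.z0 / 2), ∀ x : M,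
      dist (psi c.fam p z x) x ≤ C * ‖z‖)
    (A : X2 M → X2 M)
    (hA : ∀ b x, at2 (A b).1 x = ∫ z, κ z • at2 (pullG c.fam p (e • z) b.1) x)
    (K : Set M) (b : X2 M) (hb : VOff K b) : VOff (cthickening (C * e) K) (A b) := by
  intro x hx
  rw [hA]
  have h1 : ∀ z, κ z • at2 (pullG c.fam p (e • z) b.1) x = 0 := by
    intro z
    by_cases hz : κ z = 0
    · rw [hz, zero_smul]
    have hzn : ‖e • z‖ ≤ e := by
      rw [norm_smul, Real.norm_of_nonneg he.le]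
      exact mul_le_of_le_one_right he.le (hκ z hz)
    have hd : dist (psi c.fam p (e • z) x) x ≤ C * e :=
      (hdisp _ (mem_closedBall_zero_iff.2 (hzn.trans hez)) x).trans
        (mul_le_mul_of_nonneg_left hzn hC)
    have h2 : psi c.fam p (e • z) x ∉ K := by
      intro h
      refine hx (mem_cthickening_of_dist_le x _ _ K h ?_)
      rw [dist_comm]; exact hd
    rw [at2_pullG_zero (hb _ h2), smul_zero]
  simp only [h1, integral_zero]

/-- **field `rep`.** -/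
theorem rep_core (D : Dat M) (𝒰 : Cover M) {ι : Type} [Fintype ι] [DecidableEq ι]
    (p : ι → M) (c : ι → Cut E4) (hc : ∀ i y, (c i).θ y ∈ Icc (0 : ℝ) 1)
    (hct : ∀ i, tsupport (c i).θ ⊆ (chartAt E4 (p i)).target)
    (O : ι → Set E4) (hO : ∀ i, IsOpen (O i)) (hO1 : ∀ i, ∀ y ∈ O i, (c i).θ y = 1)
    (hcov : ∀ x : M, ∃ i, x ∈ (chartAt E4 (p i)).source ∧ chartAt E4 (p i) x ∈ O i)
    (l : List ι) (hl : ∀ i, i ∈ l) :
    ∃ e0 : ℝ, 0 < e0 ∧ ∀ e, 0 < e → e ≤ e0 → ∀ κ : ι → E4 → ℝ, (∀ i, ContDiff ℝ ∞ (κ i)) →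
      (∀ i z, κ i z ≠ 0 → ‖z‖ ≤ 1) → ∀ A : ι → Module.End ℝ (X2 M),
      (∀ i b x, at2 (A i b).1 x = ∫ z, κ i z • at2 (pullG (c i).fam (p i) (e • z) b.1) x) →
      (∀ i m, ∃ C : ℝ, ∀ b, 𝒰.cm m (A i b).1 ≤ C * 𝒰.cm m b.1) →
      (∀ i (h : X2 M), ∃ h' : X2 M, ∀ b : X2 M, D.I h.1 (A i b).1 = D.I h'.1 b.1) →
      ∀ L : X2 M →ₗ[ℝ] ℝ, FOrd 𝒰 L →
        ∃ η : X2 M, ∀ b : X2 M, L ((l.map A).prod b) = D.I η.1 b.1 := by
  classical
  have hF : Vol D.F := dat_volF D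
  -- the open cover
  set U : ι → Set M := fun i => (chartAt E4 (p i)).source ∩ chartAt E4 (p i) ⁻¹' O i with hU
  have hUo : ∀ i, IsOpen (U i) := fun i => (chartAt E4 (p i)).isOpen_inter_preimage (hO i)
  obtain ⟨f, hf⟩ := SmoothPartitionOfUnity.exists_isSubordinate 𝓘(ℝ, E4) (isClosed_univ (X := M))
    U hUo (fun x _ => by
      obtain ⟨i, hi⟩ := hcov x
      exact mem_iUnion.2 ⟨i, hi⟩)
  have hsum : ∀ x, ∑ j, f j x = 1 := by
    intro x
    have := f.sum_eq_one (mem_univ x)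
    rwa [finsum_eq_sum_of_fintype] at this
  set K : ι → Set M := fun j => tsupport (f j) with hK
  have hKc : ∀ j, IsCompact (K j) := fun j => (isClosed_tsupport _).isCompact
  have hKU : ∀ j, K j ⊆ U j := hf
  choose δ hδ hδU using fun j => (hKc j).exists_cthickening_subset_open (hUo j) (hKU j)
  set R : ι → Set E4 := fun j => chartAt E4 (p j) '' (cthickening (δ j) (K j)) with hR
  have hQs : ∀ j, cthickening (δ j) (K j) ⊆ (chartAt E4 (p j)).source := fun j =>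
    (hδU j).trans inter_subset_left
  have hRc : ∀ j, IsCompact (R j) := fun j =>
    (hKc j).cthickening.image_of_continuousOn ((chartAt E4 (p j)).continuousOn.mono (hQs j))
  have hRO : ∀ j, R j ⊆ O j := by
    rintro j _ ⟨x, hx, rfl⟩
    exact (hδU j hx).2
  choose η hη hηO using fun j => (hRc j).exists_cthickening_subset_open (hO j) (hRO j)
  choose C hC hdisp using fun j => exists_disp_psi D.bl (c j).fam (p := p j)
    (by rw [Cut.fam_K]; exact hct j) (r' := (c j).z0 / 2)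
    (by rw [Cut.fam_r]; linarith [(c j).z0_pos])
  set Ct : ℝ := ∑ j, C j with hCt
  have hCt0 : 0 ≤ Ct := Finset.sum_nonneg fun j _ => hC j
  have hCle : ∀ j, C j ≤ Ct := fun j =>
    Finset.single_le_sum (f := C) (fun i _ => hC i) (Finset.mem_univ j)
  -- the bound of the scales
  have hex : ∃ e0 : ℝ, 0 < e0 ∧ ∀ j, e0 ≤ (c j).z0 / 2 ∧ e0 ≤ η j ∧
      l.length * (Ct * e0) ≤ δ j := by
    have h1 : ∀ j, ∃ e1 : ℝ, 0 < e1 ∧ ∀ e, e ≤ e1 → e ≤ (c j).z0 / 2 ∧ e ≤ η j ∧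
        l.length * (Ct * e) ≤ δ j := by
      intro j
      refine ⟨min ((c j).z0 / 2) (min (η j) (δ j / (l.length * Ct + 1))), ?_, fun e he => ?_⟩
      · have := (c j).z0_pos
        have := hη j
        have := hδ j
        positivity
      · have h2 := le_min_iff.1 he
        have h3 := le_min_iff.1 h2.2
        refine ⟨h2.1, h3.1, ?_⟩
        have h4 : (0 : ℝ) < l.length * Ct + 1 := by positivity
        rw [← mul_assoc]
        rcases le_or_gt e 0 with h5 | h5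
        · exact (mul_nonpos_of_nonneg_of_nonpos (by positivity) h5).trans (hδ j).le
        · have h6 := (le_div_iff₀ h4).1 h3.2
          nlinarith
    choose e1 he1 he1' using h1
    rcases isEmpty_or_nonempty ι with hι | hι
    · exact ⟨1, one_pos, fun j => (hι.false j).elim⟩
    · refine ⟨Finset.univ.inf' Finset.univ_nonempty e1, ?_, fun j => he1' j _ ?_⟩
      · exact (Finset.lt_inf'_iff _).2 fun j _ => he1 j
      · exact Finset.inf'_le _ (Finset.mem_univ j)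
  obtain ⟨e0, he0, hsmall⟩ := hex
  refine ⟨e0, he0, fun e he hee κ hκs hκ1 A hA hcm hadj L hL => ?_⟩
  have hq : ∀ b c : X2 M, Continuous (qG D.F b.1 c.1) := fun b c =>
    continuous_qG hF (Smooth2.cont2 b.2) (Smooth2.cont2 c.2)
  have hcm0 : ∀ m (b : F2 E4 M), 0 ≤ 𝒰.cm m b := fun m b => Real.sSup_nonneg (by
    rintro r ⟨i, j, hj, y, hy, rfl⟩; exact norm_nonneg _)
  refine rep_glue_M D hq A hadj (FOrd 𝒰) ?_ l (fun j : ι => j) (fun j => hl j)
    (δ := Ct * e) (by positivity) ?_ (fun j => f j) hsum K ?_ ?_ L hL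
  · rintro i L ⟨m, K1, hK1⟩
    obtain ⟨C1, hC1⟩ := hcm i m
    refine ⟨m, |K1| * C1, fun b => ?_⟩
    calc |L (A i b)| ≤ K1 * 𝒰.cm m (A i b).1 := hK1 _
      _ ≤ |K1| * 𝒰.cm m (A i b).1 :=
        mul_le_mul_of_nonneg_right (le_abs_self _) (hcm0 _ _)
      _ ≤ |K1| * (C1 * 𝒰.cm m b.1) := mul_le_mul_of_nonneg_left (hC1 b) (abs_nonneg _)
      _ = |K1| * C1 * 𝒰.cm m b.1 := by ring
  · intro i S b hb
    have h1 := vOff_avg (c i) (hκ1 i) he (hee.trans (hsmall i).1) (hC i) (hdisp i) (A i) (hA i)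
      S b hb
    exact VOff.mono (cthickening_mono (mul_le_mul_of_nonneg_right (hCle i) he.le) _) h1
  · intro j x hx
    exact image_eq_zero_of_notMem_tsupport hx
  · rintro j L ⟨m, K1, hK1⟩
    obtain ⟨h, hh⟩ := S1 𝒰 hF (c j) (hc j) (hct j) (hO j) (hO1 j) (hκs j) (ρ := 1) zero_le_one
      (hκ1 j) he (by
        have h1 := (hsmall j).1
        have h2 := (c j).z0_pos
        rw [mul_one]; linarith) (hRc j) (by
        intro w hw
        refine Subset.trans ?_ (hηO j)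
        rw [mul_one]
        refine Subset.trans (closedBall_subset_closedBall (hee.trans (hsmall j).2.1)) ?_
        exact closedBall_subset_cthickening hw _) (A j) (hA j) L hK1
    refine ⟨h, fun b hb => ?_⟩
    have h3 : Supp (p j) (R j) b.1 := by
      intro x hx
      refine hb x fun hx2 => hx ?_
      have h4 : x ∈ cthickening (δ j) (K j) := by
        refine cthickening_mono ?_ _ hx2
        refine le_trans ?_ (hsmall j).2.2
        exact mul_le_mul_of_nonneg_left (mul_le_mul_of_nonneg_left hee hCt0) (Nat.cast_nonneg _)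
      exact ⟨chartAt E4 (p j) x, ⟨x, h4, rfl⟩, (chartAt E4 (p j)).left_inv (hQs j h4)⟩
    rw [hh b h3]
    exact (IG_eq_I hF D.vol _ _).symm

end Main

end

end Crest.Agent.R240.SmRep
end

-- ▼ part R240/SmRep2
section

/-!
Row 240 (S0371), block R (helper599): field `rep` of `SmPack` for the operators `Sm7.AL`.
-/

set_option autoImplicit false
set_option maxSynthPendingDepth 3
set_option linter.unusedSectionVars false

open Set Function Filter MeasureTheory Metric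
open scoped Manifold ContDiff Topology

namespace Crest.Agent.R240.SmRep

open Crest.Agent.R240.Ch Crest.Agent.R240.Sm
open Crest.Agent.R240.Int Crest.Agent.R240.Vm

noncomputable section

section Top

variable {M : Type*} [TopologicalSpace M] [ChartedSpace E4 M] [IsManifold 𝓘(ℝ, E4) ∞ M]
  [T2Space M]

/-- the one-chart averaging as a linear operator on smooth two-forms -/
def A1X (G : Fam E4) (p : M) (hG : G.K ⊆ (chartAt E4 p).target) (κ : E4 → ℝ) (hk : Sm7.Ker κ)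
    (e : ℝ) (he : 0 < e) (her : e < G.r) : X2 M →ₗ[ℝ] X2 M where
  toFun b := ⟨Sm7.A1 G p κ e b.1, Sm7.smooth2_A1 hG hk he le_rfl her b.2⟩
  map_add' b b' := by
    apply Subtype.ext
    show Sm7.A1 G p κ e (b.1 + b'.1) = Sm7.A1 G p κ e b.1 + Sm7.A1 G p κ e b'.1
    unfold Sm7.A1
    simp only [pullG_add]
    exact avg_add_right (Sm7.isOpen_pre e) hk.cont hk.cpt (Sm7.supp_sub hk he le_rfl her)
      (Sm7.jsm_pull_smul hG b.2 e) (Sm7.jsm_pull_smul hG b'.2 e)
  map_smul' r b := by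
    apply Subtype.ext
    show Sm7.A1 G p κ e (r • b.1) = r • Sm7.A1 G p κ e b.1
    unfold Sm7.A1
    simp only [pullG_smul]
    exact avg_smul_right r κ _

@[simp] lemma A1X_coe (G : Fam E4) (p : M) (hG : G.K ⊆ (chartAt E4 p).target) (κ : E4 → ℝ)
    (hk : Sm7.Ker κ) (e : ℝ) (he : 0 < e) (her : e < G.r) (b : X2 M) :
    (A1X G p hG κ hk e he her b).1 = Sm7.A1 G p κ e b.1 := rfl


end Top

section Main

variable {M : Type*} [MetricSpace M] [CompactSpace M] [ChartedSpace E4 M]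
    [IsManifold 𝓘(ℝ, E4) ∞ M] [MeasurableSpace M] [BorelSpace M]

/-- **field `rep`**, for the composition `AL` of the one-chart averagings. -/
theorem rep_AL (D : Dat M) (𝒰 : Cover M) {ι : Type} [Fintype ι] [DecidableEq ι]
    (p : ι → M) (c : ι → Cut E4) (hc : ∀ i y, (c i).θ y ∈ Icc (0 : ℝ) 1)
    (hct : ∀ i, tsupport (c i).θ ⊆ (chartAt E4 (p i)).target)
    (O : ι → Set E4) (hO : ∀ i, IsOpen (O i)) (hO1 : ∀ i, ∀ y ∈ O i, (c i).θ y = 1)
    (hcov : ∀ x : M, ∃ i, x ∈ (chartAt E4 (p i)).source ∧ chartAt E4 (p i) x ∈ O i)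
    (l : List ι) (hl : ∀ i, i ∈ l) :
    ∃ e0 : ℝ, 0 < e0 ∧ ∀ e, 0 < e → e ≤ e0 → ∀ κ : ι → E4 → ℝ, (∀ i, ContDiff ℝ ∞ (κ i)) →
      (∀ i, tsupport (κ i) ⊆ closedBall 0 1) →
      ∀ A : X2 M → X2 M, (∀ b : X2 M, (A b).1 = Sm7.AL (fun i => (c i).fam) p κ l e b.1) →
      ∀ L : X2 M →ₗ[ℝ] ℝ, FOrd 𝒰 L →
        ∃ η : X2 M, ∀ b : X2 M, L (A b) = D.I (η : F2 E4 M) (b : F2 E4 M) := by
  classical
  obtain ⟨e1, he1, hrep⟩ := rep_core D 𝒰 p c hc hct O hO hO1 hcov l hl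
  have hex : ∃ e2 : ℝ, 0 < e2 ∧ ∀ j, e2 < (c j).z0 := by
    rcases isEmpty_or_nonempty ι with hι | hι
    · exact ⟨1, one_pos, fun j => (hι.false j).elim⟩
    · refine ⟨Finset.univ.inf' Finset.univ_nonempty (fun j => (c j).z0 / 2), ?_, fun j => ?_⟩
      · exact (Finset.lt_inf'_iff _).2 fun j _ => half_pos (c j).z0_pos
      · exact (Finset.inf'_le _ (Finset.mem_univ j)).trans_lt (half_lt_self (c j).z0_pos)
  obtain ⟨e2, he2, hz⟩ := hex
  refine ⟨min e1 e2, lt_min he1 he2, fun e he hee κ hκs hκ1 A hA L hL => ?_⟩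
  have hee1 : e ≤ e1 := hee.trans (min_le_left _ _)
  have her : ∀ i, e < ((c i).fam).r := fun i => by
    rw [Cut.fam_r]; exact (hee.trans (min_le_right _ _)).trans_lt (hz i)
  have hk : ∀ i, Sm7.Ker (κ i) := fun i => ⟨(hκs i).continuous, hκ1 i⟩
  have hG : ∀ i, (c i).fam.K ⊆ (chartAt E4 (p i)).target := fun i => by
    rw [Cut.fam_K]; exact hct i
  have hκn : ∀ i z, κ i z ≠ 0 → ‖z‖ ≤ 1 := fun i z hz' =>
    mem_closedBall_zero_iff.1 (hκ1 i (subset_tsupport _ hz'))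
  set B : ι → Module.End ℝ (X2 M) := fun i =>
    A1X (c i).fam (p i) (hG i) (κ i) (hk i) e he (her i) with hB
  have hcm : ∀ i m, ∃ C : ℝ, ∀ b, 𝒰.cm m (B i b).1 ≤ C * 𝒰.cm m b.1 := by
    intro i m
    obtain ⟨C, -, h⟩ := Sm7.cm_A1 𝒰 (hG i) (her i) (Sm7.pb 𝒰 (hG i) (her i)) (hk i) m
    exact ⟨C, fun b => (h e he le_rfl b.1 b.2).1⟩
  have hadj : ∀ i (h : X2 M), ∃ h' : X2 M, ∀ b : X2 M, D.I h.1 (B i b).1 = D.I h'.1 b.1 := by
    intro i h
    have hs : ∀ z ∈ tsupport (κ i), e • z ∈ ball (0 : E4) (c i).fam.r := fun z hz' =>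
      Sm7.supp_sub (hk i) he le_rfl (her i) hz'
    refine ⟨⟨Sm7.A1 (c i).fam.symm (p i) (κ i) e h.1,
      Sm7.smooth2_A1 (G := (c i).fam.symm) (hG i) (hk i) he le_rfl (her i) h.2⟩, fun b => ?_⟩
    exact datI_avg_pull D (hG i) (hk i).cont (hk i).cpt hs h.2 b.2
  obtain ⟨η, hη⟩ := hrep e he hee1 κ hκs hκn B (fun i b x => rfl) hcm hadj L hL
  · refine ⟨η, fun b => ?_⟩
    rw [← hη b]
    congr 1
    apply Subtype.ext
    rw [hA b]
    have key : ∀ l' : List ι, ((l'.map B).prod b).1 =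
        Sm7.AL (fun i => (c i).fam) p κ l' e b.1 := by
      intro l'
      induction l' with
      | nil => rfl
      | cons i l' ih =>
        rw [List.map_cons, List.prod_cons, Module.End.mul_apply, Sm7.AL_cons, ← ih]
        rfl
    exact (key l).symm

end Main

end

end Crest.Agent.R240.SmRep
end

-- ▼ part R240/SmRep3
section

/-!
Row 240 (S0371), block R (helper599): field `rep` of `SmPack` for the system `Sys M`.
-/

set_option autoImplicit false
set_option maxSynthPendingDepth 3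
set_option linter.unusedSectionVars false

open Set Function Filter MeasureTheory Metric
open scoped Manifold ContDiff Topology

namespace Crest.Agent.R240.Sm

open Crest.Agent.R240.Ch

variable {M : Type*} [MetricSpace M] [CompactSpace M] [ChartedSpace E4 M]
    [IsManifold 𝓘(ℝ, E4) ∞ M] [MeasurableSpace M] [BorelSpace M]

/-- **field `rep`** of the smoothing package. -/
theorem fRep (D : Dat M) (𝒰 : Cover M) (S : Sys M) : FRep D 𝒰 S := by
  classical
  obtain ⟨e1, he1, h⟩ := SmRep.rep_AL D 𝒰 S.p S.c S.c01 S.sub S.Ω S.op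
    (fun i y hy => S.one i y hy)
    (fun x => by
      obtain ⟨i, hi, hi'⟩ := S.cover x
      exact ⟨i, hi, S.KΩ i (interior_subset hi')⟩)
    (List.finRange S.n) (fun i => List.mem_finRange i)
  obtain ⟨e2, he2, -, hok⟩ := S.exists_ok
  refine ⟨min e1 e2, lt_min he1 he2, fun L hL e p he hee => ?_⟩
  obtain ⟨η, hη⟩ := h e he (hee.trans (min_le_left _ _)) (fun i => kk (p i).1)
    (fun i => kk_smooth (p i).2) (fun i => kk_supp (p i).1) (S.A e p)
    (fun b => Sys.opL_coe (hok e he (hee.trans (min_le_right _ _))) p (List.finRange S.n) b) L hL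
  exact ⟨η, hη⟩

end Crest.Agent.R240.Sm
end

-- ▼ part R240/Q1
section

/-!
Row 240 (S0371), R4a (helper83), file 1: pointwise estimates for the pull-back of two-forms by a linear map
which is close to the identity, between two nearby structures `(J₀,F₀)`, `(J₁,F₁)` on `E4`.
-/

set_option autoImplicit false
set_option maxSynthPendingDepth 3
set_option linter.unusedVariables false

namespace Crest.Agent.R240.Q4

open Crest.Agent.R240 Crest.Agent.R240.Sm Crest.Agent.R240.En4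

noncomputable section

/-- comparison of `(J,F)` with the Euclidean structure, with constant `B`. -/
structure Cmp (B : ℝ) (J : E4 →L[ℝ] E4) (F : Bil) : Prop where
  sq : ∀ v, J (J v) = -v
  spos : SPos J F
  nJ : ‖J‖ ≤ B
  nF : ‖F‖ ≤ B
  low : ∀ b : Bil, Alt b → ‖b‖ ≤ B * nr J F b
  up : ∀ b : Bil, Alt b → nr J F b ≤ B * ‖b‖
  ell : ∀ v : E4, ‖v‖ ^ 2 ≤ B * F v (J v)

/-- two structures at distance `t`, and a linear map `A` at distance `t` from the identity. -/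
structure Near (B t : ℝ) (J₀ J₁ : E4 →L[ℝ] E4) (F₀ F₁ : Bil) (A : E4 →L[ℝ] E4) : Prop where
  one_le : 1 ≤ B
  t_nonneg : 0 ≤ t
  c0 : Cmp B J₀ F₀
  c1 : Cmp B J₁ F₁
  nA : ‖A‖ ≤ B
  dJ : ‖J₁ - J₀‖ ≤ B * t
  dF : ‖F₁ - F₀‖ ≤ B * t
  dA : ‖A - ContinuousLinearMap.id ℝ E4‖ ≤ B * t

theorem bil_le (b : Bil) (u v : E4) : |b u v| ≤ ‖b‖ * ‖u‖ * ‖v‖ := by
  have := ContinuousLinearMap.le_opNorm₂ b u v
  rwa [Real.norm_eq_abs] at this

theorem bil_bound {b : Bil} {C : ℝ} (hC : 0 ≤ C) (h : ∀ u v, |b u v| ≤ C * ‖u‖ * ‖v‖) : ‖b‖ ≤ C :=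
  ContinuousLinearMap.opNorm_le_bound₂ b hC (fun u v => by rw [Real.norm_eq_abs]; exact h u v)

theorem alt_pb {b : Bil} (hb : Alt b) (A : E4 →L[ℝ] E4) : Alt (pb b A) := fun v => hb _

theorem norm_pb_le (b : Bil) (A : E4 →L[ℝ] E4) : ‖pb b A‖ ≤ ‖b‖ * ‖A‖ ^ 2 := by
  refine bil_bound (by positivity) (fun u v => ?_)
  rw [pb_apply]
  refine (bil_le b _ _).trans ?_
  have h1 := A.le_opNorm u
  have h2 := A.le_opNorm v
  calc ‖b‖ * ‖A u‖ * ‖A v‖ ≤ ‖b‖ * (‖A‖ * ‖u‖) * (‖A‖ * ‖v‖) := by gcongr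
    _ = ‖b‖ * ‖A‖ ^ 2 * ‖u‖ * ‖v‖ := by ring

/-- difference of two pull-backs of the same form -/
theorem bil_diff_le (b : Bil) (X Y : E4 →L[ℝ] E4) (u v : E4) :
    |b (X u) (X v) - b (Y u) (Y v)| ≤ ‖b‖ * ‖X - Y‖ * (‖X‖ + ‖Y‖) * ‖u‖ * ‖v‖ := by
  have e : b (X u) (X v) - b (Y u) (Y v) = b ((X - Y) u) (X v) + b (Y u) ((X - Y) v) := by
    simp only [ContinuousLinearMap.sub_apply, map_sub]; ring
  rw [e]
  have h1 := (X - Y).le_opNorm u
  have h2 := (X - Y).le_opNorm v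
  have h3 := X.le_opNorm v
  have h4 := Y.le_opNorm u
  calc |b ((X - Y) u) (X v) + b (Y u) ((X - Y) v)|
      ≤ |b ((X - Y) u) (X v)| + |b (Y u) ((X - Y) v)| := abs_add_le _ _
    _ ≤ ‖b‖ * ‖(X - Y) u‖ * ‖X v‖ + ‖b‖ * ‖Y u‖ * ‖(X - Y) v‖ :=
        add_le_add (bil_le _ _ _) (bil_le _ _ _)
    _ ≤ ‖b‖ * (‖X - Y‖ * ‖u‖) * (‖X‖ * ‖v‖) + ‖b‖ * (‖Y‖ * ‖u‖) * (‖X - Y‖ * ‖v‖) := by gcongr
    _ = _ := by ring

namespace Near

variable {B t : ℝ} {J₀ J₁ : E4 →L[ℝ] E4} {F₀ F₁ : Bil} {A : E4 →L[ℝ] E4}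

theorem B_pos (h : Near B t J₀ J₁ F₀ F₁ A) : 0 < B := lt_of_lt_of_le one_pos h.one_le

theorem dXY (h : Near B t J₀ J₁ F₀ F₁ A) : ‖J₁.comp A - A.comp J₀‖ ≤ 3 * B ^ 2 * t := by
  have hB := h.B_pos.le
  have e : J₁.comp A - A.comp J₀ = (J₁ - J₀).comp A + J₀.comp (A - ContinuousLinearMap.id ℝ E4)
      - (A - ContinuousLinearMap.id ℝ E4).comp J₀ := by
    ext v i
    simp only [ContinuousLinearMap.sub_apply, ContinuousLinearMap.add_apply,
      ContinuousLinearMap.comp_apply, map_sub, ContinuousLinearMap.id_apply, PiLp.add_apply,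
      PiLp.sub_apply]
    ring
  rw [e]
  have h1 : ‖(J₁ - J₀).comp A‖ ≤ (B * t) * B :=
    (ContinuousLinearMap.opNorm_comp_le _ _).trans
      (mul_le_mul h.dJ h.nA (norm_nonneg _) (by have := h.t_nonneg; positivity))
  have h2 : ‖J₀.comp (A - ContinuousLinearMap.id ℝ E4)‖ ≤ B * (B * t) :=
    (ContinuousLinearMap.opNorm_comp_le _ _).trans (mul_le_mul h.c0.nJ h.dA (norm_nonneg _) hB)
  have h3 : ‖(A - ContinuousLinearMap.id ℝ E4).comp J₀‖ ≤ (B * t) * B :=
    (ContinuousLinearMap.opNorm_comp_le _ _).trans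
      (mul_le_mul h.dA h.c0.nJ (norm_nonneg _) (by have := h.t_nonneg; positivity))
  calc _ ≤ ‖(J₁ - J₀).comp A + J₀.comp (A - ContinuousLinearMap.id ℝ E4)‖
        + ‖(A - ContinuousLinearMap.id ℝ E4).comp J₀‖ := norm_sub_le _ _
    _ ≤ (‖(J₁ - J₀).comp A‖ + ‖J₀.comp (A - ContinuousLinearMap.id ℝ E4)‖)
        + ‖(A - ContinuousLinearMap.id ℝ E4).comp J₀‖ := by gcongr; exact norm_add_le _ _
    _ ≤ ((B * t) * B + B * (B * t)) + (B * t) * B := by gcongr
    _ = _ := by ring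

theorem nX (h : Near B t J₀ J₁ F₀ F₁ A) : ‖J₁.comp A‖ ≤ B ^ 2 := by
  have hB := h.B_pos.le
  calc _ ≤ ‖J₁‖ * ‖A‖ := ContinuousLinearMap.opNorm_comp_le _ _
    _ ≤ B * B := mul_le_mul h.c1.nJ h.nA (norm_nonneg _) hB
    _ = _ := by ring

theorem nY (h : Near B t J₀ J₁ F₀ F₁ A) : ‖A.comp J₀‖ ≤ B ^ 2 := by
  have hB := h.B_pos.le
  calc _ ≤ ‖A‖ * ‖J₀‖ := ContinuousLinearMap.opNorm_comp_le _ _
    _ ≤ B * B := mul_le_mul h.nA h.c0.nJ (norm_nonneg _) hB
    _ = _ := by ring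

theorem XY_bound (h : Near B t J₀ J₁ F₀ F₁ A) (b : Bil) (u v : E4) :
    |b (J₁ (A u)) (J₁ (A v)) - b (A (J₀ u)) (A (J₀ v))| ≤ 6 * B ^ 4 * t * ‖b‖ * ‖u‖ * ‖v‖ := by
  have hB := h.B_pos.le
  have ht := h.t_nonneg
  have h1 := bil_diff_le b (J₁.comp A) (A.comp J₀) u v
  simp only [ContinuousLinearMap.comp_apply] at h1
  refine h1.trans ?_
  have h2 := h.dXY
  have h3 := h.nX
  have h4 := h.nY
  calc ‖b‖ * ‖J₁.comp A - A.comp J₀‖ * (‖J₁.comp A‖ + ‖A.comp J₀‖) * ‖u‖ * ‖v‖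
      ≤ ‖b‖ * (3 * B ^ 2 * t) * (B ^ 2 + B ^ 2) * ‖u‖ * ‖v‖ := by gcongr
    _ = _ := by ring

theorem nr0_le (h : Near B t J₀ J₁ F₀ F₁ A) {b : Bil} (hb : Alt b) {C : ℝ} (hC : ‖b‖ ≤ C) :
    nr J₀ F₀ b ≤ B * C :=
  (h.c0.up b hb).trans (mul_le_mul_of_nonneg_left hC h.B_pos.le)

/-- the norm of the pull-back -/
theorem bd (h : Near B t J₀ J₁ F₀ F₁ A) {b : Bil} (hb : Alt b) :
    nr J₀ F₀ (pb b A) ≤ B ^ 4 * nr J₁ F₁ b := by
  have hB := h.B_pos.le
  have h1 : ‖pb b A‖ ≤ (B * nr J₁ F₁ b) * B ^ 2 :=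
    (norm_pb_le b A).trans (mul_le_mul (h.c1.low b hb)
      (pow_le_pow_left₀ (norm_nonneg _) h.nA 2) (by positivity)
      (mul_nonneg hB (Real.sqrt_nonneg _)))
  refine (h.nr0_le (alt_pb hb A) h1).trans (le_of_eq ?_)
  ring

theorem nr_invp_le {J : E4 →L[ℝ] E4} {F : Bil} (hJ : ∀ v, J (J v) = -v) (hF : SPos J F) {b : Bil}
    (hb : Alt b) : nr J F (invp J b) ≤ nr J F b := by
  unfold nr
  apply Real.sqrt_le_sqrt
  rw [nsq_split hJ hF hb]
  have := nsq_nonneg hJ hF (hb.antip J)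
  linarith

theorem nr_antip_le {J : E4 →L[ℝ] E4} {F : Bil} (hJ : ∀ v, J (J v) = -v) (hF : SPos J F) {b : Bil}
    (hb : Alt b) : nr J F (antip J b) ≤ nr J F b := by
  unfold nr
  apply Real.sqrt_le_sqrt
  rw [nsq_split hJ hF hb]
  have := nsq_nonneg hJ hF (hb.invp J)
  linarith

theorem leak_aux1 (h : Near B t J₀ J₁ F₀ F₁ A) {b : Bil} (hb : Alt b)
    (hi : ∀ u v, b (J₁ u) (J₁ v) = b u v) :
    nr J₀ F₀ (antip J₀ (pb b A)) ≤ 3 * B ^ 6 * t * nr J₁ F₁ b := by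
  have hB := h.B_pos.le
  have ht := h.t_nonneg
  have h0 : 0 ≤ nr J₁ F₁ b := Real.sqrt_nonneg _
  have h1 : ‖antip J₀ (pb b A)‖ ≤ 3 * B ^ 4 * t * (B * nr J₁ F₁ b) := by
    refine bil_bound (by positivity) (fun u v => ?_)
    rw [antip_apply, pb_apply, pb_apply, ← hi (A u) (A v), abs_div, abs_two]
    have h2 := h.XY_bound b u v
    have h3 := h.c1.low b hb
    have h4 : 6 * B ^ 4 * t * ‖b‖ * ‖u‖ * ‖v‖ ≤ 6 * B ^ 4 * t * (B * nr J₁ F₁ b) * ‖u‖ * ‖v‖ := by
      gcongr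
    rw [div_le_iff₀ (by norm_num)]
    linarith
  refine (h.nr0_le ((alt_pb hb A).antip J₀) h1).trans (le_of_eq ?_)
  ring

theorem leak_aux2 (h : Near B t J₀ J₁ F₀ F₁ A) {b : Bil} (hb : Alt b)
    (hi : ∀ u v, b (J₁ u) (J₁ v) = - b u v) :
    nr J₀ F₀ (invp J₀ (pb b A)) ≤ 3 * B ^ 6 * t * nr J₁ F₁ b := by
  have hB := h.B_pos.le
  have ht := h.t_nonneg
  have h0 : 0 ≤ nr J₁ F₁ b := Real.sqrt_nonneg _
  have h1 : ‖invp J₀ (pb b A)‖ ≤ 3 * B ^ 4 * t * (B * nr J₁ F₁ b) := by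
    refine bil_bound (by positivity) (fun u v => ?_)
    have h5 : b (A u) (A v) = - b (J₁ (A u)) (J₁ (A v)) := by rw [hi, neg_neg]
    rw [invp_apply, pb_apply, pb_apply, h5, abs_div, abs_two]
    have h2 := h.XY_bound b u v
    have h3 := h.c1.low b hb
    have h4 : 6 * B ^ 4 * t * ‖b‖ * ‖u‖ * ‖v‖ ≤ 6 * B ^ 4 * t * (B * nr J₁ F₁ b) * ‖u‖ * ‖v‖ := by
      gcongr
    rw [div_le_iff₀ (by norm_num)]
    have h6 : |-b (J₁ (A u)) (J₁ (A v)) + b (A (J₀ u)) (A (J₀ v))| =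
        |b (J₁ (A u)) (J₁ (A v)) - b (A (J₀ u)) (A (J₀ v))| := by
      rw [← abs_neg]; congr 1; ring
    rw [h6]
    linarith
  refine (h.nr0_le ((alt_pb hb A).invp J₀) h1).trans (le_of_eq ?_)
  ring

/-- leak of invariant forms -/
theorem leak1 (h : Near B t J₀ J₁ F₀ F₁ A) {b : Bil} (hb : Alt b) :
    nr J₀ F₀ (antip J₀ (pb (invp J₁ b) A)) ≤ 3 * B ^ 6 * t * nr J₁ F₁ b := by
  have hB := h.B_pos.le
  have ht := h.t_nonneg
  refine (h.leak_aux1 (hb.invp J₁) (invp_inv h.c1.sq b)).trans ?_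
  exact mul_le_mul_of_nonneg_left (nr_invp_le h.c1.sq h.c1.spos hb) (by positivity)

/-- leak of anti-invariant forms -/
theorem leak2 (h : Near B t J₀ J₁ F₀ F₁ A) {b : Bil} (hb : Alt b) :
    nr J₀ F₀ (invp J₀ (pb (antip J₁ b) A)) ≤ 3 * B ^ 6 * t * nr J₁ F₁ b := by
  have hB := h.B_pos.le
  have ht := h.t_nonneg
  refine (h.leak_aux2 (hb.antip J₁) (antip_anti h.c1.sq b)).trans ?_
  exact mul_le_mul_of_nonneg_left (nr_antip_le h.c1.sq h.c1.spos hb) (by positivity)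

/-- Cauchy-Schwarz for a semi-positive form -/
theorem pos_cs {J : E4 →L[ℝ] E4} {P : Bil} (hJ : ∀ v, J (J v) = -v) (hP : Pos J P) (w k : E4) :
    - (P k (J k)) / 4 ≤ P w (J w + k) := by
  -- `P(w, k) = - P(w, J (J k)) = - h(w, J k)`, `h(u,v) = P(u, J v)`
  have e1 : P w (J w + k) = P w (J w) + P w k := by rw [map_add]
  -- use `0 ≤ h(x,x)` for `x = w - (1/2) J k`
  have h0 := hP.nonneg (w - (1/2 : ℝ) • J k)
  have e2 : P (w - (1/2 : ℝ) • J k) (J (w - (1/2 : ℝ) • J k)) =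
      P w (J w) + (1/2 : ℝ) * P w k - (1/2 : ℝ) * P (J k) (J w) + - (1/4 : ℝ) * P (J k) k := by
    rw [map_sub J, map_smul J, hJ]
    simp only [map_sub, map_smul, ContinuousLinearMap.sub_apply, ContinuousLinearMap.smul_apply,
      smul_eq_mul, map_neg]
    ring
  have e3 : P (J k) (J w) = - P w k := by rw [hP.inv, hP.alt.swap]
  have e4 : P (J k) k = - P k (J k) := hP.alt.swap _ _
  rw [e2, e3, e4] at h0
  rw [e1]
  linarith

/-- positivity up to second order -/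
theorem pos (h : Near B t J₀ J₁ F₀ F₁ A) {P : Bil} (hP : Pos J₁ P) (v : E4) :
    - (3 * B ^ 7 * t ^ 2 * nr J₁ F₁ P) * F₀ v (J₀ v) ≤ pb P A v (J₀ v) := by
  have hB := h.B_pos.le
  have ht := h.t_nonneg
  have h0 : 0 ≤ nr J₁ F₁ P := Real.sqrt_nonneg _
  set k : E4 := A (J₀ v) - J₁ (A v) with hk
  have hk1 : ‖k‖ ≤ 3 * B ^ 2 * t * ‖v‖ := by
    have h1 := (J₁.comp A - A.comp J₀).le_opNorm v
    have h2 : ‖k‖ = ‖(J₁.comp A - A.comp J₀) v‖ := by
      rw [hk, ← norm_neg]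
      congr 1
      simp
    rw [h2]
    exact h1.trans (mul_le_mul_of_nonneg_right h.dXY (norm_nonneg _))
  have h1 := pos_cs h.c1.sq hP (A v) k
  have e1 : J₁ (A v) + k = A (J₀ v) := by rw [hk]; abel
  rw [e1] at h1
  rw [pb_apply]
  refine le_trans ?_ h1
  have h2 : P k (J₁ k) ≤ ‖P‖ * ‖k‖ * (B * ‖k‖) := by
    refine (le_abs_self _).trans ((bil_le P k (J₁ k)).trans ?_)
    have h3 : ‖J₁ k‖ ≤ B * ‖k‖ := (J₁.le_opNorm k).trans
      (mul_le_mul_of_nonneg_right h.c1.nJ (norm_nonneg _))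
    gcongr
  have h3 : ‖P‖ * ‖k‖ * (B * ‖k‖) ≤ (B * nr J₁ F₁ P) * (3 * B ^ 2 * t * ‖v‖) *
      (B * (3 * B ^ 2 * t * ‖v‖)) := by
    have h4 := h.c1.low P hP.alt
    gcongr
  have h5 := h.c0.ell v
  have h6 : (B * nr J₁ F₁ P) * (3 * B ^ 2 * t * ‖v‖) * (B * (3 * B ^ 2 * t * ‖v‖)) =
      (9 * B ^ 6 * t ^ 2 * nr J₁ F₁ P) * ‖v‖ ^ 2 := by ring
  have h7 : (9 * B ^ 6 * t ^ 2 * nr J₁ F₁ P) * ‖v‖ ^ 2 ≤
      (9 * B ^ 6 * t ^ 2 * nr J₁ F₁ P) * (B * F₀ v (J₀ v)) :=
    mul_le_mul_of_nonneg_left h5 (by positivity)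
  have h8 : 0 ≤ F₀ v (J₀ v) := by
    have := h.B_pos
    by_contra hneg
    push Not at hneg
    have h9 : B * F₀ v (J₀ v) < 0 := mul_neg_of_pos_of_neg this hneg
    have := sq_nonneg ‖v‖
    linarith
  have h9 : 0 ≤ B ^ 7 * t ^ 2 * nr J₁ F₁ P * F₀ v (J₀ v) := by positivity
  have h10 : (9 * B ^ 6 * t ^ 2 * nr J₁ F₁ P) * (B * F₀ v (J₀ v)) =
    9 * (B ^ 7 * t ^ 2 * nr J₁ F₁ P * F₀ v (J₀ v)) := by ring
  have h11 : (3 * B ^ 7 * t ^ 2 * nr J₁ F₁ P) * F₀ v (J₀ v) =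
    3 * (B ^ 7 * t ^ 2 * nr J₁ F₁ P * F₀ v (J₀ v)) := by ring
  linarith

/-- lower bound of the pull-back of `F`. -/
theorem low (h : Near B t J₀ J₁ F₀ F₁ A) (v : E4) :
    (1 - 3 * B ^ 5 * t) * F₀ v (J₀ v) ≤ pb F₁ A v (J₀ v) := by
  have hB := h.B_pos.le
  have hB1 := h.one_le
  have ht := h.t_nonneg
  have e : F₁ (A v) (A (J₀ v)) - F₀ v (J₀ v) = (F₁ - F₀) (A v) (A (J₀ v))
      + F₀ ((A - ContinuousLinearMap.id ℝ E4) v) (A (J₀ v))
      + F₀ v ((A - ContinuousLinearMap.id ℝ E4) (J₀ v)) := by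
    simp only [ContinuousLinearMap.sub_apply, ContinuousLinearMap.id_apply, map_sub]
    ring
  have hAv : ‖A v‖ ≤ B * ‖v‖ := (A.le_opNorm v).trans
    (mul_le_mul_of_nonneg_right h.nA (norm_nonneg _))
  have hJv : ‖J₀ v‖ ≤ B * ‖v‖ := (J₀.le_opNorm v).trans
    (mul_le_mul_of_nonneg_right h.c0.nJ (norm_nonneg _))
  have hAJv : ‖A (J₀ v)‖ ≤ B * (B * ‖v‖) := (A.le_opNorm _).trans
    (mul_le_mul h.nA hJv (norm_nonneg _) hB)
  have hd1 : ‖(A - ContinuousLinearMap.id ℝ E4) v‖ ≤ (B * t) * ‖v‖ :=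
    ((A - ContinuousLinearMap.id ℝ E4).le_opNorm v).trans
      (mul_le_mul_of_nonneg_right h.dA (norm_nonneg _))
  have hd2 : ‖(A - ContinuousLinearMap.id ℝ E4) (J₀ v)‖ ≤ (B * t) * (B * ‖v‖) :=
    ((A - ContinuousLinearMap.id ℝ E4).le_opNorm _).trans
      (mul_le_mul h.dA hJv (norm_nonneg _) (by positivity))
  have h1 : |(F₁ - F₀) (A v) (A (J₀ v))| ≤ (B * t) * (B * ‖v‖) * (B * (B * ‖v‖)) := by
    refine (bil_le _ _ _).trans ?_
    have := h.dF
    gcongr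
  have h2 : |F₀ ((A - ContinuousLinearMap.id ℝ E4) v) (A (J₀ v))| ≤
      B * ((B * t) * ‖v‖) * (B * (B * ‖v‖)) := by
    refine (bil_le _ _ _).trans ?_
    have := h.c0.nF
    gcongr
  have h3 : |F₀ v ((A - ContinuousLinearMap.id ℝ E4) (J₀ v))| ≤
      B * ‖v‖ * ((B * t) * (B * ‖v‖)) := by
    refine (bil_le _ _ _).trans ?_
    have := h.c0.nF
    gcongr
  have h4 : B * ‖v‖ * ((B * t) * (B * ‖v‖)) ≤ B ^ 4 * t * ‖v‖ ^ 2 := by
    have h5 : B * ‖v‖ * ((B * t) * (B * ‖v‖)) = B ^ 3 * (t * ‖v‖ ^ 2) := by ring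
    have h6 : B ^ 4 * t * ‖v‖ ^ 2 = B ^ 4 * (t * ‖v‖ ^ 2) := by ring
    rw [h5, h6]
    exact mul_le_mul_of_nonneg_right (pow_le_pow_right₀ hB1 (by norm_num)) (by positivity)
  have h7 : |F₁ (A v) (A (J₀ v)) - F₀ v (J₀ v)| ≤ 3 * B ^ 4 * t * ‖v‖ ^ 2 := by
    rw [e]
    refine (abs_add_le _ _).trans ((add_le_add_left (abs_add_le _ _) _).trans ?_)
    have h8 : (B * t) * (B * ‖v‖) * (B * (B * ‖v‖)) = B ^ 4 * t * ‖v‖ ^ 2 := by ring
    have h9 : B * ((B * t) * ‖v‖) * (B * (B * ‖v‖)) = B ^ 4 * t * ‖v‖ ^ 2 := by ring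
    linarith
  have h10 := h.c0.ell v
  have h11 : 3 * B ^ 4 * t * ‖v‖ ^ 2 ≤ 3 * B ^ 4 * t * (B * F₀ v (J₀ v)) :=
    mul_le_mul_of_nonneg_left h10 (by positivity)
  have h12 := (abs_le.1 h7).1
  have h13 : 3 * B ^ 4 * t * (B * F₀ v (J₀ v)) = 3 * B ^ 5 * t * F₀ v (J₀ v) := by ring
  rw [pb_apply]
  linarith

end Near

end

end Crest.Agent.R240.Q4
end

-- ▼ part R240/Q2
section

/-!
Row 240 (S0371), R4a (helper83), file 2: the constants of `Near` on a compact piece of a chart.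
-/

set_option autoImplicit false
set_option maxSynthPendingDepth 3
set_option linter.unusedVariables false
set_option maxHeartbeats 400000

open Set Function Filter Metric
open scoped Manifold ContDiff Topology

namespace Crest.Agent.R240.Q4

open Crest.Agent.R240 Crest.Agent.R240.Ch Crest.Agent.R240.Sm Crest.Agent.R240.En4

noncomputable section

/-! ### general lemmas -/

theorem pos_lower {X : Type*} [TopologicalSpace X] {K : Set X} (hK : IsCompact K) {f : X → ℝ}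
    (hf : ContinuousOn f K) (hpos : ∀ x ∈ K, 0 < f x) : ∃ c : ℝ, 0 < c ∧ ∀ x ∈ K, c ≤ f x := by
  rcases K.eq_empty_or_nonempty with h | h
  · exact ⟨1, one_pos, by simp [h]⟩
  · obtain ⟨x, hx, hmin⟩ := hK.exists_isMinOn h hf
    exact ⟨f x, hpos x hx, fun y hy => hmin hy⟩

/-- mean value inequality in the parameter, uniformly on a compact set. -/
theorem lip_zero {Z E V : Type*} [NormedAddCommGroup Z] [NormedSpace ℝ Z] [FiniteDimensional ℝ Z]
    [NormedAddCommGroup E] [NormedSpace ℝ E]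
    [NormedAddCommGroup V] [NormedSpace ℝ V] {Φ : Z × E → V} {r ρ : ℝ} (hρ0 : 0 ≤ ρ) (hρ : ρ < r)
    {U K : Set E} (hU : IsOpen U) (hK : IsCompact K) (hKU : K ⊆ U)
    (hΦ : ContDiffOn ℝ ∞ Φ (ball (0 : Z) r ×ˢ U)) :
    ∃ C : ℝ, 0 ≤ C ∧ ∀ z ∈ closedBall (0 : Z) ρ, ∀ y ∈ K, ‖Φ (z, y) - Φ (0, y)‖ ≤ C * ‖z‖ := by
  have : ProperSpace Z := FiniteDimensional.proper ℝ Z
  have ho : IsOpen (ball (0 : Z) r ×ˢ U) := isOpen_ball.prod hU
  have h1 : ContDiffOn ℝ ∞ (fun p : Z × E => fderiv ℝ Φ p) (ball 0 r ×ˢ U) :=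
    hΦ.fderiv_of_isOpen ho (by simp)
  have hsub : closedBall (0 : Z) ρ ×ˢ K ⊆ ball (0 : Z) r ×ˢ U :=
    prod_mono (closedBall_subset_ball hρ) hKU
  obtain ⟨C, hC⟩ := ((isCompact_closedBall (0 : Z) ρ).prod hK).exists_bound_of_continuousOn
    (h1.continuousOn.mono hsub)
  refine ⟨max C 0, le_max_right _ _, fun z hz y hy => ?_⟩
  have hz0 : (0 : Z) ∈ closedBall (0 : Z) ρ := mem_closedBall_self hρ0
  have hd : ∀ z ∈ closedBall (0 : Z) ρ, HasFDerivWithinAt (fun z => Φ (z, y))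
      ((fderiv ℝ Φ (z, y)).comp (ContinuousLinearMap.inl ℝ Z E)) (closedBall (0 : Z) ρ) z := by
    intro z hz
    have hmem : (z, y) ∈ (ball (0 : Z) r ×ˢ U) := hsub ⟨hz, hy⟩
    have h2 : HasFDerivAt Φ (fderiv ℝ Φ (z, y)) (z, y) :=
      ((hΦ.contDiffAt (ho.mem_nhds hmem)).differentiableAt (by simp)).hasFDerivAt
    have h3 : HasFDerivAt (fun z : Z => (z, y)) (ContinuousLinearMap.inl ℝ Z E) z :=
      hasFDerivAt_prodMk_left z y
    exact (HasFDerivAt.comp z (g := Φ) h2 h3).hasFDerivWithinAt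
  have hb : ∀ z ∈ closedBall (0 : Z) ρ,
      ‖(fderiv ℝ Φ (z, y)).comp (ContinuousLinearMap.inl ℝ Z E)‖ ≤ max C 0 := by
    intro z hz
    refine (ContinuousLinearMap.opNorm_comp_le _ _).trans ?_
    have h4 := hC (z, y) ⟨hz, hy⟩
    have h5 : ‖ContinuousLinearMap.inl ℝ Z E‖ ≤ 1 :=
      ContinuousLinearMap.opNorm_le_bound _ zero_le_one fun v => by simp
    calc _ ≤ C * 1 := mul_le_mul h4 h5 (norm_nonneg _) ((norm_nonneg _).trans h4)
      _ ≤ max C 0 := by rw [mul_one]; exact le_max_left _ _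
  have := (convex_closedBall (0 : Z) ρ).norm_image_sub_le_of_norm_hasFDerivWithin_le hd hb hz0 hz
  simpa using this

/-! ### continuity of `nsq` -/


section cont

variable {X : Type*} [TopologicalSpace X] {s : Set X} {J : X → E4 →L[ℝ] E4} {F b c : X → Bil}

theorem continuousOn_pull (hJ : ContinuousOn J s) (hb : ContinuousOn b s) :
    ContinuousOn (fun x => pull (J x) (b x)) s := by
  unfold pull
  have h1 : ContinuousOn (fun y => (ContinuousLinearMap.compL ℝ E4 E4 ℝ).flip (J y)) s :=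
    ((ContinuousLinearMap.compL ℝ E4 E4 ℝ).flip.continuous.comp_continuousOn hJ)
  exact h1.clm_comp (hb.clm_comp hJ)

theorem continuousOn_invp (hJ : ContinuousOn J s) (hb : ContinuousOn b s) :
    ContinuousOn (fun x => invp (J x) (b x)) s :=
  (hb.add (continuousOn_pull hJ hb)).const_smul (1 / 2 : ℝ)

theorem continuousOn_antip (hJ : ContinuousOn J s) (hb : ContinuousOn b s) :
    ContinuousOn (fun x => antip (J x) (b x)) s :=
  (hb.sub (continuousOn_pull hJ hb)).const_smul (1 / 2 : ℝ)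

theorem continuousOn_q (hF : ContinuousOn F s) (hF0 : ∀ x ∈ s, W (F x) (F x) ≠ 0)
    (hb : ContinuousOn b s) (hc : ContinuousOn c s) :
    ContinuousOn (fun x => q (F x) (b x) (c x)) s :=
  (Int.continuousOn_W hb hc).div (Int.continuousOn_W hF hF) hF0

theorem continuousOn_nsq (hJ : ContinuousOn J s) (hF : ContinuousOn F s)
    (hF0 : ∀ x ∈ s, W (F x) (F x) ≠ 0) (hb : ContinuousOn b s) :
    ContinuousOn (fun x => nsq (J x) (F x) (b x)) s := by
  have h1 := continuousOn_q hF hF0 hb hF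
  have h2 := continuousOn_q hF hF0 (continuousOn_invp hJ hb) (continuousOn_invp hJ hb)
  have h3 := continuousOn_q hF hF0 (continuousOn_antip hJ hb) (continuousOn_antip hJ hb)
  exact (((continuousOn_const.mul h1).mul h1).sub h2).add h3

end cont

theorem nsq_smul (J : E4 →L[ℝ] E4) (F : Bil) (r : ℝ) (b : Bil) :
    nsq J F (r • b) = r ^ 2 * nsq J F b := by
  unfold nsq
  rw [ip_smul_left, ip_smul_right]; ring

theorem W_ne_of_spos {J : E4 →L[ℝ] E4} {F : Bil} (hJ : ∀ v, J (J v) = -v) (hF : SPos J F) :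
    W F F ≠ 0 := by
  obtain ⟨A, hA⟩ := exists_frame hJ hF
  exact hA.W_ne hF.alt

/-- the unit sphere of alternating forms -/
def SA : Set Bil := {b | Alt b ∧ ‖b‖ = 1}

theorem isCompact_SA : IsCompact SA := by
  have : ProperSpace Bil := FiniteDimensional.proper ℝ Bil
  have h1 : IsClosed {b : Bil | Alt b} := by
    have : {b : Bil | Alt b} = ⋂ v : E4, {b : Bil | b v v = 0} := by
      ext b; simp [Alt]
    rw [this]
    refine isClosed_iInter fun v => isClosed_eq ?_ continuous_const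
    fun_prop
  have h2 : SA = {b : Bil | Alt b} ∩ sphere (0 : Bil) 1 := by
    ext b; simp [SA]
  rw [h2]
  exact (isCompact_sphere (0 : Bil) 1).inter_left h1

variable {X : Type*} [TopologicalSpace X]

/-- uniform comparison on a compact set. -/
theorem exists_cmp {K : Set X} (hK : IsCompact K) {J : X → E4 →L[ℝ] E4} {F : X → Bil}
    (hJ : ContinuousOn J K) (hF : ContinuousOn F K) (hsq : ∀ x ∈ K, ∀ v, J x (J x v) = -v)
    (hsp : ∀ x ∈ K, SPos (J x) (F x)) : ∃ B : ℝ, 1 ≤ B ∧ ∀ x ∈ K, Cmp B (J x) (F x) := by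
  have hJ' : ContinuousOn (fun w : X × Bil => J w.1) (K ×ˢ SA) :=
    hJ.comp continuousOn_fst (fun w hw => hw.1)
  have hF' : ContinuousOn (fun w : X × Bil => F w.1) (K ×ˢ SA) :=
    hF.comp continuousOn_fst (fun w hw => hw.1)
  have hn : ContinuousOn (fun w : X × Bil => nsq (J w.1) (F w.1) w.2) (K ×ˢ SA) :=
    continuousOn_nsq hJ' hF' (fun w hw => W_ne_of_spos (hsq _ hw.1) (hsp _ hw.1)) continuousOn_snd
  have hc := hK.prod isCompact_SA
  obtain ⟨c, hc0, hlow⟩ := pos_lower hc hn (fun w hw => by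
    refine nsq_pos (hsq _ hw.1) (hsp _ hw.1) hw.2.1 ?_
    intro h0
    have := hw.2.2
    rw [h0, norm_zero] at this
    exact zero_ne_one this)
  obtain ⟨C, hC⟩ := hc.exists_bound_of_continuousOn hn
  obtain ⟨BJ, hBJ⟩ := hK.exists_bound_of_continuousOn hJ
  obtain ⟨BF, hBF⟩ := hK.exists_bound_of_continuousOn hF
  have hJ2 : ContinuousOn (fun w : X × E4 => J w.1) (K ×ˢ sphere (0 : E4) 1) :=
    hJ.comp continuousOn_fst (fun w hw => hw.1)
  have hF2 : ContinuousOn (fun w : X × E4 => F w.1) (K ×ˢ sphere (0 : E4) 1) :=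
    hF.comp continuousOn_fst (fun w hw => hw.1)
  have he : ContinuousOn (fun w : X × E4 => F w.1 w.2 (J w.1 w.2)) (K ×ˢ sphere (0 : E4) 1) :=
    (hF2.clm_apply continuousOn_snd).clm_apply (hJ2.clm_apply continuousOn_snd)
  obtain ⟨d, hd0, hell⟩ := pos_lower (hK.prod (isCompact_sphere (0 : E4) 1)) he (fun w hw => by
    refine (hsp _ hw.1).pos _ ?_
    intro h0
    have := hw.2
    rw [h0] at this
    simp at this)
  set B : ℝ := 1 + |BJ| + |BF| + (√c)⁻¹ + √|C| + d⁻¹ with hB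
  have hsc : 0 < √c := Real.sqrt_pos.2 hc0
  have p1 : 0 ≤ |BJ| := abs_nonneg _
  have p2 : 0 ≤ |BF| := abs_nonneg _
  have p3 : 0 ≤ (√c)⁻¹ := by positivity
  have p4 : 0 ≤ √|C| := Real.sqrt_nonneg _
  have p5 : 0 ≤ d⁻¹ := by positivity
  refine ⟨B, by rw [hB]; linarith, fun x hx => ?_⟩
  have hB0 : 0 ≤ B := by rw [hB]; linarith
  have key : ∀ b : Bil, Alt b → c * ‖b‖ ^ 2 ≤ nsq (J x) (F x) b ∧
      nsq (J x) (F x) b ≤ |C| * ‖b‖ ^ 2 := by
    intro b hb
    rcases eq_or_ne b 0 with h0 | h0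
    · subst h0
      have h1 : nsq (J x) (F x) (0 : Bil) = 0 := by
        have := nsq_smul (J x) (F x) 0 0
        rw [bzero_smul] at this
        simpa using this
      rw [h1]
      simp
    · have hn0 : ‖b‖ ≠ 0 := norm_ne_zero_iff.2 h0
      set b1 : Bil := ‖b‖⁻¹ • b with hb1
      have hb1' : b1 ∈ SA := by
        refine ⟨hb.smul _, ?_⟩
        rw [hb1, norm_smul, norm_inv, norm_norm, inv_mul_cancel₀ hn0]
      have e : b = ‖b‖ • b1 := by
        rw [hb1, smul_smul, mul_inv_cancel₀ hn0, one_smul]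
      have e2 : nsq (J x) (F x) b = ‖b‖ ^ 2 * nsq (J x) (F x) b1 := by
        conv_lhs => rw [e]
        exact nsq_smul _ _ _ _
      have h1 := hlow (x, b1) ⟨hx, hb1'⟩
      have h2 := hC (x, b1) ⟨hx, hb1'⟩
      simp only [Real.norm_eq_abs] at h2
      have h3 := (abs_le.1 (h2.trans (le_abs_self C))).2
      rw [e2]
      constructor
      · rw [mul_comm c]
        exact mul_le_mul_of_nonneg_left h1 (by positivity)
      · rw [mul_comm |C|]
        exact mul_le_mul_of_nonneg_left h3 (by positivity)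
  refine ⟨hsq x hx, hsp x hx, ?_, ?_, ?_, ?_, ?_⟩
  · have := hBJ x hx
    have := le_abs_self BJ
    rw [hB]; linarith
  · have := hBF x hx
    have := le_abs_self BF
    rw [hB]; linarith
  · intro b hb
    have h1 := (key b hb).1
    have h2 : √c * ‖b‖ ≤ nr (J x) (F x) b := by
      unfold nr
      apply Real.le_sqrt_of_sq_le
      rw [mul_pow, Real.sq_sqrt hc0.le]
      exact h1
    have h3 : ‖b‖ ≤ (√c)⁻¹ * nr (J x) (F x) b := by
      rw [← div_eq_inv_mul, le_div_iff₀ hsc]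
      linarith
    refine h3.trans (mul_le_mul_of_nonneg_right ?_ (Real.sqrt_nonneg _))
    rw [hB]; linarith
  · intro b hb
    have h1 := (key b hb).2
    have h2 : nr (J x) (F x) b ≤ √|C| * ‖b‖ := by
      unfold nr
      rw [← Real.sqrt_sq (norm_nonneg b), ← Real.sqrt_mul (abs_nonneg C)]
      exact Real.sqrt_le_sqrt h1
    refine h2.trans (mul_le_mul_of_nonneg_right ?_ (norm_nonneg _))
    rw [hB]; linarith
  · intro v
    rcases eq_or_ne v 0 with h0 | h0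
    · subst h0
      simp
    · have hn0 : ‖v‖ ≠ 0 := norm_ne_zero_iff.2 h0
      have hv1 : ‖v‖⁻¹ • v ∈ sphere (0 : E4) 1 := by
        rw [mem_sphere_zero_iff_norm, norm_smul, norm_inv, norm_norm, inv_mul_cancel₀ hn0]
      have h1 : d ≤ F x (‖v‖⁻¹ • v) (J x (‖v‖⁻¹ • v)) := hell (x, ‖v‖⁻¹ • v) ⟨hx, hv1⟩
      have e : F x (‖v‖⁻¹ • v) (J x (‖v‖⁻¹ • v)) = ‖v‖⁻¹ ^ 2 * F x v (J x v) := by
        rw [map_smul (J x), map_smul (F x), map_smul]
        simp only [ContinuousLinearMap.smul_apply, smul_eq_mul]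
        ring
      rw [e] at h1
      have h2 : ‖v‖ ^ 2 * d ≤ F x v (J x v) := by
        have h3 := mul_le_mul_of_nonneg_left h1 (sq_nonneg ‖v‖)
        have h4 : ‖v‖ ^ 2 * (‖v‖⁻¹ ^ 2 * F x v (J x v)) = F x v (J x v) := by
          field_simp
        linarith
      have h3 : ‖v‖ ^ 2 ≤ d⁻¹ * F x v (J x v) := by
        rw [← div_eq_inv_mul, le_div_iff₀ hd0]
        exact h2
      have h4 : 0 ≤ F x v (J x v) := (by positivity : 0 ≤ ‖v‖ ^ 2 * d).trans h2
      refine h3.trans (mul_le_mul_of_nonneg_right ?_ h4)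
      rw [hB]; linarith


theorem Cmp.mono {B B' : ℝ} (hB : B ≤ B') {J : E4 →L[ℝ] E4} {F : Bil} (h : Cmp B J F) :
    Cmp B' J F where
  sq := h.sq
  spos := h.spos
  nJ := h.nJ.trans hB
  nF := h.nF.trans hB
  low b hb := (h.low b hb).trans (mul_le_mul_of_nonneg_right hB (Real.sqrt_nonneg _))
  up b hb := (h.up b hb).trans (mul_le_mul_of_nonneg_right hB (norm_nonneg _))
  ell v := by
    refine (h.ell v).trans (mul_le_mul_of_nonneg_right hB ?_)
    rcases eq_or_ne v 0 with h0 | h0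
    · subst h0; simp
    · exact (h.spos.pos v h0).le

/-! ### in a chart -/

section man

variable {M : Type*} [TopologicalSpace M] [ChartedSpace E4 M] [IsManifold 𝓘(ℝ, E4) ∞ M]
variable {p : M}

theorem rJ_sq {J : EndF E4 M} (hJ2 : ∀ x v, atJ J x (atJ J x v) = -v) {y : E4}
    (hy : y ∈ (chartAt E4 p).target) (v : E4) : repJ p J y (repJ p J y v) = -v := by
  rw [repJ_apply, repJ_apply, tcc_cancel' (symm_mem hy), hJ2, map_neg, tcc_cancel (symm_mem hy)]

theorem r_spos {J : EndF E4 M} {F : F2 E4 M} (hF : SPosG J F) {y : E4}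
    (hy : y ∈ (chartAt E4 p).target) : SPos (repJ p J y) (rep p F y) := by
  have h := hF ((chartAt E4 p).symm y)
  refine ⟨fun v => ?_, fun u v => ?_, fun v hv => ?_⟩
  · rw [rep_apply]; exact h.alt _
  · rw [rep_apply, repJ_apply, repJ_apply, tcc_cancel' (symm_mem hy), tcc_cancel' (symm_mem hy),
      h.inv, rep_apply]
  · rw [rep_apply, repJ_apply, tcc_cancel' (symm_mem hy)]
    exact h.pos _ (tcc_ne_zero hy hv)

/-- **the constant of a chart family.** -/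
theorem exists_near {J : EndF E4 M} {F : F2 E4 M} (hJ : SmoothJ J) (hF : Smooth2 F)
    (hsq : ∀ x v, atJ J x (atJ J x v) = -v) (hsp : SPosG J F)
    (G : Fam E4) (hG : G.K ⊆ (chartAt E4 p).target) {ρ : ℝ} (hρ0 : 0 ≤ ρ) (hρ : ρ < G.r) :
    ∃ B : ℝ, 1 ≤ B ∧ ∀ z ∈ closedBall (0 : E4) ρ, ∀ y ∈ G.K,
      Near B ‖z‖ (repJ p J y) (repJ p J (G.g z y)) (rep p F y) (rep p F (G.g z y)) (G.dg z y) := by
  have hJc : ContinuousOn (repJ p J) G.K := ((hJ p).continuousOn).mono hG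
  have hFc : ContinuousOn (rep p F) G.K := ((hF.2 p).continuousOn).mono hG
  obtain ⟨B₁, hB₁, h1⟩ := exists_cmp G.isCompact hJc hFc (fun y hy => rJ_sq hsq (hG hy))
    (fun y hy => r_spos hsp (hG hy))
  obtain ⟨Cg, hCg0, hCg⟩ := lip_zero (Φ := fun w : E4 × E4 => G.g w.1 w.2) hρ0 hρ isOpen_univ
    G.isCompact (subset_univ _) G.smooth
  obtain ⟨Cd, hCd0, hCd⟩ := lip_zero (Φ := fun w : E4 × E4 => G.dg w.1 w.2) hρ0 hρ isOpen_univ
    G.isCompact (subset_univ _) G.contDiffOn_dg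
  obtain ⟨LJ, hLJ0, hLJ⟩ := lip_repJ hJ p G.isCompact hG
  obtain ⟨LF, hLF0, hLF⟩ := lip_rep hF p G.isCompact hG
  set B : ℝ := B₁ + (1 + Cd * ρ) + LJ * Cg + LF * Cg + Cd with hB
  have q1 : 0 ≤ Cd * ρ := by positivity
  have q2 : 0 ≤ LJ * Cg := by positivity
  have q3 : 0 ≤ LF * Cg := by positivity
  have hB1 : B₁ ≤ B := by rw [hB]; linarith
  refine ⟨B, by linarith, fun z hz y hy => ?_⟩
  have hzρ : ‖z‖ ≤ ρ := by simpa using hz
  have hzr : z ∈ ball (0 : E4) G.r := closedBall_subset_ball hρ hz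
  have hz0 : (0 : E4) ∈ ball (0 : E4) G.r := mem_ball_self G.r_pos
  have hgy : G.g z y ∈ G.K := G.mem_K hzr hy
  have hd0 : G.dg 0 y = ContinuousLinearMap.id ℝ E4 := by
    have h2 : G.g 0 = id := funext G.g_zero
    rw [Fam.dg, h2, fderiv_id]
  have hdg : ‖G.dg z y - ContinuousLinearMap.id ℝ E4‖ ≤ Cd * ‖z‖ := by
    have := hCd z hz y hy
    simp only [hd0] at this
    exact this
  have hgg : ‖G.g z y - y‖ ≤ Cg * ‖z‖ := by
    have := hCg z hz y hy
    simp only [G.g_zero] at this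
    exact this
  refine ⟨by linarith, norm_nonneg _, (h1 y hy).mono hB1, (h1 _ hgy).mono hB1, ?_, ?_, ?_, ?_⟩
  · have e : G.dg z y = (G.dg z y - ContinuousLinearMap.id ℝ E4) + ContinuousLinearMap.id ℝ E4 := by
      abel
    rw [e]
    refine (norm_add_le _ _).trans ?_
    have h3 : ‖ContinuousLinearMap.id ℝ E4‖ ≤ 1 := ContinuousLinearMap.norm_id_le
    have h4 : Cd * ‖z‖ ≤ Cd * ρ := mul_le_mul_of_nonneg_left hzρ hCd0
    rw [hB]; linarith
  · have h3 := hLJ (G.g z y) hgy y hy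
    have h4 : LJ * ‖G.g z y - y‖ ≤ LJ * (Cg * ‖z‖) := mul_le_mul_of_nonneg_left hgg hLJ0
    have h5 : LJ * (Cg * ‖z‖) = (LJ * Cg) * ‖z‖ := by ring
    refine (h3.trans h4).trans ?_
    rw [h5]
    exact mul_le_mul_of_nonneg_right (by rw [hB]; linarith) (norm_nonneg _)
  · have h3 := hLF (G.g z y) hgy y hy
    have h4 : LF * ‖G.g z y - y‖ ≤ LF * (Cg * ‖z‖) := mul_le_mul_of_nonneg_left hgg hLF0
    have h5 : LF * (Cg * ‖z‖) = (LF * Cg) * ‖z‖ := by ring
    refine (h3.trans h4).trans ?_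
    rw [h5]
    exact mul_le_mul_of_nonneg_right (by rw [hB]; linarith) (norm_nonneg _)
  · refine hdg.trans (mul_le_mul_of_nonneg_right (by rw [hB]; linarith) (norm_nonneg _))

end man

end

end Crest.Agent.R240.Q4
end

-- ▼ part R240/SmComp
section

/-!
Row 240 (S0371), N8 (smoothing), COMPOSITION LAYER (helper822): the pointwise fields
`bd, pos, leak1, leak2, low` of `SmPack` are stable under composition of operators.

* `AvgF a`: the averaging operators on functions (fields `a_smooth, a_nonneg, a_one, a_add, a_smul`);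
* `Good D e C A a`: fields `bd, pos, leak1, leak2` with constant `C` at the scale `e`;
* `Low D e C A a`: field `low`.

`AvgF.comp`, `Good.comp`, `Low.comp`, the identity, and the versions for lists.
-/

set_option autoImplicit false
set_option maxSynthPendingDepth 3

open Set Function Filter MeasureTheory
open scoped Manifold ContDiff Topology ENNReal

namespace Crest.Agent.R240.Comp

open Crest.Agent.R240 Crest.Agent.R240.Ch Crest.Agent.R240.En4

noncomputable section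

/-! ### functions -/

section Fun

variable {M : Type*} [TopologicalSpace M] [ChartedSpace E4 M]

/-- the function part of the smoothing package. -/
structure AvgF (a : (M → ℝ) → M → ℝ) : Prop where
  smooth : ∀ f, SmoothF E4 f → SmoothF E4 (a f)
  nonneg : ∀ f, SmoothF E4 f → (∀ x, 0 ≤ f x) → ∀ x, 0 ≤ a f x
  one : ∀ x, a (fun _ => 1) x = 1
  add : ∀ f g, SmoothF E4 f → SmoothF E4 g → ∀ x, a (fun y => f y + g y) x = a f x + a g x
  smul : ∀ (r : ℝ) f, SmoothF E4 f → ∀ x, a (fun y => r * f y) x = r * a f x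

theorem AvgF.id : AvgF (M := M) (fun f => f) where
  smooth _ h := h
  nonneg _ _ h := h
  one _ := rfl
  add _ _ _ _ _ := rfl
  smul _ _ _ _ := rfl

theorem AvgF.mono {a : (M → ℝ) → M → ℝ} (ha : AvgF a) {f g : M → ℝ} (hf : SmoothF E4 f)
    (hg : SmoothF E4 g) (h : ∀ x, f x ≤ g x) (x : M) : a f x ≤ a g x := by
  have h1 : SmoothF E4 (fun y => g y - f y) := sF_sub hg hf
  have h2 := ha.nonneg _ h1 (fun y => sub_nonneg.2 (h y)) x
  have h3 := ha.add f (fun y => g y - f y) hf h1 x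
  have h4 : (fun y => f y + (g y - f y)) = g := by funext y; ring
  rw [h4] at h3
  linarith

theorem AvgF.comp {a₁ a₂ : (M → ℝ) → M → ℝ} (h₂ : AvgF a₂) (h₁ : AvgF a₁) :
    AvgF (fun f => a₂ (a₁ f)) where
  smooth f hf := h₂.smooth _ (h₁.smooth f hf)
  nonneg f hf h0 := h₂.nonneg _ (h₁.smooth f hf) (h₁.nonneg f hf h0)
  one x := by
    have h : a₁ (fun _ => 1) = fun _ => 1 := funext h₁.one
    show a₂ (a₁ (fun _ => 1)) x = 1
    rw [h, h₂.one]
  add f g hf hg x := by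
    have h : a₁ (fun y => f y + g y) = fun y => a₁ f y + a₁ g y := funext (h₁.add f g hf hg)
    show a₂ (a₁ (fun y => f y + g y)) x = _
    rw [h, h₂.add _ _ (h₁.smooth f hf) (h₁.smooth g hg)]
  smul r f hf x := by
    have h : a₁ (fun y => r * f y) = fun y => r * a₁ f y := funext (h₁.smul r f hf)
    show a₂ (a₁ (fun y => r * f y)) x = _
    rw [h, h₂.smul r _ (h₁.smooth f hf)]

end Fun

variable {M : Type*} [MetricSpace M] [CompactSpace M] [ChartedSpace E4 M]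
    [IsManifold 𝓘(ℝ, E4) ∞ M] [MeasurableSpace M] [BorelSpace M]

/-! ### forms -/

/-- the fields `bd, pos, leak1, leak2` with constant `C`, scale `e`. -/
structure Good (D : Dat M) (e C : ℝ) (A : X2 M →ₗ[ℝ] X2 M) (a : (M → ℝ) → M → ℝ) : Prop where
  bd : ∀ (b : X2 M) (h : M → ℝ), SmoothF E4 h →
    (∀ x, D.nr (b : F2 E4 M) x ≤ h x) → ∀ x, D.nr (A b : F2 E4 M) x ≤ C * a h x
  pos : ∀ P ∈ D.Pp, ∀ h : M → ℝ, SmoothF E4 h → (∀ x, D.nr (P : F2 E4 M) x ≤ h x) →
    GeF D.J D.F (A P : F2 E4 M) (fun x => - (C * e ^ 2 * a h x))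
  leak1 : ∀ (b : X2 M) (h : M → ℝ), SmoothF E4 h → (∀ x, D.nr (b : F2 E4 M) x ≤ h x) →
    ∀ x, D.nr (D.pi'' (A (D.pi' b)) : F2 E4 M) x ≤ C * e * a h x
  leak2 : ∀ (b : X2 M) (h : M → ℝ), SmoothF E4 h → (∀ x, D.nr (b : F2 E4 M) x ≤ h x) →
    ∀ x, D.nr (D.pi' (A (D.pi'' b)) : F2 E4 M) x ≤ C * e * a h x

/-- the field `low` with constant `C`, scale `e`. -/
def Low (D : Dat M) (e C : ℝ) (A : X2 M →ₗ[ℝ] X2 M) (a : (M → ℝ) → M → ℝ) : Prop :=
  ∀ f : M → ℝ, SmoothF E4 f → (∀ x, 0 ≤ f x) → ∀ b : X2 M, (b : F2 E4 M) = fmul f D.F →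
    GeF D.J D.F (A b : F2 E4 M) (fun x => (1 - C * e) * a f x)

/-! ### pointwise lemmas -/

section Pt

theorem pneg_nr_le {J : E4 →L[ℝ] E4} {F b : Bil} (hJ : ∀ v, J (J v) = -v) (hF : SPos J F)
    (hb : Alt b) (v : E4) : - (2 * R240.nr J F b) * F v (J v) ≤ b v (J v) := by
  have hn0 : 0 ≤ nsq J F b := En4.nsq_nonneg hJ hF hb
  have hnr : R240.nr J F b ^ 2 = nsq J F b := Real.sq_sqrt hn0
  have hnr0 : 0 ≤ R240.nr J F b := Real.sqrt_nonneg _
  set n := R240.nr J F b with hn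
  have ha : q F (invp J b) F = q F b F := En4.q_F_invp hJ hF hb
  have hcs : q F b F ^ 2 ≤ n ^ 2 := by
    have := En4.q_cs hJ hF hb hF.alt
    rw [En4.nsq_F hJ hF, mul_one] at this
    rw [hnr]; exact this
  have habs : |q F b F| ≤ n := abs_le_of_sq_le_sq hcs hnr0
  have hsplit : nsq J F b = nsq J F (invp J b) + nsq J F (antip J b) := En4.nsq_split hJ hF hb
  have hanti0 : 0 ≤ nsq J F (antip J b) := En4.nsq_nonneg hJ hF (Alt.antip hb J)
  have hprim : nsq J F (prim J F b) ≤ (q F b F + 2 * n) ^ 2 := by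
    have h1 : nsq J F (prim J F b) = nsq J F (invp J b) - q F b F ^ 2 := by
      rw [nsq_prim hJ hF hb]
      have h2 : prim J F b = invp J b - (q F b F) • F := rfl
      rw [h2, q_sub_left, q_sub_right, q_sub_right, q_smul_left, q_smul_left, q_smul_right,
        q_smul_right, En4.q_F_F hJ hF, q_comm F F (invp J b), ha,
        En4.nsq_inv hJ hF (invp_inv hJ b), ha]
      ring
    have h3 := (abs_le.1 habs).1
    nlinarith [sq_nonneg (q F b F), sq_nonneg (q F b F + n)]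
  have h := pos_of_prim hJ hF hb (g := 2 * n) (by linarith [(abs_le.1 habs).1]) hprim v
  linarith

end Pt

variable {D : Dat M}

theorem nr_add_le (b c : X2 M) (x : M) :
    D.nr ((b + c : X2 M) : F2 E4 M) x ≤ D.nr (b : F2 E4 M) x + D.nr (c : F2 E4 M) x := by
  have hJ := D.sq x
  have hF := spos D x
  have hb := alt2 b x
  have hc := alt2 c x
  have hb0 : 0 ≤ nsq (atJ D.J x) (at2 D.F x) (at2 b.1 x) := En4.nsq_nonneg hJ hF hb
  have hc0 : 0 ≤ nsq (atJ D.J x) (at2 D.F x) (at2 c.1 x) := En4.nsq_nonneg hJ hF hc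
  have h1 : D.nr (b : F2 E4 M) x ^ 2 = nsq (atJ D.J x) (at2 D.F x) (at2 b.1 x) := Real.sq_sqrt hb0
  have h2 : D.nr (c : F2 E4 M) x ^ 2 = nsq (atJ D.J x) (at2 D.F x) (at2 c.1 x) := Real.sq_sqrt hc0
  have hbn : 0 ≤ D.nr (b : F2 E4 M) x := Real.sqrt_nonneg _
  have hcn : 0 ≤ D.nr (c : F2 E4 M) x := Real.sqrt_nonneg _
  have h3 := En4.ip_cs hJ hF hb hc
  rw [← h1, ← h2] at h3
  have h4 : ip (atJ D.J x) (at2 D.F x) (at2 b.1 x) (at2 c.1 x) ≤
      D.nr (b : F2 E4 M) x * D.nr (c : F2 E4 M) x := by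
    refine le_trans (le_abs_self _) (abs_le_of_sq_le_sq ?_ (mul_nonneg hbn hcn))
    rw [mul_pow]; exact h3
  refine Real.sqrt_le_iff.2 ⟨add_nonneg hbn hcn, ?_⟩
  have h5 : nsqG D.J D.F ((b + c : X2 M) : F2 E4 M) x =
      nsq (atJ D.J x) (at2 D.F x) (at2 b.1 x) +
      2 * ip (atJ D.J x) (at2 D.F x) (at2 b.1 x) (at2 c.1 x) +
      nsq (atJ D.J x) (at2 D.F x) (at2 c.1 x) := by
    have e : nsqG D.J D.F ((b + c : X2 M) : F2 E4 M) x =
      ip (atJ D.J x) (at2 D.F x) (at2 b.1 x + at2 c.1 x) (at2 b.1 x + at2 c.1 x) := rfl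
    rw [e, En4.ip_add_left, En4.ip_add_right, En4.ip_add_right,
      En4.ip_comm _ _ (at2 c.1 x) (at2 b.1 x)]
    unfold nsq
    ring
  have h6 : nsq (atJ D.J x) (at2 D.F x) (at2 ((b + c : X2 M) : F2 E4 M) x) =
    nsqG D.J D.F ((b + c : X2 M) : F2 E4 M) x := rfl
  rw [h6, h5, ← h1, ← h2]
  nlinarith

theorem nr_smul (r : ℝ) (b : X2 M) (x : M) :
    D.nr ((r • b : X2 M) : F2 E4 M) x = |r| * D.nr (b : F2 E4 M) x := by
  have e : nsqG D.J D.F ((r • b : X2 M) : F2 E4 M) x =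
      r ^ 2 * nsqG D.J D.F (b : F2 E4 M) x := by
    have e : nsqG D.J D.F ((r • b : X2 M) : F2 E4 M) x =
      ip (atJ D.J x) (at2 D.F x) (r • at2 b.1 x) (r • at2 b.1 x) := rfl
    rw [e, En4.ip_smul_left, En4.ip_smul_right]
    have e2 : nsqG D.J D.F b.1 x = ip (atJ D.J x) (at2 D.F x) (at2 b.1 x) (at2 b.1 x) := rfl
    rw [e2]; ring
  have e3 : D.nr ((r • b : X2 M) : F2 E4 M) x = √(nsqG D.J D.F ((r • b : X2 M) : F2 E4 M) x) := rfl
  have e4 : D.nr b.1 x = √(nsqG D.J D.F b.1 x) := rfl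
  rw [e3, e4, e, Real.sqrt_mul (sq_nonneg _), Real.sqrt_sq_eq_abs]

theorem nr_zero (x : M) : D.nr ((0 : X2 M) : F2 E4 M) x = 0 := by
  have h := nr_smul (D := D) (0 : ℝ) (0 : X2 M) x
  rw [zero_smul, abs_zero, zero_mul] at h
  exact h

theorem nr_neg (b : X2 M) (x : M) : D.nr ((-b : X2 M) : F2 E4 M) x = D.nr (b : F2 E4 M) x := by
  have h := nr_smul (D := D) (-1 : ℝ) b x
  rw [neg_one_smul, abs_neg, abs_one, one_mul] at h
  exact h

theorem nr_sub_le (b c : X2 M) (x : M) :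
    D.nr ((b - c : X2 M) : F2 E4 M) x ≤ D.nr (b : F2 E4 M) x + D.nr (c : F2 E4 M) x := by
  rw [sub_eq_add_neg, ← nr_neg c]
  exact nr_add_le b (-c) x

theorem nr_pi'_le (b : X2 M) (x : M) : D.nr (D.pi' b : F2 E4 M) x ≤ D.nr (b : F2 E4 M) x := by
  refine Real.sqrt_le_sqrt ?_
  have h1 := En4.nsq_split (D.sq x) (spos D x) (alt2 b x)
  have h2 := En4.nsq_nonneg (D.sq x) (spos D x) (alt2 (D.pi'' b) x)
  have h3 : nsq (atJ D.J x) (at2 D.F x) (at2 (D.pi'' b).1 x) =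
    nsq (atJ D.J x) (at2 D.F x) (antip (atJ D.J x) (at2 b.1 x)) := rfl
  have h4 : nsq (atJ D.J x) (at2 D.F x) (at2 (D.pi' b).1 x) =
    nsq (atJ D.J x) (at2 D.F x) (invp (atJ D.J x) (at2 b.1 x)) := rfl
  linarith

theorem nr_pi''_le (b : X2 M) (x : M) : D.nr (D.pi'' b : F2 E4 M) x ≤ D.nr (b : F2 E4 M) x := by
  refine Real.sqrt_le_sqrt ?_
  have h1 := En4.nsq_split (D.sq x) (spos D x) (alt2 b x)
  have h2 := En4.nsq_nonneg (D.sq x) (spos D x) (alt2 (D.pi' b) x)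
  have h3 : nsq (atJ D.J x) (at2 D.F x) (at2 (D.pi'' b).1 x) =
    nsq (atJ D.J x) (at2 D.F x) (antip (atJ D.J x) (at2 b.1 x)) := rfl
  have h4 : nsq (atJ D.J x) (at2 D.F x) (at2 (D.pi' b).1 x) =
    nsq (atJ D.J x) (at2 D.F x) (invp (atJ D.J x) (at2 b.1 x)) := rfl
  linarith

theorem nrFX (x : M) : D.nr (D.FX : F2 E4 M) x = 1 := by
  have h : D.nr (D.FX : F2 E4 M) x = √(nsq (atJ D.J x) (at2 D.F x) (at2 D.F x)) := rfl
  rw [h, En4.nsq_F (D.sq x) (spos D x), Real.sqrt_one]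

theorem F_nonneg (D : Dat M) (x : M) (v : E4) : 0 ≤ at2 D.F x v (atJ D.J x v) := by
  have h := (FX_mem_Pp D x).nonneg v
  exact h

theorem geF_add {b c : X2 M} {h k : M → ℝ} (hb : GeF D.J D.F (b : F2 E4 M) h)
    (hc : GeF D.J D.F (c : F2 E4 M) k) :
    GeF D.J D.F ((b + c : X2 M) : F2 E4 M) (fun x => h x + k x) := by
  intro x v
  have h1 := hb x v
  have h2 := hc x v
  have h3 : at2 ((b + c : X2 M) : F2 E4 M) x v (atJ D.J x v) =
    at2 b.1 x v (atJ D.J x v) + at2 c.1 x v (atJ D.J x v) := rfl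
  rw [h3]; linarith

theorem geF_smul {b : X2 M} {h : M → ℝ} {r : ℝ} (hr : 0 ≤ r)
    (hb : GeF D.J D.F (b : F2 E4 M) h) :
    GeF D.J D.F ((r • b : X2 M) : F2 E4 M) (fun x => r * h x) := by
  intro x v
  have h1 := hb x v
  have h3 : at2 ((r • b : X2 M) : F2 E4 M) x v (atJ D.J x v) =
    r * at2 b.1 x v (atJ D.J x v) := rfl
  rw [h3]
  calc r * h x * at2 D.F x v (atJ D.J x v) = r * (h x * at2 D.F x v (atJ D.J x v)) := by ring
    _ ≤ _ := mul_le_mul_of_nonneg_left h1 hr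

theorem geF_mono {b : X2 M} {h k : M → ℝ} (hb : GeF D.J D.F (b : F2 E4 M) h)
    (hk : ∀ x, k x ≤ h x) : GeF D.J D.F (b : F2 E4 M) k := by
  intro x v
  exact (mul_le_mul_of_nonneg_right (hk x) (F_nonneg D x v)).trans (hb x v)

theorem geF_of_nr {b : X2 M} {u : M → ℝ} (hu : ∀ x, D.nr (b : F2 E4 M) x ≤ u x) :
    GeF D.J D.F (b : F2 E4 M) (fun x => - (2 * u x)) := by
  intro x v
  have h1 := pneg_nr_le (D.sq x) (spos D x) (alt2 b x) v
  have h2 := mul_le_mul_of_nonneg_right (hu x) (F_nonneg D x v)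
  have h3 : D.nr (b : F2 E4 M) x = R240.nr (atJ D.J x) (at2 D.F x) (at2 b.1 x) := rfl
  rw [h3] at h2
  have h4 : - (2 * u x) * at2 D.F x v (atJ D.J x v) ≤
      - (2 * R240.nr (atJ D.J x) (at2 D.F x) (at2 b.1 x)) * at2 D.F x v (atJ D.J x v) := by
    nlinarith
  exact h4.trans h1

/-- only the invariant part matters. -/
theorem geF_pi' {b : X2 M} {h : M → ℝ} :
    GeF D.J D.F (D.pi' b : F2 E4 M) h ↔ GeF D.J D.F (b : F2 E4 M) h := by
  have h3 : ∀ x v, at2 (D.pi' b).1 x v (atJ D.J x v) = at2 b.1 x v (atJ D.J x v) :=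
    fun x v => invp_diag (D.sq x) (alt2 b x) v
  constructor
  · intro hb x v
    have := hb x v
    rw [h3] at this
    exact this
  · intro hb x v
    rw [h3]
    exact hb x v

/-- `X ≥ -g F` gives `X' + g F ≥ 0`. -/
theorem mem_Pp_of_geF {X : X2 M} {g : M → ℝ} (hg : SmoothF E4 g)
    (h : GeF D.J D.F (X : F2 E4 M) (fun x => - g x)) : D.pi' X + fX g hg D.FX ∈ D.Pp := by
  refine mem_Pp D (fun x u v => ?_) (fun x v => ?_)
  · have h1 : ∀ a b, at2 (D.pi' X + fX g hg D.FX).1 x a b =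
      invp (atJ D.J x) (at2 X.1 x) a b + g x * at2 D.F x a b := fun a b => rfl
    rw [h1, h1, invp_inv (D.sq x), (spos D x).inv]
  · have h1 : at2 (D.pi' X + fX g hg D.FX).1 x v (atJ D.J x v) =
      invp (atJ D.J x) (at2 X.1 x) v (atJ D.J x v) + g x * at2 D.F x v (atJ D.J x v) := rfl
    rw [h1, invp_diag (D.sq x) (alt2 X x)]
    have := h x v
    linarith


theorem pi'_fX (f : M → ℝ) (hf : SmoothF E4 f) : D.pi' (fX f hf D.FX) = fX f hf D.FX := by
  apply ext_at2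
  intro x
  apply invp_of_inv
  intro u v
  have h : ∀ a b, at2 (fX f hf D.FX).1 x a b = f x * at2 D.F x a b := fun a b => rfl
  rw [h, h, (spos D x).inv]

theorem pi''_fX (f : M → ℝ) (hf : SmoothF E4 f) : D.pi'' (fX f hf D.FX) = 0 := by
  rw [← pi'_fX f hf, pi''_pi']

theorem nr_fX_FX {f : M → ℝ} (hf : SmoothF E4 f) (h0 : ∀ x, 0 ≤ f x) (x : M) :
    D.nr (fX f hf D.FX).1 x = f x := by
  rw [nr_fX D hf h0, nrFX, mul_one]

/-! ### the core estimate -/

variable {e C : ℝ} {A : X2 M →ₗ[ℝ] X2 M} {a : (M → ℝ) → M → ℝ}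

theorem Good.mono (h : Good D e C A a) (ha : AvgF a) {C' : ℝ} (he : 0 ≤ e) (hC : C ≤ C') :
    Good D e C' A a := by
  have h0 : ∀ (b : X2 M) (k : M → ℝ), SmoothF E4 k → (∀ x, D.nr (b : F2 E4 M) x ≤ k x) →
      ∀ x, 0 ≤ a k x := fun b k hk hb x =>
    ha.nonneg k hk (fun y => (nr_nonneg D b.1 y).trans (hb y)) x
  refine ⟨fun b k hk hb x => ?_, fun P hP k hk hb => ?_, fun b k hk hb x => ?_,
    fun b k hk hb x => ?_⟩
  · exact (h.bd b k hk hb x).trans (mul_le_mul_of_nonneg_right hC (h0 b k hk hb x))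
  · refine geF_mono (h.pos P hP k hk hb) (fun x => ?_)
    have h1 := h0 P k hk hb x
    have h2 : C * e ^ 2 * a k x ≤ C' * e ^ 2 * a k x := by gcongr
    linarith
  · exact (h.leak1 b k hk hb x).trans (by have := h0 b k hk hb x; gcongr)
  · exact (h.leak2 b k hk hb x).trans (by have := h0 b k hk hb x; gcongr)

theorem Low.mono (h : Low D e C A a) (ha : AvgF a) {C' : ℝ} (he : 0 ≤ e) (hC : C ≤ C') :
    Low D e C' A a := by
  intro f hf hf0 b hb
  refine geF_mono (h f hf hf0 b hb) (fun x => ?_)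
  have h1 := ha.nonneg f hf hf0 x
  have h2 : 1 - C' * e ≤ 1 - C * e := by nlinarith
  exact mul_le_mul_of_nonneg_right h2 h1

/-- the core estimate: `X ≥ -gF`, `|X| ≤ u`, `|X''| ≤ k`. -/
theorem Good.core (h : Good D e C A a) (ha : AvgF a) {X : X2 M} {u g k : M → ℝ}
    (hu : SmoothF E4 u) (hg : SmoothF E4 g) (hk : SmoothF E4 k) (hg0 : ∀ x, 0 ≤ g x)
    (hXu : ∀ x, D.nr (X : F2 E4 M) x ≤ u x)
    (hX : GeF D.J D.F (X : F2 E4 M) (fun x => - g x))
    (hXk : ∀ x, D.nr (D.pi'' X : F2 E4 M) x ≤ k x) :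
    GeF D.J D.F (A X : F2 E4 M) (fun x => - (C * e ^ 2 * (a u x + a g x) + 2 * C * a g x +
      2 * (C * e * a k x))) := by
  set Q : X2 M := D.pi' X + fX g hg D.FX with hQ
  have hQP : Q ∈ D.Pp := mem_Pp_of_geF hg hX
  have hsum : A X = A Q + (- A (fX g hg D.FX) + A (D.pi'' X)) := by
    have h1 : X = Q + (- fX g hg D.FX + D.pi'' X) := by
      conv_lhs => rw [← pi_add D X]
      rw [hQ]; abel
    conv_lhs => rw [h1]
    rw [map_add A Q, map_add A (- fX g hg D.FX), map_neg]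
  have hug : SmoothF E4 (fun y => u y + g y) := sF_add hu hg
  have hQn : ∀ x, D.nr (Q : F2 E4 M) x ≤ u x + g x := by
    intro x
    refine (nr_add_le _ _ x).trans ?_
    rw [nr_fX_FX hg hg0]
    exact add_le_add ((nr_pi'_le X x).trans (hXu x)) le_rfl
  have e1 : GeF D.J D.F (A Q : F2 E4 M) (fun x => - (C * e ^ 2 * (a u x + a g x))) := by
    refine geF_mono (h.pos Q hQP _ hug hQn) (fun x => ?_)
    rw [ha.add u g hu hg]
  have e2 : GeF D.J D.F ((- A (fX g hg D.FX) : X2 M) : F2 E4 M) (fun x => - (2 * (C * a g x))) := by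
    refine geF_of_nr (fun x => ?_)
    rw [nr_neg]
    exact h.bd _ g hg (fun y => (nr_fX_FX hg hg0 y).le) x
  have e3 : GeF D.J D.F (A (D.pi'' X) : F2 E4 M) (fun x => - (2 * (C * e * a k x))) := by
    rw [← geF_pi']
    refine geF_of_nr (fun x => ?_)
    have h1 := h.leak2 (D.pi'' X) k hk hXk x
    rw [pi''_pi''] at h1
    exact h1
  rw [hsum]
  refine geF_mono (geF_add e1 (geF_add e2 e3)) (fun x => ?_)
  have : -(C * e ^ 2 * (a u x + a g x)) + (-(2 * (C * a g x)) + -(2 * (C * e * a k x))) =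
    -(C * e ^ 2 * (a u x + a g x) + 2 * C * a g x + 2 * (C * e * a k x)) := by ring
  rw [this]

/-! ### composition -/

variable {C₁ C₂ : ℝ} {A₁ A₂ : X2 M →ₗ[ℝ] X2 M} {a₁ a₂ : (M → ℝ) → M → ℝ}

theorem Good.comp (h₂ : Good D e C₂ A₂ a₂) (h₁ : Good D e C₁ A₁ a₁) (ha₂ : AvgF a₂)
    (ha₁ : AvgF a₁) (he : 0 ≤ e) (he1 : e ≤ 1) (hC₁ : 0 ≤ C₁) (hC₂ : 0 ≤ C₂) :
    Good D e (6 * C₁ * C₂) (A₂ ∘ₗ A₁) (fun f => a₂ (a₁ f)) := by
  have key : ∀ (b : X2 M) (h : M → ℝ), SmoothF E4 h → (∀ x, D.nr (b : F2 E4 M) x ≤ h x) →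
      SmoothF E4 (a₁ h) ∧ (∀ x, 0 ≤ a₁ h x) ∧ ∀ x, 0 ≤ a₂ (a₁ h) x := by
    intro b h hh hb
    have h0 : ∀ x, 0 ≤ h x := fun x => (nr_nonneg D b.1 x).trans (hb x)
    have h1 := ha₁.smooth h hh
    have h2 := ha₁.nonneg h hh h0
    exact ⟨h1, h2, ha₂.nonneg _ h1 h2⟩
  have hsm : ∀ (c : ℝ) (h : M → ℝ), SmoothF E4 h → SmoothF E4 (fun y => c * h y) :=
    fun c h hh => sF_const_mul c hh
  refine ⟨fun b h hh hb x => ?_, fun P hP h hh hb => ?_, fun b h hh hb x => ?_,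
    fun b h hh hb x => ?_⟩
  · -- bd
    obtain ⟨k1, k2, k3⟩ := key b h hh hb
    have h1 := h₁.bd b h hh hb
    have h2 := h₂.bd (A₁ b) _ (hsm C₁ _ k1) h1 x
    rw [ha₂.smul C₁ _ k1] at h2
    refine le_trans h2 ?_
    have := k3 x
    have h5 : 0 ≤ C₂ * (C₁ * a₂ (a₁ h) x) := by positivity
    nlinarith
  · -- pos
    obtain ⟨k1, k2, k3⟩ := key P h hh hb
    have hu := h₁.bd P h hh hb
    have hg := h₁.pos P hP h hh hb
    have hPinv : D.pi' P = P := by
      apply ext_at2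
      intro x
      exact invp_of_inv (hP x).inv
    have hk := h₁.leak1 P h hh hb
    rw [hPinv] at hk
    have hcore := h₂.core ha₂ (X := A₁ P) (hsm C₁ _ k1) (hsm (C₁ * e ^ 2) _ k1)
      (hsm (C₁ * e) _ k1) (fun x => by have := k2 x; positivity) hu hg hk
    refine geF_mono hcore (fun x => ?_)
    rw [ha₂.smul C₁ _ k1, ha₂.smul (C₁ * e ^ 2) _ k1, ha₂.smul (C₁ * e) _ k1]
    have h3 := k3 x
    have h4 : e ^ 2 ≤ 1 := pow_le_one₀ he he1
    have h5 : 0 ≤ C₂ * e ^ 2 * (C₁ * a₂ (a₁ h) x) := by positivity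
    have h6 : C₂ * e ^ 2 * (C₁ * a₂ (a₁ h) x) * e ^ 2 ≤ C₂ * e ^ 2 * (C₁ * a₂ (a₁ h) x) * 1 :=
      mul_le_mul_of_nonneg_left h4 h5
    nlinarith
  · -- leak1
    obtain ⟨k1, k2, k3⟩ := key b h hh hb
    have hb' : ∀ y, D.nr (D.pi' b : F2 E4 M) y ≤ h y := fun y => (nr_pi'_le b y).trans (hb y)
    set X := A₁ (D.pi' b) with hX
    have hXu := h₁.bd (D.pi' b) h hh hb'
    have hXk := h₁.leak1 b h hh hb
    have hsplit : D.pi'' (A₂ X) = D.pi'' (A₂ (D.pi' X)) + D.pi'' (A₂ (D.pi'' X)) := by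
      rw [← map_add, ← map_add, pi_add]
    have h1 := h₂.leak1 X _ (hsm C₁ _ k1) hXu x
    have h2 := (nr_pi''_le (A₂ (D.pi'' X)) x).trans
      (h₂.bd (D.pi'' X) _ (hsm (C₁ * e) _ k1) hXk x)
    rw [ha₂.smul _ _ k1] at h1 h2
    have h3 : D.nr (D.pi'' (A₂ X) : F2 E4 M) x ≤
        C₂ * e * (C₁ * a₂ (a₁ h) x) + C₂ * (C₁ * e * a₂ (a₁ h) x) := by
      rw [hsplit]
      exact (nr_add_le _ _ x).trans (add_le_add h1 h2)
    refine h3.trans ?_
    have := k3 x
    have h5 : 0 ≤ C₂ * e * (C₁ * a₂ (a₁ h) x) := by positivity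
    nlinarith
  · -- leak2
    obtain ⟨k1, k2, k3⟩ := key b h hh hb
    have hb' : ∀ y, D.nr (D.pi'' b : F2 E4 M) y ≤ h y := fun y => (nr_pi''_le b y).trans (hb y)
    set X := A₁ (D.pi'' b) with hX
    have hXu := h₁.bd (D.pi'' b) h hh hb'
    have hXk := h₁.leak2 b h hh hb
    have hsplit : D.pi' (A₂ X) = D.pi' (A₂ (D.pi'' X)) + D.pi' (A₂ (D.pi' X)) := by
      rw [← map_add, ← map_add, add_comm, pi_add]
    have h1 := h₂.leak2 X _ (hsm C₁ _ k1) hXu x
    have h2 := (nr_pi'_le (A₂ (D.pi' X)) x).trans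
      (h₂.bd (D.pi' X) _ (hsm (C₁ * e) _ k1) hXk x)
    rw [ha₂.smul _ _ k1] at h1 h2
    have h3 : D.nr (D.pi' (A₂ X) : F2 E4 M) x ≤
        C₂ * e * (C₁ * a₂ (a₁ h) x) + C₂ * (C₁ * e * a₂ (a₁ h) x) := by
      rw [hsplit]
      exact (nr_add_le _ _ x).trans (add_le_add h1 h2)
    refine h3.trans ?_
    have := k3 x
    have h5 : 0 ≤ C₂ * e * (C₁ * a₂ (a₁ h) x) := by positivity
    nlinarith

/-- the main term in the composition of `low`. -/
theorem low_main (l₂ : Low D e C₂ A₂ a₂) (h₂ : Good D e C₂ A₂ a₂) (ha₂ : AvgF a₂) (he : 0 ≤ e)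
    (hC₁ : 0 ≤ C₁) (hC₂ : 0 ≤ C₂) {g : M → ℝ} (hg : SmoothF E4 g) (hg0 : ∀ x, 0 ≤ g x) :
    GeF D.J D.F (((1 - C₁ * e) • A₂ (fX g hg D.FX) : X2 M) : F2 E4 M)
      (fun x => (1 - (C₁ + C₂ + 2 * C₁ * C₂) * e) * a₂ g x) := by
  have k3 := ha₂.nonneg _ hg hg0
  have h7 : 0 ≤ C₁ * C₂ * e ^ 2 := by positivity
  have h6 : 0 ≤ C₁ * C₂ * e := by positivity
  have h5 : 0 ≤ C₂ * e := by positivity
  rcases le_total 0 (1 - C₁ * e) with h0 | h0
  · refine geF_mono (geF_smul h0 (l₂ g hg hg0 _ rfl)) (fun x => ?_)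
    have h4 : (1 - (C₁ + C₂ + 2 * C₁ * C₂) * e) ≤ (1 - C₁ * e) * (1 - C₂ * e) := by
      nlinarith
    calc (1 - (C₁ + C₂ + 2 * C₁ * C₂) * e) * a₂ g x ≤
        (1 - C₁ * e) * (1 - C₂ * e) * a₂ g x := mul_le_mul_of_nonneg_right h4 (k3 x)
      _ = _ := by ring
  · have h1 : ∀ x, D.nr (((1 - C₁ * e) • A₂ (fX g hg D.FX) : X2 M) : F2 E4 M) x ≤
        C₁ * e * (C₂ * a₂ g x) := by
      intro x
      rw [nr_smul]
      have h2 : |1 - C₁ * e| ≤ C₁ * e := by
        rw [abs_of_nonpos h0]; linarith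
      exact mul_le_mul h2 (h₂.bd _ g hg (fun y => (nr_fX_FX hg hg0 y).le) x)
        (nr_nonneg D _ x) (by positivity)
    refine geF_mono (geF_of_nr h1) (fun x => ?_)
    have h4 : 1 ≤ C₁ * e := by linarith
    have h8 : (1 - (C₁ + C₂ + 2 * C₁ * C₂) * e) ≤ - (2 * (C₁ * e * C₂)) := by nlinarith
    calc (1 - (C₁ + C₂ + 2 * C₁ * C₂) * e) * a₂ g x ≤
        - (2 * (C₁ * e * C₂)) * a₂ g x := mul_le_mul_of_nonneg_right h8 (k3 x)
      _ = _ := by ring

/-- the numerical inequality in the composition of `low`. -/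
theorem low_num (he : 0 ≤ e) (he1 : e ≤ 1) (hC₁ : 1 ≤ C₁) (hC₂ : 1 ≤ C₂) {y : ℝ} (hy : 0 ≤ y) :
    (1 - 10 * C₁ * C₂ * e) * y ≤
      -(C₂ * e ^ 2 * ((2 * C₁ + 1) * y + 0) + 2 * C₂ * 0 + 2 * (C₂ * e * (C₁ * e * y))) +
        (1 - (C₁ + C₂ + 2 * C₁ * C₂) * e) * y := by
  have hC₁0 : 0 ≤ C₁ := zero_le_one.trans hC₁
  have hC₂0 : 0 ≤ C₂ := zero_le_one.trans hC₂
  have h4 : e ^ 2 ≤ e := by nlinarith
  have h4' : e ^ 2 * y ≤ e * y := mul_le_mul_of_nonneg_right h4 hy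
  have hey : 0 ≤ e * y := by positivity
  have h5 : C₁ * C₂ * (e ^ 2 * y) ≤ C₁ * C₂ * (e * y) :=
    mul_le_mul_of_nonneg_left h4' (by positivity)
  have h6 : C₂ * (e ^ 2 * y) ≤ C₂ * (e * y) := mul_le_mul_of_nonneg_left h4' (by positivity)
  have h7 : C₁ ≤ C₁ * C₂ := le_mul_of_one_le_right hC₁0 hC₂
  have h8 : C₂ ≤ C₁ * C₂ := le_mul_of_one_le_left hC₂0 hC₁
  have h9 : C₁ * (e * y) ≤ C₁ * C₂ * (e * y) := mul_le_mul_of_nonneg_right h7 hey
  have h10 : C₂ * (e * y) ≤ C₁ * C₂ * (e * y) := mul_le_mul_of_nonneg_right h8 hey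
  have h11 : 0 ≤ C₁ * C₂ * (e * y) := by positivity
  have e1 : (1 - 10 * C₁ * C₂ * e) * y = y - 10 * (C₁ * C₂ * (e * y)) := by ring
  have e2 : -(C₂ * e ^ 2 * ((2 * C₁ + 1) * y + 0) + 2 * C₂ * 0 + 2 * (C₂ * e * (C₁ * e * y))) +
        (1 - (C₁ + C₂ + 2 * C₁ * C₂) * e) * y =
      y - 4 * (C₁ * C₂ * (e ^ 2 * y)) - C₂ * (e ^ 2 * y) - C₁ * (e * y) - C₂ * (e * y) -
        2 * (C₁ * C₂ * (e * y)) := by ring
  rw [e1, e2]
  linarith

theorem Low.comp (l₂ : Low D e C₂ A₂ a₂) (l₁ : Low D e C₁ A₁ a₁) (h₂ : Good D e C₂ A₂ a₂)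
    (h₁ : Good D e C₁ A₁ a₁) (ha₂ : AvgF a₂) (ha₁ : AvgF a₁) (he : 0 ≤ e) (he1 : e ≤ 1)
    (hC₁ : 1 ≤ C₁) (hC₂ : 1 ≤ C₂) :
    Low D e (10 * C₁ * C₂) (A₂ ∘ₗ A₁) (fun f => a₂ (a₁ f)) := by
  have hC₁0 : 0 ≤ C₁ := zero_le_one.trans hC₁
  have hC₂0 : 0 ≤ C₂ := zero_le_one.trans hC₂
  have hsm : ∀ (c : ℝ) (h : M → ℝ), SmoothF E4 h → SmoothF E4 (fun y => c * h y) :=
    fun c h hh => sF_const_mul c hh
  intro f hf hf0 b hb
  have k1 := ha₁.smooth f hf
  have k2 := ha₁.nonneg f hf hf0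
  have hbX : b = fX f hf D.FX := Subtype.ext hb
  have hbn : ∀ x, D.nr (b : F2 E4 M) x ≤ f x := by
    intro x; rw [hbX]; exact (nr_fX_FX hf hf0 x).le
  set t : ℝ := 1 - C₁ * e with ht
  set G : X2 M := fX (a₁ f) k1 D.FX with hG
  set R : X2 M := A₁ b - t • G with hR
  have hlow := l₁ f hf hf0 b hb
  -- R ≥ 0
  have hRge : GeF D.J D.F (R : F2 E4 M) (fun x => - (0 : ℝ)) := by
    intro x v
    have h1 := hlow x v
    have h3 : at2 (R : F2 E4 M) x v (atJ D.J x v) =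
      at2 (A₁ b).1 x v (atJ D.J x v) - t * (a₁ f x * at2 D.F x v (atJ D.J x v)) := rfl
    rw [h3, neg_zero, zero_mul]
    have h4 : (1 - C₁ * e) * a₁ f x * at2 D.F x v (atJ D.J x v) =
      t * (a₁ f x * at2 D.F x v (atJ D.J x v)) := by rw [ht]; ring
    rw [h4] at h1
    linarith
  have htabs : |t| ≤ 1 + C₁ := by
    rw [ht, abs_le]; constructor <;> nlinarith
  have hGn : ∀ x, D.nr (G : F2 E4 M) x ≤ a₁ f x := fun x => (nr_fX_FX k1 k2 x).le
  have hRu : ∀ x, D.nr (R : F2 E4 M) x ≤ (2 * C₁ + 1) * a₁ f x := by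
    intro x
    refine (nr_sub_le _ _ x).trans ?_
    rw [nr_smul]
    have h1 := h₁.bd b f hf hbn x
    have h2 : |t| * D.nr (G : F2 E4 M) x ≤ (1 + C₁) * a₁ f x :=
      mul_le_mul htabs (hGn x) (nr_nonneg D _ x) (by linarith)
    linarith
  have hRk : ∀ x, D.nr (D.pi'' R : F2 E4 M) x ≤ C₁ * e * a₁ f x := by
    intro x
    have h1 : D.pi'' R = D.pi'' (A₁ (D.pi' b)) := by
      rw [hR, map_sub, map_smul, hG, pi''_fX, smul_zero, sub_zero, hbX, pi'_fX]
    rw [h1]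
    exact h₁.leak1 b f hf hbn x
  have hz : ∀ x, a₂ (fun _ => (0 : ℝ)) x = 0 := by
    intro x
    have h1 := ha₂.smul 0 (fun _ => (0 : ℝ)) (sF_const 0) x
    simpa using h1
  have hcore := h₂.core ha₂ (X := R) (hsm (2 * C₁ + 1) _ k1) (sF_const (M := M) 0)
    (hsm (C₁ * e) _ k1) (fun _ => le_rfl) hRu hRge hRk
  have hmain := low_main l₂ h₂ ha₂ he hC₁0 hC₂0 k1 k2
  have hsum : (A₂ ∘ₗ A₁) b = A₂ R + (1 - C₁ * e) • A₂ (fX (a₁ f) k1 D.FX) := by
    rw [LinearMap.comp_apply, hR, map_sub, map_smul, ht, hG]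
    exact (sub_add_cancel _ _).symm
  rw [hsum]
  refine geF_mono (geF_add hcore hmain) (fun x => ?_)
  rw [ha₂.smul _ _ k1, ha₂.smul _ _ k1, hz]
  exact low_num he he1 hC₁ hC₂ (ha₂.nonneg _ k1 k2 x)

/-! ### the identity -/

theorem Good.id (D : Dat M) (he : 0 ≤ e) : Good D e 1 LinearMap.id (fun f => f) := by
  refine ⟨fun b h _ hb x => ?_, fun P hP h _ hb => ?_, fun b h _ hb x => ?_, fun b h _ hb x => ?_⟩
  · rw [one_mul]; exact hb x
  · intro x v
    have h1 : 0 ≤ at2 P.1 x v (atJ D.J x v) := (hP x).nonneg v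
    have h2 : 0 ≤ h x := (nr_nonneg D P.1 x).trans (hb x)
    have h3 := F_nonneg D x v
    have h4 : 0 ≤ 1 * e ^ 2 * h x * at2 D.F x v (atJ D.J x v) := by positivity
    have h5 : - (1 * e ^ 2 * h x) * at2 D.F x v (atJ D.J x v) =
      - (1 * e ^ 2 * h x * at2 D.F x v (atJ D.J x v)) := by ring
    rw [h5]
    exact (neg_nonpos.2 h4).trans h1
  · have h2 : 0 ≤ h x := (nr_nonneg D b.1 x).trans (hb x)
    have h3 : D.pi'' ((LinearMap.id : X2 M →ₗ[ℝ] X2 M) (D.pi' b)) = 0 := pi''_pi' D b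
    rw [h3, nr_zero]
    positivity
  · have h2 : 0 ≤ h x := (nr_nonneg D b.1 x).trans (hb x)
    have h3 : D.pi' ((LinearMap.id : X2 M →ₗ[ℝ] X2 M) (D.pi'' b)) = 0 := pi'_pi'' D b
    rw [h3, nr_zero]
    positivity

theorem Low.id (D : Dat M) (he : 0 ≤ e) : Low D e 1 LinearMap.id (fun f => f) := by
  intro f _ hf0 b hb x v
  have h1 : at2 ((LinearMap.id : X2 M →ₗ[ℝ] X2 M) b).1 x v (atJ D.J x v) =
    f x * at2 D.F x v (atJ D.J x v) := by
    have : ((LinearMap.id : X2 M →ₗ[ℝ] X2 M) b).1 = fmul f D.F := hb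
    rw [this]; rfl
  rw [h1]
  have h2 := hf0 x
  have h3 := F_nonneg D x v
  have h4 : (1 - 1 * e) * f x ≤ f x := by nlinarith [mul_nonneg he h2]
  exact mul_le_mul_of_nonneg_right h4 h3

/-! ### lists -/

/-- the composition of the operators `A i`, `i ∈ l` (the head of the list is applied last). -/
def compL {ι : Type*} (A : ι → X2 M →ₗ[ℝ] X2 M) (l : List ι) : X2 M →ₗ[ℝ] X2 M :=
  l.foldr (fun i B => A i ∘ₗ B) LinearMap.id


theorem AvgF.list {ι : Type*} {a : ι → (M → ℝ) → M → ℝ} (l : List ι) (ha : ∀ i ∈ l, AvgF (a i)) :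
    AvgF (fun f => l.foldr (fun i g => a i g) f) := by
  induction l with
  | nil => exact AvgF.id
  | cons i l ih =>
    exact AvgF.comp (ha i (List.mem_cons_self ..))
      (ih (fun j hj => ha j (List.mem_cons_of_mem _ hj)))

theorem Good.list {ι : Type*} {A : ι → X2 M →ₗ[ℝ] X2 M} {a : ι → (M → ℝ) → M → ℝ} (l : List ι)
    (ha : ∀ i ∈ l, AvgF (a i)) (he : 0 ≤ e) (he1 : e ≤ 1) (hC : 0 ≤ C)
    (h : ∀ i ∈ l, Good D e C (A i) (a i)) :
    Good D e ((6 * C) ^ l.length) (compL A l) (fun f => l.foldr (fun i g => a i g) f) := by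
  induction l with
  | nil => exact Good.id D he
  | cons i l ih =>
    have ha' : ∀ j ∈ l, AvgF (a j) := fun j hj => ha j (List.mem_cons_of_mem _ hj)
    have h1 := Good.comp (h i (List.mem_cons_self ..))
      (ih ha' (fun j hj => h j (List.mem_cons_of_mem _ hj)))
      (ha i (List.mem_cons_self ..)) (AvgF.list l ha') he he1 (by positivity) hC
    have e1 : (6 * C) ^ (i :: l).length = 6 * (6 * C) ^ l.length * C := by
      rw [List.length_cons, pow_succ]; ring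
    rw [e1]
    exact h1

theorem Low.list {ι : Type*} {A : ι → X2 M →ₗ[ℝ] X2 M} {a : ι → (M → ℝ) → M → ℝ} (l : List ι)
    (ha : ∀ i ∈ l, AvgF (a i)) (he : 0 ≤ e) (he1 : e ≤ 1) (hC : 1 ≤ C)
    (h : ∀ i ∈ l, Good D e C (A i) (a i)) (hl : ∀ i ∈ l, Low D e C (A i) (a i)) :
    Low D e ((10 * C) ^ l.length) (compL A l) (fun f => l.foldr (fun i g => a i g) f) := by
  induction l with
  | nil => exact Low.id D he
  | cons i l ih =>
    have ha' : ∀ j ∈ l, AvgF (a j) := fun j hj => ha j (List.mem_cons_of_mem _ hj)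
    have h' : ∀ j ∈ l, Good D e C (A j) (a j) := fun j hj => h j (List.mem_cons_of_mem _ hj)
    have hC0 : 0 ≤ C := zero_le_one.trans hC
    have hg : Good D e ((10 * C) ^ l.length) (compL A l) (fun f => l.foldr (fun i g => a i g) f) :=
      (Good.list l ha' he he1 hC0 h').mono (AvgF.list l ha') he
        (pow_le_pow_left₀ (by positivity) (by linarith) _)
    have h1 := Low.comp (hl i (List.mem_cons_self ..))
      (ih ha' h' (fun j hj => hl j (List.mem_cons_of_mem _ hj)))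
      (h i (List.mem_cons_self ..)) hg
      (ha i (List.mem_cons_self ..)) (AvgF.list l ha') he he1
      (one_le_pow₀ (by linarith)) hC
    have e1 : (10 * C) ^ (i :: l).length = 10 * (10 * C) ^ l.length * C := by
      rw [List.length_cons, pow_succ]; ring
    rw [e1]
    exact h1

end

end Crest.Agent.R240.Comp
end

-- ▼ part R240/Q3
section

/-!
Row 240 (S0371), R4a (helper83), file 3: the ONE-CHART fields `bd, pos, leak1, leak2, low` of `SmPack`.
-/

set_option autoImplicit false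
set_option maxSynthPendingDepth 3
set_option linter.unusedVariables false
set_option linter.unusedSectionVars false
set_option maxHeartbeats 400000

open Set Function Filter Metric MeasureTheory
open scoped Manifold ContDiff Topology

namespace Crest.Agent.R240.Q4

open Crest.Agent.R240 Crest.Agent.R240.Ch Crest.Agent.R240.Sm Crest.Agent.R240.En4

noncomputable section

/-! ### integrals of families of two-forms -/

section integrals

variable {Z : Type*} [MeasurableSpace Z] {μ : Measure Z} {J : E4 →L[ℝ] E4} {F : Bil}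

/-- `b ↦ ⟨b, c⟩` as a continuous linear form. -/
def ipL (J : E4 →L[ℝ] E4) (F c : Bil) : Bil →L[ℝ] ℝ :=
  LinearMap.toContinuousLinearMap
    { toFun := fun b => ip J F b c
      map_add' := fun a b => ip_add_left J F a b c
      map_smul' := fun r b => ip_smul_left J F r b c }

theorem ipL_apply (J : E4 →L[ℝ] E4) (F b c : Bil) : ipL J F c b = ip J F b c := rfl

/-- `antip` as a continuous linear map. -/
def antiL (J : E4 →L[ℝ] E4) : Bil →L[ℝ] Bil :=
  LinearMap.toContinuousLinearMap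
    { toFun := fun b => antip J b
      map_add' := fun a b => antip_add J a b
      map_smul' := fun r b => antip_smul J r b }

theorem antiL_apply (J : E4 →L[ℝ] E4) (b : Bil) : antiL J b = antip J b := rfl

/-- `invp` as a continuous linear map. -/
def invL (J : E4 →L[ℝ] E4) : Bil →L[ℝ] Bil :=
  LinearMap.toContinuousLinearMap
    { toFun := fun b => invp J b
      map_add' := fun a b => invp_add J a b
      map_smul' := fun r b => invp_smul J r b }

theorem invL_apply (J : E4 →L[ℝ] E4) (b : Bil) : invL J b = invp J b := rfl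

/-- evaluation at two vectors. -/
def evL (u v : E4) : Bil →L[ℝ] ℝ :=
  (ContinuousLinearMap.apply ℝ ℝ v).comp (ContinuousLinearMap.apply ℝ (E4 →L[ℝ] ℝ) u)

theorem evL_apply (u v : E4) (b : Bil) : evL u v b = b u v := rfl

theorem alt_integral {f : Z → Bil} (hf : Integrable f μ) (halt : ∀ z, Alt (f z)) :
    Alt (∫ z, f z ∂μ) := by
  intro v
  have h := (evL v v).integral_comp_comm hf
  rw [evL_apply] at h
  rw [← h]
  simp only [evL_apply]
  rw [integral_congr_ae (g := fun _ => (0 : ℝ)) (Eventually.of_forall fun z => halt z v)]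
  simp

/-- the norm of an integral. -/
theorem nr_integral_le (hJ : ∀ v, J (J v) = -v) (hF : SPos J F) {f : Z → Bil} {g : Z → ℝ}
    (hf : Integrable f μ) (hg : Integrable g μ) (halt : ∀ z, Alt (f z))
    (hfg : ∀ z, nr J F (f z) ≤ g z) : nr J F (∫ z, f z ∂μ) ≤ ∫ z, g z ∂μ := by
  set I : Bil := ∫ z, f z ∂μ with hI
  have hIa : Alt I := alt_integral hf halt
  have h1 : nsq J F I = ∫ z, ip J F (f z) I ∂μ := by
    have h := (ipL J F I).integral_comp_comm hf
    simp only [ipL_apply] at h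
    rw [h]; rfl
  have hn0 : 0 ≤ nsq J F I := nsq_nonneg hJ hF hIa
  have hn : nr J F I ^ 2 = nsq J F I := Real.sq_sqrt hn0
  have hnn : 0 ≤ nr J F I := Real.sqrt_nonneg _
  have h2 : ∀ z, ip J F (f z) I ≤ g z * nr J F I := by
    intro z
    have h3 := ip_cs hJ hF (halt z) hIa
    have h4 : nr J F (f z) ^ 2 = nsq J F (f z) := Real.sq_sqrt (nsq_nonneg hJ hF (halt z))
    have h5 : ip J F (f z) I ≤ nr J F (f z) * nr J F I := by
      refine le_trans (le_abs_self _) (abs_le_of_sq_le_sq ?_ (mul_nonneg (Real.sqrt_nonneg _) hnn))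
      rw [mul_pow, h4, hn]; exact h3
    exact h5.trans (mul_le_mul_of_nonneg_right (hfg z) hnn)
  have h3 : Integrable (fun z => ip J F (f z) I) μ := (ipL J F I).integrable_comp hf
  have h4 : ∫ z, ip J F (f z) I ∂μ ≤ ∫ z, g z * nr J F I ∂μ :=
    integral_mono h3 (hg.mul_const _) h2
  rw [← h1, ← hn, integral_mul_const] at h4
  rcases hnn.eq_or_lt with h0 | h0
  · rw [← h0]
    exact integral_nonneg fun z => (Real.sqrt_nonneg _).trans (hfg z)
  · have h5 : nr J F I * nr J F I ≤ (∫ z, g z ∂μ) * nr J F I := by rw [← sq]; exact h4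
    exact le_of_mul_le_mul_right h5 h0

end integrals

/-! ### the norm in a chart -/

section chart

variable {M : Type*} [MetricSpace M] [CompactSpace M] [ChartedSpace E4 M]
    [IsManifold 𝓘(ℝ, E4) ∞ M] [MeasurableSpace M] [BorelSpace M] (D : Dat M)

theorem nrG_chart {b : F2 E4 M} (hb : ∀ x, Alt (at2 b x)) {p x : M}
    (hx : x ∈ (chartAt E4 p).source) :
    D.nr b x = nr (repJ p D.J (chartAt E4 p x)) (rep p D.F (chartAt E4 p x))
      (rep p b (chartAt E4 p x)) := by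
  have hV : Int.Vol D.F := Int.dat_volF D
  have hFa : ∀ x, Alt (at2 D.F x) := (smF D).1
  have hb' : ∀ x, Alt (at2 (bp D.J b) x) := fun x => (hb x).invp _
  have hb'' : ∀ x, Alt (at2 (bpp D.J b) x) := fun x => (hb x).antip _
  have e : D.nr b x = √(nsqG D.J D.F b x) := rfl
  rw [e, nsqG_eq, Int.qG_chart' hV hb hFa hx, Int.qG_chart' hV hb' hb' hx,
    Int.qG_chart' hV hb'' hb'' hx, rep_bp ((chartAt E4 p).map_source hx),
    rep_bpp ((chartAt E4 p).map_source hx)]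
  rfl

end chart

/-! ### pointwise estimates for the pull-back by `psi` -/

section point

variable {M : Type*} [MetricSpace M] [CompactSpace M] [ChartedSpace E4 M]
    [IsManifold 𝓘(ℝ, E4) ∞ M] [MeasurableSpace M] [BorelSpace M] {D : Dat M}

/-- all pointwise estimates with one constant. -/
structure Pt (D : Dat M) (G : Fam E4) (p : M) (ρ C : ℝ) : Prop where
  one_le : 1 ≤ C
  bd : ∀ z ∈ closedBall (0 : E4) ρ, ∀ (b : F2 E4 M), (∀ x, Alt (at2 b x)) → ∀ x,
    D.nr (pullG G p z b) x ≤ C * D.nr b (psi G p z x)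
  leak1 : ∀ z ∈ closedBall (0 : E4) ρ, ∀ (b : F2 E4 M), (∀ x, Alt (at2 b x)) → ∀ x,
    D.nr (bpp D.J (pullG G p z (bp D.J b))) x ≤ C * ‖z‖ * D.nr b (psi G p z x)
  leak2 : ∀ z ∈ closedBall (0 : E4) ρ, ∀ (b : F2 E4 M), (∀ x, Alt (at2 b x)) → ∀ x,
    D.nr (bp D.J (pullG G p z (bpp D.J b))) x ≤ C * ‖z‖ * D.nr b (psi G p z x)
  pos : ∀ z ∈ closedBall (0 : E4) ρ, ∀ P : F2 E4 M, PosG D.J P → ∀ x v,
    - (C * ‖z‖ ^ 2 * D.nr P (psi G p z x)) * at2 D.F x v (atJ D.J x v) ≤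
      at2 (pullG G p z P) x v (atJ D.J x v)
  low : ∀ z ∈ closedBall (0 : E4) ρ, ∀ x v,
    (1 - C * ‖z‖) * at2 D.F x v (atJ D.J x v) ≤ at2 (pullG G p z D.F) x v (atJ D.J x v)

/-- positive forms in charts -/
theorem pos_rep {J : EndF E4 M} {P : F2 E4 M} {p : M} (hP : PosG J P) {y : E4}
    (hy : y ∈ (chartAt E4 p).target) : Pos (repJ p J y) (rep p P y) := by
  have h := hP ((chartAt E4 p).symm y)
  refine ⟨fun v => ?_, fun u v => ?_, fun v => ?_⟩
  · rw [rep_apply]; exact h.alt _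
  · rw [rep_apply, repJ_apply, repJ_apply, tcc_cancel' (symm_mem hy), tcc_cancel' (symm_mem hy),
      h.inv, rep_apply]
  · rw [rep_apply, repJ_apply, tcc_cancel' (symm_mem hy)]
    exact h.nonneg _

theorem at2_bpp (J : EndF E4 M) (b : F2 E4 M) (x : M) :
    at2 (bpp J b) x = antip (atJ J x) (at2 b x) := rfl

theorem at2_bp (J : EndF E4 M) (b : F2 E4 M) (x : M) :
    at2 (bp J b) x = invp (atJ J x) (at2 b x) := rfl

theorem nr_def (b : F2 E4 M) (x : M) : D.nr b x = nr (atJ D.J x) (at2 D.F x) (at2 b x) := rfl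

theorem exists_pt (D : Dat M) {G : Fam E4} {p : M} (hG : G.K ⊆ (chartAt E4 p).target) {ρ : ℝ}
    (hρ0 : 0 ≤ ρ) (hρ : ρ < G.r) : ∃ C : ℝ, Pt D G p ρ C := by
  have hsp : SPosG D.J D.F := fun x => spos D x
  obtain ⟨B, hB1, hN⟩ := exists_near (p := p) D.smJ (smF D) D.sq hsp G hG hρ0 hρ
  have hB0 : 0 ≤ B := zero_le_one.trans hB1
  set C : ℝ := 3 * B ^ 7 with hC
  have hpow : ∀ k : ℕ, k ≤ 7 → B ^ k ≤ B ^ 7 := fun k hk => pow_le_pow_right₀ hB1 hk
  have hB7 : 1 ≤ B ^ 7 := one_le_pow₀ hB1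
  have c1 : B ^ 4 ≤ C := by have := hpow 4 (by norm_num); rw [hC]; linarith
  have c2 : 3 * B ^ 6 ≤ C := by have := hpow 6 (by norm_num); rw [hC]; linarith
  have c3 : 3 * B ^ 5 ≤ C := by have := hpow 5 (by norm_num); rw [hC]; linarith
  have c0 : 1 ≤ C := by rw [hC]; linarith
  have hC0 : 0 ≤ C := zero_le_one.trans c0
  have hnn : ∀ (b : F2 E4 M) x, 0 ≤ D.nr b x := fun b x => Real.sqrt_nonneg _
  -- splitting
  have cases : ∀ z ∈ closedBall (0 : E4) ρ, ∀ x : M,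
      (x ∉ KM G p ∧ psi G p z x = x) ∨
      (∃ y ∈ G.K, x ∈ (chartAt E4 p).source ∧ chartAt E4 p x = y ∧
        psi G p z x ∈ (chartAt E4 p).source ∧ chartAt E4 p (psi G p z x) = G.g z y) := by
    intro z hz x
    have hz' : z ∈ ball (0 : E4) G.r := closedBall_subset_ball hρ hz
    by_cases hx : x ∈ KM G p
    · right
      obtain ⟨y, hy, rfl⟩ := hx
      have h1 : (chartAt E4 p).symm y ∈ (chartAt E4 p).source := symm_mem (hG hy)
      have h2 := chart_psi hG hz' h1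
      rw [(chartAt E4 p).right_inv (hG hy)] at h2
      exact ⟨y, hy, h1, (chartAt E4 p).right_inv (hG hy), h2.1, h2.2⟩
    · exact Or.inl ⟨hx, psi_off hz' hx⟩
  have hoff : ∀ z ∈ closedBall (0 : E4) ρ, ∀ x ∉ KM G p, ∀ b : F2 E4 M,
      at2 (pullG G p z b) x = at2 b x := fun z hz x hx b =>
    pullG_off (closedBall_subset_ball hρ hz) hx b
  refine ⟨C, c0, ?_, ?_, ?_, ?_, ?_⟩
  · -- bd
    intro z hz b hb x
    rcases cases z hz x with ⟨hx, hpsi⟩ | ⟨y, hy, hx, hxy, hx', hxy'⟩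
    · rw [hpsi]
      have e : D.nr (pullG G p z b) x = D.nr b x := by rw [nr_def, nr_def, hoff z hz x hx]
      rw [e]
      exact le_mul_of_one_le_left (hnn b x) c0
    · rw [nrG_chart D (fun x v => pullG_alt hb z x v) hx, nrG_chart D hb hx', hxy, hxy',
        rep_pullG (hG hy)]
      exact ((hN z hz y hy).bd (Int.rep_alt hb p _)).trans
        (mul_le_mul_of_nonneg_right c1 (Real.sqrt_nonneg _))
  · -- leak1
    intro z hz b hb x
    have hb' : ∀ x, Alt (at2 (bp D.J b) x) := fun x => (hb x).invp _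
    have hb2 : ∀ x, Alt (at2 (pullG G p z (bp D.J b)) x) := fun x v => pullG_alt hb' z x v
    rcases cases z hz x with ⟨hx, hpsi⟩ | ⟨y, hy, hx, hxy, hx', hxy'⟩
    · rw [hpsi]
      have e : D.nr (bpp D.J (pullG G p z (bp D.J b))) x = 0 := by
        rw [nr_def, at2_bpp, hoff z hz x hx, at2_bp, antip_of_inv (invp_inv (D.sq x) _)]
        unfold nr nsq ip
        rw [q_zero_left]
        have e1 : invp (atJ D.J x) (0 : Bil) = 0 := by
          have := invp_smul (atJ D.J x) 0 (0 : Bil); rwa [bzero_smul, bzero_smul] at this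
        have e2 : antip (atJ D.J x) (0 : Bil) = 0 := by
          have := antip_smul (atJ D.J x) 0 (0 : Bil); rwa [bzero_smul, bzero_smul] at this
        rw [e1, e2, q_zero_left]
        simp
      rw [e]
      have := hnn b x
      positivity
    · rw [nrG_chart D (b := bpp D.J (pullG G p z (bp D.J b))) (fun x => (hb2 x).antip _) hx,
        nrG_chart D hb hx', hxy, hxy',
        rep_bpp (hG hy), rep_pullG (hG hy),
        rep_bp (hG (G.mem_K (closedBall_subset_ball hρ hz) hy))]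
      exact ((hN z hz y hy).leak1 (Int.rep_alt hb p _)).trans
        (mul_le_mul_of_nonneg_right (mul_le_mul_of_nonneg_right c2 (norm_nonneg _))
          (Real.sqrt_nonneg _))
  · -- leak2
    intro z hz b hb x
    have hb' : ∀ x, Alt (at2 (bpp D.J b) x) := fun x => (hb x).antip _
    have hb2 : ∀ x, Alt (at2 (pullG G p z (bpp D.J b)) x) := fun x v => pullG_alt hb' z x v
    rcases cases z hz x with ⟨hx, hpsi⟩ | ⟨y, hy, hx, hxy, hx', hxy'⟩
    · rw [hpsi]
      have e : D.nr (bp D.J (pullG G p z (bpp D.J b))) x = 0 := by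
        rw [nr_def, at2_bp, hoff z hz x hx, at2_bpp, invp_of_anti (antip_anti (D.sq x) _)]
        unfold nr nsq ip
        rw [q_zero_left]
        have e1 : invp (atJ D.J x) (0 : Bil) = 0 := by
          have := invp_smul (atJ D.J x) 0 (0 : Bil); rwa [bzero_smul, bzero_smul] at this
        have e2 : antip (atJ D.J x) (0 : Bil) = 0 := by
          have := antip_smul (atJ D.J x) 0 (0 : Bil); rwa [bzero_smul, bzero_smul] at this
        rw [e1, e2, q_zero_left]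
        simp
      rw [e]
      have := hnn b x
      positivity
    · rw [nrG_chart D (b := bp D.J (pullG G p z (bpp D.J b))) (fun x => (hb2 x).invp _) hx,
        nrG_chart D hb hx', hxy, hxy',
        rep_bp (hG hy), rep_pullG (hG hy),
        rep_bpp (hG (G.mem_K (closedBall_subset_ball hρ hz) hy))]
      exact ((hN z hz y hy).leak2 (Int.rep_alt hb p _)).trans
        (mul_le_mul_of_nonneg_right (mul_le_mul_of_nonneg_right c2 (norm_nonneg _))
          (Real.sqrt_nonneg _))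
  · -- pos
    intro z hz P hP x v
    have hF0 : 0 ≤ at2 D.F x v (atJ D.J x v) := Comp.F_nonneg D x v
    rcases cases z hz x with ⟨hx, hpsi⟩ | ⟨y, hy, hx, hxy, hx', hxy'⟩
    · rw [hpsi, hoff z hz x hx]
      have h1 : 0 ≤ at2 P x v (atJ D.J x v) := (hP x).nonneg v
      have h2 : 0 ≤ C * ‖z‖ ^ 2 * D.nr P x * at2 D.F x v (atJ D.J x v) := by
        have := hnn P x
        positivity
      linarith
    · rw [nrG_chart D (fun x => (hP x).alt) hx', hxy', apply_J_eq_rep hx, apply_J_eq_rep hx, hxy,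
        rep_pullG (hG hy)]
      have h1 := (hN z hz y hy).pos
        (pos_rep hP (hG (G.mem_K (closedBall_subset_ball hρ hz) hy))) (tcc x p x v)
      refine le_trans ?_ h1
      have h2 : 0 ≤ rep p D.F y (tcc x p x v) (repJ p D.J y (tcc x p x v)) := by
        rw [apply_J_eq_rep hx, hxy] at hF0
        exact hF0
      exact le_refl _
  · -- low
    intro z hz x v
    have hF0 : 0 ≤ at2 D.F x v (atJ D.J x v) := Comp.F_nonneg D x v
    rcases cases z hz x with ⟨hx, hpsi⟩ | ⟨y, hy, hx, hxy, hx', hxy'⟩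
    · rw [hoff z hz x hx]
      have h2 : 0 ≤ C * ‖z‖ * at2 D.F x v (atJ D.J x v) := by positivity
      linarith
    · have h1 := (hN z hz y hy).low (tcc x p x v)
      have h2 : 0 ≤ rep p D.F y (tcc x p x v) (repJ p D.J y (tcc x p x v)) := by
        rw [apply_J_eq_rep hx, hxy] at hF0
        exact hF0
      rw [apply_J_eq_rep hx, apply_J_eq_rep hx, hxy, rep_pullG (hG hy)]
      refine le_trans (mul_le_mul_of_nonneg_right ?_ h2) h1
      have h3 := mul_le_mul_of_nonneg_right c3 (norm_nonneg z)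
      linarith

end point

end

end Crest.Agent.R240.Q4
end

-- ▼ part R240/Q5

/-!
Row 240 (S0371), R4a (helper83), file 5: the fields `bd, pos, leak1, leak2, low` of `SmPack` for the
smoothing system of 915 (one chart: here; composition: 822's `SmComp`).
-/

set_option autoImplicit false
set_option maxSynthPendingDepth 3
set_option linter.unusedVariables false
set_option linter.unusedSectionVars false
set_option maxHeartbeats 400000

open Set Function Filter Metric MeasureTheory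
open scoped Manifold ContDiff Topology

namespace Crest.Agent.R240.Q4

open Crest.Agent.R240 Crest.Agent.R240.Ch Crest.Agent.R240.Sm Crest.Agent.R240.En4

noncomputable section

theorem nr_smul_pt (J : E4 →L[ℝ] E4) (F : Bil) (r : ℝ) (b : Bil) :
    nr J F (r • b) = |r| * nr J F b := by
  unfold nr
  rw [nsq_smul, Real.sqrt_mul (sq_nonneg _), Real.sqrt_sq_eq_abs]

variable {M : Type*} [MetricSpace M] [CompactSpace M] [ChartedSpace E4 M]
    [IsManifold 𝓘(ℝ, E4) ∞ M] [MeasurableSpace M] [BorelSpace M] {D : Dat M}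

/-- non-negative kernels below `κ₀`. -/
structure KP (G : Fam E4) (κ κ₀ : E4 → ℝ) (e : ℝ) : Prop where
  adm : Adm G κ e
  adm0 : Adm G κ₀ e
  nn : ∀ z, 0 ≤ κ z
  le : ∀ z, κ z ≤ κ₀ z
  small : ∀ z, κ z ≠ 0 → ‖z‖ ≤ 1

section one

variable {G : Fam E4} {p : M} {ρ C e : ℝ} {κ κ₀ : E4 → ℝ}

theorem KP.mem {hK : KP G κ κ₀ e} (he : 0 < e) (heρ : e ≤ ρ) {z : E4} (hz : κ z ≠ 0) :
    e • z ∈ closedBall (0 : E4) ρ ∧ ‖e • z‖ ≤ e := by
  have h1 : ‖e • z‖ ≤ e := by
    rw [norm_smul, Real.norm_eq_abs, abs_of_pos he]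
    have := mul_le_mul_of_nonneg_left (hK.small z hz) he.le
    linarith
  exact ⟨by rw [mem_closedBall_zero_iff]; exact h1.trans heρ, h1⟩

theorem avg_bound (hG : G.K ⊆ (chartAt E4 p).target) (hK : KP G κ κ₀ e) {x : M} {T : E4 → Bil}
    (hT : Integrable (fun z => κ z • T z)) (halt : ∀ z, Alt (T z)) {c : ℝ} (hc : 0 ≤ c)
    {h : M → ℝ} (hh : SmoothF E4 h) (h0 : ∀ x, 0 ≤ h x)
    (hb : ∀ z, κ z ≠ 0 → nr (atJ D.J x) (at2 D.F x) (T z) ≤ c * h (psi G p (e • z) x)) :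
    nr (atJ D.J x) (at2 D.F x) (∫ z, κ z • T z) ≤ c * a1 G p κ₀ e h x := by
  have hi := (integrable_a1 (p := p) hG hK.adm0 hh x).const_mul c
  have e1 : c * a1 G p κ₀ e h x = ∫ z, c * (κ₀ z * h (psi G p (e • z) x)) := by
    rw [a1, integral_const_mul]
  rw [e1]
  refine nr_integral_le (D.sq x) (spos D x) hT hi (fun z => (halt z).smul _) (fun z => ?_)
  rw [nr_smul_pt, abs_of_nonneg (hK.nn z)]
  by_cases hz : κ z = 0
  · rw [hz, zero_mul]
    have h1 := (hK.nn z).trans (hK.le z)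
    have h2 := h0 (psi G p (e • z) x)
    positivity
  · have h1 := hb z hz
    have h2 := h0 (psi G p (e • z) x)
    calc κ z * nr (atJ D.J x) (at2 D.F x) (T z) ≤ κ z * (c * h (psi G p (e • z) x)) :=
          mul_le_mul_of_nonneg_left h1 (hK.nn z)
      _ ≤ κ₀ z * (c * h (psi G p (e • z) x)) := mul_le_mul_of_nonneg_right (hK.le z) (by positivity)
      _ = _ := by ring

/-- **the one-chart operator is good.** -/
theorem good_one (hG : G.K ⊆ (chartAt E4 p).target) (hP : Pt D G p ρ C) (he : 0 < e) (heρ : e ≤ ρ)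
    (hK : KP G κ κ₀ e) : Comp.Good D e C (A1L hG hK.adm) (a1 G p κ₀ e) := by
  have hC0 : 0 ≤ C := zero_le_one.trans hP.one_le
  have hnn : ∀ (b : F2 E4 M) x, 0 ≤ D.nr b x := fun b x => Real.sqrt_nonneg _
  refine ⟨fun b h hh hb x => ?_, fun P hPp h hh hb x v => ?_, fun b h hh hb x => ?_,
    fun b h hh hb x => ?_⟩
  · have h0 : ∀ x, 0 ≤ h x := fun x => (hnn b.1 x).trans (hb x)
    have e1 : D.nr (A1L hG hK.adm b : F2 E4 M) x = nr (atJ D.J x) (at2 D.F x)
      (∫ z, κ z • at2 (pullG G p (e • z) b.1) x) := rfl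
    rw [e1]
    refine avg_bound hG hK (integrable_A1 hG hK.adm b.2 x)
      (fun z v => pullG_alt (fun x => b.2.1 x) _ x v) hC0 hh h0 (fun z hz => ?_)
    have hm := KP.mem (hK := hK) he heρ hz
    exact (hP.bd _ hm.1 b.1 b.2.1 x).trans (mul_le_mul_of_nonneg_left (hb _) hC0)
  · -- pos
    have h0 : ∀ x, 0 ≤ h x := fun x => (hnn P.1 x).trans (hb x)
    have hF0 : 0 ≤ at2 D.F x v (atJ D.J x v) := Comp.F_nonneg D x v
    set Fv : ℝ := at2 D.F x v (atJ D.J x v) with hFv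
    have hi := integrable_A1 (p := p) hG hK.adm P.2 x
    have e1 : at2 (A1L hG hK.adm P : F2 E4 M) x v (atJ D.J x v) =
        ∫ z, κ z * at2 (pullG G p (e • z) P.1) x v (atJ D.J x v) := by
      have h1 := (evL v (atJ D.J x v)).integral_comp_comm hi
      have h2 : at2 (A1L hG hK.adm P : F2 E4 M) x v (atJ D.J x v) =
        evL v (atJ D.J x v) (∫ z, κ z • at2 (pullG G p (e • z) P.1) x) := rfl
      rw [h2, ← h1]
      rfl
    have hi1 : Integrable (fun z => κ z * at2 (pullG G p (e • z) P.1) x v (atJ D.J x v)) :=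
      (evL v (atJ D.J x v)).integrable_comp hi
    have hi2 := (integrable_a1 (p := p) hG hK.adm0 hh x).const_mul (-(C * e ^ 2) * Fv)
    have e2 : -(C * e ^ 2 * a1 G p κ₀ e h x) * Fv =
        ∫ z, (-(C * e ^ 2) * Fv) * (κ₀ z * h (psi G p (e • z) x)) := by
      rw [integral_const_mul]
      rw [a1]; ring
    show -(C * e ^ 2 * a1 G p κ₀ e h x) * Fv ≤ _
    rw [e1, e2]
    refine integral_mono hi2 hi1 (fun z => ?_)
    have h2 := h0 (psi G p (e • z) x)
    have hk0 : 0 ≤ κ₀ z := (hK.nn z).trans (hK.le z)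
    have hpos : 0 ≤ C * e ^ 2 * Fv * (κ₀ z * h (psi G p (e • z) x)) := by positivity
    have e3 : -(C * e ^ 2) * Fv * (κ₀ z * h (psi G p (e • z) x)) =
      -(C * e ^ 2 * Fv * (κ₀ z * h (psi G p (e • z) x))) := by ring
    simp only
    rw [e3]
    by_cases hz : κ z = 0
    · rw [hz, zero_mul]; linarith
    · have hm := KP.mem (hK := hK) he heρ hz
      have h3 := hP.pos _ hm.1 P.1 hPp x v
      have h4 : C * ‖e • z‖ ^ 2 * D.nr P.1 (psi G p (e • z) x) ≤
          C * e ^ 2 * h (psi G p (e • z) x) := by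
        have := hb (psi G p (e • z) x)
        have := hnn P.1 (psi G p (e • z) x)
        have := hm.2
        gcongr
      have h5 : C * ‖e • z‖ ^ 2 * D.nr P.1 (psi G p (e • z) x) * Fv ≤
          C * e ^ 2 * h (psi G p (e • z) x) * Fv := mul_le_mul_of_nonneg_right h4 hF0
      have h6 : -(C * e ^ 2 * h (psi G p (e • z) x) * Fv) ≤
          at2 (pullG G p (e • z) P.1) x v (atJ D.J x v) := by
        have e4 : -(C * ‖e • z‖ ^ 2 * D.nr P.1 (psi G p (e • z) x)) * Fv =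
          -(C * ‖e • z‖ ^ 2 * D.nr P.1 (psi G p (e • z) x) * Fv) := by ring
        rw [e4] at h3
        linarith
      have h7 := mul_le_mul_of_nonneg_left h6 (hK.nn z)
      have h8 : κ z * (C * e ^ 2 * h (psi G p (e • z) x) * Fv) ≤
          κ₀ z * (C * e ^ 2 * h (psi G p (e • z) x) * Fv) :=
        mul_le_mul_of_nonneg_right (hK.le z) (by positivity)
      have e5 : κ z * -(C * e ^ 2 * h (psi G p (e • z) x) * Fv) =
        -(κ z * (C * e ^ 2 * h (psi G p (e • z) x) * Fv)) := by ring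
      have e6 : κ₀ z * (C * e ^ 2 * h (psi G p (e • z) x) * Fv) =
        C * e ^ 2 * Fv * (κ₀ z * h (psi G p (e • z) x)) := by ring
      linarith
  · -- leak1
    have h0 : ∀ x, 0 ≤ h x := fun x => (hnn b.1 x).trans (hb x)
    have hi := integrable_A1 (p := p) hG hK.adm (D.pi' b).2 x
    have e1 : D.nr (D.pi'' (A1L hG hK.adm (D.pi' b)) : F2 E4 M) x = nr (atJ D.J x) (at2 D.F x)
        (∫ z, κ z • antip (atJ D.J x) (at2 (pullG G p (e • z) (D.pi' b).1) x)) := by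
      have h1 := (antiL (atJ D.J x)).integral_comp_comm hi
      have h2 : D.nr (D.pi'' (A1L hG hK.adm (D.pi' b)) : F2 E4 M) x = nr (atJ D.J x) (at2 D.F x)
        (antiL (atJ D.J x) (∫ z, κ z • at2 (pullG G p (e • z) (D.pi' b).1) x)) := rfl
      rw [h2, ← h1]
      congr 1
      refine integral_congr_ae (Eventually.of_forall fun z => ?_)
      simp only [map_smul, antiL_apply]
    have hi2 : Integrable
        (fun z => κ z • antip (atJ D.J x) (at2 (pullG G p (e • z) (D.pi' b).1) x)) := by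
      have h1 := (antiL (atJ D.J x)).integrable_comp hi
      refine h1.congr (Eventually.of_forall fun z => ?_)
      simp only [map_smul, antiL_apply]
    rw [e1]
    refine avg_bound hG hK hi2 (fun z => ?_) (by positivity) hh h0 (fun z hz => ?_)
    · have h1 : Alt (at2 (pullG G p (e • z) (D.pi' b).1) x) :=
        fun v => pullG_alt (fun x => (D.pi' b).2.1 x) _ x v
      exact h1.antip _
    · have hm := KP.mem (hK := hK) he heρ hz
      have h1 := hP.leak1 _ hm.1 b.1 b.2.1 x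
      refine le_trans h1 ?_
      have h2 := hb (psi G p (e • z) x)
      have h3 := hnn b.1 (psi G p (e • z) x)
      have h4 := hm.2
      gcongr
  · -- leak2
    have h0 : ∀ x, 0 ≤ h x := fun x => (hnn b.1 x).trans (hb x)
    have hi := integrable_A1 (p := p) hG hK.adm (D.pi'' b).2 x
    have e1 : D.nr (D.pi' (A1L hG hK.adm (D.pi'' b)) : F2 E4 M) x = nr (atJ D.J x) (at2 D.F x)
        (∫ z, κ z • invp (atJ D.J x) (at2 (pullG G p (e • z) (D.pi'' b).1) x)) := by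
      have h1 := (invL (atJ D.J x)).integral_comp_comm hi
      have h2 : D.nr (D.pi' (A1L hG hK.adm (D.pi'' b)) : F2 E4 M) x = nr (atJ D.J x) (at2 D.F x)
        (invL (atJ D.J x) (∫ z, κ z • at2 (pullG G p (e • z) (D.pi'' b).1) x)) := rfl
      rw [h2, ← h1]
      congr 1
      refine integral_congr_ae (Eventually.of_forall fun z => ?_)
      simp only [map_smul, invL_apply]
    have hi2 : Integrable
        (fun z => κ z • invp (atJ D.J x) (at2 (pullG G p (e • z) (D.pi'' b).1) x)) := by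
      have h1 := (invL (atJ D.J x)).integrable_comp hi
      refine h1.congr (Eventually.of_forall fun z => ?_)
      simp only [map_smul, invL_apply]
    rw [e1]
    refine avg_bound hG hK hi2 (fun z => ?_) (by positivity) hh h0 (fun z hz => ?_)
    · have h1 : Alt (at2 (pullG G p (e • z) (D.pi'' b).1) x) :=
        fun v => pullG_alt (fun x => (D.pi'' b).2.1 x) _ x v
      exact h1.invp _
    · have hm := KP.mem (hK := hK) he heρ hz
      have h1 := hP.leak2 _ hm.1 b.1 b.2.1 x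
      refine le_trans h1 ?_
      have h2 := hb (psi G p (e • z) x)
      have h3 := hnn b.1 (psi G p (e • z) x)
      have h4 := hm.2
      gcongr

/-- **the one-chart lower bound.** -/
theorem low_one (hG : G.K ⊆ (chartAt E4 p).target) (hP : Pt D G p ρ C) (he : 0 < e) (heρ : e ≤ ρ)
    (hK : KP G κ κ e) : Comp.Low D e C (A1L hG hK.adm) (a1 G p κ e) := by
  have hC0 : 0 ≤ C := zero_le_one.trans hP.one_le
  intro f hf hf0 b hb x v
  have hF0 : 0 ≤ at2 D.F x v (atJ D.J x v) := Comp.F_nonneg D x v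
  set Fv : ℝ := at2 D.F x v (atJ D.J x v) with hFv
  have hi := integrable_A1 (p := p) hG hK.adm b.2 x
  have e1 : at2 (A1L hG hK.adm b : F2 E4 M) x v (atJ D.J x v) =
      ∫ z, κ z * at2 (pullG G p (e • z) b.1) x v (atJ D.J x v) := by
    have h1 := (evL v (atJ D.J x v)).integral_comp_comm hi
    have h2 : at2 (A1L hG hK.adm b : F2 E4 M) x v (atJ D.J x v) =
      evL v (atJ D.J x v) (∫ z, κ z • at2 (pullG G p (e • z) b.1) x) := rfl
    rw [h2, ← h1]
    rfl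
  have hi1 : Integrable (fun z => κ z * at2 (pullG G p (e • z) b.1) x v (atJ D.J x v)) :=
    (evL v (atJ D.J x v)).integrable_comp hi
  have hi2 := (integrable_a1 (p := p) hG hK.adm hf x).const_mul ((1 - C * e) * Fv)
  have e2 : (1 - C * e) * a1 G p κ e f x * Fv =
      ∫ z, ((1 - C * e) * Fv) * (κ z * f (psi G p (e • z) x)) := by
    rw [integral_const_mul]
    rw [a1]; ring
  show (1 - C * e) * a1 G p κ e f x * Fv ≤ _
  rw [e1, e2]
  refine integral_mono hi2 hi1 (fun z => ?_)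
  simp only
  by_cases hz : κ z = 0
  · rw [hz]; simp
  · have hm := KP.mem (hK := hK) he heρ hz
    have h3 := hP.low _ hm.1 x v
    have h4 : (1 - C * e) * Fv ≤ at2 (pullG G p (e • z) D.F) x v (atJ D.J x v) := by
      refine le_trans (mul_le_mul_of_nonneg_right ?_ hF0) h3
      have := mul_le_mul_of_nonneg_left hm.2 hC0
      linarith
    have h5 : at2 (pullG G p (e • z) b.1) x v (atJ D.J x v) =
        f (psi G p (e • z) x) * at2 (pullG G p (e • z) D.F) x v (atJ D.J x v) := by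
      rw [hb, pullG_fmul]; rfl
    rw [h5]
    have h6 := mul_le_mul_of_nonneg_left h4 (hf0 (psi G p (e • z) x))
    have h7 := mul_le_mul_of_nonneg_left h6 (hK.nn z)
    calc (1 - C * e) * Fv * (κ z * f (psi G p (e • z) x)) =
          κ z * (f (psi G p (e • z) x) * ((1 - C * e) * Fv)) := by ring
      _ ≤ _ := h7

end one

theorem Pt.mono {G : Fam E4} {p : M} {ρ C C' : ℝ} (h : Pt D G p ρ C) (hC : C ≤ C') :
    Pt D G p ρ C' := by
  have hnn : ∀ (b : F2 E4 M) x, 0 ≤ D.nr b x := fun b x => Real.sqrt_nonneg _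
  refine ⟨h.one_le.trans hC, fun z hz b hb x => ?_, fun z hz b hb x => ?_, fun z hz b hb x => ?_,
    fun z hz P hP x v => ?_, fun z hz x v => ?_⟩
  · exact (h.bd z hz b hb x).trans (mul_le_mul_of_nonneg_right hC (hnn _ _))
  · exact (h.leak1 z hz b hb x).trans (mul_le_mul_of_nonneg_right
      (mul_le_mul_of_nonneg_right hC (norm_nonneg _)) (hnn _ _))
  · exact (h.leak2 z hz b hb x).trans (mul_le_mul_of_nonneg_right
      (mul_le_mul_of_nonneg_right hC (norm_nonneg _)) (hnn _ _))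
  · refine le_trans ?_ (h.pos z hz P hP x v)
    refine mul_le_mul_of_nonneg_right (neg_le_neg ?_) (Comp.F_nonneg D x v)
    have := hnn P (psi G p z x)
    gcongr
  · refine le_trans ?_ (h.low z hz x v)
    refine mul_le_mul_of_nonneg_right ?_ (Comp.F_nonneg D x v)
    have := mul_le_mul_of_nonneg_right hC (norm_nonneg z)
    linarith

/-! ### the system -/

theorem avgF_f1 (S : Sys M) {e : ℝ} (h : S.Ok e) (i : Fin S.n) : Comp.AvgF (S.f1 e i) where
  smooth f hf := Sys.smoothF_f1 h i hf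
  nonneg f hf h0 := Sys.f1_nonneg e i h0
  one x := by rw [Sys.f1_const]
  add f g hf hg x := by rw [Sys.f1_add h i hf hg]
  smul r f hf x := by rw [Sys.f1_smul]


theorem exists_sys (D : Dat M) (S : Sys M) : ∃ (e1 C : ℝ), 0 < e1 ∧ e1 ≤ 1 ∧ 1 ≤ C ∧
    (∀ e, 0 < e → e ≤ e1 → S.Ok e) ∧ ∀ i, Pt D (S.G i) (S.p i) e1 C := by
  obtain ⟨e1, he1, he1', hok⟩ := S.exists_ok
  have h1 : ∀ i, ∃ C, Pt D (S.G i) (S.p i) e1 C := fun i =>
    exists_pt D (S.hG i) he1.le ((hok e1 he1 le_rfl).2 i)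
  choose C hC using h1
  refine ⟨e1, 1 + ∑ i, |C i|, he1, he1', ?_, hok, fun i => (hC i).mono ?_⟩
  · have : 0 ≤ ∑ i, |C i| := Finset.sum_nonneg fun i _ => abs_nonneg _
    linarith
  · have h2 : |C i| ≤ ∑ i, |C i| :=
      Finset.single_le_sum (f := fun i => |C i|) (fun i _ => abs_nonneg _) (Finset.mem_univ i)
    have := le_abs_self (C i)
    linarith

theorem good_op1 {S : Sys M} {e e1 C : ℝ} (he : 0 < e) (hee : e ≤ e1) (hok : S.Ok e) {i : Fin S.n}
    (hP : Pt D (S.G i) (S.p i) e1 C) {q : Fin S.n → KF} (hq : q ∈ ClpK S.n 0) :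
    Comp.Good D e C (S.op1 e i (q i).1) (S.f1 e i) := by
  have hK : KP (S.G i) (kk (q i).1) kap0 e :=
    { adm := hok.adm_kk i (q i).2
      adm0 := hok.adm_kap0 i
      nn := ClpK.kk_nonneg hq i
      le := ClpK.kk_le hq i
      small := fun z hz => (kk_ne hz).le }
  rw [Sys.op1_eq hok i (q i).2]
  exact good_one (S.hG i) hP he hee hK

theorem low_op1 {S : Sys M} {e e1 C : ℝ} (he : 0 < e) (hee : e ≤ e1) (hok : S.Ok e) {i : Fin S.n}
    (hP : Pt D (S.G i) (S.p i) e1 C) :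
    Comp.Low D e C (S.op1 e i (oneK S.n i).1) (S.f1 e i) := by
  have hk : kk (oneK S.n i).1 = kap0 := kk_one
  have hK : KP (S.G i) (kk (oneK S.n i).1) (kk (oneK S.n i).1) e :=
    { adm := hok.adm_kk i (oneK S.n i).2
      adm0 := hok.adm_kk i (oneK S.n i).2
      nn := fun z => by rw [hk]; exact kap0_nonneg z
      le := fun z => le_rfl
      small := fun z hz => (kk_ne hz).le }
  rw [Sys.op1_eq hok i (oneK S.n i).2]
  have h := low_one (S.hG i) hP he hee hK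
  have e1 : S.f1 e i = a1 (S.G i) (S.p i) (kk (oneK S.n i).1) e := by
    rw [hk]; rfl
  rw [e1]
  exact h

theorem good_A {S : Sys M} {e e1 C : ℝ} (he : 0 < e) (hee : e ≤ e1) (he1 : e1 ≤ 1) (hC : 1 ≤ C)
    (hok : S.Ok e) (hP : ∀ i, Pt D (S.G i) (S.p i) e1 C) {q : Fin S.n → KF}
    (hq : q ∈ ClpK S.n 0) :
    Comp.Good D e ((6 * C) ^ (List.finRange S.n).length) (S.A e q) (S.a e) :=
  Comp.Good.list (List.finRange S.n) (fun i _ => avgF_f1 S hok i) he.le (hee.trans he1)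
    (zero_le_one.trans hC) (fun i _ => good_op1 he hee hok (hP i) hq)

theorem low_A {S : Sys M} {e e1 C : ℝ} (he : 0 < e) (hee : e ≤ e1) (he1 : e1 ≤ 1) (hC : 1 ≤ C)
    (hok : S.Ok e) (hP : ∀ i, Pt D (S.G i) (S.p i) e1 C) :
    Comp.Low D e ((10 * C) ^ (List.finRange S.n).length) (S.A e (oneK S.n)) (S.a e) :=
  Comp.Low.list (List.finRange S.n) (fun i _ => avgF_f1 S hok i) he.le (hee.trans he1) hC
    (fun i _ => good_op1 he hee hok (hP i) (oneK_mem S.n 0))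
    (fun i _ => low_op1 he hee hok (hP i))

/-- **field `bd`.** -/
theorem fBd (D : Dat M) (S : Sys M) : FBd D S := by
  obtain ⟨e1, C, h1, h2, h3, hok, hP⟩ := exists_sys D S
  exact ⟨e1, h1, _, fun e p he hee hp => (good_A he hee h2 h3 (hok e he hee) hP hp).bd⟩

/-- **field `pos`.** -/
theorem fPos (D : Dat M) (S : Sys M) : FPos D S := by
  obtain ⟨e1, C, h1, h2, h3, hok, hP⟩ := exists_sys D S
  exact ⟨e1, h1, _, fun e p he hee hp => (good_A he hee h2 h3 (hok e he hee) hP hp).pos⟩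

/-- **field `leak1`.** -/
theorem fLeak1 (D : Dat M) (S : Sys M) : FLeak1 D S := by
  obtain ⟨e1, C, h1, h2, h3, hok, hP⟩ := exists_sys D S
  exact ⟨e1, h1, _, fun e p he hee hp => (good_A he hee h2 h3 (hok e he hee) hP hp).leak1⟩

/-- **field `leak2`.** -/
theorem fLeak2 (D : Dat M) (S : Sys M) : FLeak2 D S := by
  obtain ⟨e1, C, h1, h2, h3, hok, hP⟩ := exists_sys D S
  exact ⟨e1, h1, _, fun e p he hee hp => (good_A he hee h2 h3 (hok e he hee) hP hp).leak2⟩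

/-- **field `low`.** -/
theorem fLow (D : Dat M) (S : Sys M) : FLow D S := by
  obtain ⟨e1, C, h1, h2, h3, hok, hP⟩ := exists_sys D S
  exact ⟨e1, h1, _, fun e he hee => low_A he hee h2 h3 (hok e he hee) hP⟩

end

end Crest.Agent.R240.Q4
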