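import Crest.Agent.R240.Lin1

-- ▼ part R240/EllIface
section

/-!
Row 240, LEMMA A (team K, captain helper106): local statements on `E4`.
-/

set_option autoImplicit false

open scoped ContDiff

namespace Crest.Agent.R240.Ell

noncomputable section

/-- exterior derivative of a one-form on `E4`. -/
def dS (S : E4 → E4 →L[ℝ] ℝ) (x : E4) : Bil := fderiv ℝ S x - (fderiv ℝ S x).flip

theorem dS_apply (S : E4 → E4 →L[ℝ] ℝ) (x u v : E4) :
    dS S x u v = fderiv ℝ S x u v - fderiv ℝ S x v u := rfl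

/-- all derivatives of order `≤ k` are bounded by `B`. -/
def CkB {F : Type*} [NormedAddCommGroup F] [NormedSpace ℝ F] (k : ℕ) (f : E4 → F) (B : ℝ) : Prop :=
  ∀ j ≤ k, ∀ x, ‖iteratedFDeriv ℝ j f x‖ ≤ B

/-- smooth compactly supported `J`-anti-invariant two-forms, supported in `U`. -/
structure Test (J : E4 → E4 →L[ℝ] E4) (U : Set E4) (f : E4 → Bil) : Prop where
  smooth : ContDiff ℝ ∞ f
  cpt : HasCompactSupport f
  supp : tsupport f ⊆ U
  alt : ∀ x, Alt (f x)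
  anti : ∀ x u v, f x (J x u) (J x v) = - f x u v

/-- THE LOCAL THEOREM (local right inverse of `S ↦ (dS)''` modulo a good remainder).
`U`, `V` bounded open, `closure U ⊆ V`; test forms live in `U`, outputs in `V`. -/
def LocalThm : Prop :=
  ∀ (J : E4 → E4 →L[ℝ] E4), ContDiff ℝ ∞ J →
  ∀ (U V : Set E4), IsOpen U → IsOpen V → Bornology.IsBounded V → closure U ⊆ V →
  (∀ x ∈ V, ∀ v, J x (J x v) = -v) →
  ∃ (Q : (E4 → Bil) → (E4 → E4 →L[ℝ] ℝ)) (K : (E4 → Bil) → (E4 → Bil)),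
    -- linearity on test forms
    (∀ f g, Test J U f → Test J U g → Q (f + g) = Q f + Q g ∧ K (f + g) = K f + K g) ∧
    (∀ (c : ℝ) f, Test J U f → Q (c • f) = c • Q f ∧ K (c • f) = c • K f) ∧
    -- regularity and supports
    (∀ f, Test J U f → ContDiff ℝ ∞ (Q f) ∧ tsupport (Q f) ⊆ V ∧ Test J V (K f)) ∧
    -- the identity
    (∀ f, Test J U f → ∀ x, antip (J x) (dS (Q f) x) = f x + K f x) ∧
    -- bound for `Q` (with any loss of derivatives)
    (∃ (m : ℕ) (C : ℝ), ∀ f B, Test J U f → CkB m f B → CkB 1 (Q f) (C * B)) ∧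
    -- tame bound for `K`
    (∀ (k : ℕ) (θ : ℝ), 0 < θ → ∃ C : ℝ, ∀ f A B, Test J U f → CkB k f A → CkB 0 f B →
        CkB k (K f) (θ * A + C * B)) ∧
    -- `K` is a finite rank operator up to a small one in sup norm
    (∀ (θ : ℝ), 0 < θ → ∃ (n : ℕ) (φ : Fin n → E4 → Bil) (l : Fin n → (E4 → Bil) → ℝ) (C : ℝ),
        (∀ j, Test J V (φ j)) ∧
        (∀ j f g, Test J U f → Test J U g → l j (f + g) = l j f + l j g) ∧
        (∀ j (c : ℝ) f, Test J U f → l j (c • f) = c * l j f) ∧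
        (∀ j f B, Test J U f → CkB 0 f B → |l j f| ≤ C * B) ∧
        (∀ f B, Test J U f → CkB 0 f B →
          CkB 0 (fun x => K f x - ∑ j, l j f • φ j x) (θ * B)))

/-! ### weakly singular kernels (K1), generic target spaces -/

section kernels

variable {F G : Type*} [NormedAddCommGroup F] [NormedSpace ℝ F] [NormedAddCommGroup G]
    [NormedSpace ℝ G]

/-- weakly singular kernels `k x z`, smooth off `z = 0`, `x`-derivatives `O(|z|^{-3})`,
supported in a bounded set. -/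
structure WK (k : E4 → E4 → (F →L[ℝ] G)) : Prop where
  smooth : ContDiffOn ℝ ∞ (fun p : E4 × E4 => k p.1 p.2) {p | p.2 ≠ 0}
  bound : ∀ n : ℕ, ∃ C : ℝ, ∀ x z, z ≠ 0 →
    ‖iteratedFDeriv ℝ n (fun x => k x z) x‖ ≤ C * ‖z‖⁻¹ ^ 3
  supp : ∃ R : ℝ, ∀ x z, R ≤ ‖x‖ ∨ R ≤ ‖z‖ → k x z = 0

/-- the operator with kernel `k`. -/
def op (k : E4 → E4 → (F →L[ℝ] G)) (f : E4 → F) (x : E4) : G :=
  ∫ z, k x z (f (x - z))

variable (F G) in
/-- K1 + far part: what is needed about `op k`. -/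
def OpThm : Prop :=
  ∀ (k : E4 → E4 → (F →L[ℝ] G)), WK k →
    (∀ f : E4 → F, ContDiff ℝ ∞ f → HasCompactSupport f → ContDiff ℝ ∞ (op k f)) ∧
    (∀ (m : ℕ), ∃ C : ℝ, ∀ (f : E4 → F) A, ContDiff ℝ ∞ f → HasCompactSupport f →
        CkB m f A → CkB m (op k f) (C * A)) ∧
    (∀ (m : ℕ) (θ : ℝ), 0 < θ → ∃ C : ℝ, ∀ (f : E4 → F) A B, ContDiff ℝ ∞ f →
        HasCompactSupport f → CkB m f A → CkB 0 f B → CkB m (op k f) (θ * A + C * B)) ∧
    (∀ (θ R : ℝ), 0 < θ → ∃ (n : ℕ) (w : Fin n → E4 → (F →L[ℝ] G))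
        (l : Fin n → (E4 → F) → F) (C : ℝ),
        (∀ j, ContDiff ℝ ∞ (w j)) ∧
        (∀ j x, ∃ z, z ≠ 0 ∧ ∃ c : ℝ, w j x = c • k x z) ∧
        (∀ j f g, ContDiff ℝ ∞ f → HasCompactSupport f → ContDiff ℝ ∞ g → HasCompactSupport g →
          l j (f + g) = l j f + l j g) ∧
        (∀ j (c : ℝ) f, l j (c • f) = c • l j f) ∧
        (∀ j f B, ContDiff ℝ ∞ f → HasCompactSupport f → CkB 0 f B → ‖l j f‖ ≤ C * B) ∧
        (∀ f B, ContDiff ℝ ∞ f → (∀ x, R ≤ ‖x‖ → f x = 0) → CkB 0 f B →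
          CkB 0 (fun x => op k f x - ∑ j, w j x (l j f)) (θ * B)))

end kernels

end

end Crest.Agent.R240.Ell
end

-- ▼ part R240/EllNorm

/-!
Row 240, Lemma A (helper106): `C^k` norms of smooth compactly supported functions on `E4`.
-/

set_option autoImplicit false
set_option maxSynthPendingDepth 3

open scoped ContDiff Nat
open Filter Topology

namespace Crest.Agent.R240.Ell

noncomputable section

variable {F G H : Type*} [NormedAddCommGroup F] [NormedSpace ℝ F] [NormedAddCommGroup G]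
    [NormedSpace ℝ G] [NormedAddCommGroup H] [NormedSpace ℝ H]

theorem cast_le_infty (n : ℕ) : ((n : ℕ) : WithTop ℕ∞) ≤ ∞ := by exact_mod_cast le_top

/-- smooth and compactly supported. -/
def CS (f : E4 → F) : Prop := ContDiff ℝ ∞ f ∧ HasCompactSupport f

theorem CS.add {f g : E4 → F} (hf : CS f) (hg : CS g) : CS (f + g) :=
  ⟨hf.1.add hg.1, hf.2.add hg.2⟩

theorem CS.neg {f : E4 → F} (hf : CS f) : CS (-f) := ⟨hf.1.neg, hf.2.neg⟩

theorem CS.sub {f g : E4 → F} (hf : CS f) (hg : CS g) : CS (f - g) := by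
  rw [sub_eq_add_neg]; exact hf.add hg.neg

theorem CS.smul {f : E4 → F} (c : ℝ) (hf : CS f) : CS (c • f) :=
  ⟨contDiff_const.smul hf.1, hf.2.smul_left⟩

theorem CS.zero : CS (0 : E4 → F) := ⟨contDiff_const, HasCompactSupport.zero⟩

theorem CS.sum {ι : Type*} (s : Finset ι) {f : ι → E4 → F} (hf : ∀ i ∈ s, CS (f i)) :
    CS (∑ i ∈ s, f i) := by
  classical
  induction s using Finset.induction_on with
  | empty => simpa using CS.zero
  | insert a s ha ih =>
    rw [Finset.sum_insert ha]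
    exact (hf a (by simp)).add (ih fun i hi => hf i (by simp [hi]))

theorem CS.bdd {f : E4 → F} (hf : CS f) (j : ℕ) : ∃ C, ∀ x, ‖iteratedFDeriv ℝ j f x‖ ≤ C := by
  have h1 : Continuous (iteratedFDeriv ℝ j f) :=
    hf.1.continuous_iteratedFDeriv (by exact_mod_cast le_top)
  have h2 : HasCompactSupport (iteratedFDeriv ℝ j f) := hf.2.iteratedFDeriv j
  obtain ⟨C, hC⟩ := h1.bounded_above_of_compact_support h2
  exact ⟨C, hC⟩

theorem CS.exists_ckB {f : E4 → F} (hf : CS f) (k : ℕ) : ∃ B, 0 ≤ B ∧ CkB k f B := by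
  choose C hC using fun j => hf.bdd j
  refine ⟨∑ j ∈ Finset.range (k + 1), |C j|, Finset.sum_nonneg fun _ _ => abs_nonneg _, ?_⟩
  intro j hj x
  refine (hC j x).trans ((le_abs_self _).trans ?_)
  exact Finset.single_le_sum (f := fun j => |C j|) (fun _ _ => abs_nonneg _)
    (Finset.mem_range.mpr (by omega))

theorem CkB.nonneg {k : ℕ} {f : E4 → F} {B : ℝ} (h : CkB k f B) : 0 ≤ B :=
  (norm_nonneg _).trans (h 0 (Nat.zero_le _) 0)

theorem CkB.mono {k : ℕ} {f : E4 → F} {A B : ℝ} (h : CkB k f A) (hAB : A ≤ B) : CkB k f B :=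
  fun j hj x => (h j hj x).trans hAB

theorem CkB.mono_k {k l : ℕ} {f : E4 → F} {A : ℝ} (h : CkB k f A) (hl : l ≤ k) : CkB l f A :=
  fun j hj x => h j (hj.trans hl) x

theorem ckB_zero_iff {f : E4 → F} {A : ℝ} : CkB 0 f A ↔ ∀ x, ‖f x‖ ≤ A := by
  constructor
  · intro h x
    simpa using h 0 le_rfl x
  · intro h j hj x
    obtain rfl : j = 0 := by omega
    simpa using h x

theorem CkB.add {k : ℕ} {f g : E4 → F} {A B : ℝ} (hf : ContDiff ℝ ∞ f) (hg : ContDiff ℝ ∞ g)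
    (h : CkB k f A) (h' : CkB k g B) : CkB k (f + g) (A + B) := by
  intro j hj x
  have hj' : ((j : ℕ) : WithTop ℕ∞) ≤ ∞ := by exact_mod_cast le_top
  rw [iteratedFDeriv_add_apply (hf.of_le hj').contDiffAt (hg.of_le hj').contDiffAt]
  exact (norm_add_le _ _).trans (add_le_add (h j hj x) (h' j hj x))

theorem CkB.smul {k : ℕ} {f : E4 → F} {A : ℝ} (c : ℝ) (hf : ContDiff ℝ ∞ f)
    (h : CkB k f A) : CkB k (c • f) (|c| * A) := by
  intro j hj x
  have hj' : ((j : ℕ) : WithTop ℕ∞) ≤ ∞ := by exact_mod_cast le_top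
  rw [iteratedFDeriv_const_smul_apply (hf.of_le hj').contDiffAt, norm_smul]
  exact mul_le_mul_of_nonneg_left (h j hj x) (norm_nonneg _)

/-- the `C^k` norm. -/
def nk (k : ℕ) (f : E4 → F) : ℝ := ⨆ q : Fin (k + 1) × E4, ‖iteratedFDeriv ℝ (q.1 : ℕ) f q.2‖

theorem nk_le {k : ℕ} {f : E4 → F} {B : ℝ} (h : CkB k f B) : nk k f ≤ B :=
  ciSup_le fun q => h q.1 (by omega) q.2

theorem CS.ckB_nk {f : E4 → F} (hf : CS f) (k : ℕ) : CkB k f (nk k f) := by
  intro j hj x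
  obtain ⟨B, -, hB⟩ := hf.exists_ckB k
  have hb : BddAbove (Set.range fun q : Fin (k + 1) × E4 =>
      ‖iteratedFDeriv ℝ (q.1 : ℕ) f q.2‖) := by
    refine ⟨B, ?_⟩
    rintro _ ⟨q, rfl⟩
    exact hB q.1 (by omega) q.2
  exact le_ciSup hb (⟨⟨j, by omega⟩, x⟩ : Fin (k + 1) × E4)

theorem nk_nonneg (k : ℕ) (f : E4 → F) : 0 ≤ nk k f :=
  Real.iSup_nonneg fun _ => norm_nonneg _

theorem nk_add_le {f g : E4 → F} (hf : CS f) (hg : CS g) (k : ℕ) :
    nk k (f + g) ≤ nk k f + nk k g :=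
  nk_le ((hf.ckB_nk k).add hf.1 hg.1 (hg.ckB_nk k))

theorem nk_smul_le {f : E4 → F} (hf : CS f) (c : ℝ) (k : ℕ) :
    nk k (c • f) ≤ |c| * nk k f :=
  nk_le ((hf.ckB_nk k).smul c hf.1)

theorem nk_smul {f : E4 → F} (hf : CS f) (c : ℝ) (k : ℕ) :
    nk k (c • f) = |c| * nk k f := by
  rcases eq_or_ne c 0 with rfl | hc
  · refine le_antisymm (nk_smul_le hf 0 k) ?_
    simp [nk_nonneg]
  · refine le_antisymm (nk_smul_le hf c k) ?_
    have h := nk_smul_le (hf.smul c) c⁻¹ k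
    rw [smul_smul, inv_mul_cancel₀ hc, one_smul, abs_inv] at h
    have hc' : 0 < |c| := abs_pos.mpr hc
    calc |c| * nk k f ≤ |c| * (|c|⁻¹ * nk k (c • f)) := by gcongr
      _ = nk k (c • f) := by rw [← mul_assoc, mul_inv_cancel₀ hc'.ne', one_mul]

theorem nk_neg {f : E4 → F} (hf : CS f) (k : ℕ) : nk k (-f) = nk k f := by
  have := nk_smul hf (-1) k
  simpa using this

theorem nk_zero (k : ℕ) : nk k (0 : E4 → F) = 0 := by
  have := nk_smul (CS.zero (F := F)) 0 k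
  simpa using this

theorem nk_sum_le {ι : Type*} (s : Finset ι) {f : ι → E4 → F} (hf : ∀ i ∈ s, CS (f i)) (k : ℕ) :
    nk k (∑ i ∈ s, f i) ≤ ∑ i ∈ s, nk k (f i) := by
  classical
  induction s using Finset.induction_on with
  | empty => simp [nk_zero]
  | insert a s ha ih =>
    rw [Finset.sum_insert ha, Finset.sum_insert ha]
    refine (nk_add_le (hf a (by simp)) (CS.sum s fun i hi => hf i (by simp [hi])) k).trans ?_
    exact add_le_add le_rfl (ih fun i hi => hf i (by simp [hi]))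

theorem nk_mono {f : E4 → F} (hf : CS f) {k l : ℕ} (h : k ≤ l) : nk k f ≤ nk l f :=
  nk_le ((hf.ckB_nk l).mono_k h)

theorem norm_le_nk {f : E4 → F} (hf : CS f) (k : ℕ) (x : E4) : ‖f x‖ ≤ nk k f := by
  simpa using (hf.ckB_nk k) 0 (Nat.zero_le _) x

theorem norm_fderiv_le_nk {f : E4 → F} (hf : CS f) {k : ℕ} (hk : 1 ≤ k) (x : E4) :
    ‖fderiv ℝ f x‖ ≤ nk k f := by
  rw [← norm_iteratedFDeriv_one]
  exact (hf.ckB_nk k) 1 hk x

/-- main composition estimate: `y ↦ A y (b (τ y))`. -/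
theorem comp_bound {A : E4 → (F →L[ℝ] G)} {τ : E4 → E4} (hA : CS A) (hτ : CS τ) (k : ℕ) :
    ∃ C, 0 ≤ C ∧ ∀ b B, ContDiff ℝ ∞ b → CkB k b B → CkB k (fun y => A y (b (τ y))) (C * B) := by
  obtain ⟨a, ha0, ha⟩ := hA.exists_ckB k
  obtain ⟨t, ht0, ht⟩ := hτ.exists_ckB k
  set D := max 1 t with hD
  have hD1 : 1 ≤ D := le_max_left _ _
  refine ⟨∑ n ∈ Finset.range (k + 1), ∑ i ∈ Finset.range (n + 1),
      (n.choose i : ℝ) * a * ((n - i)! * D ^ (n - i)), by positivity, ?_⟩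
  intro b B hb hB n hn x
  have hB0 : 0 ≤ B := hB.nonneg
  have hn' : ((n : ℕ) : WithTop ℕ∞) ≤ ∞ := by exact_mod_cast le_top
  have h1 := norm_iteratedFDeriv_clm_apply (n := n) (N := ∞) hA.1 (hb.comp hτ.1) x hn'
  refine h1.trans ?_
  have h2 : ∀ i ∈ Finset.range (n + 1), (n.choose i : ℝ) * ‖iteratedFDeriv ℝ i A x‖ *
      ‖iteratedFDeriv ℝ (n - i) (b ∘ τ) x‖ ≤
        ((n.choose i : ℝ) * a * ((n - i)! * D ^ (n - i))) * B := by
    intro i hi
    have hi' : i ≤ n := by simpa [Nat.lt_succ_iff] using hi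
    have h3 : ‖iteratedFDeriv ℝ (n - i) (b ∘ τ) x‖ ≤ (n - i)! * B * D ^ (n - i) := by
      refine norm_iteratedFDeriv_comp_le (N := ∞) hb hτ.1 (cast_le_infty _) x
        (fun j hj => hB j (by omega) _) ?_
      intro j hj1 hj
      calc ‖iteratedFDeriv ℝ j τ x‖ ≤ t := ht j (by omega) x
        _ ≤ D := le_max_right _ _
        _ ≤ D ^ j := le_self_pow₀ hD1 (by omega)
    have h4 : ‖iteratedFDeriv ℝ i A x‖ ≤ a := ha i (by omega) x
    calc (n.choose i : ℝ) * ‖iteratedFDeriv ℝ i A x‖ * ‖iteratedFDeriv ℝ (n - i) (b ∘ τ) x‖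
        ≤ (n.choose i : ℝ) * a * ((n - i)! * B * D ^ (n - i)) := by gcongr
      _ = _ := by ring
  refine (Finset.sum_le_sum h2).trans ?_
  rw [← Finset.sum_mul]
  refine mul_le_mul_of_nonneg_right ?_ hB0
  exact Finset.single_le_sum (f := fun n => ∑ i ∈ Finset.range (n + 1),
      (n.choose i : ℝ) * a * ((n - i)! * D ^ (n - i))) (fun m _ => by positivity)
    (Finset.mem_range.mpr (by omega))

/-- multiplication by a compactly supported smooth operator field. -/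
theorem mul_bound {A : E4 → (F →L[ℝ] G)} (hA : CS A) (k : ℕ) :
    ∃ C, 0 ≤ C ∧ ∀ b B, ContDiff ℝ ∞ b → CkB k b B → CkB k (fun y => A y (b y)) (C * B) := by
  obtain ⟨a, ha0, ha⟩ := hA.exists_ckB k
  refine ⟨∑ n ∈ Finset.range (k + 1), ∑ i ∈ Finset.range (n + 1),
      (n.choose i : ℝ) * a, by positivity, ?_⟩
  intro b B hb hB n hn x
  have hB0 : 0 ≤ B := hB.nonneg
  have hn' : ((n : ℕ) : WithTop ℕ∞) ≤ ∞ := by exact_mod_cast le_top
  have h1 := norm_iteratedFDeriv_clm_apply (n := n) (N := ∞) hA.1 hb x hn'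
  refine h1.trans ?_
  have h2 : ∀ i ∈ Finset.range (n + 1), (n.choose i : ℝ) * ‖iteratedFDeriv ℝ i A x‖ *
      ‖iteratedFDeriv ℝ (n - i) b x‖ ≤ ((n.choose i : ℝ) * a) * B := by
    intro i hi
    have hi' : i ≤ n := by simpa [Nat.lt_succ_iff] using hi
    have h3 : ‖iteratedFDeriv ℝ (n - i) b x‖ ≤ B := hB _ (by omega) x
    have h4 : ‖iteratedFDeriv ℝ i A x‖ ≤ a := ha i (by omega) x
    gcongr
  refine (Finset.sum_le_sum h2).trans ?_
  rw [← Finset.sum_mul]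
  refine mul_le_mul_of_nonneg_right ?_ hB0
  exact Finset.single_le_sum (f := fun n => ∑ i ∈ Finset.range (n + 1),
      (n.choose i : ℝ) * a) (fun m _ => by positivity)
    (Finset.mem_range.mpr (by omega))

/-- series of smooth functions with a common compact support. -/
theorem series {S : Set E4} (hS : IsCompact S) (u : ℕ → E4 → F) [CompleteSpace F]
    (hu : ∀ n, ContDiff ℝ ∞ (u n)) (hs : ∀ n x, x ∉ S → u n x = 0)
    (hsum : ∀ k, Summable fun n => nk k (u n)) :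
    CS (fun x => ∑' n, u n x) ∧ (∀ x, x ∉ S → ∑' n, u n x = 0) ∧
    (∀ x, Summable fun n => u n x) ∧
    ∀ k, nk k (fun x => ∑' n, u n x) ≤ ∑' n, nk k (u n) := by
  have hcs : ∀ n, CS (u n) := fun n =>
    ⟨hu n, HasCompactSupport.intro hS (fun x hx => hs n x hx)⟩
  have hC : ContDiff ℝ ∞ (fun x => ∑' n, u n x) := by
    refine contDiff_tsum (v := fun k n => nk k (u n)) hu (fun k _ => hsum k) ?_
    intro k n x _
    exact (hcs n).ckB_nk k k le_rfl x
  have h0 : ∀ x, x ∉ S → ∑' n, u n x = 0 := by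
    intro x hx
    simp [hs _ x hx]
  refine ⟨⟨hC, HasCompactSupport.intro hS h0⟩, h0, ?_, ?_⟩
  · intro x
    refine Summable.of_norm_bounded (hsum 0) (fun n => ?_)
    exact norm_le_nk (hcs n) 0 x
  · intro k
    refine nk_le ?_
    intro j hj x
    have h1 := iteratedFDeriv_tsum_apply (𝕜 := ℝ) (N := (⊤ : ℕ∞)) (f := u)
      (v := fun k n => nk k (u n)) hu (fun k _ => hsum k)
      (fun k n x _ => (hcs n).ckB_nk k k le_rfl x) (k := j) le_top x
    rw [h1]
    refine (norm_tsum_le_tsum_norm ?_).trans ?_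
    · refine Summable.of_nonneg_of_le (fun _ => norm_nonneg _) (fun n => ?_) (hsum k)
      exact (hcs n).ckB_nk k j hj x
    · refine Summable.tsum_le_tsum (fun n => (hcs n).ckB_nk k j hj x) ?_ (hsum k)
      refine Summable.of_nonneg_of_le (fun _ => norm_nonneg _) (fun n => ?_) (hsum k)
      exact (hcs n).ckB_nk k j hj x

end

end Crest.Agent.R240.Ell
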