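import Mathlib
import Crest.Agent.R240.TopDefs
import Crest.Agent.R240.Sm2
import Crest.Agent.R240.EllNorm

-- ▼ part R240/FunRep
section

set_option autoImplicit false

noncomputable section

open Set Filter Topology MeasureTheory Function
open scoped ContDiff BoundedContinuousFunction

namespace Crest.Agent.R240.FunRep

/-! ### families of bounded continuous functions with supports in a fixed compact set -/

section bcf

theorem continuous_bcf {Z E G : Type} [TopologicalSpace Z] [TopologicalSpace E]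
    [NormedAddCommGroup G] {K : Set E} (hK : IsCompact K) (F : Z → E →ᵇ G)
    (hF : Continuous fun p : Z × E => F p.1 p.2) (h0 : ∀ z, ∀ x, x ∉ K → F z x = 0) :
    Continuous F := by
  rw [continuous_iff_continuousAt]
  intro z0
  rw [Metric.continuousAt_iff']
  intro ε hε
  have h1 : ∀ᶠ z in 𝓝 z0, ∀ x ∈ K, dist (F z x) (F z0 x) < ε / 2 := by
    apply hK.eventually_forall_of_forall_eventually
    intro x hx
    have h2 : Continuous fun p : Z × E => dist (F p.1 p.2) (F z0 p.2) :=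
      hF.dist (hF.comp (continuous_const.prodMk continuous_snd))
    have h3 := h2.tendsto (z0, x)
    simp only [dist_self] at h3
    exact h3.eventually_lt_const (by positivity)
  filter_upwards [h1] with z hz
  refine lt_of_le_of_lt ((BoundedContinuousFunction.dist_le (by positivity)).2 fun x => ?_)
    (half_lt_self hε)
  by_cases hx : x ∈ K
  · exact (hz x hx).le
  · rw [h0 z x hx, h0 z0 x hx, dist_self]; positivity

/-- the bounded continuous function defined by a continuous function vanishing off a compact set -/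
def mkb {E G : Type} [TopologicalSpace E] [NormedAddCommGroup G] {K : Set E} (hK : IsCompact K)
    (f : E → G) (hf : Continuous f) (h0 : ∀ x, x ∉ K → f x = 0) : E →ᵇ G :=
  BoundedContinuousFunction.ofNormedAddCommGroup f hf
    (max 0 (hK.exists_bound_of_continuousOn hf.continuousOn).choose) (by
      intro x
      by_cases hx : x ∈ K
      · exact ((hK.exists_bound_of_continuousOn hf.continuousOn).choose_spec x hx).trans
          (le_max_right _ _)
      · rw [h0 x hx, norm_zero]; exact le_max_left _ _)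

@[simp] theorem mkb_apply {E G : Type} [TopologicalSpace E] [NormedAddCommGroup G] {K : Set E}
    (hK : IsCompact K) (f : E → G) (hf : Continuous f) (h0 : ∀ x, x ∉ K → f x = 0) (x : E) :
    mkb hK f hf h0 x = f x := rfl

/-- flip of a bounded family of linear maps -/
def flipB (E Z G : Type) [TopologicalSpace E] [NormedAddCommGroup Z] [NormedSpace ℝ Z]
    [NormedAddCommGroup G] [NormedSpace ℝ G] :
    (E →ᵇ (Z →L[ℝ] G)) →L[ℝ] (Z →L[ℝ] (E →ᵇ G)) :=
  LinearMap.mkContinuous₂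
    (LinearMap.mk₂ ℝ (fun (u : E →ᵇ (Z →L[ℝ] G)) (v : Z) =>
      (ContinuousLinearMap.apply ℝ G v).compLeftContinuousBounded E u)
      (by intro u u' v; ext x; simp) (by intro c u v; ext x; simp)
      (by intro u v v'; ext x; simp) (by intro c u v; ext x; simp)) 1 (by
      intro u v
      rw [one_mul]
      refine (BoundedContinuousFunction.norm_le (by positivity)).2 fun x => ?_
      simp only [LinearMap.mk₂_apply, ContinuousLinearMap.compLeftContinuousBounded_apply,
        ContinuousLinearMap.apply_apply]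
      exact ((u x).le_opNorm v).trans
        (mul_le_mul_of_nonneg_right (u.norm_coe_le_norm x) (norm_nonneg _)))

@[simp] theorem flipB_apply {E Z G : Type} [TopologicalSpace E] [NormedAddCommGroup Z]
    [NormedSpace ℝ Z] [NormedAddCommGroup G] [NormedSpace ℝ G] (u : E →ᵇ (Z →L[ℝ] G)) (v : Z)
    (x : E) : flipB E Z G u v x = u x v := by
  simp [flipB]

theorem fderiv_left_contDiff {Z E G : Type} [NormedAddCommGroup Z] [NormedSpace ℝ Z]
    [NormedAddCommGroup E] [NormedSpace ℝ E] [NormedAddCommGroup G] [NormedSpace ℝ G]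
    (F : Z → E → G) (hF : ContDiff ℝ ∞ (fun p : Z × E => F p.1 p.2)) :
    ContDiff ℝ ∞ (fun p : Z × E => fderiv ℝ (fun z => F z p.2) p.1) := by
  have h1 : ContDiff ℝ ∞ (uncurry fun (p : Z × E) (z : Z) => F z p.2) :=
    hF.comp (contDiff_snd.prodMk (contDiff_snd.comp contDiff_fst))
  exact ContDiff.fderiv h1 contDiff_fst (by norm_num)

theorem fderiv_right_contDiff {Z E G : Type} [NormedAddCommGroup Z] [NormedSpace ℝ Z]
    [NormedAddCommGroup E] [NormedSpace ℝ E] [NormedAddCommGroup G] [NormedSpace ℝ G]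
    (F : Z → E → G) (hF : ContDiff ℝ ∞ (fun p : Z × E => F p.1 p.2)) :
    ContDiff ℝ ∞ (fun p : Z × E => fderiv ℝ (F p.1) p.2) := by
  have h1 : ContDiff ℝ ∞ (uncurry fun (p : Z × E) (x : E) => F p.1 x) :=
    hF.comp ((contDiff_fst.comp contDiff_fst).prodMk contDiff_snd)
  exact ContDiff.fderiv h1 contDiff_snd (by norm_num)

theorem contDiff_bcf {Z E : Type} [NormedAddCommGroup Z] [NormedSpace ℝ Z]
    [NormedAddCommGroup E] [NormedSpace ℝ E] {K : Set E} (hK : IsCompact K) (n : ℕ) :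
    ∀ {G : Type} [NormedAddCommGroup G] [NormedSpace ℝ G] (F : Z → E →ᵇ G),
      ContDiff ℝ ∞ (fun p : Z × E => F p.1 p.2) → (∀ z, ∀ x, x ∉ K → F z x = 0) →
      ContDiff ℝ n F := by
  induction n with
  | zero =>
    intro G _ _ F hF h0
    exact contDiff_zero.2 (continuous_bcf hK F hF.continuous h0)
  | succ n ih =>
    intro G _ _ F hF h0
    have hD := fderiv_left_contDiff (fun z x => F z x) hF
    have hD0 : ∀ z, ∀ x, x ∉ K → fderiv ℝ (fun z' => F z' x) z = 0 := by
      intro z x hx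
      have : (fun z' => F z' x) = fun _ => (0 : G) := funext fun z' => h0 z' x hx
      rw [this]; simp
    set DF : Z → E →ᵇ (Z →L[ℝ] G) := fun z =>
      mkb hK (fun x => fderiv ℝ (fun z' => F z' x) z)
        (hD.continuous.comp (continuous_const.prodMk continuous_id)) (hD0 z) with hDF
    have hDFs : ContDiff ℝ n DF := ih DF hD hD0
    have hDFc : Continuous DF := continuous_bcf hK DF hD.continuous hD0
    have hcast : ((n + 1 : ℕ) : WithTop ℕ∞) = (n : WithTop ℕ∞) + 1 := by norm_cast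
    rw [hcast]
    refine contDiff_succ_iff_hasFDerivAt.2
      ⟨fun z => flipB E Z G (DF z), ?_, fun z => ?_⟩
    · have h1 : ContDiff ℝ (n : WithTop ℕ∞) (flipB E Z G) :=
        ContinuousLinearMap.contDiff (𝕜 := ℝ) (E := E →ᵇ (Z →L[ℝ] G)) (F := Z →L[ℝ] (E →ᵇ G))
          (flipB E Z G)
      exact h1.comp hDFs
    rw [hasFDerivAt_iff_isLittleO_nhds_zero, Asymptotics.isLittleO_iff]
    intro ε hε
    obtain ⟨δ, hδ, hδ'⟩ := Metric.continuousAt_iff.1 (hDFc.continuousAt (x := z)) ε hε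
    filter_upwards [Metric.ball_mem_nhds (0 : Z) hδ] with h hh
    have hh' : z + h ∈ Metric.ball z δ := by
      rw [Metric.mem_ball, dist_eq_norm] at hh ⊢
      simpa using hh
    refine (BoundedContinuousFunction.norm_le (by positivity)).2 fun x => ?_
    have hdiff : ∀ z' ∈ Metric.ball z δ, HasFDerivWithinAt (fun z' => F z' x) (DF z' x)
        (Metric.ball z δ) z' := by
      intro z' _
      have : DifferentiableAt ℝ (fun z' => F z' x) z' := by
        have h1 : ContDiff ℝ ∞ (fun z' => F z' x) := hF.comp (contDiff_id.prodMk contDiff_const)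
        exact h1.differentiable (by norm_num) z'
      exact this.hasFDerivAt.hasFDerivWithinAt
    have hbd : ∀ z' ∈ Metric.ball z δ, ‖DF z' x - DF z x‖ ≤ ε := by
      intro z' hz'
      have h1 := (hδ' hz').le
      rw [← dist_eq_norm]
      exact (BoundedContinuousFunction.dist_coe_le_dist x).trans h1
    have h2 := Convex.norm_image_sub_le_of_norm_hasFDerivWithin_le' hdiff hbd
      (convex_ball z δ) (Metric.mem_ball_self hδ) hh'
    simpa using h2

theorem contDiff_bcf_top {Z E G : Type} [NormedAddCommGroup Z] [NormedSpace ℝ Z]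
    [NormedAddCommGroup E] [NormedSpace ℝ E] [NormedAddCommGroup G] [NormedSpace ℝ G]
    {K : Set E} (hK : IsCompact K) (F : Z → E →ᵇ G)
    (hF : ContDiff ℝ ∞ (fun p : Z × E => F p.1 p.2)) (h0 : ∀ z, ∀ x, x ∉ K → F z x = 0) :
    ContDiff ℝ ∞ F :=
  contDiff_infty.2 fun n => contDiff_bcf hK n F hF h0

end bcf

/-! ### iterated derivatives of smooth families -/

section iter

variable {Z E : Type} [NormedAddCommGroup Z] [NormedSpace ℝ Z]
    [NormedAddCommGroup E] [NormedSpace ℝ E]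

theorem iter_contDiff {G : Type} [NormedAddCommGroup G] [NormedSpace ℝ G] (F : Z → E → G)
    (hF : ContDiff ℝ ∞ (fun p : Z × E => F p.1 p.2)) (k : ℕ) :
    ContDiff ℝ ∞ (fun p : Z × E => iteratedFDeriv ℝ k (F p.1) p.2) := by
  induction k with
  | zero =>
    have h1 : (fun p : Z × E => iteratedFDeriv ℝ 0 (F p.1) p.2) =
        fun p : Z × E => (continuousMultilinearCurryFin0 ℝ E G).symm (F p.1 p.2) := by
      funext p
      rw [iteratedFDeriv_zero_eq_comp]; rfl
    rw [h1]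
    exact (continuousMultilinearCurryFin0 ℝ E G).symm.contDiff.comp hF
  | succ k ih =>
    have h1 : (fun p : Z × E => iteratedFDeriv ℝ (k + 1) (F p.1) p.2) =
        fun p : Z × E => (continuousMultilinearCurryLeftEquiv ℝ (fun _ : Fin (k + 1) => E) G).symm
          (fderiv ℝ (iteratedFDeriv ℝ k (F p.1)) p.2) := by
      funext p
      rw [iteratedFDeriv_succ_eq_comp_left]; rfl
    rw [h1]
    exact (continuousMultilinearCurryLeftEquiv ℝ (fun _ : Fin (k + 1) => E) G).symm.contDiff.comp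
      (fderiv_right_contDiff (fun z => iteratedFDeriv ℝ k (F z)) ih)

theorem iter_zero {G : Type} [NormedAddCommGroup G] [NormedSpace ℝ G] {K : Set E}
    (hK : IsClosed K) {f : E → G} (h0 : ∀ x, x ∉ K → f x = 0) (k : ℕ) (x : E) (hx : x ∉ K) :
    iteratedFDeriv ℝ k f x = 0 := by
  by_contra h
  have h1 : x ∈ tsupport f := support_iteratedFDeriv_subset k h
  have h2 : tsupport f ⊆ K := closure_minimal (fun y hy => by
    by_contra hyK
    exact hy (h0 y hyK)) hK
  exact hx (h2 h1)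

end iter

/-! ### integrals of smooth families -/

section param

variable {Z E : Type} [NormedAddCommGroup Z] [NormedSpace ℝ Z] [MeasurableSpace Z] [BorelSpace Z]
    [NormedAddCommGroup E] [NormedSpace ℝ E] [FiniteDimensional ℝ E]
    (ν : Measure Z) [IsFiniteMeasureOnCompacts ν]

theorem hasFDerivAt_param {G : Type} [NormedAddCommGroup G] [NormedSpace ℝ G]
    {KZ : Set Z} (hKZ : IsCompact KZ) (F : Z → E → G)
    (hF : ContDiff ℝ ∞ (fun p : Z × E => F p.1 p.2)) (hz : ∀ z, z ∉ KZ → ∀ x, F z x = 0) (x : E) :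
    HasFDerivAt (fun x => ∫ z, F z x ∂ν) (∫ z, fderiv ℝ (F z) x ∂ν) x := by
  have : ProperSpace E := FiniteDimensional.proper_real E
  have hD := fderiv_right_contDiff F hF
  obtain ⟨C, hC⟩ := (hKZ.prod (isCompact_closedBall x 1)).exists_bound_of_continuousOn
    (f := fun p : Z × E => fderiv ℝ (F p.1) p.2) hD.continuous.continuousOn
  have hcs : ∀ x : E, HasCompactSupport fun z => F z x := fun x =>
    HasCompactSupport.intro hKZ fun z hz' => hz z hz' x
  have hD0 : ∀ z, z ∉ KZ → ∀ x, fderiv ℝ (F z) x = 0 := by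
    intro z hz' x
    have : F z = fun _ => (0 : G) := funext fun y => hz z hz' y
    rw [this]; simp
  have hcsD : ∀ x : E, HasCompactSupport fun z => fderiv ℝ (F z) x := fun x =>
    HasCompactSupport.intro hKZ fun z hz' => hD0 z hz' x
  have hc : ∀ x : E, Continuous fun z => F z x := fun x =>
    hF.continuous.comp (continuous_id.prodMk continuous_const)
  have hcD : ∀ x : E, Continuous fun z => fderiv ℝ (F z) x := fun x =>
    hD.continuous.comp (continuous_id.prodMk continuous_const)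
  refine hasFDerivAt_integral_of_dominated_of_fderiv_le (𝕜 := ℝ) (μ := ν)
    (F := fun x z => F z x) (F' := fun x z => fderiv ℝ (F z) x) (x₀ := x)
    (bound := KZ.indicator fun _ => max C 0)
    (s := Metric.ball x 1) (Metric.ball_mem_nhds x one_pos) ?_ ?_ ?_ ?_ ?_ ?_
  · exact Eventually.of_forall fun y => ((hc y).integrable_of_hasCompactSupport (hcs y)).aestronglyMeasurable
  · exact (hc x).integrable_of_hasCompactSupport (hcs x)
  · exact ((hcD x).integrable_of_hasCompactSupport (hcsD x)).aestronglyMeasurable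
  · refine Eventually.of_forall fun z y hy => ?_
    by_cases hz' : z ∈ KZ
    · rw [indicator_of_mem hz']
      exact (hC (z, y) ⟨hz', Metric.ball_subset_closedBall hy⟩).trans (le_max_left _ _)
    · rw [indicator_of_notMem hz', hD0 z hz', norm_zero]
  · rw [integrable_indicator_iff hKZ.measurableSet]
    exact integrableOn_const hKZ.measure_lt_top.ne
  · refine Eventually.of_forall fun z y _ => ?_
    have h1 : ContDiff ℝ ∞ (F z) := hF.comp (contDiff_const.prodMk contDiff_id)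
    exact (h1.differentiable (by norm_num) y).hasFDerivAt

theorem contDiff_param {KZ : Set Z} (hKZ : IsCompact KZ) (n : ℕ) :
    ∀ {G : Type} [NormedAddCommGroup G] [NormedSpace ℝ G] (F : Z → E → G),
      ContDiff ℝ ∞ (fun p : Z × E => F p.1 p.2) → (∀ z, z ∉ KZ → ∀ x, F z x = 0) →
      ContDiff ℝ n (fun x => ∫ z, F z x ∂ν) := by
  induction n with
  | zero =>
    intro G _ _ F hF hz
    refine contDiff_zero.2 ?_
    rw [continuous_iff_continuousAt]
    exact fun x => (hasFDerivAt_param ν hKZ F hF hz x).continuousAt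
  | succ n ih =>
    intro G _ _ F hF hz
    have hcast : ((n + 1 : ℕ) : WithTop ℕ∞) = (n : WithTop ℕ∞) + 1 := by norm_cast
    rw [hcast]
    refine contDiff_succ_iff_hasFDerivAt.2 ⟨fun x => ∫ z, fderiv ℝ (F z) x ∂ν, ?_,
      fun x => hasFDerivAt_param ν hKZ F hF hz x⟩
    refine ih (fun z x => fderiv ℝ (F z) x) (fderiv_right_contDiff F hF) fun z hz' x => ?_
    have : F z = fun _ => (0 : G) := funext fun y => hz z hz' y
    rw [this]; simp

theorem contDiff_param_top {G : Type} [NormedAddCommGroup G] [NormedSpace ℝ G]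
    {KZ : Set Z} (hKZ : IsCompact KZ) (F : Z → E → G)
    (hF : ContDiff ℝ ∞ (fun p : Z × E => F p.1 p.2)) (hz : ∀ z, z ∉ KZ → ∀ x, F z x = 0) :
    ContDiff ℝ ∞ (fun x => ∫ z, F z x ∂ν) :=
  contDiff_infty.2 fun n => contDiff_param ν hKZ n F hF hz

theorem iter_param {G : Type} [NormedAddCommGroup G] [NormedSpace ℝ G] [CompleteSpace G]
    {KZ : Set Z} (hKZ : IsCompact KZ) (F : Z → E → G)
    (hF : ContDiff ℝ ∞ (fun p : Z × E => F p.1 p.2)) (hz : ∀ z, z ∉ KZ → ∀ x, F z x = 0) (k : ℕ) :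
    iteratedFDeriv ℝ k (fun x => ∫ z, F z x ∂ν) = fun x => ∫ z, iteratedFDeriv ℝ k (F z) x ∂ν := by
  induction k with
  | zero =>
    funext x
    rw [iteratedFDeriv_zero_eq_comp]
    simp only [iteratedFDeriv_zero_eq_comp, Function.comp_apply]
    exact ((continuousMultilinearCurryFin0 ℝ E G).symm.toContinuousLinearEquiv.integral_comp_comm
      (μ := ν) (fun z => F z x)).symm
  | succ k ih =>
    funext x
    have h1 : ∀ f : E → G, iteratedFDeriv ℝ (k + 1) f x =
        (continuousMultilinearCurryLeftEquiv ℝ (fun _ : Fin (k + 1) => E) G).symm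
          (fderiv ℝ (iteratedFDeriv ℝ k f) x) := by
      intro f
      rw [iteratedFDeriv_succ_eq_comp_left]; rfl
    rw [h1, ih]
    have hz' : ∀ z, z ∉ KZ → ∀ x, iteratedFDeriv ℝ k (F z) x = 0 := by
      intro z hz1 x
      have : F z = fun _ => (0 : G) := funext fun y => hz z hz1 y
      rw [this]
      simp
    rw [(hasFDerivAt_param ν hKZ (fun z => iteratedFDeriv ℝ k (F z)) (iter_contDiff F hF k)
      hz' x).fderiv]
    simp only [h1]
    exact (LinearIsometry.integral_comp_comm (𝕜 := ℝ) (E := E →L[ℝ] E [×k]→L[ℝ] G)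
      (F := E [×(k + 1)]→L[ℝ] G) (μ := ν)
      (continuousMultilinearCurryLeftEquiv ℝ (fun _ : Fin (k + 1) => E) G).symm.toLinearIsometry
        (fun z => fderiv ℝ (iteratedFDeriv ℝ k (F z)) x)).symm

end param

/-! ### functionals of finite order -/

section functional

variable {E : Type} [NormedAddCommGroup E] [NormedSpace ℝ E]
  {G : Type} [NormedAddCommGroup G] [NormedSpace ℝ G]

/-- smooth functions vanishing off `K` -/
def DK (K : Set E) (G : Type) [NormedAddCommGroup G] [NormedSpace ℝ G] :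
    Submodule ℝ (E → G) where
  carrier := {f | ContDiff ℝ ∞ f ∧ ∀ x, x ∉ K → f x = 0}
  add_mem' := by
    rintro f g ⟨hf, hf0⟩ ⟨hg, hg0⟩
    refine ⟨hf.add hg, fun x hx => ?_⟩
    show f x + g x = 0
    rw [hf0 x hx, hg0 x hx, add_zero]
  zero_mem' := ⟨contDiff_const, fun x _ => rfl⟩
  smul_mem' := by
    rintro c f ⟨hf, hf0⟩
    refine ⟨contDiff_const.smul hf, fun x hx => ?_⟩
    show c • f x = 0
    rw [hf0 x hx, smul_zero]

theorem mem_DK {K : Set E} {f : E → G} :
    f ∈ DK K G ↔ ContDiff ℝ ∞ f ∧ ∀ x, x ∉ K → f x = 0 := Iff.rfl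

/-- the space of jets -/
def JX (E G : Type) [NormedAddCommGroup E] [NormedSpace ℝ E] [NormedAddCommGroup G]
    [NormedSpace ℝ G] (m : ℕ) : Type :=
  ∀ k : Fin (m + 1), E →ᵇ (E [×(k : ℕ)]→L[ℝ] G)

instance (m : ℕ) : NormedAddCommGroup (JX E G m) :=
  inferInstanceAs (NormedAddCommGroup (∀ k : Fin (m + 1), E →ᵇ (E [×(k : ℕ)]→L[ℝ] G)))

instance (m : ℕ) : NormedSpace ℝ (JX E G m) :=
  inferInstanceAs (NormedSpace ℝ (∀ k : Fin (m + 1), E →ᵇ (E [×(k : ℕ)]→L[ℝ] G)))

instance (m : ℕ) [CompleteSpace G] : CompleteSpace (JX E G m) :=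
  inferInstanceAs (CompleteSpace (∀ k : Fin (m + 1), E →ᵇ (E [×(k : ℕ)]→L[ℝ] G)))

/-- component of a jet -/
def JX.cmp (m : ℕ) (k : Fin (m + 1)) : JX E G m →L[ℝ] (E →ᵇ (E [×(k : ℕ)]→L[ℝ] G)) :=
  ContinuousLinearMap.proj (R := ℝ) (φ := fun k : Fin (m + 1) => E →ᵇ (E [×(k : ℕ)]→L[ℝ] G)) k

theorem JX.ext' {m : ℕ} {u v : JX E G m} (h : ∀ k x, JX.cmp m k u x = JX.cmp m k v x) : u = v := by
  funext k
  exact BoundedContinuousFunction.ext (h k)

theorem JX.norm_cmp_le {m : ℕ} (u : JX E G m) (k : Fin (m + 1)) : ‖JX.cmp m k u‖ ≤ ‖u‖ :=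
  norm_le_pi_norm (show ∀ k : Fin (m + 1), E →ᵇ (E [×(k : ℕ)]→L[ℝ] G) from u) k

/-- the jet of a function of `DK` -/
def jet {K : Set E} (hK : IsCompact K) (m : ℕ) : DK K G →ₗ[ℝ] JX E G m where
  toFun f := fun k => mkb hK (iteratedFDeriv ℝ (k : ℕ) (f : E → G))
    (f.2.1.continuous_iteratedFDeriv (by exact_mod_cast le_top))
    (iter_zero hK.isClosed f.2.2 k)
  map_add' := by
    intro f g
    funext k
    refine BoundedContinuousFunction.ext fun x => ?_
    exact iteratedFDeriv_add_apply (f.2.1.contDiffAt.of_le (by exact_mod_cast le_top))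
      (g.2.1.contDiffAt.of_le (by exact_mod_cast le_top))
  map_smul' := by
    intro c f
    funext k
    refine BoundedContinuousFunction.ext fun x => ?_
    exact iteratedFDeriv_const_smul_apply (f.2.1.contDiffAt.of_le (by exact_mod_cast le_top))

theorem jet_apply {K : Set E} (hK : IsCompact K) (m : ℕ) (f : DK K G) (k : Fin (m + 1)) (x : E) :
    JX.cmp m k (jet hK m f) x = iteratedFDeriv ℝ (k : ℕ) (f : E → G) x := rfl

theorem jet_injective {K : Set E} (hK : IsCompact K) (m : ℕ) :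
    Function.Injective (jet (G := G) hK m) := by
  intro f g h
  ext x
  have h1 : JX.cmp m 0 (jet hK m f) x = JX.cmp m 0 (jet hK m g) x := by rw [h]
  rw [jet_apply, jet_apply] at h1
  have h2 := congrArg (fun u : E [×0]→L[ℝ] G => u 0) h1
  simpa using h2

/-- `L` is a functional of order `m` on `DK K G` -/
structure FinOrd (K : Set E) (m : ℕ) (C : ℝ) (L : (E → G) → ℝ) : Prop where
  add : ∀ f g, f ∈ DK K G → g ∈ DK K G → L (f + g) = L f + L g
  smul : ∀ (c : ℝ) f, f ∈ DK K G → L (c • f) = c * L f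
  bd : ∀ f, f ∈ DK K G → ∀ A : ℝ, (∀ k ≤ m, ∀ x, ‖iteratedFDeriv ℝ k f x‖ ≤ A) → |L f| ≤ C * A

theorem FinOrd.exists_ext {K : Set E} (hK : IsCompact K) {m : ℕ} {C : ℝ} {L : (E → G) → ℝ}
    (hL : FinOrd K m C L) :
    ∃ Λ : JX E G m →L[ℝ] ℝ, ∀ f : DK K G, L f = Λ (jet hK m f) := by
  let L' : DK K G →ₗ[ℝ] ℝ :=
    { toFun := fun f => L f
      map_add' := fun f g => hL.add f g f.2 g.2
      map_smul' := fun c f => by
        simp only [Submodule.coe_smul, RingHom.id_apply, smul_eq_mul]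
        exact hL.smul c f f.2 }
  let e := LinearEquiv.ofInjective (jet (G := G) hK m) (jet_injective hK m)
  let ℓ : LinearMap.range (jet (G := G) hK m) →ₗ[ℝ] ℝ := L'.comp e.symm.toLinearMap
  have hbd : ∀ f : DK K G, |L f| ≤ C * ‖jet hK m f‖ := by
    intro f
    refine hL.bd f f.2 _ fun k hk x => ?_
    have h1 := (JX.cmp m ⟨k, Nat.lt_succ_of_le hk⟩ (jet hK m f)).norm_coe_le_norm x
    exact h1.trans (JX.norm_cmp_le (jet hK m f) ⟨k, Nat.lt_succ_of_le hk⟩)
  let ℓ' : LinearMap.range (jet (G := G) hK m) →L[ℝ] ℝ := ℓ.mkContinuous C (by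
    intro u
    obtain ⟨f, rfl⟩ := e.surjective u
    have h1 : ℓ (e f) = L f := by simp [ℓ, L']
    rw [h1, Real.norm_eq_abs]
    exact hbd f)
  obtain ⟨Λ, hΛ, -⟩ := exists_extension_norm_eq (LinearMap.range (jet (G := G) hK m)) ℓ'
  refine ⟨Λ, fun f => ?_⟩
  have h1 := hΛ (e f)
  have h2 : ((e f : LinearMap.range (jet (G := G) hK m)) : JX E G m) = jet hK m f := rfl
  rw [h2] at h1
  rw [h1]
  simp [ℓ', ℓ, L']

end functional

section family

variable {Z E G : Type} [NormedAddCommGroup Z] [NormedSpace ℝ Z]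
  [NormedAddCommGroup E] [NormedSpace ℝ E] [NormedAddCommGroup G] [NormedSpace ℝ G]
  {K : Set E}

theorem fam_mem {F : Z → E → G} (hF : ContDiff ℝ ∞ (fun p : Z × E => F p.1 p.2))
    (h0 : ∀ z x, x ∉ K → F z x = 0) (z : Z) : F z ∈ DK K G :=
  ⟨hF.comp (contDiff_const.prodMk contDiff_id), fun x hx => h0 z x hx⟩

theorem contDiff_jet (hK : IsCompact K) (m : ℕ) (F : Z → E → G)
    (hF : ContDiff ℝ ∞ (fun p : Z × E => F p.1 p.2)) (h0 : ∀ z x, x ∉ K → F z x = 0) :
    ContDiff ℝ ∞ (fun z => jet hK m ⟨F z, fam_mem hF h0 z⟩) := by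
  refine contDiff_pi.2 fun k => ?_
  exact contDiff_bcf_top hK _ (iter_contDiff F hF k)
    (fun z x hx => iter_zero hK.isClosed (h0 z) k x hx)

/-- a functional of finite order is smooth along smooth families -/
theorem FinOrd.contDiff (hK : IsCompact K) {m : ℕ} {C : ℝ} {L : (E → G) → ℝ}
    (hL : FinOrd K m C L) (F : Z → E → G)
    (hF : ContDiff ℝ ∞ (fun p : Z × E => F p.1 p.2)) (h0 : ∀ z x, x ∉ K → F z x = 0) :
    ContDiff ℝ ∞ (fun z => L (F z)) := by
  obtain ⟨Λ, hΛ⟩ := hL.exists_ext hK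
  have h1 : (fun z => L (F z)) = fun z => Λ (jet hK m ⟨F z, fam_mem hF h0 z⟩) := by
    funext z
    exact hΛ ⟨F z, fam_mem hF h0 z⟩
  rw [h1]
  exact Λ.contDiff.comp (contDiff_jet hK m F hF h0)

/-- interchange of a functional of finite order with the integral of a smooth family -/
theorem FinOrd.integral [MeasurableSpace Z] [BorelSpace Z] [FiniteDimensional ℝ E]
    [CompleteSpace G] (ν : Measure Z) [IsFiniteMeasureOnCompacts ν]
    (hK : IsCompact K) {m : ℕ} {C : ℝ} {L : (E → G) → ℝ}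
    (hL : FinOrd K m C L) {KZ : Set Z} (hKZ : IsCompact KZ) (F : Z → E → G)
    (hF : ContDiff ℝ ∞ (fun p : Z × E => F p.1 p.2)) (h0 : ∀ z x, x ∉ K → F z x = 0)
    (hz : ∀ z, z ∉ KZ → ∀ x, F z x = 0) :
    (fun x => ∫ z, F z x ∂ν) ∈ DK K G ∧
    Integrable (fun z => L (F z)) ν ∧
    L (fun x => ∫ z, F z x ∂ν) = ∫ z, L (F z) ∂ν := by
  have hmem : (fun x => ∫ z, F z x ∂ν) ∈ DK K G := by
    refine ⟨contDiff_param_top ν hKZ F hF hz, fun x hx => ?_⟩
    simp [h0 _ x hx]
  obtain ⟨Λ, hΛ⟩ := hL.exists_ext hK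
  set j : Z → JX E G m := fun z => jet hK m ⟨F z, fam_mem hF h0 z⟩ with hj
  have hjc : Continuous j := (contDiff_jet hK m F hF h0).continuous
  have hjs : HasCompactSupport j := by
    refine HasCompactSupport.intro hKZ fun z hz' => ?_
    have h1 : (⟨F z, fam_mem hF h0 z⟩ : DK K G) = 0 := by
      ext x; exact hz z hz' x
    simp only [hj]
    rw [h1, map_zero]
  have hji : Integrable j ν := hjc.integrable_of_hasCompactSupport hjs
  have hLj : ∀ z, L (F z) = Λ (j z) := fun z => hΛ ⟨F z, fam_mem hF h0 z⟩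
  have hjet : jet hK m ⟨_, hmem⟩ = ∫ z, j z ∂ν := by
    refine JX.ext' fun k x => ?_
    rw [jet_apply]
    have h1 : iteratedFDeriv ℝ (k : ℕ) (fun x => ∫ z, F z x ∂ν) x =
        ∫ z, iteratedFDeriv ℝ (k : ℕ) (F z) x ∂ν := by
      rw [iter_param ν hKZ F hF hz k]
    have h2 := ContinuousLinearMap.integral_comp_comm
      ((BoundedContinuousFunction.evalCLM ℝ x).comp (JX.cmp (E := E) (G := G) m k)) hji
    exact h1.trans h2
  refine ⟨hmem, ?_, ?_⟩
  · simp only [hLj]
    exact Λ.integrable_comp hji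
  · rw [hΛ ⟨_, hmem⟩, hjet]
    simp only [hLj]
    exact (Λ.integral_comp_comm hji).symm

end family

/-! ### representation by smooth densities -/

section rep

theorem contDiff_of_tsup {X G : Type} [NormedAddCommGroup X] [NormedSpace ℝ X]
    [NormedAddCommGroup G] [NormedSpace ℝ G] {f : X → G}
    (h : ∀ x ∈ tsupport f, ContDiffAt ℝ ∞ f x) : ContDiff ℝ ∞ f := by
  rw [contDiff_iff_contDiffAt]
  intro x
  by_cases hx : x ∈ tsupport f
  · exact h x hx
  · exact (contDiffAt_const (c := (0 : G))).congr_of_eventuallyEq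
      (notMem_tsupport_iff_eventuallyEq.1 hx)

/-- cutting off a function of two variables which is smooth over an open set of the first one -/
theorem contDiff_cut {Y E X G : Type} [NormedAddCommGroup Y] [NormedSpace ℝ Y]
    [NormedAddCommGroup E] [NormedSpace ℝ E] [NormedAddCommGroup X] [NormedSpace ℝ X]
    [NormedAddCommGroup G] [NormedSpace ℝ G] {V : Set Y} (hV : IsOpen V)
    (f : Y → G) (hf : ContDiff ℝ ∞ f) (hfV : tsupport f ⊆ V)
    (k : Y → E → (G →L[ℝ] X)) (hk : ContDiffOn ℝ ∞ (fun p : Y × E => k p.1 p.2) (V ×ˢ univ)) :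
    ContDiff ℝ ∞ (fun p : Y × E => k p.1 p.2 (f p.1)) := by
  refine contDiff_of_tsup fun p hp => ?_
  have h1 : tsupport (fun p : Y × E => k p.1 p.2 (f p.1)) ⊆ Prod.fst ⁻¹' (tsupport f) := by
    refine closure_minimal (fun q hq => ?_) ((isClosed_tsupport f).preimage continuous_fst)
    refine subset_tsupport f ?_
    intro h
    refine hq ?_
    show k q.1 q.2 (f q.1) = 0
    rw [h, map_zero]
  have h2 : p.1 ∈ V := hfV (h1 hp)
  have h3 : ContDiffAt ℝ ∞ (fun p : Y × E => k p.1 p.2) p :=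
    hk.contDiffAt ((hV.prod isOpen_univ).mem_nhds ⟨h2, mem_univ _⟩)
  exact h3.clm_apply (hf.comp contDiff_fst).contDiffAt

variable {Y E G X : Type} [NormedAddCommGroup Y] [NormedSpace ℝ Y]
  [NormedAddCommGroup E] [NormedSpace ℝ E]
  [NormedAddCommGroup G] [NormedSpace ℝ G] [NormedAddCommGroup X] [NormedSpace ℝ X]
  {K : Set E} {m : ℕ} {C : ℝ} {L : (E → X) → ℝ} {V : Set Y} {k : Y → E → (G →L[ℝ] X)}

theorem ker_mem (hk : ContDiffOn ℝ ∞ (fun p : Y × E => k p.1 p.2) (V ×ˢ univ)) (hV : IsOpen V)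
    (h0 : ∀ y ∈ V, ∀ x, x ∉ K → k y x = 0) {y : Y} (hy : y ∈ V) (g : G) :
    (fun x => k y x g) ∈ DK K X := by
  refine ⟨?_, fun x hx => by simp only [h0 y hy x hx]; simp⟩
  rw [contDiff_iff_contDiffAt]
  intro x
  have h3 : ContDiffAt ℝ ∞ (fun p : Y × E => k p.1 p.2) (y, x) :=
    hk.contDiffAt ((hV.prod isOpen_univ).mem_nhds ⟨hy, mem_univ _⟩)
  have h4 : ContDiffAt ℝ ∞ (fun x : E => (y, x)) x :=
    contDiffAt_const.prodMk contDiffAt_id
  exact (h3.comp x h4).clm_apply contDiffAt_const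

/-- the density of `L` applied to a kernel -/
def theta [FiniteDimensional ℝ G] (hL : FinOrd K m C L)
    (hk : ContDiffOn ℝ ∞ (fun p : Y × E => k p.1 p.2) (V ×ˢ univ)) (hV : IsOpen V)
    (h0 : ∀ y ∈ V, ∀ x, x ∉ K → k y x = 0) (y : Y) : G →L[ℝ] ℝ := by
  classical
  exact if hy : y ∈ V then
    LinearMap.toContinuousLinearMap
    { toFun := fun g => L (fun x => k y x g)
      map_add' := by
        intro g g'
        have h1 := hL.add _ _ (ker_mem hk hV h0 hy g) (ker_mem hk hV h0 hy g')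
        rw [← h1]
        congr 1
        funext x
        simp
      map_smul' := by
        intro c g
        have h1 := hL.smul c _ (ker_mem hk hV h0 hy g)
        rw [RingHom.id_apply, smul_eq_mul, ← h1]
        congr 1
        funext x
        simp }
  else 0

theorem theta_apply [FiniteDimensional ℝ G] (hL : FinOrd K m C L)
    (hk : ContDiffOn ℝ ∞ (fun p : Y × E => k p.1 p.2) (V ×ˢ univ)) (hV : IsOpen V)
    (h0 : ∀ y ∈ V, ∀ x, x ∉ K → k y x = 0) {y : Y} (hy : y ∈ V) (g : G) :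
    theta hL hk hV h0 y g = L (fun x => k y x g) := by
  rw [theta, dif_pos hy]
  rfl

theorem theta_contDiffOn [FiniteDimensional ℝ G] [FiniteDimensional ℝ Y] (hK : IsCompact K)
    (hL : FinOrd K m C L)
    (hk : ContDiffOn ℝ ∞ (fun p : Y × E => k p.1 p.2) (V ×ˢ univ)) (hV : IsOpen V)
    (h0 : ∀ y ∈ V, ∀ x, x ∉ K → k y x = 0) :
    ContDiffOn ℝ ∞ (theta hL hk hV h0) V := by
  rw [contDiffOn_clm_apply]
  intro g y0 hy0
  refine ContDiffAt.contDiffWithinAt ?_
  obtain ⟨ρ, hρ, hρV⟩ := Metric.isOpen_iff.1 hV y0 hy0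
  let χ : ContDiffBump y0 := ⟨ρ / 4, ρ / 2, by positivity, by linarith⟩
  have hχV : tsupport (fun y => χ y • g) ⊆ V := by
    refine (tsupport_smul_subset_left (fun y => χ y) (fun _ => g)).trans ?_
    rw [χ.tsupport_eq]
    exact (Metric.closedBall_subset_ball (by simp [χ]; linarith)).trans hρV
  have hχ : ContDiff ℝ ∞ (fun y => χ y • g) := χ.contDiff.smul contDiff_const
  have h1 := contDiff_cut hV _ hχ hχV k hk
  have h2 : ∀ y x, x ∉ K → k y x (χ y • g) = 0 := by
    intro y x hx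
    by_cases hy : y ∈ V
    · rw [h0 y hy x hx]; simp
    · have : χ y • g = 0 := by
        by_contra h
        exact hy (hχV (subset_tsupport _ h))
      rw [this, map_zero]
  have h3 := FinOrd.contDiff hK hL (fun y x => k y x (χ y • g)) h1 h2
  refine h3.contDiffAt.congr_of_eventuallyEq ?_
  filter_upwards [χ.eventuallyEq_one, hV.mem_nhds hy0] with y hy hyV
  rw [theta_apply hL hk hV h0 hyV g]
  congr 1
  funext x
  rw [hy]
  simp

theorem theta_le [FiniteDimensional ℝ G] (hL : FinOrd K m C L)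
    (hk : ContDiffOn ℝ ∞ (fun p : Y × E => k p.1 p.2) (V ×ˢ univ)) (hV : IsOpen V)
    (h0 : ∀ y ∈ V, ∀ x, x ∉ K → k y x = 0) {y : Y} (hy : y ∈ V) (g : G) (A : ℝ)
    (hA : ∀ j ≤ m, ∀ x, ‖iteratedFDeriv ℝ j (fun x => k y x g) x‖ ≤ A) :
    |theta hL hk hV h0 y g| ≤ C * A := by
  rw [theta_apply hL hk hV h0 hy g]
  exact hL.bd _ (ker_mem hk hV h0 hy g) A hA

/-- **Representation**: after application of a smooth kernel a functional of finite order
is given by a smooth density. -/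
theorem theta_rep [FiniteDimensional ℝ G] [FiniteDimensional ℝ E] [CompleteSpace X]
    [MeasurableSpace Y] [BorelSpace Y] (ν : Measure Y) [IsFiniteMeasureOnCompacts ν]
    (hK : IsCompact K)
    (hL : FinOrd K m C L)
    (hk : ContDiffOn ℝ ∞ (fun p : Y × E => k p.1 p.2) (V ×ˢ univ)) (hV : IsOpen V)
    (h0 : ∀ y ∈ V, ∀ x, x ∉ K → k y x = 0)
    {f : Y → G} (hf : ContDiff ℝ ∞ f) (hfc : HasCompactSupport f) (hfV : tsupport f ⊆ V) :
    (fun x => ∫ y, k y x (f y) ∂ν) ∈ DK K X ∧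
    Integrable (fun y => theta hL hk hV h0 y (f y)) ν ∧
    L (fun x => ∫ y, k y x (f y) ∂ν) = ∫ y, theta hL hk hV h0 y (f y) ∂ν := by
  have h1 := contDiff_cut hV _ hf hfV k hk
  have h2 : ∀ y x, x ∉ K → k y x (f y) = 0 := by
    intro y x hx
    by_cases hy : y ∈ V
    · rw [h0 y hy x hx]; simp
    · have : f y = 0 := by
        by_contra h
        exact hy (hfV (subset_tsupport _ h))
      rw [this, map_zero]
  have h3 : ∀ y, y ∉ tsupport f → ∀ x, k y x (f y) = 0 := by
    intro y hy x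
    rw [image_eq_zero_of_notMem_tsupport hy, map_zero]
  obtain ⟨ha, hb, hc⟩ := FinOrd.integral ν hK hL (KZ := tsupport f) hfc
    (fun y x => k y x (f y)) h1 h2 h3
  have h4 : ∀ y, L (fun x => k y x (f y)) = theta hL hk hV h0 y (f y) := by
    intro y
    by_cases hy : y ∈ V
    · rw [theta_apply hL hk hV h0 hy]
    · have h5 : f y = 0 := by
        by_contra h
        exact hy (hfV (subset_tsupport _ h))
      have h6 : (fun x => k y x (f y)) = (0 : ℝ) • (0 : E → X) := by
        funext x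
        rw [h5, map_zero]
        simp
      rw [h5, map_zero]
      have h7 : (fun x => k y x (0 : G)) = (0 : ℝ) • (0 : E → X) := by
        rw [← h6, h5]
      rw [h7, hL.smul 0 0 (Submodule.zero_mem _), zero_mul]
  refine ⟨ha, ?_, ?_⟩
  · simpa only [h4] using hb
  · rw [hc]
    simp only [h4]

end rep

/-! ### convolution kernels -/

section conv

variable {E G : Type} [NormedAddCommGroup E] [NormedSpace ℝ E] [FiniteDimensional ℝ E]
  [MeasurableSpace E] [BorelSpace E]
  [NormedAddCommGroup G] [NormedSpace ℝ G]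

/-- the scaled averaging `∫ κ(z) b(x + ε z) dz` as a convolution -/
theorem scaled_average (μ : Measure E) [μ.IsAddHaarMeasure] (κ : E → ℝ) (b : E → G)
    {ε : ℝ} (hε : 0 < ε) (x : E) :
    ∫ z, κ z • b (x + ε • z) ∂μ =
      ∫ y, ((ε ^ Module.finrank ℝ E)⁻¹ * κ (ε⁻¹ • (y - x))) • b y ∂μ := by
  have h1 : ∫ y, ((ε ^ Module.finrank ℝ E)⁻¹ * κ (ε⁻¹ • (y - x))) • b y ∂μ =
      ∫ y, ((ε ^ Module.finrank ℝ E)⁻¹ * κ (ε⁻¹ • y)) • b (x + y) ∂μ := by
    rw [← integral_add_left_eq_self (μ := μ)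
      (fun y => ((ε ^ Module.finrank ℝ E)⁻¹ * κ (ε⁻¹ • (y - x))) • b y) x]
    simp
  rw [h1]
  have h2 := Measure.integral_comp_smul_of_nonneg μ (fun y => κ (ε⁻¹ • y) • b (x + y)) ε
    (hR := hε.le)
  have h3 : ∀ z : E, ε⁻¹ • ε • z = z := fun z => by
    rw [smul_smul, inv_mul_cancel₀ hε.ne', one_smul]
  simp only [h3] at h2
  rw [h2, ← integral_smul]
  congr 1
  funext y
  rw [smul_smul]

omit [FiniteDimensional ℝ E] [MeasurableSpace E] [BorelSpace E] in
/-- derivatives of `x ↦ κ (y - x) • g` -/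
theorem norm_iter_conv_le {κ : E → ℝ} (hκ : ContDiff ℝ ∞ κ) (y : E) (g : G) (j : ℕ) (x : E) :
    ‖iteratedFDeriv ℝ j (fun x => κ (y - x) • g) x‖ ≤
      ‖g‖ * ‖iteratedFDeriv ℝ j κ (y - x)‖ := by
  have h1 : (fun x => κ (y - x) • g) =
      (ContinuousLinearMap.toSpanSingleton ℝ g) ∘ (fun x => κ (y - x)) := by
    funext x
    simp [ContinuousLinearMap.toSpanSingleton_apply]
  have hκ' : ContDiff ℝ ∞ (fun x => κ (y - x)) := hκ.comp (contDiff_const.sub contDiff_id)
  rw [h1]
  refine (ContinuousLinearMap.norm_iteratedFDeriv_comp_left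
    (ContinuousLinearMap.toSpanSingleton ℝ g) (N := ∞) hκ'.contDiffAt
      (by exact_mod_cast le_top)).trans ?_
  rw [ContinuousLinearMap.norm_toSpanSingleton]
  refine mul_le_mul_of_nonneg_left ?_ (norm_nonneg _)
  have h2 : (fun x => κ (y - x)) = (fun x => (fun u => κ (y + u)) x) ∘ (LinearIsometryEquiv.neg ℝ) := by
    funext x
    simp [sub_eq_add_neg]
  rw [h2, LinearIsometryEquiv.norm_iteratedFDeriv_comp_right]
  have h3 := iteratedFDeriv_comp_add_left (𝕜 := ℝ) (f := κ) j y (LinearIsometryEquiv.neg ℝ x)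
  rw [h3]
  simp [sub_eq_add_neg]

omit [FiniteDimensional ℝ E] [MeasurableSpace E] [BorelSpace E] in
theorem iter_scaled {κ : E → ℝ} (hκ : ContDiff ℝ ∞ κ) {ε : ℝ} (hε : 0 < ε) (j : ℕ) (x : E) :
    ‖iteratedFDeriv ℝ j (fun u => (ε ^ Module.finrank ℝ E)⁻¹ * κ (ε⁻¹ • u)) x‖ ≤
      (ε ^ (Module.finrank ℝ E + j))⁻¹ * ‖iteratedFDeriv ℝ j κ (ε⁻¹ • x)‖ := by
  have hκ' : ContDiff ℝ ∞ (fun u : E => κ (ε⁻¹ • u)) := hκ.comp (contDiff_const_smul _)
  have h1 : (fun u => (ε ^ Module.finrank ℝ E)⁻¹ * κ (ε⁻¹ • u)) =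
      ((ε ^ Module.finrank ℝ E)⁻¹) • (fun u : E => κ (ε⁻¹ • u)) := by
    funext u; simp
  rw [h1, iteratedFDeriv_const_smul_apply (hκ'.contDiffAt.of_le (by exact_mod_cast le_top)),
    iteratedFDeriv_comp_const_smul (i := j) ε⁻¹ (hκ.of_le (by exact_mod_cast le_top))]
  rw [norm_smul, norm_smul, norm_inv, norm_pow, norm_pow, norm_inv, Real.norm_of_nonneg hε.le,
    pow_add, mul_inv, mul_assoc, inv_pow]

omit [MeasurableSpace E] [BorelSpace E] in
/-- **Convolution**: the functional `f ↦ L (κ̌ * f)` is given by a smooth density near every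
point `y` such that `κ (y - ·)` lives in `K`. -/
theorem conv_rep [FiniteDimensional ℝ G] {K : Set E} (hK : IsCompact K) {m : ℕ} {C : ℝ}
    (hC : 0 ≤ C) {L : (E → G) → ℝ} (hL : FinOrd K m C L) {κ : E → ℝ} (hκ : ContDiff ℝ ∞ κ)
    {V : Set E} (hV : IsOpen V) (hVK : ∀ y ∈ V, ∀ x, κ (y - x) ≠ 0 → x ∈ K) :
    ∃ θ : E → (G →L[ℝ] ℝ), ContDiffOn ℝ ∞ θ V ∧
      (∀ y ∈ V, ∀ g, θ y g = L (fun x => κ (y - x) • g)) ∧
      (∀ y ∈ V, ∀ g, (fun x => κ (y - x) • g) ∈ DK K G) ∧
      (∀ y ∈ V, ∀ A, (∀ j ≤ m, ∀ u, ‖iteratedFDeriv ℝ j κ u‖ ≤ A) → ‖θ y‖ ≤ C * A) ∧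
      ∀ [MeasurableSpace E] [BorelSpace E] (μ : Measure E) [IsFiniteMeasureOnCompacts μ]
        (f : E → G), ContDiff ℝ ∞ f → HasCompactSupport f → tsupport f ⊆ V →
        (fun x => ∫ y, κ (y - x) • f y ∂μ) ∈ DK K G ∧ Integrable (fun y => θ y (f y)) μ ∧
        L (fun x => ∫ y, κ (y - x) • f y ∂μ) = ∫ y, θ y (f y) ∂μ := by
  set k : E → E → (G →L[ℝ] G) := fun y x => κ (y - x) • ContinuousLinearMap.id ℝ G with hkdef
  have hk : ContDiffOn ℝ ∞ (fun p : E × E => k p.1 p.2) (V ×ˢ univ) := by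
    have h1 : ContDiff ℝ ∞ (fun p : E × E => κ (p.1 - p.2)) :=
      hκ.comp (contDiff_fst.sub contDiff_snd)
    exact (h1.smul contDiff_const).contDiffOn
  have h0 : ∀ y ∈ V, ∀ x, x ∉ K → k y x = 0 := by
    intro y hy x hx
    have : κ (y - x) = 0 := by
      by_contra h
      exact hx (hVK y hy x h)
    simp [hkdef, this]
  have hkg : ∀ y x (g : G), k y x g = κ (y - x) • g := by
    intro y x g; simp [hkdef]
  have : CompleteSpace G := FiniteDimensional.complete ℝ G
  refine ⟨theta hL hk hV h0, theta_contDiffOn hK hL hk hV h0, fun y hy g => ?_, fun y hy g => ?_,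
    fun y hy A hA => ?_, ?_⟩
  · rw [theta_apply hL hk hV h0 hy]
    rfl
  · exact ker_mem hk hV h0 hy g
  · have hA0 : 0 ≤ A := (norm_nonneg _).trans (hA 0 (Nat.zero_le _) 0)
    refine ContinuousLinearMap.opNorm_le_bound _ (mul_nonneg hC hA0) fun g => ?_
    rw [Real.norm_eq_abs, mul_assoc]
    refine theta_le hL hk hV h0 hy g _ fun j hj x => ?_
    refine (norm_iter_conv_le hκ y g j x).trans ?_
    rw [mul_comm]
    exact mul_le_mul_of_nonneg_right (hA j hj _) (norm_nonneg _)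
  · intro _ _ μ _ f hf hfc hfV
    exact theta_rep μ hK hL hk hV h0 hf hfc hfV

end conv

end Crest.Agent.R240.FunRep
end
end

-- ▼ part R240/Sm4a

/-!
Row 240 (S0371), block R, Sm4 part a (helper599): extension by zero of chart functions,
smoothness and `C^m` bounds in all charts.
-/

set_option autoImplicit false
set_option maxSynthPendingDepth 3
set_option linter.unusedSectionVars false

open Set Function Filter MeasureTheory
open scoped Manifold ContDiff Topology

namespace Crest.Agent.R240.Sm4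

open Ch Sm FunRep

noncomputable section

section Ext

variable {E : Type} [NormedAddCommGroup E] [NormedSpace ℝ E]
variable {M : Type*} [TopologicalSpace M] [ChartedSpace E M] [IsManifold 𝓘(ℝ, E) ∞ M]

lemma at2_ext2_of_mem {p x : M} (hx : x ∈ (chartAt E p).source) (f : E → E →L[ℝ] E →L[ℝ] ℝ) :
    at2 (ext2 p f) x = pb (f (chartAt E p x)) (tcc x p x) := if_pos hx

lemma at2_ext2_of_notMem {p x : M} (hx : x ∉ (chartAt E p).source)
    (f : E → E →L[ℝ] E →L[ℝ] ℝ) : at2 (ext2 p f) x = 0 := if_neg hx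

lemma rep_ext2_self {p : M} {y : E} (hy : y ∈ (chartAt E p).target)
    (f : E → E →L[ℝ] E →L[ℝ] ℝ) : rep p (ext2 p f) y = f y := by
  ext u v
  rw [rep_eq_pb, at2_ext2_of_mem (symm_mem hy), (chartAt E p).right_inv hy, pb_comp, pb_apply]
  simp only [ContinuousLinearMap.comp_apply]
  rw [tcc_cancel (symm_mem hy), tcc_cancel (symm_mem hy)]

/-- the extension in another chart -/
lemma rep_ext2 {q p : M} {y : E} (hy : y ∈ (chartAt E q).target)
    (hp : (chartAt E q).symm y ∈ (chartAt E p).source) (f : E → E →L[ℝ] E →L[ℝ] ℝ) :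
    rep q (ext2 p f) y =
      pb (f (Ch.trans (E := E) q p y)) (fderiv ℝ (Ch.trans (E := E) q p) y) := by
  rw [rep_change hy hp, rep_ext2_self]
  exact (chartAt E p).map_source hp

/-- zero off the support -/
lemma at2_ext2_zero {p x : M} {K : Set E} {f : E → E →L[ℝ] E →L[ℝ] ℝ}
    (h0 : ∀ y, y ∉ K → f y = 0) (hx : x ∉ (chartAt E p).symm '' K) :
    at2 (ext2 p f) x = 0 := by
  by_cases h : x ∈ (chartAt E p).source
  · rw [at2_ext2_of_mem h, h0 _ fun h1 => hx ⟨_, h1, (chartAt E p).left_inv h⟩]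
    rfl
  · exact at2_ext2_of_notMem h f

lemma rep_ext2_zero {q p : M} {K : Set E} {f : E → E →L[ℝ] E →L[ℝ] ℝ}
    (h0 : ∀ y, y ∉ K → f y = 0) {y : E} (hx : (chartAt E q).symm y ∉ (chartAt E p).symm '' K) :
    rep q (ext2 p f) y = 0 := by
  rw [rep_eq_pb, at2_ext2_zero h0 hx]
  rfl

lemma isClosed_core [T2Space M] {p : M} {K : Set E} (hK : IsCompact K)
    (hKt : K ⊆ (chartAt E p).target) : IsClosed ((chartAt E p).symm '' K) :=
  (hK.image_of_continuousOn ((chartAt E p).continuousOn_symm.mono hKt)).isClosed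

lemma core_subset {p : M} {K : Set E}
    (hKt : K ⊆ (chartAt E p).target) : (chartAt E p).symm '' K ⊆ (chartAt E p).source := by
  rintro _ ⟨y, hy, rfl⟩
  exact symm_mem (hKt hy)

/-- near a point off the core the representation vanishes -/
lemma eventually_rep_zero [T2Space M] {q p : M} {K : Set E} (hK : IsCompact K)
    (hKt : K ⊆ (chartAt E p).target) {f : E → E →L[ℝ] E →L[ℝ] ℝ}
    (h0 : ∀ y, y ∉ K → f y = 0) {y : E} (hy : y ∈ (chartAt E q).target)
    (hx : (chartAt E q).symm y ∉ (chartAt E p).symm '' K) :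
    rep q (ext2 p f) =ᶠ[𝓝 y] fun _ => 0 := by
  have h1 : ∀ᶠ y' in 𝓝 y, (chartAt E q).symm y' ∈ ((chartAt E p).symm '' K)ᶜ :=
    ((chartAt E q).continuousAt_symm hy).eventually
      ((isClosed_core hK hKt).isOpen_compl.mem_nhds hx)
  filter_upwards [h1] with y' hy'
  exact rep_ext2_zero h0 hy'

/-- smoothness of the extension by zero -/
theorem smooth2_ext2 [T2Space M] {p : M} {K : Set E} (hK : IsCompact K)
    (hKt : K ⊆ (chartAt E p).target) {f : E → E →L[ℝ] E →L[ℝ] ℝ} (hf : ContDiff ℝ ∞ f)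
    (h0 : ∀ y, y ∉ K → f y = 0) (halt : ∀ y v, f y v v = 0) : Smooth2 (ext2 p f) := by
  refine Smooth2.of_local (fun x v => ?_) (fun x => ?_)
  · by_cases h : x ∈ (chartAt E p).source
    · rw [at2_ext2_of_mem h, pb_apply]
      exact halt _ _
    · rw [at2_ext2_of_notMem h]; rfl
  · by_cases h : x ∈ (chartAt E p).source
    · refine ⟨p, h, ?_⟩
      have ht := (chartAt E p).map_source h
      refine hf.contDiffAt.congr_of_eventuallyEq ?_
      filter_upwards [(chartAt E p).open_target.mem_nhds ht] with y hy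
      exact rep_ext2_self hy f
    · refine ⟨x, mem_chart_source E x, ?_⟩
      have hx : (chartAt E x).symm (chartAt E x x) ∉ (chartAt E p).symm '' K := by
        rw [(chartAt E x).left_inv (mem_chart_source E x)]
        exact fun h1 => h (core_subset hKt h1)
      exact contDiffAt_const.congr_of_eventuallyEq
        (eventually_rep_zero hK hKt h0 (mem_chart_target E x) hx)

/-- a form supported in the core of the chart at `p` is the extension of its representation. -/
lemma eq_ext2_rep {p : M} {b : F2 E M}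
    (hb : ∀ x, x ∉ (chartAt E p).source → at2 b x = 0) : ext2 p (rep p b) = b := by
  funext x
  show at2 (ext2 p (rep p b)) x = at2 b x
  by_cases h : x ∈ (chartAt E p).source
  · rw [at2_ext2_of_mem h, ← at2_eq_pb h]
  · rw [at2_ext2_of_notMem h, hb x h]

lemma ext2_add (p : M) (f g : E → E →L[ℝ] E →L[ℝ] ℝ) :
    ext2 p (f + g) = ext2 p f + ext2 p g := by
  funext x
  show at2 (ext2 p (f + g)) x = at2 (ext2 p f) x + at2 (ext2 p g) x
  by_cases h : x ∈ (chartAt E p).source
  · rw [at2_ext2_of_mem h, at2_ext2_of_mem h, at2_ext2_of_mem h, ← pb_add]; rfl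
  · rw [at2_ext2_of_notMem h, at2_ext2_of_notMem h, at2_ext2_of_notMem h, add_zero]

lemma ext2_smul (p : M) (c : ℝ) (f : E → E →L[ℝ] E →L[ℝ] ℝ) :
    ext2 p (c • f) = c • ext2 p f := by
  funext x
  show at2 (ext2 p (c • f)) x = c • at2 (ext2 p f) x
  by_cases h : x ∈ (chartAt E p).source
  · rw [at2_ext2_of_mem h, at2_ext2_of_mem h, ← pb_smul]; rfl
  · rw [at2_ext2_of_notMem h, at2_ext2_of_notMem h, smul_zero]

end Ext

section Bound

variable {M : Type*} [TopologicalSpace M] [ChartedSpace E4 M] [IsManifold 𝓘(ℝ, E4) ∞ M]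

/-- `pb` as a continuous linear operator on forms. -/
def pbL (D : E4 →L[ℝ] E4) : Bil →L[ℝ] Bil :=
  (((ContinuousLinearMap.compL ℝ E4 (E4 →L[ℝ] ℝ) (E4 →L[ℝ] ℝ))
    ((ContinuousLinearMap.compL ℝ E4 E4 ℝ).flip D))).comp
    ((ContinuousLinearMap.compL ℝ E4 E4 (E4 →L[ℝ] ℝ)).flip D)

lemma pbL_apply (D : E4 →L[ℝ] E4) (b : Bil) : pbL D b = pb b D := by
  ext u v; rfl

lemma contDiff_pbL : ContDiff ℝ ∞ pbL := by
  unfold pbL
  have h1 : ContDiff ℝ ∞ (fun D : E4 →L[ℝ] E4 => (ContinuousLinearMap.compL ℝ E4 E4 ℝ).flip D) :=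
    ContinuousLinearMap.contDiff _
  have h2 : ContDiff ℝ ∞ (fun D : E4 →L[ℝ] E4 =>
      (ContinuousLinearMap.compL ℝ E4 (E4 →L[ℝ] ℝ) (E4 →L[ℝ] ℝ))
        ((ContinuousLinearMap.compL ℝ E4 E4 ℝ).flip D)) :=
    (ContinuousLinearMap.contDiff _).comp h1
  have h3 : ContDiff ℝ ∞ (fun D : E4 →L[ℝ] E4 =>
      (ContinuousLinearMap.compL ℝ E4 E4 (E4 →L[ℝ] ℝ)).flip D) :=
    ContinuousLinearMap.contDiff _
  exact h2.clm_comp h3

/-- **`C^m` bounds of the extension by zero in another chart** -/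
theorem ckB_rep_ext2 [T2Space M] (q p : M) {K K' : Set E4} (hK : IsCompact K)
    (hKt : K ⊆ (chartAt E4 p).target) (hK' : IsCompact K') (hKt' : K' ⊆ (chartAt E4 q).target)
    (m : ℕ) :
    ∃ C, 0 ≤ C ∧ ∀ f, f ∈ DK K Bil → ∀ A, (∀ j ≤ m, ∀ y, ‖iteratedFDeriv ℝ j f y‖ ≤ A) →
      ∀ j ≤ m, ∀ y ∈ K', ‖iteratedFDeriv ℝ j (rep q (ext2 p f)) y‖ ≤ C * A := by
  set φ : E4 → E4 := Ch.trans (E := E4) q p with hφ
  set O : Set E4 := (chartAt E4 q).target ∩ (chartAt E4 q).symm ⁻¹' (chartAt E4 p).source with hO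
  have hOo : IsOpen O := (chartAt E4 q).isOpen_inter_preimage_symm (chartAt E4 p).open_source
  set S : Set E4 := K' ∩ (chartAt E4 q).symm ⁻¹' ((chartAt E4 p).symm '' K) with hS
  have hSc : IsCompact S := by
    refine hK'.of_isClosed_subset ?_ inter_subset_left
    exact ((chartAt E4 q).continuousOn_symm.mono hKt').preimage_isClosed_of_isClosed
      hK'.isClosed (isClosed_core hK hKt)
  have hSO : S ⊆ O := fun y hy => ⟨hKt' hy.1, core_subset hKt hy.2⟩
  have hφs : ∀ y ∈ O, ContDiffAt ℝ ∞ φ y := fun y hy => trans_contDiffAt hy.1 hy.2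
  obtain ⟨c, hcO, hc1, -⟩ := exists_cut hSc hOo hSO
  -- cut-off transition map and operator
  have hcut : ∀ {X : Type} [NormedAddCommGroup X] [NormedSpace ℝ X] (g : E4 → X),
      (∀ y ∈ O, ContDiffAt ℝ ∞ g y) → Ell.CS (fun y => c.θ y • g y) := by
    intro X _ _ g hg
    refine ⟨contDiff_of_tsup fun y hy => ?_, c.comp.smul_right⟩
    have : y ∈ O := hcO (tsupport_smul_subset_left _ _ hy)
    exact c.smooth.contDiffAt.smul (hg y this)
  set τ : E4 → E4 := fun y => c.θ y • φ y with hτ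
  set A : E4 → (Bil →L[ℝ] Bil) := fun y => c.θ y • pbL (fderiv ℝ φ y) with hA
  have hτs : Ell.CS τ := hcut φ hφs
  have hAs : Ell.CS A := hcut (fun y => pbL (fderiv ℝ φ y)) fun y hy =>
    contDiff_pbL.contDiffAt.comp y ((hφs y hy).fderiv_right (by simp))
  obtain ⟨C, hC, hb⟩ := Ell.comp_bound hAs hτs m
  refine ⟨C, hC, fun f hf B hB j hj y hy => ?_⟩
  by_cases hyS : y ∈ S
  · have h1 : rep q (ext2 p f) =ᶠ[𝓝 y] fun y => A y (f (τ y)) := by
      have h2 : ∀ᶠ y' in 𝓝 y, c.θ y' = 1 := Filter.Eventually.filter_mono (nhds_le_nhdsSet hyS) hc1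
      filter_upwards [h2, hOo.mem_nhds (hSO hyS)] with y' hy1 hyO
      rw [rep_ext2 hyO.1 hyO.2]
      simp only [hA, hτ, hy1, one_smul]
      rw [pbL_apply]
    rw [(h1.iteratedFDeriv ℝ j).eq_of_nhds]
    exact hb f B hf.1 hB j hj y
  · have h1 : rep q (ext2 p f) =ᶠ[𝓝 y] fun _ => 0 := by
      refine eventually_rep_zero hK hKt hf.2 (hKt' hy) fun h => hyS ⟨hy, h⟩
    rw [(h1.iteratedFDeriv ℝ j).eq_of_nhds]
    have hB0 : 0 ≤ B := (norm_nonneg _).trans (hB 0 (Nat.zero_le _) 0)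
    have h3 : iteratedFDeriv ℝ j (fun _ : E4 => (0 : Bil)) y = 0 := by
      rw [iteratedFDeriv_fun_zero]; rfl
    rw [h3, norm_zero]
    positivity

/-- the `C^m` norm of the extension by zero -/
theorem cm_ext2 [T2Space M] (𝒰 : Cover M) (p : M) {K : Set E4} (hK : IsCompact K)
    (hKt : K ⊆ (chartAt E4 p).target) (m : ℕ) :
    ∃ C, 0 ≤ C ∧ ∀ f, f ∈ DK K Bil → ∀ A, (∀ j ≤ m, ∀ y, ‖iteratedFDeriv ℝ j f y‖ ≤ A) →
      𝒰.cm m (ext2 p f) ≤ C * A := by
  choose C hC hb using fun i => ckB_rep_ext2 (𝒰.p i) p hK hKt (𝒰.cpt i) (𝒰.sub i) m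
  refine ⟨∑ i, C i, Finset.sum_nonneg fun i _ => hC i, fun f hf A hA => ?_⟩
  have hA0 : 0 ≤ A := (norm_nonneg _).trans (hA 0 (Nat.zero_le _) 0)
  refine Real.sSup_le ?_ (mul_nonneg (Finset.sum_nonneg fun i _ => hC i) hA0)
  rintro r ⟨i, j, hj, y, hy, rfl⟩
  refine (hb i f hf A hA j hj y hy).trans ?_
  exact mul_le_mul_of_nonneg_right
    (Finset.single_le_sum (f := C) (fun i _ => hC i) (Finset.mem_univ i)) hA0

end Bound

end

end Crest.Agent.R240.Sm4
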