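import Mathlib
import Crest.Agent.R240.SmSys
import Crest.Agent.R240.Sm3b
import Crest.Agent.R240.IntTop
import Crest.Agent.R240.SmMass
import Crest.Agent.R240.Sm4b
import Crest.Agent.R240.Sm5Abs
import Crest.Agent.R240.Ch7

-- ▼ part R240/SmFT
section

/-!
Row 240, N8 field `repm` (helper837): transposition of the one-chart averaging of functions with
respect to the volume measure, and the `L¹` bound.
-/

set_option autoImplicit false
set_option maxSynthPendingDepth 3
set_option linter.unusedSectionVars false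

open Set Function Filter Metric MeasureTheory
open scoped Manifold ContDiff Topology
open Crest.Agent.R240.Ch Crest.Agent.R240.Sm

namespace Crest.Agent.R240.SmF

noncomputable section

section Jac

variable {M : Type*} [TopologicalSpace M] [ChartedSpace E4 M] [IsManifold 𝓘(ℝ, E4) ∞ M]

/-- the Jacobian function `q(ψ^* F, ψ^* F)`. -/
def jac (F : F2 E4 M) (G : Fam E4) (p : M) (z : E4) (x : M) : ℝ :=
  qG F (pullG G p z F) (pullG G p z F) x

variable [T2Space M]

theorem contDiffOn_jac {F : F2 E4 M} (hF : Int.Vol F) (hFs : Smooth2 F) {G : Fam E4} {p : M}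
    (hG : G.K ⊆ (chartAt E4 p).target) (q' : M) :
    ContDiffOn ℝ ∞ (fun w : E4 × E4 => jac F G p w.1 ((chartAt E4 q').symm w.2))
      (ball 0 G.r ×ˢ (chartAt E4 q').target) := by
  have hj := jsm_pullG hG hFs
  have h1 : ContDiffOn ℝ ∞ (fun w : E4 × E4 => rep q' (pullG G p w.1 F) w.2)
      (ball 0 G.r ×ˢ (chartAt E4 q').target) := hj.2 q'
  have h2 : ContDiffOn ℝ ∞ (fun w : E4 × E4 => rep q' F w.2)
      (ball 0 G.r ×ˢ (chartAt E4 q').target) :=
    (hFs.2 q').comp contDiff_snd.contDiffOn fun w hw => hw.2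
  have hW : ∀ f g : E4 × E4 → Bil, ContDiffOn ℝ ∞ f (ball 0 G.r ×ˢ (chartAt E4 q').target) →
      ContDiffOn ℝ ∞ g (ball 0 G.r ×ˢ (chartAt E4 q').target) →
      ContDiffOn ℝ ∞ (fun w => W (f w) (g w)) (ball 0 G.r ×ˢ (chartAt E4 q').target) := by
    intro f g hf hg
    have hf' : ∀ i j, ContDiffOn ℝ ∞ (fun w => ent (f w) i j)
      (ball 0 G.r ×ˢ (chartAt E4 q').target) := fun i j =>
      (hf.clm_apply contDiffOn_const).clm_apply contDiffOn_const
    have hg' : ∀ i j, ContDiffOn ℝ ∞ (fun w => ent (g w) i j)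
      (ball 0 G.r ×ˢ (chartAt E4 q').target) := fun i j =>
      (hg.clm_apply contDiffOn_const).clm_apply contDiffOn_const
    unfold W
    exact (((((((hf' _ _).mul (hg' _ _)).sub ((hf' _ _).mul (hg' _ _))).add
      ((hf' _ _).mul (hg' _ _))).add ((hf' _ _).mul (hg' _ _))).sub
      ((hf' _ _).mul (hg' _ _))).add ((hf' _ _).mul (hg' _ _)))
  have h3 := (hW _ _ h1 h1).div (hW _ _ h2 h2) (fun w hw => hF.rep_ne hw.2)
  refine h3.congr fun w hw => ?_
  exact Int.qG_chart hF (fun x v => hj.1 w.1 hw.1 x v) (fun x v => hj.1 w.1 hw.1 x v) hw.2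

/-- the transposed one-chart averaging of functions (`G` = the inverse family). -/
def aT (F : F2 E4 M) (G : Fam E4) (p : M) (κ : E4 → ℝ) (e : ℝ) (g : M → ℝ) : M → ℝ :=
  fun x => ∫ z, κ z * (g (psi G p (e • z) x) * jac F G p (e • z) x)

theorem contDiffOn_aT_family {F : F2 E4 M} (hF : Int.Vol F) (hFs : Smooth2 F) {G : Fam E4} {p : M}
    (hG : G.K ⊆ (chartAt E4 p).target) {g : M → ℝ} (hg : SmoothF E4 g) (e : ℝ) (q' : M) :
    ContDiffOn ℝ ∞ (fun w : E4 × E4 => g (psi G p (e • w.1) ((chartAt E4 q').symm w.2)) *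
      jac F G p (e • w.1) ((chartAt E4 q').symm w.2)) (dom G e ×ˢ (chartAt E4 q').target) :=
  (contDiffOn_repF_pullF_smul hG hg e q').mul
    (contDiffOn_param (G := fun w : E4 × E4 => jac F G p w.1 ((chartAt E4 q').symm w.2))
    (contDiffOn_jac hF hFs hG q') (f := fun z => e • z) (contDiff_const_smul e).contDiffOn
    fun _ hz => hz)

theorem smoothF_aT {F : F2 E4 M} (hF : Int.Vol F) (hFs : Smooth2 F) {G : Fam E4} {p : M}
    (hG : G.K ⊆ (chartAt E4 p).target) {κ : E4 → ℝ} {e : ℝ} (h : Adm G κ e) {g : M → ℝ}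
    (hg : SmoothF E4 g) : SmoothF E4 (aT F G p κ e g) := fun q' =>
  (contDiffOn_integral (isOpen_dom G e) (chartAt E4 q').open_target h.cont h.comp h.sub
    (contDiffOn_swap (contDiffOn_aT_family hF hFs hG hg e q'))).congr fun _ _ => rfl

theorem smoothF_pullF {G : Fam E4} {p : M} (hG : G.K ⊆ (chartAt E4 p).target) {z : E4}
    (hz : z ∈ ball (0 : E4) G.r) {g : M → ℝ} (hg : SmoothF E4 g) : SmoothF E4 (pullF G p z g) := by
  intro q'
  have h := contDiffOn_repF_pullF hG hg q'
  have h2 : ContDiffOn ℝ ∞ (fun y : E4 => ((z, y) : E4 × E4)) (chartAt E4 q').target :=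
    (contDiff_const.prodMk contDiff_id).contDiffOn
  exact h.comp h2 fun y hy => ⟨hz, hy⟩

/-- a function `Φ z x`, smooth in the charts, is continuous on `U × M`. -/
lemma continuousAt_family {Φ : E4 → M → ℝ} {U : Set E4} (hU : IsOpen U)
    (h : ∀ q' : M, ContDiffOn ℝ ∞ (fun w : E4 × E4 => Φ w.1 ((chartAt E4 q').symm w.2))
      (U ×ˢ (chartAt E4 q').target)) {z : E4} (hz : z ∈ U) (x : M) :
    ContinuousAt (fun w : M × E4 => Φ w.2 w.1) (x, z) := by
  have hmem : (z, chartAt E4 x x) ∈ U ×ˢ (chartAt E4 x).target := ⟨hz, mem_chart_target E4 x⟩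
  have ho : U ×ˢ (chartAt E4 x).target ∈ 𝓝 (z, chartAt E4 x x) :=
    (hU.prod (chartAt E4 x).open_target).mem_nhds hmem
  have h2 := (h x).continuousOn.continuousAt ho
  have hch : ContinuousAt (chartAt E4 x) x := (chartAt E4 x).continuousAt (mem_chart_source E4 x)
  have h3 : ContinuousAt (fun w : M × E4 => ((w.2, chartAt E4 x w.1) : E4 × E4)) (x, z) :=
    continuousAt_snd.prodMk (ContinuousAt.comp (g := chartAt E4 x) (f := fun w : M × E4 => w.1)
      (x := (x, z)) hch continuousAt_fst)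
  have h4 := ContinuousAt.comp (g := fun w : E4 × E4 => Φ w.1 ((chartAt E4 x).symm w.2))
      (f := fun w : M × E4 => ((w.2, chartAt E4 x w.1) : E4 × E4)) (x := (x, z)) h2 h3
  refine h4.congr ?_
  have ho2 : (chartAt E4 x).source ×ˢ U ∈ 𝓝 (x, z) :=
    ((chartAt E4 x).open_source.prod hU).mem_nhds ⟨mem_chart_source E4 x, hz⟩
  filter_upwards [ho2] with w hw
  simp only [comp_apply]
  rw [(chartAt E4 x).left_inv hw.1]

/-- multiplied with an admissible kernel the family is continuous with compact support. -/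
lemma continuous_kernel_family {Φ : E4 → M → ℝ} {U : Set E4} (hU : IsOpen U)
    (h : ∀ q' : M, ContDiffOn ℝ ∞ (fun w : E4 × E4 => Φ w.1 ((chartAt E4 q').symm w.2))
      (U ×ˢ (chartAt E4 q').target)) {κ : E4 → ℝ} (hκ : Continuous κ) (hs : tsupport κ ⊆ U) :
    Continuous (fun w : M × E4 => κ w.2 * Φ w.2 w.1) := by
  rw [continuous_iff_continuousAt]
  rintro ⟨x, z⟩
  by_cases hz : z ∈ U
  · exact (hκ.comp continuous_snd).continuousAt.mul (continuousAt_family hU h hz x)
  · have hz' : z ∉ tsupport κ := fun h' => hz (hs h')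
    have hev : (fun w : M × E4 => κ w.2 * Φ w.2 w.1) =ᶠ[𝓝 (x, z)] fun _ => 0 := by
      have h5 : ∀ᶠ w : M × E4 in 𝓝 (x, z), w.2 ∈ (tsupport κ)ᶜ :=
        (continuous_snd.tendsto (x, z)).eventually
          ((isClosed_tsupport κ).isOpen_compl.mem_nhds hz')
      filter_upwards [h5] with w hw
      rw [image_eq_zero_of_notMem_tsupport hw, zero_mul]
    exact continuousAt_const.congr hev.symm

variable [CompactSpace M] [MeasurableSpace M] [BorelSpace M]

/-- Fubini for a kernel family. -/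
lemma integral_kernel_family {Φ : E4 → M → ℝ} {U : Set E4} (hU : IsOpen U)
    (h : ∀ q' : M, ContDiffOn ℝ ∞ (fun w : E4 × E4 => Φ w.1 ((chartAt E4 q').symm w.2))
      (U ×ˢ (chartAt E4 q').target)) {κ : E4 → ℝ} (hκ : Continuous κ) (hc : HasCompactSupport κ)
    (hs : tsupport κ ⊆ U) {f : M → ℝ} (hf : Continuous f) (ν : Measure M) [IsFiniteMeasure ν] :
    ∫ x, f x * (∫ z, κ z * Φ z x) ∂ν = ∫ z, κ z * (∫ x, f x * Φ z x ∂ν) := by
  have hcont : Continuous (fun w : M × E4 => f w.1 * (κ w.2 * Φ w.2 w.1)) :=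
    (hf.comp continuous_fst).mul (continuous_kernel_family hU h hκ hs)
  have hsupp : HasCompactSupport (fun w : M × E4 => f w.1 * (κ w.2 * Φ w.2 w.1)) := by
    refine HasCompactSupport.intro (K := univ ×ˢ tsupport κ) (isCompact_univ.prod hc) ?_
    intro w hw
    have : w.2 ∉ tsupport κ := fun h' => hw ⟨mem_univ _, h'⟩
    rw [image_eq_zero_of_notMem_tsupport this, zero_mul, mul_zero]
  have hint : Integrable (fun w : M × E4 => f w.1 * (κ w.2 * Φ w.2 w.1))
      (ν.prod volume) := hcont.integrable_of_hasCompactSupport hsupp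
  have hsw := integral_integral_swap (μ := ν) (ν := (volume : Measure E4))
    (f := fun x z => f x * (κ z * Φ z x)) hint
  calc ∫ x, f x * (∫ z, κ z * Φ z x) ∂ν = ∫ x, (∫ z, f x * (κ z * Φ z x)) ∂ν := by
        refine integral_congr_ae (Eventually.of_forall fun x => ?_)
        simp only
        rw [integral_const_mul]
    _ = ∫ z, (∫ x, f x * (κ z * Φ z x) ∂ν) := hsw
    _ = ∫ z, κ z * (∫ x, f x * Φ z x ∂ν) := by
        refine integral_congr_ae (Eventually.of_forall fun z => ?_)
        simp only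
        rw [← integral_const_mul]
        refine integral_congr_ae (Eventually.of_forall fun x => ?_)
        simp only
        ring

/-- change of variables for one diffeomorphism. -/
theorem integral_psi {F : F2 E4 M} (hF : Int.Vol F) (hFs : Smooth2 F) {G : Fam E4} {p : M}
    (hG : G.K ⊆ (chartAt E4 p).target) {z : E4} (hz : z ∈ ball (0 : E4) G.r) {f g : M → ℝ}
    (hf : SmoothF E4 f) (hg : SmoothF E4 g) :
    ∫ x, g x * f (psi G p z x) ∂(Int.mu F) =
      ∫ x, f x * (g (psi G.symm p z x) * jac F G.symm p z x) ∂(Int.mu F) := by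
  set Fz : F2 E4 M := pullG G.symm p z F with hFz
  have hz' : z ∈ ball (0 : E4) G.symm.r := hz
  have hFzs : Smooth2 Fz := smooth2_pullG (G := G.symm) hG hFs hz'
  have hgz : SmoothF E4 (pullF G.symm p z g) := smoothF_pullF (G := G.symm) hG hz' hg
  have h1 := I_pullG (M := M) hF hG hz (Smooth2.fmul hf hFzs) (Smooth2.fmul hgz hFzs)
  rw [pullG_fmul, pullG_fmul, hFz, pullG_pullG_symm hG hz] at h1
  have h2 : pullF G p z (pullF G.symm p z g) = g := by
    funext x
    simp only [pullF]
    rw [psi_symm_psi hG hz]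
  rw [h2] at h1
  unfold Int.I at h1
  have h3 : ∀ x, qG F (fmul (pullF G p z f) F) (fmul g F) x = g x * f (psi G p z x) := by
    intro x
    have hne := hF.ne x
    unfold qG q
    rw [at2_fmul', at2_fmul', W_smul_left, W_smul_right]
    simp only [pullF]
    field_simp
  have h4 : ∀ x, qG F (fmul f (pullG G.symm p z F)) (fmul (pullF G.symm p z g)
      (pullG G.symm p z F)) x = f x * (g (psi G.symm p z x) * jac F G.symm p z x) := by
    intro x
    unfold jac qG q
    rw [at2_fmul', at2_fmul', W_smul_left, W_smul_right]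
    simp only [pullF]
    ring
  simp only [h3, h4] at h1
  exact h1

/-- **transposition of the one-chart averaging of functions.** -/
theorem integral_a1_mul {F : F2 E4 M} (hF : Int.Vol F) (hFs : Smooth2 F) {G : Fam E4} {p : M}
    (hG : G.K ⊆ (chartAt E4 p).target) {κ : E4 → ℝ} {e : ℝ} (h : Adm G κ e) {f g : M → ℝ}
    (hf : SmoothF E4 f) (hg : SmoothF E4 g) :
    ∫ x, a1 G p κ e f x * g x ∂(Int.mu F) = ∫ x, f x * aT F G.symm p κ e g x ∂(Int.mu F) := by
  have := Int.isFinite_mu hF
  have h1 := integral_kernel_family (Φ := fun z x => f (psi G p (e • z) x)) (isOpen_dom G e)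
    (fun q' => contDiffOn_repF_pullF_smul hG hf e q') h.cont h.comp h.sub
    (Int.SmoothF.cont hg) (Int.mu F)
  have h2 := integral_kernel_family (Φ := fun z x => g (psi G.symm p (e • z) x) *
      jac F G.symm p (e • z) x) (isOpen_dom G.symm e)
    (fun q' => contDiffOn_aT_family hF hFs (G := G.symm) hG hg e q') h.cont h.comp h.sub
    (Int.SmoothF.cont hf) (Int.mu F)
  calc ∫ x, a1 G p κ e f x * g x ∂(Int.mu F)
      = ∫ x, g x * (∫ z, κ z * f (psi G p (e • z) x)) ∂(Int.mu F) := by
        refine integral_congr_ae (Eventually.of_forall fun x => ?_)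
        simp only [a1]
        ring
    _ = ∫ z, κ z * (∫ x, g x * f (psi G p (e • z) x) ∂(Int.mu F)) := h1
    _ = ∫ z, κ z * (∫ x, f x * (g (psi G.symm p (e • z) x) * jac F G.symm p (e • z) x)
          ∂(Int.mu F)) := by
        refine integral_congr_ae (Eventually.of_forall fun z => ?_)
        simp only
        by_cases hz : κ z = 0
        · rw [hz, zero_mul, zero_mul]
        · rw [integral_psi hF hFs hG (h.mem' hz) hf hg]
    _ = _ := h2.symm

/-- the transposed averaging of the constant one is bounded, uniformly in the scale. -/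
theorem exists_aT_bound {F : F2 E4 M} (hF : Int.Vol F) (hFs : Smooth2 F) {G : Fam E4} {p : M}
    (hG : G.K ⊆ (chartAt E4 p).target) {κ : E4 → ℝ} (hκ : Continuous κ) (hκ0 : ∀ z, 0 ≤ κ z)
    (hs : tsupport κ ⊆ closedBall 0 1) (hκ1 : ∫ z, κ z = 1) {r' : ℝ} (hr' : r' < G.r) :
    ∃ C : ℝ, 1 ≤ C ∧ ∀ e, 0 < e → e ≤ r' → ∀ x, aT F G p κ e (fun _ => 1) x ≤ C := by
  have hsub : closedBall (0 : E4) r' ⊆ ball (0 : E4) G.r := closedBall_subset_ball hr'
  have hco : ContinuousOn (fun w : M × E4 => jac F G p w.2 w.1) (univ ×ˢ closedBall 0 r') := by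
    rintro ⟨x, z⟩ ⟨-, hz⟩
    exact (continuousAt_family isOpen_ball (fun q' => contDiffOn_jac hF hFs hG q')
      (hsub hz) x).continuousWithinAt
  obtain ⟨C, hC⟩ := ((isCompact_univ (X := M)).prod
    (isCompact_closedBall (0 : E4) r')).exists_bound_of_continuousOn hco
  have hcomp : HasCompactSupport κ :=
    (isCompact_closedBall 0 1).of_isClosed_subset (isClosed_tsupport κ) hs
  refine ⟨max C 1, le_max_right _ _, fun e he her x => ?_⟩
  unfold aT
  have h0 : ∀ z, κ z * ((1 : ℝ) * jac F G p (e • z) x) ≤ κ z * max C 1 := by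
    intro z
    by_cases hz : κ z = 0
    · rw [hz, zero_mul, zero_mul]
    · refine mul_le_mul_of_nonneg_left ?_ (hκ0 z)
      have hz1 : ‖z‖ ≤ 1 := by simpa using hs (subset_tsupport _ hz)
      have hm : e • z ∈ closedBall (0 : E4) r' := by
        rw [mem_closedBall_zero_iff, norm_smul, Real.norm_of_nonneg he.le]
        nlinarith [norm_nonneg z]
      have := hC (x, e • z) ⟨mem_univ _, hm⟩
      rw [one_mul]
      exact ((le_abs_self _).trans this).trans (le_max_left _ _)
  by_cases hint : Integrable (fun z => κ z * ((1 : ℝ) * jac F G p (e • z) x))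
  · calc ∫ z, κ z * ((1 : ℝ) * jac F G p (e • z) x) ≤ ∫ z, κ z * max C 1 :=
          integral_mono hint ((hκ.integrable_of_hasCompactSupport hcomp).mul_const _) h0
      _ = max C 1 := by rw [integral_mul_const, hκ1, one_mul]
  · rw [integral_undef hint]
    exact zero_le_one.trans (le_max_right _ _)

end Jac

section Fields

variable {M : Type*} [MetricSpace M] [CompactSpace M] [ChartedSpace E4 M]
    [IsManifold 𝓘(ℝ, E4) ∞ M] [MeasurableSpace M] [BorelSpace M]

theorem mu_eq (D : Dat M) : D.μ = Int.mu D.F := Int.isVol_eq_mu (Int.dat_volF D) D.vol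

/-- **(T) transposition.** -/
theorem f1_adj (D : Dat M) (S : Sys M) {e : ℝ} (he : S.Ok e) (i : Fin S.n) {g : M → ℝ}
    (hg : SmoothF E4 g) : ∃ g' : M → ℝ, SmoothF E4 g' ∧ ∀ f : M → ℝ, SmoothF E4 f →
      ∫ x, S.f1 e i f x * g x ∂D.μ = ∫ x, f x * g' x ∂D.μ := by
  refine ⟨aT D.F (S.G i).symm (S.p i) kap0 e g,
    smoothF_aT (Int.dat_volF D) (Int.dat_smF D) (G := (S.G i).symm) (S.hG i)
      (he.adm_kap0 i).symm hg, fun f hf => ?_⟩
  rw [mu_eq]
  exact integral_a1_mul (Int.dat_volF D) (Int.dat_smF D) (S.hG i) (he.adm_kap0 i) hf hg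

/-- **`L¹` bound for one chart.** -/
theorem f1_l1 (D : Dat M) (S : Sys M) (i : Fin S.n) :
    ∃ C : ℝ, 1 ≤ C ∧ ∀ e, 0 < e → e ≤ (S.c i).z0 / 2 → ∀ f : M → ℝ, SmoothF E4 f →
      (∀ x, 0 ≤ f x) → ∫ x, S.f1 e i f x ∂D.μ ≤ C * ∫ x, f x ∂D.μ := by
  have hz0 := (S.c i).z0_pos
  obtain ⟨C, hC, hC'⟩ := exists_aT_bound (Int.dat_volF D) (Int.dat_smF D) (G := (S.G i).symm)
    (p := S.p i) (S.hG i) kap0_cont kap0_nonneg tsupport_kap0.subset kap0_integral
    (r' := (S.c i).z0 / 2) (by change (S.c i).z0 / 2 < (S.c i).z0; linarith)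
  refine ⟨C, hC, fun e he hez f hf hf0 => ?_⟩
  have hadm : Adm (S.G i) kap0 e := Adm.of_ball kap0_cont tsupport_kap0.subset (by
    rw [abs_of_pos he]
    change e < (S.c i).z0
    linarith)
  have := Int.isFinite_mu (Int.dat_volF D)
  have h1 := integral_a1_mul (Int.dat_volF D) (Int.dat_smF D) (S.hG i) hadm hf
    (smoothF_const (E := E4) (M := M) 1)
  rw [mu_eq]
  have h2 : ∫ x, S.f1 e i f x ∂(Int.mu D.F) =
      ∫ x, f x * aT D.F (S.G i).symm (S.p i) kap0 e (fun _ => 1) x ∂(Int.mu D.F) := by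
    rw [← h1]
    refine integral_congr_ae (Eventually.of_forall fun x => ?_)
    simp only [mul_one]
    rfl
  rw [h2, ← integral_const_mul]
  have hfc : Continuous f := Int.SmoothF.cont hf
  have hac : Continuous (aT D.F (S.G i).symm (S.p i) kap0 e (fun _ => 1)) :=
    Int.SmoothF.cont (smoothF_aT (Int.dat_volF D) (Int.dat_smF D) (G := (S.G i).symm) (S.hG i)
      hadm.symm (smoothF_const (E := E4) (M := M) 1))
  refine integral_mono ?_ ?_ fun x => ?_
  · exact Int.integrable_of_cont (Int.dat_volF D) (hfc.mul hac)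
  · exact Int.integrable_of_cont (Int.dat_volF D) (hfc.const_mul C)
  · change f x * aT D.F (S.G i).symm (S.p i) kap0 e (fun _ => 1) x ≤ C * f x
    rw [mul_comm C]
    exact mul_le_mul_of_nonneg_left (hC' e he hez x) (hf0 x)

end Fields

end

end Crest.Agent.R240.SmF
end

-- ▼ part R240/SmFK
section

/-!
Row 240, N8 field `repm` (helper837): the estimate `a_e f ≤ C e⁻⁴ ∫ f dμ`.
-/

set_option autoImplicit false
set_option maxSynthPendingDepth 3
set_option linter.unusedSectionVars false

open Set Function Filter Metric MeasureTheory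
open scoped Manifold ContDiff Topology
open Crest.Agent.R240.Ch Crest.Agent.R240.Sm

namespace Crest.Agent.R240.SmF

noncomputable section

lemma exists_pos_le {n : ℕ} (δ : Fin n → ℝ) (h : ∀ i, 0 < δ i) : ∃ e1 : ℝ, 0 < e1 ∧ ∀ i, e1 ≤ δ i := by
  rcases isEmpty_or_nonempty (Fin n) with hι | hι
  · exact ⟨1, one_pos, fun j => (hι.false j).elim⟩
  · refine ⟨Finset.univ.inf' Finset.univ_nonempty δ, ?_, fun j => ?_⟩
    · exact (Finset.lt_inf'_iff _).2 fun j _ => h j
    · exact Finset.inf'_le _ (Finset.mem_univ j)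

variable {M : Type*} [MetricSpace M] [CompactSpace M] [ChartedSpace E4 M]
    [IsManifold 𝓘(ℝ, E4) ∞ M] [MeasurableSpace M] [BorelSpace M]

/-- support propagation of one averaging. -/
lemma f1_off (S : Sys M) {e : ℝ} (he : 0 < e) (i : Fin S.n) (hez : e ≤ (S.c i).z0 / 2) {C : ℝ}
    (hC : 0 ≤ C)
    (hdisp : ∀ z ∈ closedBall (0 : E4) ((S.c i).z0 / 2), ∀ x : M,
      dist (psi (S.G i) (S.p i) z x) x ≤ C * ‖z‖) {K : Set M} {f : M → ℝ}
    (hf : ∀ x, x ∉ K → f x = 0) (x : M) (hx : x ∉ cthickening (C * e) K) :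
    S.f1 e i f x = 0 := by
  change ∫ z, kap0 z * f (psi (S.G i) (S.p i) (e • z) x) = 0
  have h1 : ∀ z, kap0 z * f (psi (S.G i) (S.p i) (e • z) x) = 0 := by
    intro z
    by_cases hz : kap0 z = 0
    · rw [hz, zero_mul]
    have hzn : ‖e • z‖ ≤ e := by
      rw [norm_smul, Real.norm_of_nonneg he.le]
      exact mul_le_of_le_one_right he.le (norm_lt_of_kap0 hz).le
    have hd : dist (psi (S.G i) (S.p i) (e • z) x) x ≤ C * e :=
      (hdisp _ (mem_closedBall_zero_iff.2 (hzn.trans hez)) x).trans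
        (mul_le_mul_of_nonneg_left hzn hC)
    have h2 : psi (S.G i) (S.p i) (e • z) x ∉ K := by
      intro h
      refine hx (mem_cthickening_of_dist_le x _ _ K h ?_)
      rw [dist_comm]; exact hd
    rw [hf _ h2, mul_zero]
  simp only [h1, integral_zero]

/-- **one chart: `L¹ → L^∞`** for functions supported where the cut-off is one. -/
theorem f1_sup (D : Dat M) (S : Sys M) (j : Fin S.n) {Q : Set M} (hQ : IsCompact Q)
    (hQs : Q ⊆ (chartAt E4 (S.p j)).source) (hQΩ : chartAt E4 (S.p j) '' Q ⊆ S.Ω j) :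
    ∃ e1 : ℝ, 0 < e1 ∧ ∃ C : ℝ, 0 ≤ C ∧ ∀ e, 0 < e → e ≤ e1 → ∀ f : M → ℝ, SmoothF E4 f →
      (∀ x, 0 ≤ f x) → (∀ x, x ∉ Q → f x = 0) →
      ∀ x, S.f1 e j f x ≤ C / e ^ 4 * ∫ y, f y ∂D.μ := by
  set p := S.p j with hp
  set R : Set E4 := chartAt E4 p '' Q with hR
  have hRc : IsCompact R := hQ.image_of_continuousOn ((chartAt E4 p).continuousOn.mono hQs)
  have hRt : R ⊆ (chartAt E4 p).target := by
    rintro _ ⟨x, hx, rfl⟩
    exact (chartAt E4 p).map_source (hQs hx)
  obtain ⟨η, hη, hηO⟩ := hRc.exists_cthickening_subset_open (S.op j) hQΩ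
  obtain ⟨B, hB⟩ := kap0_comp.exists_bound_of_continuous kap0_cont
  have hB0 : 0 ≤ B := (norm_nonneg _).trans (hB 0)
  have hF := Int.dat_volF D
  -- lower bound of the density
  obtain ⟨c0, hc0, hc0'⟩ : ∃ c0 : ℝ, 0 < c0 ∧ ∀ w ∈ R, c0 ≤ Int.dens D.F p w := by
    rcases R.eq_empty_or_nonempty with h | h
    · exact ⟨1, one_pos, fun w hw => by rw [h] at hw; exact absurd hw (notMem_empty _)⟩
    · obtain ⟨w0, hw0, hmin⟩ := hRc.exists_isMinOn h ((hF.continuousOn_dens p).mono hRt)
      exact ⟨Int.dens D.F p w0, hF.dens_pos (hRt hw0), fun w hw => hmin hw⟩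
  refine ⟨min η ((S.c j).z0 / 2), lt_min hη (half_pos (S.c j).z0_pos), B / c0, by positivity,
    fun e he hee f hf hf0 hfQ x => ?_⟩
  have heη : e ≤ η := hee.trans (min_le_left _ _)
  have hez : e < (S.c j).z0 := by
    have := (S.c j).z0_pos
    have := hee.trans (min_le_right _ _)
    linarith
  have hadm : Adm (S.G j) kap0 e := Adm.of_ball kap0_cont tsupport_kap0.subset (by
    rw [abs_of_pos he]; exact hez)
  have hI0 : 0 ≤ ∫ y, f y ∂D.μ := integral_nonneg hf0
  -- the function in the chart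
  set ft : E4 → ℝ := R.indicator (fun w => f ((chartAt E4 p).symm w)) with hft
  have hft_t : ∀ w ∈ (chartAt E4 p).target, ft w = f ((chartAt E4 p).symm w) := by
    intro w hw
    by_cases hwR : w ∈ R
    · rw [hft, indicator_of_mem hwR]
    · rw [hft, indicator_of_notMem hwR]
      refine (hfQ _ fun h => hwR ?_).symm
      exact ⟨_, h, (chartAt E4 p).right_inv hw⟩
  have hft0 : ∀ w, 0 ≤ ft w := fun w => indicator_nonneg (fun w _ => hf0 _) w
  have hcs : ContinuousOn (fun w => f ((chartAt E4 p).symm w)) (chartAt E4 p).target :=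
    (hf p).continuousOn
  have hftc : Continuous ft := by
    rw [continuous_iff_continuousAt]
    intro w
    by_cases hw : w ∈ (chartAt E4 p).target
    · refine (hcs.continuousAt ((chartAt E4 p).open_target.mem_nhds hw)).congr ?_
      filter_upwards [(chartAt E4 p).open_target.mem_nhds hw] with y hy
      exact (hft_t y hy).symm
    · have h1 : ft =ᶠ[𝓝 w] fun _ => 0 := by
        filter_upwards [hRc.isClosed.isOpen_compl.mem_nhds fun h => hw (hRt h)] with y hy
        exact indicator_of_notMem hy _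
      exact continuousAt_const.congr h1.symm
  have hfts : HasCompactSupport ft := HasCompactSupport.intro hRc fun w hw =>
    indicator_of_notMem hw _
  have hfti : Integrable ft := hftc.integrable_of_hasCompactSupport hfts
  -- the mass in the chart
  have hmass : ∫ w, ft w ≤ c0⁻¹ * ∫ y, f y ∂D.μ := by
    have h1 : ∫ y, f y ∂D.μ = ∫ w in (chartAt E4 p).target,
        Int.dens D.F p w • f ((chartAt E4 p).symm w) :=
      Int.isVol_integral hF D.vol p (Int.SmoothF.cont hf).aestronglyMeasurable fun y hy =>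
        hfQ y fun h => hy (hQs h)
    have h2 : ∫ w in (chartAt E4 p).target, Int.dens D.F p w • f ((chartAt E4 p).symm w) =
        ∫ w in R, Int.dens D.F p w • f ((chartAt E4 p).symm w) := by
      have h3 : ∀ w ∈ (chartAt E4 p).target \ R,
          Int.dens D.F p w • f ((chartAt E4 p).symm w) = 0 := fun w hw => by
        rw [← hft_t w hw.1, hft, indicator_of_notMem hw.2, smul_zero]
      exact setIntegral_eq_of_subset_of_forall_sdiff_eq_zero
        (chartAt E4 p).open_target.measurableSet hRt h3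
    have hdc : ContinuousOn (fun w => Int.dens D.F p w • f ((chartAt E4 p).symm w)) R :=
      ((hF.continuousOn_dens p).mono hRt).smul (hcs.mono hRt)
    rw [h1, h2, hft, integral_indicator hRc.measurableSet, ← integral_const_mul]
    refine setIntegral_mono_on ((hcs.mono hRt).integrableOn_compact hRc)
      ((hdc.integrableOn_compact hRc).const_mul _) hRc.measurableSet fun w hw => ?_
    rw [smul_eq_mul, ← mul_assoc]
    refine le_mul_of_one_le_left (hf0 _) ?_
    rw [← div_eq_inv_mul, le_div_iff₀ hc0, one_mul]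
    exact hc0' w hw
  -- the estimate at a point
  by_cases hx : x ∈ (chartAt E4 p).source
  · set t := chartAt E4 p x with ht
    have htt : t ∈ (chartAt E4 p).target := (chartAt E4 p).map_source hx
    have hpt : ∀ z, kap0 z * f (psi (S.G j) p (e • z) x) ≤ B * ft (t + e • z) := by
      intro z
      by_cases hz : kap0 z = 0
      · rw [hz, zero_mul]
        exact mul_nonneg hB0 (hft0 _)
      have hzn : ‖e • z‖ ≤ e := by
        rw [norm_smul, Real.norm_of_nonneg he.le]
        exact mul_le_of_le_one_right he.le (norm_lt_of_kap0 hz).le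
      have hkB : kap0 z ≤ B := (le_abs_self _).trans (hB z)
      by_cases hfz : f (psi (S.G j) p (e • z) x) = 0
      · rw [hfz, mul_zero]
        exact mul_nonneg hB0 (hft0 _)
      have hmem : psi (S.G j) p (e • z) x ∈ Q := by
        by_contra h
        exact hfz (hfQ _ h)
      have hch := chart_psi (S.hG j) (hadm.mem' hz) hx
      have hτ : (S.G j).g (e • z) t = t + (S.c j).θ t • (e • z) := rfl
      have hτR : t + (S.c j).θ t • (e • z) ∈ R := by
        rw [← hτ, ← hch.2]
        exact ⟨_, hmem, rfl⟩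
      have hθ : (S.c j).θ t = 1 := by
        refine S.one j t (hηO ?_)
        refine mem_cthickening_of_dist_le t _ _ R hτR ?_
        rw [dist_eq_norm]
        have h01 := S.c01 j t
        calc ‖t - (t + (S.c j).θ t • (e • z))‖ = ‖(S.c j).θ t • (e • z)‖ := by
              rw [← norm_neg]; congr 1; abel
          _ = |(S.c j).θ t| * ‖e • z‖ := by rw [norm_smul, Real.norm_eq_abs]
          _ ≤ 1 * e := by
              refine mul_le_mul ?_ hzn (norm_nonneg _) zero_le_one
              rw [abs_of_nonneg h01.1]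
              exact h01.2
          _ ≤ η := by rw [one_mul]; exact heη
      have hfe : f (psi (S.G j) p (e • z) x) = ft (t + e • z) := by
        rw [hθ, one_smul] at hτR
        rw [psi_of_mem hx, ← ht, hτ, hθ, one_smul, hft_t _ (hRt hτR)]
      rw [hfe]
      exact mul_le_mul_of_nonneg_right hkB (hft0 _)
    have hint2 : Integrable (fun z => B * ft (t + e • z)) :=
      ((hfti.comp_add_left t).comp_smul he.ne').const_mul B
    calc S.f1 e j f x = ∫ z, kap0 z * f (psi (S.G j) p (e • z) x) := rfl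
      _ ≤ ∫ z, B * ft (t + e • z) := integral_mono (integrable_a1 (S.hG j) hadm hf x) hint2 hpt
      _ = B * ((e ^ 4)⁻¹ * ∫ w, ft w) := by
          rw [integral_const_mul]
          congr 1
          have h1 := Measure.integral_comp_smul (volume : Measure E4) (fun w => ft (t + w)) e
          rw [integral_add_left_eq_self] at h1
          have h2 : Module.finrank ℝ E4 = 4 := by simp
          rw [h2, smul_eq_mul, abs_of_nonneg (by positivity)] at h1
          exact h1
      _ ≤ B * ((e ^ 4)⁻¹ * (c0⁻¹ * ∫ y, f y ∂D.μ)) := by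
          refine mul_le_mul_of_nonneg_left (mul_le_mul_of_nonneg_left hmass ?_) hB0
          positivity
      _ = B / c0 / e ^ 4 * ∫ y, f y ∂D.μ := by
          field_simp
  · have h0 : S.f1 e j f x = 0 := by
      change ∫ z, kap0 z * f (psi (S.G j) p (e • z) x) = 0
      have h1 : f x = 0 := hfQ x fun h => hx (hQs h)
      have h2 : ∀ z, kap0 z * f (psi (S.G j) p (e • z) x) = 0 := fun z => by
        rw [psi_of_notMem hx, h1, mul_zero]
      simp only [h2, integral_zero]
    rw [h0]
    positivity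

/-- the `L¹` bound for products. -/
theorem fL_l1 (D : Dat M) (S : Sys M) :
    ∃ C : ℝ, 1 ≤ C ∧ ∀ e, 0 < e → (∀ i, e ≤ (S.c i).z0 / 2) → ∀ (l : List (Fin S.n))
      (f : M → ℝ), SmoothF E4 f → (∀ x, 0 ≤ f x) →
      ∫ x, S.fL e l f x ∂D.μ ≤ C ^ l.length * ∫ x, f x ∂D.μ := by
  choose C hC hC' using f1_l1 D S
  have hle : ∀ i, C i ≤ 1 + ∑ j, C j := by
    intro i
    have := Finset.single_le_sum (f := C) (fun i _ => zero_le_one.trans (hC i)) (Finset.mem_univ i)
    linarith
  have h0 : 0 ≤ ∑ j, C j := Finset.sum_nonneg fun i _ => zero_le_one.trans (hC i)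
  refine ⟨1 + ∑ j, C j, by linarith, fun e he hez l f hf hf0 => ?_⟩
  have hok : S.Ok e := ⟨he, fun i => by
    have := (S.c i).z0_pos
    have := hez i
    linarith⟩
  induction l with
  | nil => simp
  | cons i l ih =>
    rw [Sys.fL_cons, List.length_cons, pow_succ]
    have h1 := hC' i e he (hez i) (S.fL e l f) (Sys.smoothF_fL hok l hf)
      (Sys.fL_nonneg e l hf0)
    have h2 : 0 ≤ ∫ x, S.fL e l f x ∂D.μ := integral_nonneg (Sys.fL_nonneg e l hf0)
    calc ∫ x, S.f1 e i (S.fL e l f) x ∂D.μ ≤ C i * ∫ x, S.fL e l f x ∂D.μ := h1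
      _ ≤ (1 + ∑ j, C j) * ∫ x, S.fL e l f x ∂D.μ := mul_le_mul_of_nonneg_right (hle i) h2
      _ ≤ (1 + ∑ j, C j) * ((1 + ∑ j, C j) ^ l.length * ∫ x, f x ∂D.μ) :=
          mul_le_mul_of_nonneg_left ih (by linarith)
      _ = _ := by ring

/-- support propagation of products. -/
theorem fL_off (S : Sys M) {C : ℝ} (hC : 0 ≤ C)
    (hdisp : ∀ i, ∀ z ∈ closedBall (0 : E4) ((S.c i).z0 / 2), ∀ x : M,
      dist (psi (S.G i) (S.p i) z x) x ≤ C * ‖z‖) {e : ℝ} (he : 0 < e)
    (hez : ∀ i, e ≤ (S.c i).z0 / 2) {K : Set M} {f : M → ℝ} (hf : ∀ x, x ∉ K → f x = 0)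
    (l : List (Fin S.n)) (x : M) (hx : x ∉ cthickening (l.length * (C * e)) K) :
    S.fL e l f x = 0 := by
  induction l generalizing x with
  | nil =>
    rw [Sys.fL_nil]
    refine hf x fun h => hx ?_
    simp only [List.length_nil, Nat.cast_zero, zero_mul, cthickening_zero]
    exact subset_closure h
  | cons i l ih =>
    rw [Sys.fL_cons]
    refine f1_off S he i (hez i) hC (hdisp i) (K := cthickening (l.length * (C * e)) K)
      (fun y hy => ih y hy) x fun h => hx ?_
    have h2 := cthickening_cthickening_subset (ε := C * e) (δ := l.length * (C * e))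
      (by positivity) (by positivity) K h
    have h3 : C * e + l.length * (C * e) = ((i :: l).length : ℕ) * (C * e) := by
      rw [List.length_cons]; push_cast; ring
    rwa [h3] at h2

/-- the estimate for a product which contains the chart `j`, for functions supported in the core
of the chart `j`. -/
theorem fL_sup_list (D : Dat M) (S : Sys M) (j : Fin S.n) {K : Set M} (hK : IsCompact K)
    (hKU : K ⊆ (chartAt E4 (S.p j)).source ∩ chartAt E4 (S.p j) ⁻¹' S.Ω j) (N : ℕ) :
    ∃ e1 : ℝ, 0 < e1 ∧ ∃ C : ℝ, 0 ≤ C ∧ ∀ e, 0 < e → e ≤ e1 → ∀ l : List (Fin S.n),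
      l.length ≤ N → j ∈ l → ∀ f : M → ℝ, SmoothF E4 f → (∀ x, 0 ≤ f x) →
      (∀ x, x ∉ K → f x = 0) → ∀ x, S.fL e l f x ≤ C / e ^ 4 * ∫ y, f y ∂D.μ := by
  have hUo : IsOpen ((chartAt E4 (S.p j)).source ∩ chartAt E4 (S.p j) ⁻¹' S.Ω j) :=
    (chartAt E4 (S.p j)).isOpen_inter_preimage (S.op j)
  obtain ⟨δ, hδ, hδU⟩ := hK.exists_cthickening_subset_open hUo hKU
  set Q : Set M := cthickening δ K with hQ
  obtain ⟨e2, he2, C2, hC2, h2⟩ := f1_sup D S j (Q := Q) hK.cthickening
    (hδU.trans inter_subset_left) (by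
      rintro _ ⟨x, hx, rfl⟩
      exact (hδU hx).2)
  obtain ⟨C1, hC1, h1⟩ := fL_l1 D S
  choose Cd hCd hdisp using fun i => exists_disp_psi D.bl (S.G i) (p := S.p i) (S.hG i)
    (r' := (S.c i).z0 / 2) (by
      change (S.c i).z0 / 2 < (S.c i).z0
      linarith [(S.c i).z0_pos])
  set Ct : ℝ := ∑ i, Cd i with hCt
  have hCt0 : 0 ≤ Ct := Finset.sum_nonneg fun i _ => hCd i
  have hCle : ∀ i, Cd i ≤ Ct := fun i =>
    Finset.single_le_sum (f := Cd) (fun i _ => hCd i) (Finset.mem_univ i)
  have hdisp' : ∀ i, ∀ z ∈ closedBall (0 : E4) ((S.c i).z0 / 2), ∀ x : M,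
      dist (psi (S.G i) (S.p i) z x) x ≤ Ct * ‖z‖ := fun i z hz x =>
    (hdisp i z hz x).trans (mul_le_mul_of_nonneg_right (hCle i) (norm_nonneg _))
  obtain ⟨e3, he3, he3'⟩ := exists_pos_le (fun i : Fin S.n => (S.c i).z0 / 2)
    fun i => half_pos (S.c i).z0_pos
  refine ⟨min (min e2 e3) (δ / (N * Ct + 1)), by positivity, C2 * C1 ^ N, by positivity,
    fun e he hee l hlN hjl f hf hf0 hfK => ?_⟩
  have hee2 : e ≤ e2 := hee.trans ((min_le_left _ _).trans (min_le_left _ _))
  have hez : ∀ i, e ≤ (S.c i).z0 / 2 := fun i =>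
    (hee.trans ((min_le_left _ _).trans (min_le_right _ _))).trans (he3' i)
  have heδ : N * (Ct * e) ≤ δ := by
    have h4 : (0 : ℝ) < N * Ct + 1 := by positivity
    have h5 : e ≤ δ / (N * Ct + 1) := hee.trans (min_le_right _ _)
    rw [le_div_iff₀ h4] at h5
    nlinarith
  have hok : S.Ok e := ⟨he, fun i => by
    have := (S.c i).z0_pos
    have := hez i
    linarith⟩
  have hI0 : 0 ≤ ∫ y, f y ∂D.μ := integral_nonneg hf0
  have hpow : ∀ l : List (Fin S.n), l.length ≤ N → C1 ^ l.length ≤ C1 ^ N := fun l hl =>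
    pow_le_pow_right₀ hC1 hl
  clear hee
  induction l with
  | nil => simp at hjl
  | cons i l ih =>
    intro x
    have hl : l.length ≤ N := (Nat.le_succ _).trans (by simpa using hlN)
    rw [Sys.fL_cons]
    by_cases hij : j = i
    · subst hij
      have hoff : ∀ y, y ∉ Q → S.fL e l f y = 0 := by
        intro y hy
        refine fL_off S hCt0 hdisp' he hez hfK l y fun h => hy ?_
        refine cthickening_mono (le_trans ?_ heδ) _ h
        exact mul_le_mul_of_nonneg_right (Nat.cast_le.2 hl) (by positivity)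
      have h3 := h2 e he hee2 (S.fL e l f) (Sys.smoothF_fL hok l hf) (Sys.fL_nonneg e l hf0)
        hoff x
      have h4 := h1 e he hez l f hf hf0
      calc S.f1 e j (S.fL e l f) x ≤ C2 / e ^ 4 * ∫ y, S.fL e l f y ∂D.μ := h3
        _ ≤ C2 / e ^ 4 * (C1 ^ l.length * ∫ y, f y ∂D.μ) :=
            mul_le_mul_of_nonneg_left h4 (by positivity)
        _ ≤ C2 / e ^ 4 * (C1 ^ N * ∫ y, f y ∂D.μ) := by
            refine mul_le_mul_of_nonneg_left (mul_le_mul_of_nonneg_right (hpow l hl) hI0) ?_
            positivity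
        _ = C2 * C1 ^ N / e ^ 4 * ∫ y, f y ∂D.μ := by ring
    · have hj' : j ∈ l := by
        rcases List.mem_cons.mp hjl with h | h
        · exact absurd h hij
        · exact h
      have h3 := ih hl hj'
      have h4 := Sys.f1_mono hok i (Sys.smoothF_fL hok l hf)
        (smoothF_const (E := E4) (M := M) (C2 * C1 ^ N / e ^ 4 * ∫ y, f y ∂D.μ)) h3 x
      rwa [Sys.f1_const] at h4

/-- additivity over finite sums. -/
lemma fL_sum {S : Sys M} {e : ℝ} (h : S.Ok e) (l : List (Fin S.n)) {ι : Type*} (s : Finset ι)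
    (f : ι → M → ℝ) (hf : ∀ i ∈ s, SmoothF E4 (f i)) :
    SmoothF E4 (fun y => ∑ i ∈ s, f i y) ∧
      S.fL e l (fun y => ∑ i ∈ s, f i y) = fun y => ∑ i ∈ s, S.fL e l (f i) y := by
  classical
  induction s using Finset.induction_on with
  | empty =>
    simp only [Finset.sum_empty]
    exact ⟨smoothF_const 0, Sys.fL_const e l 0⟩
  | insert a s ha ih =>
    obtain ⟨ih1, ih2⟩ := ih fun i hi => hf i (Finset.mem_insert_of_mem hi)
    simp only [Finset.sum_insert ha]
    refine ⟨(hf a (Finset.mem_insert_self a s)).add ih1, ?_⟩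
    rw [Sys.fL_add h l (hf a (Finset.mem_insert_self a s)) ih1, ih2]

/-- **(K) the sup estimate.** -/
theorem fL_sup (D : Dat M) (S : Sys M) : ∃ e1 : ℝ, 0 < e1 ∧ ∃ C : ℝ, 0 < C ∧
    ∀ e, 0 < e → e ≤ e1 → ∀ f : M → ℝ, SmoothF E4 f → (∀ x, 0 ≤ f x) →
      ∀ x, S.a e f x ≤ C / e ^ 4 * ∫ y, f y ∂D.μ := by
  classical
  set U : Fin S.n → Set M := fun i =>
    (chartAt E4 (S.p i)).source ∩ chartAt E4 (S.p i) ⁻¹' S.Ω i with hU
  have hUo : ∀ i, IsOpen (U i) := fun i => (chartAt E4 (S.p i)).isOpen_inter_preimage (S.op i)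
  obtain ⟨χ, hχ⟩ := SmoothPartitionOfUnity.exists_isSubordinate 𝓘(ℝ, E4)
    (isClosed_univ (X := M)) U hUo (fun x _ => by
      obtain ⟨i, hi1, hi2⟩ := S.cover x
      exact mem_iUnion.2 ⟨i, hi1, S.KΩ i (interior_subset hi2)⟩)
  have hsum : ∀ x, ∑ j, χ j x = 1 := by
    intro x
    have := χ.sum_eq_one (mem_univ x)
    rwa [finsum_eq_sum_of_fintype] at this
  choose e1 he1 C hC hsup using fun j => fL_sup_list D S j (K := tsupport (χ j))
    (isClosed_tsupport _).isCompact (hχ j) S.n
  obtain ⟨e2, he2, he2'⟩ := exists_pos_le e1 he1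
  obtain ⟨e3, he3, -, he3'⟩ := S.exists_ok
  refine ⟨min e2 e3, lt_min he2 he3, 1 + ∑ j, C j, ?_, fun e he hee f hf hf0 x => ?_⟩
  · have : 0 ≤ ∑ j, C j := Finset.sum_nonneg fun i _ => hC i
    linarith
  have hok : S.Ok e := he3' e he (hee.trans (min_le_right _ _))
  have hχs : ∀ j, SmoothF E4 (χ j) := fun j => (smoothF_iff _).1 (χ j).contMDiff
  have hfj : ∀ j, SmoothF E4 (fun y => χ j y * f y) := fun j => (hχs j).mul hf
  have hfj0 : ∀ j y, 0 ≤ χ j y * f y := fun j y => mul_nonneg (χ.nonneg j y) (hf0 y)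
  have hfsum : f = fun y => ∑ j, χ j y * f y := by
    funext y
    rw [← Finset.sum_mul, hsum, one_mul]
  have h1 := (fL_sum hok (List.finRange S.n) Finset.univ (fun j y => χ j y * f y)
    fun j _ => hfj j).2
  rw [← hfsum] at h1
  have h2 : S.a e f x = ∑ j, S.fL e (List.finRange S.n) (fun y => χ j y * f y) x :=
    congrFun h1 x
  rw [h2]
  have hI : ∀ j, ∫ y, χ j y * f y ∂D.μ ≤ ∫ y, f y ∂D.μ := by
    intro j
    have hfc := Int.SmoothF.cont hf
    have hfjc := Int.SmoothF.cont (hfj j)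
    rw [mu_eq]
    refine integral_mono (Int.integrable_of_cont (Int.dat_volF D) hfjc)
      (Int.integrable_of_cont (Int.dat_volF D) hfc) fun y => ?_
    exact mul_le_of_le_one_left (hf0 y) (χ.le_one j y)
  have hI0 : 0 ≤ ∫ y, f y ∂D.μ := integral_nonneg hf0
  calc ∑ j, S.fL e (List.finRange S.n) (fun y => χ j y * f y) x
      ≤ ∑ j, C j / e ^ 4 * ∫ y, f y ∂D.μ := by
        refine Finset.sum_le_sum fun j _ => ?_
        have h3 := hsup j e he ((hee.trans (min_le_left _ _)).trans (he2' j))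
          (List.finRange S.n) (by simp) (List.mem_finRange j) _ (hfj j) (hfj0 j)
          (fun y hy => by rw [image_eq_zero_of_notMem_tsupport hy, zero_mul]) x
        refine h3.trans (mul_le_mul_of_nonneg_left (hI j) ?_)
        have := hC j
        positivity
    _ = (∑ j, C j) / e ^ 4 * ∫ y, f y ∂D.μ := by
        rw [← Finset.sum_mul, Finset.sum_div]
    _ ≤ (1 + ∑ j, C j) / e ^ 4 * ∫ y, f y ∂D.μ := by
        refine mul_le_mul_of_nonneg_right ?_ hI0
        refine div_le_div_of_nonneg_right ?_ (by positivity)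
        linarith

end

end Crest.Agent.R240.SmF
end

-- ▼ part R240/SmFG
section

/-!
Row 240, N8 field `repm` (helper837): sign and sup bound of the density, by testing.
-/

set_option autoImplicit false
set_option maxSynthPendingDepth 3
set_option linter.unusedSectionVars false

open Set Function Filter Metric MeasureTheory
open scoped Manifold ContDiff Topology
open Crest.Agent.R240.Ch Crest.Agent.R240.Sm

namespace Crest.Agent.R240.SmF

noncomputable section

variable {M : Type*} [MetricSpace M] [CompactSpace M] [ChartedSpace E4 M]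
    [IsManifold 𝓘(ℝ, E4) ∞ M] [MeasurableSpace M] [BorelSpace M]

lemma integrable_cont {μ : Measure M} [IsFiniteMeasure μ] {f : M → ℝ} (hf : Continuous f) :
    Integrable f μ := hf.integrable_of_hasCompactSupport (HasCompactSupport.of_compactSpace f)

/-- a bump function `f` at `x`, supported in a given neighbourhood, with `∫ f dμ > 0`. -/
lemma exists_test {μ : Measure M} [IsFiniteMeasure μ] [μ.IsOpenPosMeasure] (x : M) {U : Set M}
    (hU : U ∈ 𝓝 x) : ∃ f : M → ℝ, SmoothF E4 f ∧ (∀ y, 0 ≤ f y) ∧ (∀ y, f y ≤ 1) ∧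
      (∀ y, y ∉ U → f y = 0) ∧ 0 < ∫ y, f y ∂μ := by
  obtain ⟨R, hR, hRU⟩ := Metric.mem_nhds_iff.1 hU
  obtain ⟨f, hf, h1, h0, h01⟩ := exists_bump_ball (E := E4) x (r := R / 2) (R := R) (by linarith)
  refine ⟨f, hf, fun y => (h01 y).1, fun y => (h01 y).2, fun y hy => h0 y ?_, ?_⟩
  · by_contra h
    exact hy (hRU (mem_ball.2 (not_le.1 h)))
  · have hfc : Continuous f := Int.SmoothF.cont hf
    rw [integral_pos_iff_support_of_nonneg (fun y => (h01 y).1) (integrable_cont hfc)]
    have h2 : ball x (R / 2) ⊆ support f := by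
      intro y hy
      rw [mem_support, h1 y (mem_ball.1 hy).le]
      exact one_ne_zero
    exact lt_of_lt_of_le (isOpen_ball.measure_pos μ ⟨x, mem_ball_self (by linarith)⟩)
      (measure_mono h2)

/-- testing: if `∫ f g dμ ≤ B ∫ f dμ` for all small bumps `f` at `x`, then `g x ≤ B`. -/
lemma le_of_test {μ : Measure M} [IsFiniteMeasure μ] [μ.IsOpenPosMeasure] {g : M → ℝ}
    (hg : Continuous g) {B : ℝ} {x : M} {U : Set M} (hU : U ∈ 𝓝 x)
    (h : ∀ f : M → ℝ, SmoothF E4 f → (∀ y, 0 ≤ f y) → (∀ y, y ∉ U → f y = 0) →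
      ∫ y, f y * g y ∂μ ≤ B * ∫ y, f y ∂μ) : g x ≤ B := by
  by_contra hlt
  rw [not_le] at hlt
  obtain ⟨t, ht1, ht2⟩ := exists_between hlt
  have hV : U ∩ {y | t < g y} ∈ 𝓝 x :=
    inter_mem hU ((isOpen_lt continuous_const hg).mem_nhds ht2)
  obtain ⟨f, hf, hf0, -, hfV, hfpos⟩ := exists_test (μ := μ) x hV
  have hfc : Continuous f := Int.SmoothF.cont hf
  have h1 := h f hf hf0 fun y hy => hfV y fun h => hy h.1
  have h2 : t * ∫ y, f y ∂μ ≤ ∫ y, f y * g y ∂μ := by
    rw [← integral_const_mul]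
    refine integral_mono ((integrable_cont hfc).const_mul t) (integrable_cont (hfc.mul hg))
      fun y => ?_
    simp only
    by_cases hy : f y = 0
    · rw [hy, mul_zero, zero_mul]
    · have hy' : y ∈ U ∩ {y | t < g y} := by
        by_contra h
        exact hy (hfV y h)
      rw [mul_comm t]
      exact mul_le_mul_of_nonneg_left (le_of_lt hy'.2) (hf0 y)
  nlinarith

/-- the density is `≥ 0`. -/
theorem dens_nonneg {μ : Measure M} [IsFiniteMeasure μ] [μ.IsOpenPosMeasure] {g : M → ℝ}
    (hg : Continuous g)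
    (h : ∀ f : M → ℝ, SmoothF E4 f → (∀ y, 0 ≤ f y) → 0 ≤ ∫ y, f y * g y ∂μ) (x : M) :
    0 ≤ g x := by
  have h1 := le_of_test (μ := μ) (g := fun y => - g y) hg.neg (B := 0) (x := x) (U := univ)
    univ_mem (fun f hf hf0 _ => by
      have := h f hf hf0
      simp only [mul_neg, integral_neg, zero_mul]
      linarith)
  linarith

/-- **sup bound of the density.** -/
theorem dens_le {μ s : Measure M} [IsFiniteMeasure μ] [μ.IsOpenPosMeasure] [IsFiniteMeasure s]
    {a : (M → ℝ) → M → ℝ} {δ B : ℝ} (ha : Loc δ {f | SmoothF E4 f} a)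
    (hB : ∀ f : M → ℝ, SmoothF E4 f → (∀ y, 0 ≤ f y) → ∀ x, a f x ≤ B * ∫ y, f y ∂μ)
    {g : M → ℝ} (hg : Continuous g)
    (hrep : ∀ f : M → ℝ, SmoothF E4 f → ∫ x, a f x ∂s = ∫ x, f x * g x ∂μ) (x : M) {ρ : ℝ}
    (hρ : 0 < ρ) : g x ≤ B * s.real (ball x (δ + ρ)) := by
  refine le_of_test (μ := μ) hg (U := ball x ρ) (ball_mem_nhds x hρ) fun f hf hf0 hfU => ?_
  rw [← hrep f hf]
  have hI0 : 0 ≤ ∫ y, f y ∂μ := integral_nonneg hf0
  have h1 : ∀ y, a f y ≤ (ball x (δ + ρ)).indicator (fun _ => B * ∫ y, f y ∂μ) y := by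
    intro y
    by_cases hy : y ∈ ball x (δ + ρ)
    · rw [indicator_of_mem hy]
      exact hB f hf hf0 y
    · rw [indicator_of_notMem hy]
      refine ha.up f hf y 0 fun z hz => ?_
      refine (hfU z fun h => hy ?_).le
      rw [mem_ball] at h ⊢
      calc dist y x ≤ dist y z + dist z x := dist_triangle _ _ _
        _ < δ + ρ := by
          rw [dist_comm y z]
          linarith
  have hind : Integrable ((ball x (δ + ρ)).indicator (fun _ => B * ∫ y, f y ∂μ)) s :=
    (integrable_const _).indicator measurableSet_ball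
  have h0 : ∀ y, 0 ≤ a f y := fun y => ha.nonneg hf hf0 y
  calc ∫ y, a f y ∂s ≤ ∫ y, (ball x (δ + ρ)).indicator (fun _ => B * ∫ y, f y ∂μ) y ∂s :=
        integral_mono_of_nonneg (Eventually.of_forall h0) hind (Eventually.of_forall h1)
    _ = B * s.real (ball x (δ + ρ)) * ∫ y, f y ∂μ := by
        rw [integral_indicator measurableSet_ball, setIntegral_const, smul_eq_mul]
        ring

end

end Crest.Agent.R240.SmF
end

-- ▼ part R240/SmFL
section

/-!
Row 240, N8 field `repm` (helper837): propagation of the function averages, and the assembly of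
`FRepm` from the existence of the density.
-/

set_option autoImplicit false
set_option maxSynthPendingDepth 3
set_option linter.unusedSectionVars false

open Set Function Filter Metric MeasureTheory
open scoped Manifold ContDiff Topology
open Crest.Agent.R240.Ch Crest.Agent.R240.Sm

namespace Crest.Agent.R240.SmF

noncomputable section

variable {M : Type*} [MetricSpace M] [CompactSpace M] [ChartedSpace E4 M]
    [IsManifold 𝓘(ℝ, E4) ∞ M] [MeasurableSpace M] [BorelSpace M]

/-- propagation of the product. -/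
theorem loc_fL (S : Sys M) {C : ℝ} (hC : 0 ≤ C)
    (hdisp : ∀ i, ∀ z ∈ closedBall (0 : E4) ((S.c i).z0 / 2), ∀ x : M,
      dist (psi (S.G i) (S.p i) z x) x ≤ C * ‖z‖) {e : ℝ} (he : 0 < e)
    (hez : ∀ i, e ≤ (S.c i).z0 / 2) (l : List (Fin S.n)) :
    Loc (l.length * (C * e)) {f : M → ℝ | SmoothF E4 f} (S.fL e l) := by
  have hok : S.Ok e := ⟨he, fun i => by
    have := (S.c i).z0_pos
    have := hez i
    linarith⟩
  induction l with
  | nil =>
    have h : Loc 0 {f : M → ℝ | SmoothF E4 f} (S.fL e []) := Loc.id {f : M → ℝ | SmoothF E4 f}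
    exact h.mono (by simp)
  | cons i l ih =>
    have h1 : Loc (C * e) {f : M → ℝ | SmoothF E4 f} (S.f1 e i) :=
      Loc.avg (ν := (volume : Measure E4)) (k := kap0)
        (ψ := fun z => psi (S.G i) (S.p i) (e • z)) kap0_nonneg kap0_integrable kap0_integral
        (fun z hz x => by
          have hzn : ‖e • z‖ ≤ e := by
            rw [norm_smul, Real.norm_of_nonneg he.le]
            exact mul_le_of_le_one_right he.le (norm_lt_of_kap0 hz).le
          exact (hdisp i _ (mem_closedBall_zero_iff.2 (hzn.trans (hez i))) x).trans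
            (mul_le_mul_of_nonneg_left hzn hC))
        (fun f hf x => integrable_a1 (S.hG i) (hok.adm_kap0 i) hf x)
    have h2 := h1.comp ih (fun f hf => Sys.smoothF_fL hok l hf)
    refine Loc.mono h2 (le_of_eq ?_)
    rw [List.length_cons]
    push_cast
    ring

/-- **`FRepm` from the existence of the density.** -/
theorem fRepm_of (D : Dat M) (S : Sys M)
    (hE : ∃ e1 : ℝ, 0 < e1 ∧ ∀ s : Measure M, IsFiniteMeasure s → ∀ e, 0 < e → e ≤ e1 →
      ∃ g : M → ℝ, SmoothF E4 g ∧ ∀ f : M → ℝ, SmoothF E4 f →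
        ∫ x, S.a e f x ∂s = ∫ x, f x * g x ∂D.μ) : FRepm D S := by
  obtain ⟨e1, he1, hE⟩ := hE
  obtain ⟨e2, he2, C2, hC2, hK⟩ := fL_sup D S
  choose Cd hCd hdisp using fun i => exists_disp_psi D.bl (S.G i) (p := S.p i) (S.hG i)
    (r' := (S.c i).z0 / 2) (by
      change (S.c i).z0 / 2 < (S.c i).z0
      linarith [(S.c i).z0_pos])
  set Ct : ℝ := 1 + ∑ i, Cd i with hCt
  have hs0 : 0 ≤ ∑ i, Cd i := Finset.sum_nonneg fun i _ => hCd i
  have hCt0 : 0 < Ct := by positivity
  have hCle : ∀ i, Cd i ≤ Ct := fun i => by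
    have := Finset.single_le_sum (f := Cd) (fun i _ => hCd i) (Finset.mem_univ i)
    rw [hCt]
    linarith
  have hdisp' : ∀ i, ∀ z ∈ closedBall (0 : E4) ((S.c i).z0 / 2), ∀ x : M,
      dist (psi (S.G i) (S.p i) z x) x ≤ Ct * ‖z‖ := fun i z hz x =>
    (hdisp i z hz x).trans (mul_le_mul_of_nonneg_right (hCle i) (norm_nonneg _))
  obtain ⟨e3, he3, he3'⟩ := exists_pos_le (fun i : Fin S.n => (S.c i).z0 / 2)
    fun i => half_pos (S.c i).z0_pos
  set c : ℝ := S.n * Ct + 1 with hc
  have hc0 : 0 < c := by positivity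
  refine ⟨min e1 (min e2 e3), by positivity, max C2 (1 + 2 * c), ?_, ?_⟩
  · exact le_trans (by linarith) (le_max_right _ _)
  intro s hs e he hee
  have hee1 : e ≤ e1 := hee.trans (min_le_left _ _)
  have hee2 : e ≤ e2 := hee.trans ((min_le_right _ _).trans (min_le_left _ _))
  have hez : ∀ i, e ≤ (S.c i).z0 / 2 := fun i =>
    (hee.trans ((min_le_right _ _).trans (min_le_right _ _))).trans (he3' i)
  have hok : S.Ok e := ⟨he, fun i => by
    have := (S.c i).z0_pos
    have := hez i
    linarith⟩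
  obtain ⟨g, hg, hrep⟩ := hE s hs e he hee1
  have hfin : IsFiniteMeasure D.μ := by
    rw [mu_eq]
    exact Int.isFinite_mu (Int.dat_volF D)
  have hop : D.μ.IsOpenPosMeasure := by
    rw [mu_eq]
    exact Int.isOpenPos_mu (Int.dat_volF D)
  have hgc : Continuous g := Int.SmoothF.cont hg
  have hloc0 := loc_fL S hCt0.le hdisp' he hez (List.finRange S.n)
  rw [List.length_finRange] at hloc0
  have hloc : Loc (S.n * (Ct * e)) {f : M → ℝ | SmoothF E4 f} (S.a e) := hloc0
  have hloc' : Loc (c * e) {f : M → ℝ | SmoothF E4 f} (S.a e) := by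
    refine hloc.mono ?_
    rw [hc]
    nlinarith
  have hgn : ∀ x, 0 ≤ g x := dens_nonneg (μ := D.μ) hgc fun f hf hf0 => by
    rw [← hrep f hf]
    exact integral_nonneg (Sys.fL_nonneg e _ hf0)
  refine ⟨g, hg, hgn, hrep, fun x => ?_, fun x r hr => ?_⟩
  · have h1 := dens_le (μ := D.μ) (s := s) hloc (fun f hf hf0 x => hK e he hee2 f hf hf0 x) hgc
      hrep x he
    have h2 : S.n * (Ct * e) + e ≤ max C2 (1 + 2 * c) * e := by
      have h3 : 1 + 2 * c ≤ max C2 (1 + 2 * c) := le_max_right _ _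
      have h4 : S.n * (Ct * e) + e = c * e := by rw [hc]; ring
      rw [h4]
      refine mul_le_mul_of_nonneg_right ?_ he.le
      linarith
    calc g x ≤ C2 / e ^ 4 * s.real (ball x (S.n * (Ct * e) + e)) := h1
      _ ≤ max C2 (1 + 2 * c) / e ^ 4 * s.real (ball x (max C2 (1 + 2 * c) * e)) := by
        refine mul_le_mul ?_ (measureReal_mono (ball_subset_ball h2)) measureReal_nonneg ?_
        · exact div_le_div_of_nonneg_right (le_max_left _ _) (by positivity)
        · have : 0 ≤ max C2 (1 + 2 * c) := hC2.le.trans (le_max_left _ _)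
          positivity
  · exact mass_low' (E := E4) hc0 he hloc' (fun f hf => Int.SmoothF.cont
      (Sys.smoothF_fL hok _ hf)) hgc hgn hrep x hr (le_max_right _ _)

end

end Crest.Agent.R240.SmF
end

-- ▼ part R240/SmFE
section

/-!
Row 240 (S0371), N8 (helper599): existence of a smooth density for a finite measure composed with
the smoothing operator on functions.
-/

set_option autoImplicit false
set_option maxSynthPendingDepth 3
set_option linter.unusedSectionVars false

open Set Function Filter MeasureTheory Metric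
open scoped Manifold ContDiff Topology

namespace Crest.Agent.R240.SmF

open Crest.Agent.R240.Ch Crest.Agent.R240.Sm Crest.Agent.R240.Int Crest.Agent.R240.FunRep

noncomputable section

/-! ### chart functions -/

section ChartFun

variable {M : Type*} [TopologicalSpace M] [ChartedSpace E4 M] [IsManifold 𝓘(ℝ, E4) ∞ M]

/-- `f` vanishes off the core `symm '' K` of the chart at `p` -/
def SuppF (p : M) (K : Set E4) (f : M → ℝ) : Prop :=
  ∀ x, x ∉ (chartAt E4 p).symm '' K → f x = 0

/-- the chart function -/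
def cfF (p : M) (K : Set E4) (f : M → ℝ) : E4 → ℝ :=
  K.indicator (fun y => f ((chartAt E4 p).symm y))

lemma symm_zero {p : M} {K : Set E4} (hKt : K ⊆ (chartAt E4 p).target) {f : M → ℝ}
    (hf : SuppF p K f) {y : E4} (hy : y ∈ (chartAt E4 p).target) (hyK : y ∉ K) :
    f ((chartAt E4 p).symm y) = 0 := by
  refine hf _ ?_
  rintro ⟨k, hk, hky⟩
  have h1 := (chartAt E4 p).symm.injOn (hKt hk) hy hky
  exact hyK (h1 ▸ hk)

lemma cfF_eq {p : M} {K : Set E4} (hKt : K ⊆ (chartAt E4 p).target) {f : M → ℝ}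
    (hf : SuppF p K f) {y : E4} (hy : y ∈ (chartAt E4 p).target) :
    cfF p K f y = f ((chartAt E4 p).symm y) := by
  by_cases hyK : y ∈ K
  · exact indicator_of_mem hyK _
  · rw [cfF, indicator_of_notMem hyK, symm_zero hKt hf hy hyK]

lemma cfF_zero {p : M} {K : Set E4} {f : M → ℝ} {y : E4} (hy : y ∉ K) : cfF p K f y = 0 :=
  indicator_of_notMem hy _

lemma cfF_continuous {p : M} {K : Set E4} (hK : IsCompact K) (hKt : K ⊆ (chartAt E4 p).target)
    {f : M → ℝ} (hfs : SmoothF E4 f) (hf : SuppF p K f) : Continuous (cfF p K f) := by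
  rw [continuous_iff_continuousAt]
  intro y
  by_cases hy : y ∈ (chartAt E4 p).target
  · have h1 : ContinuousAt (fun y => f ((chartAt E4 p).symm y)) y :=
      (hfs p).continuousOn.continuousAt ((chartAt E4 p).open_target.mem_nhds hy)
    refine h1.congr ?_
    filter_upwards [(chartAt E4 p).open_target.mem_nhds hy] with z hz
    exact (cfF_eq hKt hf hz).symm
  · have hyK : y ∉ K := fun h => hy (hKt h)
    refine (continuousAt_const (y := (0 : ℝ))).congr ?_
    filter_upwards [hK.isClosed.isOpen_compl.mem_nhds hyK] with z hz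
    exact (cfF_zero hz).symm

lemma cfF_compact {p : M} {K : Set E4} (hK : IsCompact K) {f : M → ℝ} :
    HasCompactSupport (cfF p K f) :=
  HasCompactSupport.intro hK fun _ hy => cfF_zero hy

/-- **the averaging of a function supported where the cut-off is one is a translation
averaging.** -/
theorem a1_eq {p : M} (c : Cut E4) (hc : ∀ y, c.θ y ∈ Icc (0 : ℝ) 1)
    (hct : tsupport c.θ ⊆ (chartAt E4 p).target) {Ω : Set E4}
    (hΩ1 : ∀ y ∈ Ω, c.θ y = 1) {κ : E4 → ℝ} (hκ1 : ∀ z, κ z ≠ 0 → ‖z‖ ≤ 1) {e : ℝ}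
    (he : 0 < e) (hez : e < c.z0) {K : Set E4} (hKt : K ⊆ (chartAt E4 p).target)
    (hKΩ : ∀ w ∈ K, closedBall w e ⊆ Ω) {f : M → ℝ} (hf : SuppF p K f) {x : M}
    (hx : x ∈ (chartAt E4 p).source) :
    a1 c.fam p κ e f x = ∫ z, κ z * cfF p K f (chartAt E4 p x + e • z) := by
  unfold a1
  refine integral_congr_ae (Eventually.of_forall fun z => ?_)
  simp only
  by_cases hz : κ z = 0
  · rw [hz, zero_mul, zero_mul]
  congr 1
  set y := chartAt E4 p x with hy
  have hyt : y ∈ (chartAt E4 p).target := (chartAt E4 p).map_source hx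
  have hzn : ‖e • z‖ ≤ e := by
    rw [norm_smul, Real.norm_of_nonneg he.le]
    exact mul_le_of_le_one_right he.le (hκ1 z hz)
  have hzb : e • z ∈ ball (0 : E4) c.fam.r := by
    rw [mem_ball_zero_iff, Cut.fam_r]
    exact hzn.trans_lt hez
  have hgt : c.fam.g (e • z) y ∈ (chartAt E4 p).target :=
    c.fam.mem_of_mem hzb (by rw [Cut.fam_K]; exact hct) hyt
  rw [psi_of_mem hx, ← hy]
  by_cases hyΩ : y ∈ Ω
  · have h2 : c.fam.g (e • z) y = y + e • z := by
      rw [Cut.fam_g, Cut.tau, hΩ1 y hyΩ, one_smul]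
    rw [h2, cfF_eq hKt hf (h2 ▸ hgt)]
  · have hnot : ∀ w, dist y w ≤ e → w ∉ K := fun w hw hwK =>
      hyΩ (hKΩ w hwK (mem_closedBall.2 hw))
    have h2 : f ((chartAt E4 p).symm (c.fam.g (e • z) y)) = 0 := by
      refine symm_zero hKt hf hgt (hnot _ ?_)
      rw [Cut.fam_g, Cut.tau, dist_eq_norm]
      have h3 : y - (y + c.θ y • e • z) = -(c.θ y • e • z) := by abel
      rw [h3, norm_neg, norm_smul, Real.norm_of_nonneg (hc y).1]
      exact (mul_le_of_le_one_left (norm_nonneg _) (hc y).2).trans hzn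
    have h4 : cfF p K f (y + e • z) = 0 := by
      refine cfF_zero (hnot _ ?_)
      rw [dist_eq_norm]
      have h3 : y - (y + e • z) = -(e • z) := by abel
      rw [h3, norm_neg]
      exact hzn
    rw [h2, h4]

theorem a1_off {p : M} (c : Cut E4) {κ : E4 → ℝ} {e : ℝ} {K : Set E4}
    (hKt : K ⊆ (chartAt E4 p).target) {f : M → ℝ} (hf : SuppF p K f) {x : M}
    (hx : x ∉ (chartAt E4 p).source) : a1 c.fam p κ e f x = 0 := by
  unfold a1
  refine integral_eq_zero_of_ae (Eventually.of_forall fun z => ?_)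
  simp only [Pi.zero_apply]
  rw [psi_of_notMem hx, hf x fun h => hx (Sm4.core_subset hKt h), mul_zero]

end ChartFun

/-! ### the density of a finite measure after one averaging -/

section S1

variable {M : Type*} [MetricSpace M] [CompactSpace M] [ChartedSpace E4 M]
    [IsManifold 𝓘(ℝ, E4) ∞ M] [MeasurableSpace M] [BorelSpace M]

lemma contDiffOn_ent {n : WithTop ℕ∞} {f : E4 → Bil} {s : Set E4} (hf : ContDiffOn ℝ n f s)
    (i j : Fin 4) : ContDiffOn ℝ n (fun y => ent (f y) i j) s :=
  (hf.clm_apply contDiffOn_const).clm_apply contDiffOn_const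

lemma contDiffOn_W {n : WithTop ℕ∞} {f g : E4 → Bil} {s : Set E4} (hf : ContDiffOn ℝ n f s)
    (hg : ContDiffOn ℝ n g s) : ContDiffOn ℝ n (fun y => W (f y) (g y)) s := by
  have hf' := contDiffOn_ent hf
  have hg' := contDiffOn_ent hg
  unfold W
  exact (((((((hf' _ _).mul (hg' _ _)).sub ((hf' _ _).mul (hg' _ _))).add
    ((hf' _ _).mul (hg' _ _))).add ((hf' _ _).mul (hg' _ _))).sub
    ((hf' _ _).mul (hg' _ _))).add ((hf' _ _).mul (hg' _ _)))

lemma contDiffAt_dens {F : F2 E4 M} (hF : Vol F) (hFs : Smooth2 F) {p : M} {y : E4}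
    (hy : y ∈ (chartAt E4 p).target) : ContDiffAt ℝ ∞ (dens F p) y := by
  have h1 : ContDiffAt ℝ ∞ (fun y => W (rep p F y) (rep p F y)) y :=
    (contDiffOn_W (hFs.2 p) (hFs.2 p)).contDiffAt ((chartAt E4 p).open_target.mem_nhds hy)
  exact h1.abs (hF.rep_ne hy)

/-- the convolution of a finite measure with a smooth kernel of compact support is smooth. -/
lemma contDiff_measConv (ν : Measure E4) [IsFiniteMeasure ν] {k : E4 → ℝ}
    (hk : ContDiff ℝ ∞ k) (hkc : HasCompactSupport k) :
    ContDiff ℝ ∞ (fun w => ∫ y, k (w - y) ∂ν) := by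
  have h1 : LocallyIntegrable (fun _ : E4 => (1 : ℝ)) ν :=
    (integrable_const (1 : ℝ)).locallyIntegrable
  have h2 := hkc.contDiff_convolution_right (ContinuousLinearMap.mul ℝ ℝ) h1 hk
  have h3 : (fun w => ∫ y, k (w - y) ∂ν) =
      convolution (fun _ => (1 : ℝ)) k (ContinuousLinearMap.mul ℝ ℝ) ν := by
    funext w
    unfold convolution
    simp
  rw [h3]
  exact h2

/-- **density after one averaging**, for functions supported where the averaging is by
translations. -/
theorem S1F (D : Dat M) {p : M} (c : Cut E4) (hc : ∀ y, c.θ y ∈ Icc (0 : ℝ) 1)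
    (hct : tsupport c.θ ⊆ (chartAt E4 p).target) {Ω : Set E4}
    (hΩ1 : ∀ y ∈ Ω, c.θ y = 1) {κ : E4 → ℝ} (hκs : ContDiff ℝ ∞ κ)
    (hκ1 : ∀ z, κ z ≠ 0 → ‖z‖ ≤ 1) {e : ℝ} (he : 0 < e) (hez : e < c.z0)
    {K : Set E4} (hK : IsCompact K) (hKt : K ⊆ (chartAt E4 p).target)
    (hKΩ : ∀ w ∈ K, closedBall w e ⊆ Ω) (ν : Measure M) [IsFiniteMeasure ν] :
    ∃ h : M → ℝ, SmoothF E4 h ∧ ∀ f, SmoothF E4 f → SuppF p K f →
      ∫ x, a1 c.fam p κ e f x ∂ν = ∫ x, f x * h x ∂D.μ := by
  classical
  have hF : Vol D.F := dat_volF D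
  have hFs : Smooth2 D.F := dat_smF D
  have hfin : IsFiniteMeasure D.μ := D.fin
  -- the scaled kernel
  set κe : E4 → ℝ := fun u => (e ^ Module.finrank ℝ E4)⁻¹ * κ (e⁻¹ • u) with hκe
  have hκes : ContDiff ℝ ∞ κe := contDiff_const.mul (hκs.comp (contDiff_const_smul _))
  have hκec : HasCompactSupport κe := by
    refine HasCompactSupport.intro (isCompact_closedBall (0 : E4) e) fun u hu => ?_
    have : κ (e⁻¹ • u) = 0 := by
      by_contra h
      refine hu ?_
      have h1 := hκ1 _ h
      rw [norm_smul, norm_inv, Real.norm_of_nonneg he.le, inv_mul_le_iff₀ he, mul_one] at h1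
      exact mem_closedBall_zero_iff.2 h1
    simp only [hκe]
    rw [this, mul_zero]
  -- the image measure
  have hmeas : AEMeasurable (chartAt E4 p) (ν.restrict (chartAt E4 p).source) :=
    (chartAt E4 p).continuousOn.aemeasurable (chartAt E4 p).open_source.measurableSet
  set ν' : Measure E4 := Measure.map (chartAt E4 p) (ν.restrict (chartAt E4 p).source) with hν'
  have hν'f : IsFiniteMeasure ν' := by rw [hν']; infer_instance
  set H : E4 → ℝ := fun w => ∫ y, κe (w - y) ∂ν' with hH
  have hHs : ContDiff ℝ ∞ H := contDiff_measConv ν' hκes hκec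
  -- the cut-off
  obtain ⟨d, hdV, hd1, -⟩ := exists_cut hK (chartAt E4 p).open_target hKt
  have hd1' : ∀ y ∈ K, d.θ y = 1 := fun y hy => (Filter.Eventually.self_of_nhdsSet hd1) y hy
  set g : E4 → ℝ := fun w => d.θ w * (H w / dens D.F p w) with hg
  have hgs : ContDiff ℝ ∞ g := by
    refine contDiff_of_tsup fun y hy => ?_
    have hyt : y ∈ (chartAt E4 p).target := hdV (tsupport_mul_subset_left hy)
    exact d.smooth.contDiffAt.mul (hHs.contDiffAt.div (contDiffAt_dens hF hFs hyt)
      (hF.dens_pos hyt).ne')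
  have hg0 : ∀ y, y ∉ tsupport d.θ → g y = 0 := fun y hy => by
    simp only [hg]
    rw [image_eq_zero_of_notMem_tsupport hy, zero_mul]
  have hhs : SmoothF E4 (extF p g) := smoothF_extF d.comp hdV hgs hg0
  refine ⟨extF p g, hhs, fun f hfs hf => ?_⟩
  have hcc : Continuous (cfF p K f) := cfF_continuous hK hKt hfs hf
  -- the left hand side
  have hL1 : ∫ x, a1 c.fam p κ e f x ∂ν =
      ∫ x in (chartAt E4 p).source, a1 c.fam p κ e f x ∂ν :=
    (setIntegral_eq_integral_of_forall_compl_eq_zero fun x hx => a1_off c hKt hf hx).symm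
  set Φ : E4 → ℝ := fun y => ∫ w, κe (w - y) * cfF p K f w with hΦ
  have hΦx : ∀ x ∈ (chartAt E4 p).source, a1 c.fam p κ e f x = Φ (chartAt E4 p x) := by
    intro x hx
    rw [a1_eq c hc hct hΩ1 hκ1 he hez hKt hKΩ hf hx]
    have := scaled_average volume κ (cfF p K f) he (chartAt E4 p x)
    simpa only [smul_eq_mul] using this
  have hcont2 : Continuous fun q : E4 × E4 => κe (q.2 - q.1) * cfF p K f q.2 :=
    (hκes.continuous.comp (continuous_snd.sub continuous_fst)).mul (hcc.comp continuous_snd)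
  have hΦm : StronglyMeasurable Φ :=
    StronglyMeasurable.integral_prod_right' (f := fun q : E4 × E4 => κe (q.2 - q.1) *
      cfF p K f q.2) hcont2.stronglyMeasurable
  have hL2 : ∫ x in (chartAt E4 p).source, a1 c.fam p κ e f x ∂ν = ∫ y, Φ y ∂ν' := by
    rw [setIntegral_congr_fun (chartAt E4 p).open_source.measurableSet hΦx, hν',
      integral_map hmeas hΦm.aestronglyMeasurable]
  obtain ⟨B, hB⟩ := hκes.continuous.bounded_above_of_compact_support hκec
  have hint : Integrable (fun q : E4 × E4 => κe (q.2 - q.1) * cfF p K f q.2)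
      (ν'.prod volume) := by
    have h1 : Integrable (cfF p K f) volume :=
      hcc.integrable_of_hasCompactSupport (cfF_compact hK)
    have h2 : Integrable (fun q : E4 × E4 => B * ‖cfF p K f q.2‖) (ν'.prod volume) :=
      (integrable_const B).mul_prod h1.norm
    refine h2.mono' hcont2.aestronglyMeasurable (Eventually.of_forall fun q => ?_)
    rw [norm_mul]
    exact mul_le_mul_of_nonneg_right (hB _) (norm_nonneg _)
  have hL3 : ∫ y, Φ y ∂ν' = ∫ w, cfF p K f w * H w := by
    simp only [hΦ]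
    rw [integral_integral_swap (f := fun y w => κe (w - y) * cfF p K f w) hint]
    refine integral_congr_ae (Eventually.of_forall fun w => ?_)
    simp only [hH]
    rw [integral_mul_const, mul_comm]
  -- the right hand side
  have hfc : Continuous f := SmoothF.cont hfs
  have hhc : Continuous (extF p g) := SmoothF.cont hhs
  have hR1 : ∫ x, f x * extF p g x ∂D.μ = ∫ y in (chartAt E4 p).target,
      dens D.F p y • (f ((chartAt E4 p).symm y) * extF p g ((chartAt E4 p).symm y)) := by
    refine isVol_integral hF D.vol p (hfc.mul hhc).aestronglyMeasurable fun x hx => ?_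
    rw [hf x fun h => hx (Sm4.core_subset hKt h), zero_mul]
  have hR2 : ∀ y ∈ (chartAt E4 p).target,
      dens D.F p y • (f ((chartAt E4 p).symm y) * extF p g ((chartAt E4 p).symm y)) =
        cfF p K f y * H y := by
    intro y hy
    rw [extF_of_mem (symm_mem hy), (chartAt E4 p).right_inv hy, ← cfF_eq hKt hf hy]
    by_cases hyK : y ∈ K
    · have hne := (hF.dens_pos hy).ne'
      simp only [hg, smul_eq_mul]
      rw [hd1' y hyK, one_mul]
      field_simp
    · rw [cfF_zero hyK, zero_mul, zero_mul, smul_zero]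
  rw [hL1, hL2, hL3, hR1, setIntegral_congr_fun (chartAt E4 p).open_target.measurableSet hR2]
  exact (setIntegral_eq_integral_of_forall_compl_eq_zero fun y hy => by
    rw [cfF_zero fun h => hy (hKt h), zero_mul]).symm

end S1

/-! ### gluing -/

section Glue

variable {M : Type*} [MetricSpace M] [CompactSpace M] [ChartedSpace E4 M]
    [IsManifold 𝓘(ℝ, E4) ∞ M] [MeasurableSpace M] [BorelSpace M]

/-- the space of smooth functions -/
def XF (M : Type*) [MetricSpace M] [CompactSpace M] [ChartedSpace E4 M]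
    [IsManifold 𝓘(ℝ, E4) ∞ M] : Submodule ℝ (M → ℝ) where
  carrier := {f | SmoothF E4 f}
  add_mem' hf hg := SmoothF.add hf hg
  zero_mem' := smoothF_const 0
  smul_mem' c _ hf := SmoothF.mul (smoothF_const c) hf

/-- the one-chart operator on functions -/
def f1X (S : Sys M) {e : ℝ} (h : S.Ok e) (i : Fin S.n) : Module.End ℝ (XF M) where
  toFun f := ⟨S.f1 e i f.1, Sys.smoothF_f1 h i f.2⟩
  map_add' f g := Subtype.ext (Sys.f1_add h i f.2 g.2)
  map_smul' c f := Subtype.ext (Sys.f1_smul e i c f.1)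

/-- support propagation of one averaging -/
theorem supp_f1 {p : M} (c : Cut E4) {κ : E4 → ℝ} (hκ : ∀ z, κ z ≠ 0 → ‖z‖ ≤ 1)
    {e : ℝ} (he : 0 < e) (hez : e ≤ c.z0 / 2) {C : ℝ} (hC : 0 ≤ C)
    (hdisp : ∀ z ∈ closedBall (0 : E4) (c.z0 / 2), ∀ x : M,
      dist (psi c.fam p z x) x ≤ C * ‖z‖)
    (K : Set M) (f : M → ℝ) (hf : ∀ x ∉ K, f x = 0) :
    ∀ x ∉ cthickening (C * e) K, a1 c.fam p κ e f x = 0 := by
  intro x hx
  unfold a1
  refine integral_eq_zero_of_ae (Eventually.of_forall fun z => ?_)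
  simp only [Pi.zero_apply]
  by_cases hz : κ z = 0
  · rw [hz, zero_mul]
  have hzn : ‖e • z‖ ≤ e := by
    rw [norm_smul, Real.norm_of_nonneg he.le]
    exact mul_le_of_le_one_right he.le (hκ z hz)
  have hd : dist (psi c.fam p (e • z) x) x ≤ C * e :=
    (hdisp _ (mem_closedBall_zero_iff.2 (hzn.trans hez)) x).trans
      (mul_le_mul_of_nonneg_left hzn hC)
  have h2 : psi c.fam p (e • z) x ∉ K := by
    intro h
    refine hx (mem_cthickening_of_dist_le x _ _ K h ?_)
    rw [dist_comm]; exact hd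
  rw [hf _ h2, mul_zero]

/-- **existence of a smooth density.** -/
theorem exists_dens_of (D : Dat M) (S : Sys M)
    (hT : ∀ {e : ℝ}, S.Ok e → ∀ i (g : M → ℝ), SmoothF E4 g → ∃ g', SmoothF E4 g' ∧
      ∀ f, SmoothF E4 f → ∫ x, S.f1 e i f x * g x ∂D.μ = ∫ x, f x * g' x ∂D.μ)
    (hP : ∀ {e : ℝ}, S.Ok e → ∀ i (ν : Measure M), IsFiniteMeasure ν → ∃ ν' : Measure M,
      IsFiniteMeasure ν' ∧ ∀ f, SmoothF E4 f → ∫ x, S.f1 e i f x ∂ν = ∫ x, f x ∂ν') :
    ∃ e1 : ℝ, 0 < e1 ∧ ∀ s : Measure M, IsFiniteMeasure s → ∀ e, 0 < e → e ≤ e1 →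
      ∃ g, SmoothF E4 g ∧ ∀ f, SmoothF E4 f → ∫ x, S.a e f x ∂s = ∫ x, f x * g x ∂D.μ := by
  classical
  have hF : Vol D.F := dat_volF D
  have hfin : IsFiniteMeasure D.μ := D.fin
  obtain ⟨e2, he2, -, hok⟩ := S.exists_ok
  -- the open cover
  set U : Fin S.n → Set M := fun i => (chartAt E4 (S.p i)).source ∩
    chartAt E4 (S.p i) ⁻¹' S.Ω i with hU
  have hUo : ∀ i, IsOpen (U i) := fun i =>
    (chartAt E4 (S.p i)).isOpen_inter_preimage (S.op i)
  obtain ⟨f, hf⟩ := SmoothPartitionOfUnity.exists_isSubordinate 𝓘(ℝ, E4) (isClosed_univ (X := M))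
    U hUo (fun x _ => by
      obtain ⟨i, hi, hi'⟩ := S.cover x
      exact mem_iUnion.2 ⟨i, hi, S.KΩ i (interior_subset hi')⟩)
  have hsum : ∀ x, ∑ j, f j x = 1 := by
    intro x
    have := f.sum_eq_one (mem_univ x)
    rwa [finsum_eq_sum_of_fintype] at this
  have hfs : ∀ j, SmoothF E4 (fun x => f j x) := fun j => (smoothF_iff _).1 (f j).contMDiff
  set K : Fin S.n → Set M := fun j => tsupport (f j) with hK
  have hKc : ∀ j, IsCompact (K j) := fun j => (isClosed_tsupport _).isCompact
  have hKU : ∀ j, K j ⊆ U j := hf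
  choose δ hδ hδU using fun j => (hKc j).exists_cthickening_subset_open (hUo j) (hKU j)
  set R : Fin S.n → Set E4 := fun j => chartAt E4 (S.p j) '' (cthickening (δ j) (K j)) with hR
  have hQs : ∀ j, cthickening (δ j) (K j) ⊆ (chartAt E4 (S.p j)).source := fun j =>
    (hδU j).trans inter_subset_left
  have hRc : ∀ j, IsCompact (R j) := fun j =>
    (hKc j).cthickening.image_of_continuousOn ((chartAt E4 (S.p j)).continuousOn.mono (hQs j))
  have hRO : ∀ j, R j ⊆ S.Ω j := by
    rintro j _ ⟨x, hx, rfl⟩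
    exact (hδU j hx).2
  choose η hη hηO using fun j => (hRc j).exists_cthickening_subset_open (S.op j) (hRO j)
  choose C hC hdisp using fun j => exists_disp_psi D.bl (S.c j).fam (p := S.p j)
    (by rw [Cut.fam_K]; exact S.sub j) (r' := (S.c j).z0 / 2)
    (by rw [Cut.fam_r]; linarith [(S.c j).z0_pos])
  set Ct : ℝ := ∑ j, C j with hCt
  have hCt0 : 0 ≤ Ct := Finset.sum_nonneg fun j _ => hC j
  have hCle : ∀ j, C j ≤ Ct := fun j =>
    Finset.single_le_sum (f := C) (fun i _ => hC i) (Finset.mem_univ j)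
  set l : List (Fin S.n) := List.finRange S.n with hl
  -- the bound of the scales
  have hex : ∃ e0 : ℝ, 0 < e0 ∧ ∀ j, e0 ≤ (S.c j).z0 / 2 ∧ e0 ≤ η j ∧
      l.length * (Ct * e0) ≤ δ j := by
    have h1 : ∀ j, ∃ e1 : ℝ, 0 < e1 ∧ ∀ e, e ≤ e1 → e ≤ (S.c j).z0 / 2 ∧ e ≤ η j ∧
        l.length * (Ct * e) ≤ δ j := by
      intro j
      refine ⟨min ((S.c j).z0 / 2) (min (η j) (δ j / (l.length * Ct + 1))), ?_, fun e he => ?_⟩
      · have := (S.c j).z0_pos
        have := hη j
        have := hδ j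
        positivity
      · have h2 := le_min_iff.1 he
        have h3 := le_min_iff.1 h2.2
        refine ⟨h2.1, h3.1, ?_⟩
        have h4 : (0 : ℝ) < l.length * Ct + 1 := by positivity
        rw [← mul_assoc]
        rcases le_or_gt e 0 with h5 | h5
        · exact (mul_nonpos_of_nonneg_of_nonpos (by positivity) h5).trans (hδ j).le
        · have h6 := (le_div_iff₀ h4).1 h3.2
          nlinarith
    choose e1 he1 he1' using h1
    rcases isEmpty_or_nonempty (Fin S.n) with hι | hι
    · exact ⟨1, one_pos, fun j => (hι.false j).elim⟩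
    · refine ⟨Finset.univ.inf' Finset.univ_nonempty e1, ?_, fun j => he1' j _ ?_⟩
      · exact (Finset.lt_inf'_iff _).2 fun j _ => he1 j
      · exact Finset.inf'_le _ (Finset.mem_univ j)
  obtain ⟨e0, he0, hsmall⟩ := hex
  refine ⟨min e0 e2, lt_min he0 he2, fun s hs e he hee => ?_⟩
  have hee0 : e ≤ e0 := hee.trans (min_le_left _ _)
  have hoke : S.Ok e := hok e he (hee.trans (min_le_right _ _))
  have hint : ∀ a b : XF M, Integrable (fun x => b.1 x * a.1 x) D.μ := fun a b =>
    ((SmoothF.cont b.2).mul (SmoothF.cont a.2)).integrable_of_hasCompactSupport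
      (HasCompactSupport.of_compactSpace _)
  set FO : (XF M →ₗ[ℝ] ℝ) → Prop := fun L => ∃ ν : Measure M, IsFiniteMeasure ν ∧
    ∀ b : XF M, L b = ∫ x, b.1 x ∂ν with hFO
  have hkapn : ∀ z, kap0 z ≠ 0 → ‖z‖ ≤ 1 := fun z hz => (norm_lt_of_kap0 hz).le
  -- the functional
  set L : XF M →ₗ[ℝ] ℝ :=
    { toFun := fun b => ∫ x, b.1 x ∂s
      map_add' := fun a b => integral_add
        ((SmoothF.cont a.2).integrable_of_hasCompactSupport (HasCompactSupport.of_compactSpace _))
        ((SmoothF.cont b.2).integrable_of_hasCompactSupport (HasCompactSupport.of_compactSpace _))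
      map_smul' := fun c b => integral_const_mul c _ } with hL
  have hLFO : FO L := ⟨s, hs, fun b => rfl⟩
  have hδ0 : 0 ≤ Ct * e := by positivity
  obtain ⟨g, hg⟩ := Sm5.rep_glue (X := XF M) (fun a b => ∫ x, b.1 x * a.1 x ∂D.μ)
    (fun b => by simp)
    (fun a c b => by
      rw [← integral_add (hint a b) (hint c b)]
      refine integral_congr_ae (Eventually.of_forall fun x => ?_)
      show b.1 x * (a.1 x + c.1 x) = _
      ring)
    (f1X S hoke)
    (fun i h => by
      obtain ⟨h', hh's, hh'⟩ := hT hoke i h.1 h.2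
      exact ⟨⟨h', hh's⟩, fun b => hh' b.1 b.2⟩)
    FO
    (fun i L' ⟨ν, hν, hL'⟩ => by
      obtain ⟨ν', hν', h⟩ := hP hoke i ν hν
      refine ⟨ν', hν', fun b => ?_⟩
      rw [LinearMap.comp_apply, hL', ← h b.1 b.2]
      rfl)
    l l.length (Nat.le_succ _) (Fin S.n) (fun j => j) (fun j => List.mem_finRange j)
    (fun j k b => ∀ x ∉ cthickening (k * (Ct * e)) (K j), b.1 x = 0)
    (fun j k i b hb x hx => by
      have h1 := supp_f1 (p := S.p i) (S.c i) hkapn he (hee0.trans (hsmall i).1) (hC i)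
        (hdisp i) _ b.1 hb
      refine h1 x fun hx2 => hx ?_
      have h2 := cthickening_mono (mul_le_mul_of_nonneg_right (hCle i) he.le)
        (cthickening (k * (Ct * e)) (K j)) hx2
      have h3 := cthickening_cthickening_subset hδ0 (mul_nonneg (Nat.cast_nonneg k) hδ0) (K j) h2
      refine cthickening_mono ?_ _ h3
      push_cast
      linarith)
    (fun j k b hb x hx => hb x fun h => hx (cthickening_mono (by push_cast; nlinarith) _ h))
    (fun j L' ⟨ν, hν, hL'⟩ => by
      obtain ⟨h, hhs, hh⟩ := S1F D (p := S.p j) (S.c j) (S.c01 j) (S.sub j) (S.one j) kap0_smooth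
        hkapn he (hoke.2 j) (hRc j) ((hRO j).trans (S.Ω_sub j)) (fun w hw => by
          refine Subset.trans ?_ (hηO j)
          refine Subset.trans (closedBall_subset_closedBall (hee0.trans (hsmall j).2.1)) ?_
          exact closedBall_subset_cthickening hw _) ν
      refine ⟨⟨h, hhs⟩, fun b hb => ?_⟩
      have h3 : SuppF (S.p j) (R j) b.1 := by
        intro x hx
        refine hb x fun hx2 => hx ?_
        have h4 : x ∈ cthickening (δ j) (K j) := by
          refine cthickening_mono ?_ _ hx2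
          refine le_trans ?_ (hsmall j).2.2
          exact mul_le_mul_of_nonneg_left (mul_le_mul_of_nonneg_left hee0 hCt0)
            (Nat.cast_nonneg _)
        exact ⟨chartAt E4 (S.p j) x, ⟨x, h4, rfl⟩, (chartAt E4 (S.p j)).left_inv (hQs j h4)⟩
      rw [hL']
      exact hh b.1 b.2 h3)
    (fun j b => ⟨fun x => f j x * b.1 x, SmoothF.mul (hfs j) b.2⟩)
    (fun b => by
      apply Subtype.ext
      funext x
      rw [Submodule.coe_sum, Finset.sum_apply]
      show ∑ j, f j x * b.1 x = b.1 x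
      rw [← Finset.sum_mul, hsum, one_mul])
    (fun j b x hx => by
      have hx' : x ∉ K j := fun h => hx (self_subset_cthickening _ h)
      show f j x * b.1 x = 0
      rw [image_eq_zero_of_notMem_tsupport hx', zero_mul])
    (fun j h b => by
      refine integral_congr_ae (Eventually.of_forall fun x => ?_)
      show f j x * b.1 x * h.1 x = b.1 x * (f j x * h.1 x)
      ring) L hLFO
  refine ⟨g.1, g.2, fun b hb => ?_⟩
  have key : ∀ (l' : List (Fin S.n)), ((l'.map (f1X S hoke)).prod ⟨b, hb⟩).1 = S.fL e l' b := by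
    intro l'
    induction l' with
    | nil => rfl
    | cons i l' ih =>
      rw [List.map_cons, List.prod_cons, Module.End.mul_apply, Sys.fL_cons, ← ih]
      rfl
  have h1 := hg ⟨b, hb⟩
  have h2 : L ((l.map (f1X S hoke)).prod ⟨b, hb⟩) = ∫ x, S.a e b x ∂s := by
    show ∫ x, ((l.map (f1X S hoke)).prod ⟨b, hb⟩).1 x ∂s = _
    rw [key l]
    rfl
  rw [← h2, h1]

end Glue

end

end Crest.Agent.R240.SmF
end

-- ▼ part R240/SmFP2
section

/-!
Row 240, N8 field `repm`, part (P) (helper599): the image of a finite measure under one averaging.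
-/

set_option autoImplicit false
set_option maxSynthPendingDepth 3
set_option linter.unusedSectionVars false

open Set Function Filter Metric MeasureTheory
open scoped Manifold ContDiff Topology NNReal ENNReal
open Crest.Agent.R240.Ch Crest.Agent.R240.Sm

namespace Crest.Agent.R240.SmF

noncomputable section

section Psi

variable {M : Type*} [TopologicalSpace M] [ChartedSpace E4 M] [IsManifold 𝓘(ℝ, E4) ∞ M]
variable [T2Space M]

/-- joint continuity of the family of diffeomorphisms. -/
theorem continuousAt_psi2 {G : Fam E4} {p : M} (hG : G.K ⊆ (chartAt E4 p).target) {z : E4}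
    (hz : z ∈ ball (0 : E4) G.r) (x : M) :
    ContinuousAt (fun w : M × E4 => psi G p w.2 w.1) (x, z) := by
  by_cases hx : x ∈ (chartAt E4 p).source
  · have hev : (fun w : M × E4 => (chartAt E4 p).symm (G.g w.2 (chartAt E4 p w.1))) =ᶠ[𝓝 (x, z)]
        fun w => psi G p w.2 w.1 := by
      have h5 : ∀ᶠ w : M × E4 in 𝓝 (x, z), w.1 ∈ (chartAt E4 p).source :=
        (continuous_fst.tendsto (x, z)).eventually ((chartAt E4 p).open_source.mem_nhds hx)
      filter_upwards [h5] with w hw
      rw [psi_of_mem hw]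
    refine ContinuousAt.congr ?_ hev
    have h1 : ContinuousAt (fun w : M × E4 => ((w.2, chartAt E4 p w.1) : E4 × E4)) (x, z) :=
      continuousAt_snd.prodMk (ContinuousAt.comp (g := chartAt E4 p) (f := fun w : M × E4 => w.1)
        (x := (x, z)) ((chartAt E4 p).continuousAt hx) continuousAt_fst)
    have hmem : (z, chartAt E4 p x) ∈ (ball (0 : E4) G.r ×ˢ (univ : Set E4)) := ⟨hz, mem_univ _⟩
    have h2 : ContinuousAt (fun w : E4 × E4 => G.g w.1 w.2) (z, chartAt E4 p x) :=
      ((G.smooth _ hmem).contDiffAt ((isOpen_ball.prod isOpen_univ).mem_nhds hmem)).continuousAt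
    have h3 : ContinuousAt (fun w : M × E4 => G.g w.2 (chartAt E4 p w.1)) (x, z) :=
      ContinuousAt.comp (g := fun w : E4 × E4 => G.g w.1 w.2)
        (f := fun w : M × E4 => ((w.2, chartAt E4 p w.1) : E4 × E4)) (x := (x, z)) h2 h1
    have h4 : G.g z (chartAt E4 p x) ∈ (chartAt E4 p).target :=
      G.mem_of_mem hz hG ((chartAt E4 p).map_source hx)
    exact ContinuousAt.comp (g := (chartAt E4 p).symm)
      (f := fun w : M × E4 => G.g w.2 (chartAt E4 p w.1)) (x := (x, z))
      ((chartAt E4 p).continuousAt_symm h4) h3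
  · have hx' : x ∉ KM G p := fun h => hx (KM_subset hG h)
    have hev : (fun w : M × E4 => w.1) =ᶠ[𝓝 (x, z)] fun w => psi G p w.2 w.1 := by
      have h5 : ∀ᶠ w : M × E4 in 𝓝 (x, z), w.1 ∉ KM G p :=
        (continuous_fst.tendsto (x, z)).eventually ((isClosed_KM hG).isOpen_compl.mem_nhds hx')
      have h6 : ∀ᶠ w : M × E4 in 𝓝 (x, z), w.2 ∈ ball (0 : E4) G.r :=
        (continuous_snd.tendsto (x, z)).eventually (isOpen_ball.mem_nhds hz)
      filter_upwards [h5, h6] with w hw hw2
      rw [psi_off hw2 hw]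
    exact continuousAt_fst.congr hev

/-- the radial retraction onto the closed unit ball. -/
def rr (z : E4) : E4 := (max 1 ‖z‖)⁻¹ • z

lemma rr_cont : Continuous rr := by
  refine Continuous.smul (Continuous.inv₀ (continuous_const.max continuous_norm) ?_) continuous_id
  intro z
  exact (lt_of_lt_of_le one_pos (le_max_left _ _)).ne'

lemma rr_eq {z : E4} (hz : ‖z‖ ≤ 1) : rr z = z := by
  rw [rr, max_eq_left hz, inv_one, one_smul]

lemma norm_rr (z : E4) : ‖rr z‖ ≤ 1 := by
  have h : 0 < max 1 ‖z‖ := lt_of_lt_of_le one_pos (le_max_left _ _)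
  rw [rr, norm_smul, norm_inv, Real.norm_of_nonneg h.le, inv_mul_le_iff₀ h, mul_one]
  exact le_max_right _ _

lemma continuous_psi_rr {G : Fam E4} {p : M} (hG : G.K ⊆ (chartAt E4 p).target) {e : ℝ}
    (he : 0 ≤ e) (heG : e < G.r) :
    Continuous (fun w : M × E4 => psi G p (e • rr w.2) w.1) := by
  rw [continuous_iff_continuousAt]
  rintro ⟨x, z⟩
  have hm : e • rr z ∈ ball (0 : E4) G.r := by
    rw [mem_ball_zero_iff, norm_smul, Real.norm_of_nonneg he]
    exact lt_of_le_of_lt (mul_le_of_le_one_right he (norm_rr z)) heG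
  exact ContinuousAt.comp (g := fun w : M × E4 => psi G p w.2 w.1)
    (f := fun w : M × E4 => ((w.1, e • rr w.2) : M × E4)) (x := (x, z))
    (continuousAt_psi2 hG hm x)
    (continuousAt_fst.prodMk ((rr_cont.comp continuous_snd).const_smul e).continuousAt)

end Psi

section Fields

variable {M : Type*} [MetricSpace M] [CompactSpace M] [ChartedSpace E4 M]
    [IsManifold 𝓘(ℝ, E4) ∞ M] [MeasurableSpace M] [BorelSpace M]

/-- **(P)**: the image of a finite measure under one averaging of functions. -/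
theorem exists_push2 (S : Sys M) {e : ℝ} (he : S.Ok e) (i : Fin S.n) (ν : Measure M)
    [IsFiniteMeasure ν] : ∃ ν' : Measure M, IsFiniteMeasure ν' ∧ ∀ f : M → ℝ, SmoothF E4 f →
      ∫ x, S.f1 e i f x ∂ν = ∫ x, f x ∂ν' := by
  have hT : Continuous (fun w : M × E4 => psi (S.G i) (S.p i) (e • rr w.2) w.1) :=
    continuous_psi_rr (S.hG i) he.1.le (he.2 i)
  have hkm : Measurable (fun z : E4 => (kap0 z).toNNReal) :=
    (continuous_real_toNNReal.comp kap0_cont).measurable
  have hcomp : HasCompactSupport kap0 :=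
    (isCompact_closedBall (0 : E4) 1).of_isClosed_subset (isClosed_tsupport kap0)
      tsupport_kap0.subset
  have hki : Integrable (kap0 : E4 → ℝ) := kap0_cont.integrable_of_hasCompactSupport hcomp
  set κ : Measure E4 := volume.withDensity (fun z => ((kap0 z).toNNReal : ℝ≥0∞)) with hκ
  have hfin : IsFiniteMeasure κ := by
    refine isFiniteMeasure_withDensity ?_
    have := hki.lintegral_lt_top
    exact this.ne
  refine ⟨(ν.prod κ).map (fun w : M × E4 => psi (S.G i) (S.p i) (e • rr w.2) w.1),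
    inferInstance, fun f hf => ?_⟩
  have hfc : Continuous f := Int.SmoothF.cont hf
  rw [integral_map hT.aemeasurable hfc.aestronglyMeasurable]
  have hint : Integrable (fun w : M × E4 => f (psi (S.G i) (S.p i) (e • rr w.2) w.1))
      (ν.prod κ) := by
    obtain ⟨C, hC⟩ := isCompact_univ.exists_bound_of_continuousOn (hfc.continuousOn (s := univ))
    exact Integrable.of_bound (hfc.comp hT).aestronglyMeasurable C
      (Eventually.of_forall fun w => hC _ (mem_univ _))
  rw [integral_prod _ hint]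
  refine integral_congr_ae (Eventually.of_forall fun x => ?_)
  simp only
  rw [hκ, integral_withDensity_eq_integral_smul hkm]
  unfold Sys.f1 a1
  refine integral_congr_ae (Eventually.of_forall fun z => ?_)
  simp only
  rw [NNReal.smul_def, Real.coe_toNNReal _ (kap0_nonneg z), smul_eq_mul]
  by_cases hz : kap0 z = 0
  · rw [hz, zero_mul, zero_mul]
  · have hz1 : ‖z‖ ≤ 1 := by
      simpa using tsupport_kap0.subset (subset_tsupport _ hz)
    rw [rr_eq hz1]

end Fields

end

end Crest.Agent.R240.SmF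
end

-- ▼ part R240/SmFE2

/-!
Row 240, N8 field `repm`, part (E) (helper599): the density of a finite measure after the
averaging of functions.
-/

set_option autoImplicit false
set_option maxSynthPendingDepth 3
set_option linter.unusedSectionVars false

open Set Function Filter Metric MeasureTheory
open scoped Manifold ContDiff Topology
open Crest.Agent.R240.Ch Crest.Agent.R240.Sm

namespace Crest.Agent.R240.SmF

noncomputable section

variable {M : Type*} [MetricSpace M] [CompactSpace M] [ChartedSpace E4 M]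
    [IsManifold 𝓘(ℝ, E4) ∞ M] [MeasurableSpace M] [BorelSpace M]

/-- **(E)**: after averaging at a small scale every finite measure has a smooth density. -/
theorem exists_dens (D : Dat M) (S : Sys M) :
    ∃ e1 : ℝ, 0 < e1 ∧ ∀ s : Measure M, IsFiniteMeasure s → ∀ e, 0 < e → e ≤ e1 →
      ∃ g : M → ℝ, SmoothF E4 g ∧ ∀ f : M → ℝ, SmoothF E4 f →
        ∫ x, S.a e f x ∂s = ∫ x, f x * g x ∂D.μ :=
  exists_dens_of D S (fun he i _ hg => f1_adj D S he i hg)
    (fun he i ν _ => exists_push2 S he i ν)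

end

end Crest.Agent.R240.SmF
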