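import Mathlib
import Crest.Agent.R240.Riesz
import Crest.Agent.R240.XDefs
import Crest.Agent.R240.TopDefs

-- ▼ part R240/Vm2
section

/-!
# R240, block V: restriction of a functional of order 0 to a Borel set

Abstract setting: `A` = smooth functions on `M` (evaluated by `ev`), `X` = smooth forms, with a
pointwise norm `N b : M → ℝ` and a multiplication `mul f : X →ₗ X`.  A functional `Φ` on `X` with
`|Φ b| ≤ ∫ N b ds` is restricted to a Borel set `S`: `Φ_S b = lim Φ (χ_n b)`, `χ_n → 1_S` in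
`L¹(s)`.
-/

set_option autoImplicit false
set_option linter.unusedSectionVars false
open MeasureTheory Set Filter Topology

namespace Crest.Agent.R240.Vm

variable {M : Type*} [TopologicalSpace M] [CompactSpace M] [T2Space M] [MeasurableSpace M]
  [BorelSpace M]
variable {A X : Type*} [AddCommGroup A] [Module ℝ A] [AddCommGroup X] [Module ℝ X]

/-- a sequence of test functions with values in `[0,1]` converging to the indicator of `S` in
`L¹(s)`. -/
structure Cut (s : Measure M) (ev : A →ₗ[ℝ] (M → ℝ)) (S : Set M) (χ : ℕ → A) : Prop where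
  nonneg : ∀ n x, 0 ≤ ev (χ n) x
  le_one : ∀ n x, ev (χ n) x ≤ 1
  lim : Tendsto (fun n => ∫ x, |ev (χ n) x - S.indicator (fun _ => (1:ℝ)) x| ∂s) atTop (𝓝 0)

theorem Cut.mono {s s' : Measure M} [IsFiniteMeasure s'] {ev : A →ₗ[ℝ] (M → ℝ)}
    (hcont : ∀ f, Continuous (ev f)) {S : Set M} (hS : MeasurableSet S) {χ : ℕ → A}
    (h : Cut s' ev S χ) (hss : s ≤ s') : Cut s ev S χ := by
  refine ⟨h.nonneg, h.le_one, ?_⟩
  refine squeeze_zero (fun n => integral_nonneg fun x => abs_nonneg _) (fun n => ?_) h.lim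
  apply integral_mono_measure hss
  · exact Eventually.of_forall fun x => abs_nonneg _
  · have h1 : Integrable (ev (χ n)) s' :=
      (hcont _).integrable_of_hasCompactSupport (HasCompactSupport.of_compactSpace _)
    have h2 : Integrable (S.indicator fun _ => (1:ℝ)) s' := (integrable_const 1).indicator hS
    exact (h1.sub h2).abs

/-- existence of cutting sequences. -/
theorem exists_cut (s : Measure M) [IsFiniteMeasure s] [s.Regular]
    (ev : A →ₗ[ℝ] (M → ℝ)) (hcont : ∀ f, Continuous (ev f))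
    (hdense : ∀ f : M → ℝ, Continuous f → (∀ x, 0 ≤ f x) → (∀ x, f x ≤ 1) →
      ∀ ε > 0, ∃ g, (∀ x, 0 ≤ ev g x) ∧ (∀ x, ev g x ≤ 1) ∧ ∀ x, |ev g x - f x| < ε)
    {S : Set M} (hS : MeasurableSet S) : ∃ χ : ℕ → A, Cut s ev S χ := by
  have key : ∀ n : ℕ, ∃ g : A, (∀ x, 0 ≤ ev g x) ∧ (∀ x, ev g x ≤ 1) ∧
      ∫ x, |ev g x - S.indicator (fun _ => (1:ℝ)) x| ∂s ≤ 1 / ((n:ℝ) + 1) := by
    intro n
    have hn : (0:ℝ) < 1 / ((n:ℝ) + 1) := by positivity
    set ε : ℝ := 1 / ((n:ℝ) + 1) with hε
    -- compact inside, open outside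
    obtain ⟨K, hKS, hK, hK'⟩ := hS.exists_isCompact_lt_add (μ := s) (measure_ne_top s S)
      (ε := ENNReal.ofReal (ε / 4)) (by simpa using (by positivity : 0 < ε / 4))
    obtain ⟨U, hSU, hU, hU'⟩ := S.exists_isOpen_lt_add (μ := s) (measure_ne_top s S)
      (ε := ENNReal.ofReal (ε / 4)) (by simpa using (by positivity : 0 < ε / 4))
    -- Urysohn
    obtain ⟨f, hf1, hf0, hf⟩ := exists_continuous_zero_one_of_isClosed (s := Uᶜ) (t := K)
      hU.isClosed_compl hK.isClosed (by
        rw [Set.disjoint_left]; intro x hx hxK; exact hx (hSU (hKS hxK)))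
    set δ : ℝ := ε / (4 * (s.real univ + 1)) with hδ
    have hm0 : 0 ≤ s.real univ := measureReal_nonneg
    have hδ0 : 0 < δ := by positivity
    obtain ⟨g, hg0, hg1, hg⟩ := hdense f f.continuous (fun x => (hf x).1) (fun x => (hf x).2) δ hδ0
    refine ⟨g, hg0, hg1, ?_⟩
    have hSi : Integrable (S.indicator fun _ => (1:ℝ)) s := (integrable_const 1).indicator hS
    have hfi : Integrable (fun x => f x) s :=
      f.continuous.integrable_of_hasCompactSupport (HasCompactSupport.of_compactSpace _)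
    have hgi : Integrable (fun x => ev g x) s :=
      (hcont g).integrable_of_hasCompactSupport (HasCompactSupport.of_compactSpace _)
    have hUK : MeasurableSet (U \ K) := hU.measurableSet.diff hK.measurableSet
    have h1 : ∀ x, |ev g x - S.indicator (fun _ => (1:ℝ)) x| ≤
        δ + (U \ K).indicator (fun _ => (1:ℝ)) x := by
      intro x
      have h2 := (hg x).le
      have h3 : |f x - S.indicator (fun _ => (1:ℝ)) x| ≤ (U \ K).indicator (fun _ => (1:ℝ)) x := by
        by_cases hxK : x ∈ K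
        · have hxS : x ∈ S := hKS hxK
          have : f x = 1 := hf0 hxK
          simp [hxS, hxK, this]
        · by_cases hxU : x ∈ U
          · rw [indicator_of_mem (show x ∈ U \ K from ⟨hxU, hxK⟩)]
            have := hf x
            by_cases hxS : x ∈ S
            · rw [indicator_of_mem hxS, abs_le]
              constructor <;> linarith [this.1, this.2]
            · rw [indicator_of_notMem hxS, abs_le]
              constructor <;> linarith [this.1, this.2]
          · have hxS : x ∉ S := fun h => hxU (hSU h)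
            have : f x = 0 := hf1 hxU
            simp [hxS, this, hxU]
      calc |ev g x - S.indicator (fun _ => (1:ℝ)) x|
          ≤ |ev g x - f x| + |f x - S.indicator (fun _ => (1:ℝ)) x| := abs_sub_le _ _ _
        _ ≤ _ := add_le_add h2 h3
    have hUKm : s.real (U \ K) ≤ ε / 2 := by
      have h4 : s (U \ K) ≤ ENNReal.ofReal (ε / 2) := by
        have hKU : K ⊆ U := hKS.trans hSU
        rw [measure_sdiff hKU hK.measurableSet.nullMeasurableSet (measure_ne_top s K)]
        rw [tsub_le_iff_right]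
        calc s U ≤ s S + ENNReal.ofReal (ε / 4) := hU'.le
          _ ≤ (s K + ENNReal.ofReal (ε / 4)) + ENNReal.ofReal (ε / 4) := by
              gcongr
          _ = ENNReal.ofReal (ε / 2) + s K := by
              rw [add_assoc, ← ENNReal.ofReal_add (by positivity) (by positivity), add_comm]
              congr 2; ring
      rw [Measure.real]
      exact ENNReal.toReal_le_of_le_ofReal (by positivity) h4
    calc ∫ x, |ev g x - S.indicator (fun _ => (1:ℝ)) x| ∂s
        ≤ ∫ x, (δ + (U \ K).indicator (fun _ => (1:ℝ)) x) ∂s := by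
          apply integral_mono (hgi.sub hSi).abs
            ((integrable_const δ).add ((integrable_const (1:ℝ)).indicator hUK)) h1
      _ = δ * s.real univ + s.real (U \ K) := by
          rw [integral_add (integrable_const δ) ((integrable_const (1:ℝ)).indicator hUK),
            integral_const, integral_indicator hUK, setIntegral_const]
          simp [mul_comm]
      _ ≤ ε / 4 + ε / 2 := by
          apply add_le_add _ hUKm
          have h5 : δ * (4 * (s.real univ + 1)) = ε := by
            rw [hδ]; field_simp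
          nlinarith
      _ ≤ ε := by linarith
  choose χ h0 h1 h2 using key
  refine ⟨χ, h0, h1, ?_⟩
  refine squeeze_zero (fun n => integral_nonneg fun x => abs_nonneg _) h2 ?_
  exact tendsto_one_div_add_atTop_nhds_zero_nat

variable (s : Measure M) [IsFiniteMeasure s] (ev : A →ₗ[ℝ] (M → ℝ))
  (mul : A →ₗ[ℝ] X →ₗ[ℝ] X) (N : X → M → ℝ)

/-- **Restriction of a functional to a Borel set.** -/
theorem exists_restrict (hcont : ∀ f, Continuous (ev f)) (hNc : ∀ b, Continuous (N b))
    (hN0 : ∀ b x, 0 ≤ N b x) (hNm : ∀ f b x, N (mul f b) x = |ev f x| * N b x)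
    (Phi : X →ₗ[ℝ] ℝ) (hPhi : ∀ b, |Phi b| ≤ ∫ x, N b x ∂s)
    {S : Set M} (hS : MeasurableSet S) (hcut : ∃ χ : ℕ → A, Cut s ev S χ) :
    ∃ PS : X →ₗ[ℝ] ℝ, (∀ χ : ℕ → A, Cut s ev S χ → ∀ b,
      Tendsto (fun n => Phi (mul (χ n) b)) atTop (𝓝 (PS b))) ∧
      ∀ b, |PS b| ≤ ∫ x in S, N b x ∂s := by
  have hint : ∀ f : M → ℝ, Continuous f → Integrable f s := fun f hf =>
    hf.integrable_of_hasCompactSupport (HasCompactSupport.of_compactSpace _)
  -- a bound for `N b`
  have hNb : ∀ b, ∃ C, 0 ≤ C ∧ ∀ x, N b x ≤ C := by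
    intro b
    obtain ⟨C, hC⟩ := (isCompact_univ.image (hNc b)).isBounded.bddAbove
    exact ⟨max C 0, le_max_right _ _, fun x =>
      (hC ⟨x, mem_univ _, rfl⟩).trans (le_max_left _ _)⟩
  -- difference estimate
  have hdiff : ∀ (b : X) (C : ℝ), 0 ≤ C → (∀ x, N b x ≤ C) → ∀ f g : A,
      |Phi (mul f b) - Phi (mul g b)| ≤ C * ∫ x, |ev f x - ev g x| ∂s := by
    intro b C hC hCb f g
    have h1 : Phi (mul f b) - Phi (mul g b) = Phi (mul (f - g) b) := by
      rw [map_sub, LinearMap.sub_apply, map_sub]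
    rw [h1]
    refine (hPhi _).trans ?_
    rw [← integral_const_mul]
    apply integral_mono (hint _ (hNc _))
    · exact (((hint _ (hcont f)).sub (hint _ (hcont g))).abs).const_mul C
    · intro x
      simp only
      rw [hNm, map_sub, Pi.sub_apply, mul_comm C]
      exact mul_le_mul_of_nonneg_left (hCb x) (abs_nonneg _)
  have hSi : Integrable (S.indicator fun _ => (1:ℝ)) s := (integrable_const 1).indicator hS
  -- two cutting sequences
  have hcmp : ∀ χ χ' : ℕ → A, Cut s ev S χ → Cut s ev S χ' → ∀ b, ∀ ε > 0, ∃ n0, ∀ n ≥ n0,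
      ∀ m ≥ n0, |Phi (mul (χ n) b) - Phi (mul (χ' m) b)| < ε := by
    intro χ χ' h h' b ε hε
    obtain ⟨C, hC0, hC⟩ := hNb b
    have hε' : 0 < ε / (2 * (C + 1)) := by positivity
    obtain ⟨n1, hn1⟩ := (Metric.tendsto_atTop.mp h.lim) _ hε'
    obtain ⟨n2, hn2⟩ := (Metric.tendsto_atTop.mp h'.lim) _ hε'
    refine ⟨max n1 n2, fun n hn m hm => ?_⟩
    have a1 := hn1 n ((le_max_left _ _).trans hn)
    have a2 := hn2 m ((le_max_right _ _).trans hm)
    rw [Real.dist_eq, sub_zero, abs_of_nonneg (integral_nonneg fun x => abs_nonneg _)] at a1 a2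
    have h3 : ∫ x, |ev (χ n) x - ev (χ' m) x| ∂s ≤
        ∫ x, |ev (χ n) x - S.indicator (fun _ => (1:ℝ)) x| ∂s +
        ∫ x, |ev (χ' m) x - S.indicator (fun _ => (1:ℝ)) x| ∂s := by
      have i1 : Integrable (fun x => |ev (χ n) x - S.indicator (fun _ => (1:ℝ)) x|) s :=
        ((hint _ (hcont _)).sub hSi).abs
      have i2 : Integrable (fun x => |ev (χ' m) x - S.indicator (fun _ => (1:ℝ)) x|) s :=
        ((hint _ (hcont _)).sub hSi).abs
      rw [← integral_add i1 i2]
      apply integral_mono ((hint _ (hcont _)).sub (hint _ (hcont _))).abs (i1.add i2)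
      intro x
      simp only [Pi.add_apply, Pi.sub_apply]
      calc |ev (χ n) x - ev (χ' m) x|
          ≤ |ev (χ n) x - S.indicator (fun _ => (1:ℝ)) x|
            + |S.indicator (fun _ => (1:ℝ)) x - ev (χ' m) x| := abs_sub_le _ _ _
        _ = _ := by rw [abs_sub_comm (S.indicator (fun _ => (1:ℝ)) x)]
    calc |Phi (mul (χ n) b) - Phi (mul (χ' m) b)|
        ≤ C * ∫ x, |ev (χ n) x - ev (χ' m) x| ∂s := hdiff b C hC0 hC _ _
      _ ≤ C * (ε / (2 * (C + 1)) + ε / (2 * (C + 1))) := by
          apply mul_le_mul_of_nonneg_left _ hC0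
          linarith
      _ = ε * (C / (C + 1)) := by field_simp; ring
      _ < ε * 1 := by
          apply mul_lt_mul_of_pos_left _ hε
          rw [div_lt_one (by positivity)]; linarith
      _ = ε := mul_one _
  obtain ⟨χ0, hχ0⟩ := hcut
  have hcau : ∀ b, CauchySeq fun n => Phi (mul (χ0 n) b) := by
    intro b
    rw [Metric.cauchySeq_iff]
    intro ε hε
    obtain ⟨n0, h⟩ := hcmp χ0 χ0 hχ0 hχ0 b ε hε
    exact ⟨n0, fun m hm n hn => by rw [Real.dist_eq]; exact h m hm n hn⟩
  choose L hL using fun b => cauchySeq_tendsto_of_complete (hcau b)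
  have hLlin : ∀ b c, L (b + c) = L b + L c := by
    intro b c
    refine tendsto_nhds_unique (hL (b + c)) ?_
    have := (hL b).add (hL c)
    refine this.congr fun n => ?_
    rw [map_add, map_add]
  have hLsm : ∀ (t : ℝ) b, L (t • b) = t * L b := by
    intro t b
    refine tendsto_nhds_unique (hL (t • b)) ?_
    have := (hL b).const_mul t
    refine this.congr fun n => ?_
    rw [map_smul, map_smul, smul_eq_mul]
  have hLall : ∀ χ : ℕ → A, Cut s ev S χ → ∀ b,
      Tendsto (fun n => Phi (mul (χ n) b)) atTop (𝓝 (L b)) := by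
    intro χ hχ b
    have h1 := hL b
    have h2 : Tendsto (fun n => Phi (mul (χ n) b) - Phi (mul (χ0 n) b)) atTop (𝓝 0) := by
      rw [Metric.tendsto_atTop]
      intro ε hε
      obtain ⟨n0, h⟩ := hcmp χ χ0 hχ hχ0 b ε hε
      exact ⟨n0, fun n hn => by rw [Real.dist_eq, sub_zero]; exact h n hn n hn⟩
    have := h2.add h1
    simpa using this
  refine ⟨⟨⟨L, hLlin⟩, fun t b => by rw [RingHom.id_apply, smul_eq_mul]; exact hLsm t b⟩,
    hLall, ?_⟩
  intro b
  change |L b| ≤ _
  obtain ⟨C, hC0, hC⟩ := hNb b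
  have h1 : Tendsto (fun n => |Phi (mul (χ0 n) b)|) atTop (𝓝 |L b|) := (hL b).abs
  have h2 : Tendsto (fun n => ∫ x in S, N b x ∂s +
      C * ∫ x, |ev (χ0 n) x - S.indicator (fun _ => (1:ℝ)) x| ∂s) atTop
      (𝓝 (∫ x in S, N b x ∂s + C * 0)) := (hχ0.lim.const_mul C).const_add _
  rw [mul_zero, add_zero] at h2
  refine le_of_tendsto_of_tendsto' h1 h2 fun n => ?_
  refine (hPhi _).trans ?_
  rw [← integral_indicator hS, ← integral_const_mul, ← integral_add]
  · apply integral_mono (hint _ (hNc _))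
    · exact ((hint _ (hNc b)).indicator hS).add
        ((((hint _ (hcont (χ0 n))).sub hSi).abs).const_mul C)
    · intro x
      simp only
      rw [hNm, abs_of_nonneg (hχ0.nonneg n x)]
      by_cases hx : x ∈ S
      · rw [indicator_of_mem hx, indicator_of_mem hx]
        have h3 : ev (χ0 n) x * N b x ≤ 1 * N b x :=
          mul_le_mul_of_nonneg_right (hχ0.le_one n x) (hN0 b x)
        have h4 : 0 ≤ C * |ev (χ0 n) x - 1| := by positivity
        linarith
      · rw [indicator_of_notMem hx, indicator_of_notMem hx, sub_zero,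
          abs_of_nonneg (hχ0.nonneg n x), zero_add, mul_comm]
        exact mul_le_mul_of_nonneg_right (hC x) (hχ0.nonneg n x)
  · exact (hint _ (hNc b)).indicator hS
  · exact (((hint _ (hcont (χ0 n))).sub hSi).abs).const_mul C

end Crest.Agent.R240.Vm
end

-- ▼ part R240/Vm3
section

/-!
# R240, block V: inherited properties of the restricted functional (abstract form)
-/

set_option autoImplicit false
set_option linter.unusedSectionVars false
open MeasureTheory Set Filter Topology

namespace Crest.Agent.R240.Vm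

variable {M : Type*} [TopologicalSpace M] [CompactSpace M] [T2Space M] [MeasurableSpace M]
  [BorelSpace M]
variable {A X : Type*} [AddCommGroup A] [Module ℝ A] [AddCommGroup X] [Module ℝ X]

/-- `PS` is the restriction of `Phi` to `S` (with respect to the measure `s`). -/
def IsRestr (s : Measure M) (ev : A →ₗ[ℝ] (M → ℝ)) (mul : A →ₗ[ℝ] X →ₗ[ℝ] X)
    (Phi PS : X →ₗ[ℝ] ℝ) (S : Set M) : Prop :=
  ∀ χ : ℕ → A, Cut s ev S χ → ∀ b, Tendsto (fun n => Phi (mul (χ n) b)) atTop (𝓝 (PS b))

section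
variable {s : Measure M} [IsFiniteMeasure s] {ev : A →ₗ[ℝ] (M → ℝ)}
  {mul : A →ₗ[ℝ] X →ₗ[ℝ] X} {Phi PS : X →ₗ[ℝ] ℝ} {S : Set M}

theorem Cut.tendsto_integral {ν : Measure M} [IsFiniteMeasure ν] {χ : ℕ → A}
    (hcont : ∀ f, Continuous (ev f)) (hS : MeasurableSet S) (h : Cut ν ev S χ) {g : M → ℝ} {C : ℝ}
    (hg : AEStronglyMeasurable g ν) (hgC : ∀ x, |g x| ≤ C) :
    Tendsto (fun n => ∫ x, ev (χ n) x * g x ∂ν) atTop (𝓝 (∫ x in S, g x ∂ν)) := by
  have hint : ∀ f : M → ℝ, Continuous f → Integrable f ν := fun f hf =>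
    hf.integrable_of_hasCompactSupport (HasCompactSupport.of_compactSpace _)
  have hgi : Integrable g ν := Integrable.mono' (integrable_const C) hg
    (Eventually.of_forall fun x => by rw [Real.norm_eq_abs]; exact hgC x)
  have hSi : Integrable (S.indicator fun _ => (1:ℝ)) ν := (integrable_const 1).indicator hS
  have hi1 : ∀ n, Integrable (fun x => ev (χ n) x * g x) ν := by
    intro n
    refine hgi.bdd_mul (c := 1) (hcont _).aestronglyMeasurable (Eventually.of_forall fun x => ?_)
    rw [Real.norm_eq_abs, abs_of_nonneg (h.nonneg n x)]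
    exact h.le_one n x
  have hi2 : Integrable (S.indicator g) ν := hgi.indicator hS
  rw [tendsto_iff_dist_tendsto_zero]
  have hlim : Tendsto (fun n => C * ∫ x, |ev (χ n) x - S.indicator (fun _ => (1:ℝ)) x| ∂ν) atTop
      (𝓝 0) := by
    simpa using h.lim.const_mul C
  refine squeeze_zero (fun _ => dist_nonneg) (fun n => ?_) hlim
  rw [Real.dist_eq, ← integral_indicator hS, ← integral_sub (hi1 n) hi2]
  refine (abs_integral_le_integral_abs).trans ?_
  rw [← integral_const_mul]
  apply integral_mono ((hi1 n).sub hi2).abs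
  · exact (((hint _ (hcont (χ n))).sub hSi).abs).const_mul C
  · intro x
    simp only [Pi.sub_apply]
    have : ev (χ n) x * g x - S.indicator g x =
        (ev (χ n) x - S.indicator (fun _ => (1:ℝ)) x) * g x := by
      by_cases hx : x ∈ S <;> simp [hx, sub_mul]
    rw [this, abs_mul, mul_comm]
    exact mul_le_mul_of_nonneg_right (hgC x) (abs_nonneg _)

/-- If `Phi (f b) = ∫ f g ds` then `PS b = ∫_S g ds`. -/
theorem IsRestr.eq_setIntegral (h : IsRestr s ev mul Phi PS S)
    (hcont : ∀ f, Continuous (ev f)) (hS : MeasurableSet S) (hcut : ∃ χ : ℕ → A, Cut s ev S χ)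
    {b : X} {g : M → ℝ} {C : ℝ} (hg : AEStronglyMeasurable g s) (hgC : ∀ x, |g x| ≤ C)
    (hb : ∀ f, Phi (mul f b) = ∫ x, ev f x * g x ∂s) : PS b = ∫ x in S, g x ∂s := by
  obtain ⟨χ, hχ⟩ := hcut
  have h1 := h χ hχ b
  simp only [hb] at h1
  exact tendsto_nhds_unique h1 (hχ.tendsto_integral hcont hS hg hgC)


/-- Lower bounds are inherited: if `Phi (f b) ≥ ∫ f k dμ` for `f ≥ 0` then
`PS b ≥ ∫_S k dμ`. -/
theorem IsRestr.ge_setIntegral (h : IsRestr s ev mul Phi PS S) {μ : Measure M}
    [IsFiniteMeasure μ]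
    (hcont : ∀ f, Continuous (ev f)) (hS : MeasurableSet S)
    (hcut : ∃ χ : ℕ → A, Cut (s + μ) ev S χ)
    {b : X} {k : M → ℝ} {C : ℝ} (hk : AEStronglyMeasurable k μ) (hkC : ∀ x, |k x| ≤ C)
    (hb : ∀ f, (∀ x, 0 ≤ ev f x) → ∫ x, ev f x * k x ∂μ ≤ Phi (mul f b)) :
    ∫ x in S, k x ∂μ ≤ PS b := by
  obtain ⟨χ, hχ⟩ := hcut
  have hχs : Cut s ev S χ := hχ.mono hcont hS (Measure.le_add_right le_rfl)
  have hχμ : Cut μ ev S χ := hχ.mono hcont hS (Measure.le_add_left le_rfl)
  have h1 := h χ hχs b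
  have h2 := hχμ.tendsto_integral hcont hS hk hkC
  exact le_of_tendsto_of_tendsto' h2 h1 fun n => hb _ (hχ.nonneg n)

/-- Positivity is inherited. -/
theorem IsRestr.nonneg (h : IsRestr s ev mul Phi PS S) (hcut : ∃ χ : ℕ → A, Cut s ev S χ)
    {b : X} (hb : ∀ f, (∀ x, 0 ≤ ev f x) → 0 ≤ Phi (mul f b)) : 0 ≤ PS b := by
  obtain ⟨χ, hχ⟩ := hcut
  exact ge_of_tendsto' (h χ hχ b) fun n => hb _ (hχ.nonneg n)

/-- Equality of restrictions on two vectors. -/
theorem IsRestr.congr (h : IsRestr s ev mul Phi PS S) (hcut : ∃ χ : ℕ → A, Cut s ev S χ)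
    {b c : X} (hb : ∀ f, Phi (mul f b) = Phi (mul f c)) : PS b = PS c := by
  obtain ⟨χ, hχ⟩ := hcut
  have h1 := h χ hχ b
  simp only [hb] at h1
  exact tendsto_nhds_unique h1 (h χ hχ c)

end

end Crest.Agent.R240.Vm
end

-- ▼ part R240/Vm4
section

/-!
# R240, block V: smooth cutting sequences on a compact manifold
-/

set_option autoImplicit false
set_option linter.unusedSectionVars false
open MeasureTheory Set Filter Topology
open scoped Manifold ContDiff

namespace Crest.Agent.R240.Vm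

open Crest.Agent.R240.HB

variable {E H M : Type*} [NormedAddCommGroup E] [NormedSpace ℝ E] [FiniteDimensional ℝ E]
  [TopologicalSpace H] (I : ModelWithCorners ℝ E H)
  [TopologicalSpace M] [ChartedSpace H M] [IsManifold I ∞ M] [CompactSpace M] [T2Space M]

/-- smooth approximation with values in `[0,1]`. -/
theorem evSmooth_dense01 (f : M → ℝ) (hf : Continuous f) (h0 : ∀ x, 0 ≤ f x)
    (h1 : ∀ x, f x ≤ 1) (ε : ℝ) (hε : 0 < ε) :
    ∃ g : C^∞⟮I, M; 𝓘(ℝ, ℝ), ℝ⟯, (∀ x, 0 ≤ evSmooth I g x) ∧ (∀ x, evSmooth I g x ≤ 1) ∧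
      ∀ x, |evSmooth I g x - f x| < ε := by
  set δ : ℝ := min (ε / 4) (1 / 4) with hδ
  have hδ0 : 0 < δ := by positivity
  have hδ1 : δ ≤ ε / 4 := min_le_left _ _
  have hδ2 : δ ≤ 1 / 4 := min_le_right _ _
  obtain ⟨g, hg⟩ := evSmooth_dense I (fun x => (1 - 2 * δ) * f x + δ)
    ((continuous_const.mul hf).add continuous_const) δ hδ0
  refine ⟨g, fun x => ?_, fun x => ?_, fun x => ?_⟩
  · have h2 := abs_lt.mp (hg x)
    have h3 : 0 ≤ (1 - 2 * δ) * f x := mul_nonneg (by linarith) (h0 x)
    linarith [h2.1]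
  · have h2 := abs_lt.mp (hg x)
    have h3 : (1 - 2 * δ) * f x ≤ (1 - 2 * δ) * 1 :=
      mul_le_mul_of_nonneg_left (h1 x) (by linarith)
    linarith [h2.2]
  · have h2 := abs_lt.mp (hg x)
    have h3 : δ * f x ≤ δ * 1 := mul_le_mul_of_nonneg_left (h1 x) hδ0.le
    have h4 : 0 ≤ δ * f x := mul_nonneg hδ0.le (h0 x)
    rw [abs_lt]
    constructor <;> nlinarith [h2.1, h2.2]

theorem evSmooth_continuous (f : C^∞⟮I, M; 𝓘(ℝ, ℝ), ℝ⟯) : Continuous (evSmooth I f) :=
  f.contMDiff.continuous

variable [MeasurableSpace M] [BorelSpace M]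

/-- existence of smooth cutting sequences. -/
theorem exists_cut_smooth (s : Measure M) [IsFiniteMeasure s] [s.Regular] {S : Set M}
    (hS : MeasurableSet S) :
    ∃ χ : ℕ → C^∞⟮I, M; 𝓘(ℝ, ℝ), ℝ⟯, Cut s (evSmooth I (M := M)) S χ :=
  exists_cut s (evSmooth I (M := M)) (evSmooth_continuous I)
    (fun f hf h0 h1 ε hε => evSmooth_dense01 I f hf h0 h1 ε hε) hS

end Crest.Agent.R240.Vm
end

-- ▼ part R240/Vm5
section

/-!
# R240, block V: push-forward of a measure to a chart core, chart formula of the restriction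
-/

set_option autoImplicit false
set_option linter.unusedSectionVars false
open MeasureTheory Set Filter Topology

namespace Crest.Agent.R240.Vm

variable {M : Type*} [TopologicalSpace M] [T2Space M] [MeasurableSpace M]
  [BorelSpace M]
variable {E : Type*} [TopologicalSpace E] [T2Space E] [MeasurableSpace E] [BorelSpace E]

/-- push-forward of `s` restricted to the core `e.symm '' K`. -/
noncomputable def smap (s : Measure M) (e : OpenPartialHomeomorph M E) (K : Set E) : Measure E :=
  (s.restrict (e.symm '' K)).map e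

section
variable {s : Measure M} {e : OpenPartialHomeomorph M E} {K : Set E}

theorem isCompact_core (hK : IsCompact K) (hKe : K ⊆ e.target) : IsCompact (e.symm '' K) :=
  hK.image_of_continuousOn (e.continuousOn_symm.mono hKe)

theorem core_subset (hKe : K ⊆ e.target) : e.symm '' K ⊆ e.source := by
  rintro x ⟨y, hy, rfl⟩
  exact e.map_target (hKe hy)

theorem mem_core_iff (hKe : K ⊆ e.target) {x : M} (hx : x ∈ e.source) :
    x ∈ e.symm '' K ↔ e x ∈ K := by
  constructor
  · rintro ⟨y, hy, rfl⟩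
    rwa [e.right_inv (hKe hy)]
  · intro h
    exact ⟨e x, h, e.left_inv hx⟩

theorem measurableSet_core (hK : IsCompact K) (hKe : K ⊆ e.target) :
    MeasurableSet (e.symm '' K) := (isCompact_core hK hKe).measurableSet

theorem aemeasurable_chart (hK : IsCompact K) (hKe : K ⊆ e.target) :
    AEMeasurable e (s.restrict (e.symm '' K)) :=
  (e.continuousOn.mono (core_subset hKe)).aemeasurable (measurableSet_core hK hKe)

instance smap_finite [IsFiniteMeasure s] : IsFiniteMeasure (smap s e K) := by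
  unfold smap; infer_instance

theorem ae_mem_smap (hK : IsCompact K) (hKe : K ⊆ e.target) : ∀ᵐ y ∂(smap s e K), y ∈ K := by
  unfold smap
  refine (ae_map_iff (p := fun y => y ∈ K) (aemeasurable_chart hK hKe) hK.measurableSet).mpr ?_
  filter_upwards [ae_restrict_mem (measurableSet_core hK hKe)] with x hx
  exact (mem_core_iff hKe (core_subset hKe hx)).mp hx



theorem integral_smap (hK : IsCompact K) (hKe : K ⊆ e.target) {G : E → ℝ}
    (hG : AEStronglyMeasurable G (smap s e K)) :
    ∫ y, G y ∂(smap s e K) = ∫ x in e.symm '' K, G (e x) ∂s := by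
  unfold smap at hG ⊢
  exact integral_map (aemeasurable_chart hK hKe) hG

theorem measurableSet_preimage_core (hK : IsCompact K) (hKe : K ⊆ e.target) {S : Set M}
    (hS : MeasurableSet S) : MeasurableSet {y | y ∈ K ∧ e.symm y ∈ S} := by
  have h1 : ContinuousOn e.symm K := e.continuousOn_symm.mono hKe
  have h2 : Measurable (K.domRestrict e.symm) := (continuousOn_iff_continuous_domRestrict.mp h1).measurable
  have h3 := hK.measurableSet.subtype_image (h2 hS)
  have h4 : {y | y ∈ K ∧ e.symm y ∈ S} = Subtype.val '' (K.domRestrict e.symm ⁻¹' S) := by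
    ext y
    constructor
    · rintro ⟨hy, hyS⟩
      exact ⟨⟨y, hy⟩, hyS, rfl⟩
    · rintro ⟨⟨z, hz⟩, hzS, rfl⟩
      exact ⟨hz, hzS⟩
  rw [h4]
  exact h3

theorem setIntegral_smap (hK : IsCompact K) (hKe : K ⊆ e.target) {S : Set M}
    (hS : MeasurableSet S) {G : E → ℝ} (hG : AEStronglyMeasurable G (smap s e K)) :
    ∫ y in {y | y ∈ K ∧ e.symm y ∈ S}, G y ∂(smap s e K) = ∫ x in e.symm '' K ∩ S, G (e x) ∂s := by
  have hB := measurableSet_preimage_core (e := e) hK hKe hS
  rw [← integral_indicator hB]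
  have h1 : AEStronglyMeasurable ({y | y ∈ K ∧ e.symm y ∈ S}.indicator G) (smap s e K) :=
    hG.indicator hB
  rw [integral_smap hK hKe h1]
  have h2 : ∫ x in e.symm '' K, {y | y ∈ K ∧ e.symm y ∈ S}.indicator G (e x) ∂s =
      ∫ x in e.symm '' K, S.indicator (fun x => G (e x)) x ∂s := by
    apply setIntegral_congr_fun (measurableSet_core hK hKe)
    intro x hx
    have hxs := core_subset hKe hx
    have hxK : e x ∈ K := (mem_core_iff hKe hxs).mp hx
    simp only
    by_cases hxS : x ∈ S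
    · rw [indicator_of_mem hxS, indicator_of_mem]
      exact ⟨hxK, by rwa [e.left_inv hxs]⟩
    · rw [indicator_of_notMem hxS, indicator_of_notMem]
      rintro ⟨-, h⟩
      rw [e.left_inv hxs] at h
      exact hxS h
  rw [h2, setIntegral_indicator hS]


end

section restr
variable [CompactSpace M]
variable {A X : Type*} [AddCommGroup A] [Module ℝ A] [AddCommGroup X] [Module ℝ X]
variable {s : Measure M} [IsFiniteMeasure s] {ev : A →ₗ[ℝ] (M → ℝ)}
  {mul : A →ₗ[ℝ] X →ₗ[ℝ] X} {Phi PS : X →ₗ[ℝ] ℝ} {S : Set M}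
  {e : OpenPartialHomeomorph M E} {K : Set E}

/-- **Chart formula of the restriction.** -/
theorem IsRestr.chart (h : IsRestr s ev mul Phi PS S)
    (hcont : ∀ f, Continuous (ev f)) (hS : MeasurableSet S) (hcut : ∃ χ : ℕ → A, Cut s ev S χ)
    (hK : IsCompact K) (hKe : K ⊆ e.target)
    {b : X} {G : E → ℝ} {C : ℝ} (hG : Measurable G) (hGC : ∀ y, |G y| ≤ C)
    (hb : ∀ f, Phi (mul f b) = ∫ y, ev f (e.symm y) * G y ∂(smap s e K)) :
    PS b = ∫ y in {y | y ∈ K ∧ e.symm y ∈ S}, G y ∂(smap s e K) := by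
  have hcore := measurableSet_core (e := e) hK hKe
  have hm : AEMeasurable (fun x => G (e x)) (s.restrict (e.symm '' K)) :=
    hG.comp_aemeasurable (aemeasurable_chart hK hKe)
  have hgm : AEStronglyMeasurable ((e.symm '' K).indicator fun x => G (e x)) s :=
    (aestronglyMeasurable_indicator_iff hcore).mpr hm.aestronglyMeasurable
  have hC0 : 0 ≤ |C| := abs_nonneg C
  have hgC : ∀ x, |(e.symm '' K).indicator (fun x => G (e x)) x| ≤ |C| := by
    intro x
    by_cases hx : x ∈ e.symm '' K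
    · rw [indicator_of_mem hx]
      exact (hGC _).trans (le_abs_self C)
    · rw [indicator_of_notMem hx, abs_zero]; exact hC0
  have h1 := h.eq_setIntegral hcont hS hcut hgm hgC (b := b) (by
    intro f
    rw [hb f]
    have hsm : AEStronglyMeasurable (fun y => ev f (e.symm y) * G y) (smap s e K) := by
      have hc : ContinuousOn (fun y => ev f (e.symm y)) K :=
        (hcont f).comp_continuousOn (e.continuousOn_symm.mono hKe)
      have h2 : AEStronglyMeasurable (fun y => ev f (e.symm y)) ((smap s e K).restrict K) :=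
        (hc.aemeasurable hK.measurableSet).aestronglyMeasurable
      have h3 : (smap s e K).restrict K = smap s e K := by
        apply Measure.restrict_eq_self_of_ae_mem
        exact ae_mem_smap hK hKe
      rw [h3] at h2
      exact h2.mul hG.aestronglyMeasurable
    rw [integral_smap hK hKe hsm, ← integral_indicator hcore]
    congr 1
    ext x
    by_cases hx : x ∈ e.symm '' K
    · rw [indicator_of_mem hx, indicator_of_mem hx, e.left_inv (core_subset hKe hx)]
    · rw [indicator_of_notMem hx, indicator_of_notMem hx, mul_zero])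
  rw [h1, setIntegral_smap hK hKe hS hG.aestronglyMeasurable, setIntegral_indicator hcore,
    inter_comm]

end restr

end Crest.Agent.R240.Vm
end

-- ▼ part R240/Vm6
section

/-!
# R240, block V: the restriction of a current to a Borel set, all properties (abstract forms)
-/

set_option autoImplicit false
set_option linter.unusedSectionVars false
open MeasureTheory Set Filter Topology

namespace Crest.Agent.R240.Vm

variable {M : Type*} [TopologicalSpace M] [CompactSpace M] [T2Space M] [MeasurableSpace M]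
  [BorelSpace M]
variable {A X : Type*} [AddCommGroup A] [Module ℝ A] [AddCommGroup X] [Module ℝ X]

/-- All properties of the restriction. -/
structure Restr (s μ : Measure M) (ev : A →ₗ[ℝ] (M → ℝ)) (mul : A →ₗ[ℝ] X →ₗ[ℝ] X)
    (N : X → M → ℝ) (Phi Phi0 : X →ₗ[ℝ] ℝ) (G : Set M) : Prop where
  isRestr : IsRestr s ev mul Phi Phi0 G
  bound : ∀ b, |Phi0 b| ≤ ∫ x in G, N b x ∂s
  congr : ∀ b c, (∀ f, Phi (mul f b) = Phi (mul f c)) → Phi0 b = Phi0 c
  lower : ∀ b (k : M → ℝ) (C : ℝ), AEStronglyMeasurable k μ → (∀ x, |k x| ≤ C) →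
    (∀ f, (∀ x, 0 ≤ ev f x) → ∫ x, ev f x * k x ∂μ ≤ Phi (mul f b)) → ∫ x in G, k x ∂μ ≤ Phi0 b
  repr : ∀ b (g : M → ℝ) (C : ℝ), AEStronglyMeasurable g s → (∀ x, |g x| ≤ C) →
    (∀ f, Phi (mul f b) = ∫ x, ev f x * g x ∂s) → Phi0 b = ∫ x in G, g x ∂s

theorem exists_Restr (s μ : Measure M) [IsFiniteMeasure s] [IsFiniteMeasure μ]
    (ev : A →ₗ[ℝ] (M → ℝ)) (mul : A →ₗ[ℝ] X →ₗ[ℝ] X) (N : X → M → ℝ)
    (hcont : ∀ f, Continuous (ev f)) (hNc : ∀ b, Continuous (N b))
    (hN0 : ∀ b x, 0 ≤ N b x) (hNm : ∀ f b x, N (mul f b) x = |ev f x| * N b x)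
    (Phi : X →ₗ[ℝ] ℝ) (hPhi : ∀ b, |Phi b| ≤ ∫ x, N b x ∂s)
    {G : Set M} (hG : MeasurableSet G) (hcut : ∃ χ : ℕ → A, Cut (s + μ) ev G χ) :
    ∃ Phi0 : X →ₗ[ℝ] ℝ, Restr s μ ev mul N Phi Phi0 G := by
  have hcut' : ∃ χ : ℕ → A, Cut s ev G χ := by
    obtain ⟨χ, hχ⟩ := hcut
    exact ⟨χ, hχ.mono hcont hG (Measure.le_add_right le_rfl)⟩
  obtain ⟨PS, h1, h2⟩ := exists_restrict s ev mul N hcont hNc hN0 hNm Phi hPhi hG hcut'
  have h1' : IsRestr s ev mul Phi PS G := h1
  refine ⟨PS, h1', h2, ?_, ?_, ?_⟩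
  · intro b c h
    exact h1'.congr hcut' h
  · intro b k C hk hkC h
    exact h1'.ge_setIntegral hcont hG hcut hk hkC h
  · intro b g C hg hgC h
    exact h1'.eq_setIntegral hcont hG hcut' hg hgC h

end Crest.Agent.R240.Vm
end

-- ▼ part R240/PhiR

/-!
# R240: restriction of a current on `M` to a Borel set (helper168)

`mulX f b = f b` (smooth function times smooth form) and `PhiR_exists`.
-/

set_option autoImplicit false
set_option linter.unusedSectionVars false
set_option maxSynthPendingDepth 3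
open MeasureTheory Set Filter Topology
open scoped Manifold ContDiff

namespace Crest.Agent.R240.Vm

open Crest.Agent.R240.Ch Crest.Agent.R240.HB

noncomputable section

section Mul

variable {M : Type*} [TopologicalSpace M] [ChartedSpace E4 M] [IsManifold 𝓘(ℝ, E4) ∞ M]

variable (M) in
/-- smooth functions. -/
abbrev SF := C^∞⟮𝓘(ℝ, E4), M; 𝓘(ℝ, ℝ), ℝ⟯

theorem rep_fmul (p : M) (f : M → ℝ) (a : F2 E4 M) (y : E4) :
    rep p (fmul f a) y = f ((chartAt E4 p).symm y) • rep p a y := by
  ext u v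
  rw [rep_apply, smul_apply, smul_apply, rep_apply]
  rfl

theorem contDiffOn_symm (f : SF M) (p : M) :
    ContDiffOn ℝ ∞ (fun y => f ((chartAt E4 p).symm y)) (chartAt E4 p).target := by
  have h1 : ContMDiffOn 𝓘(ℝ, E4) 𝓘(ℝ, ℝ) ∞ (fun y => f ((chartAt E4 p).symm y))
      (chartAt E4 p).target := by
    have h2 : ContMDiffOn 𝓘(ℝ, E4) 𝓘(ℝ, E4) ∞ (chartAt E4 p).symm (chartAt E4 p).target :=
      contMDiffOn_chart_symm
    exact f.contMDiff.comp_contMDiffOn h2
  exact h1.contDiffOn

theorem Smooth2.fmul (f : SF M) {a : F2 E4 M} (ha : Smooth2 a) : Smooth2 (Ch.fmul f a) := by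
  refine ⟨fun x v => ?_, fun p => ?_⟩
  · have : at2 (Ch.fmul f a) x v v = f x * at2 a x v v := rfl
    rw [this, ha.1, mul_zero]
  · have : rep p (Ch.fmul f a) = fun y => f ((chartAt E4 p).symm y) • rep p a y :=
      funext (rep_fmul p f a)
    rw [this]
    exact (contDiffOn_symm f p).smul (ha.2 p)

variable (M) in
/-- multiplication of smooth forms by smooth functions. -/
def mulX : SF M →ₗ[ℝ] X2 M →ₗ[ℝ] X2 M :=
  LinearMap.mk₂ ℝ (fun f b => ⟨Ch.fmul f b.1, Smooth2.fmul f b.2⟩)
    (by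
      intro f g b
      apply Subtype.ext
      funext x
      exact add_smul (f x) (g x) (b.1 x))
    (by
      intro c f b
      apply Subtype.ext
      funext x
      exact mul_smul c (f x) (b.1 x))
    (by
      intro f b c
      apply Subtype.ext
      funext x
      exact smul_add (f x) (b.1 x) (c.1 x))
    (by
      intro c f b
      apply Subtype.ext
      funext x
      exact smul_comm (f x) c (b.1 x))

@[simp] theorem mulX_coe (f : SF M) (b : X2 M) : (mulX M f b).1 = Ch.fmul f b.1 := rfl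

theorem at2_mulX (f : SF M) (b : X2 M) (x : M) : at2 (mulX M f b).1 x = f x • at2 b.1 x := rfl

theorem invM_mulX (J : EndF E4 M) (hJ : SmoothJ J) (f : SF M) (b : X2 M) :
    invM J hJ (mulX M f b) = mulX M f (invM J hJ b) := by
  apply Subtype.ext
  funext x
  change invp (atJ J x) (f x • at2 b.1 x) = f x • invp (atJ J x) (at2 b.1 x)
  ext u v
  rw [smul_apply, smul_apply, invp_apply, invp_apply]
  simp only [smul_apply, smul_eq_mul]
  ring


theorem Pos.smul {J : E4 →L[ℝ] E4} {P : Bil} (hP : Pos J P) {r : ℝ} (hr : 0 ≤ r) :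
    Pos J (r • P) := by
  refine ⟨fun v => ?_, fun u v => ?_, fun v => ?_⟩
  · rw [smul_apply, smul_apply, hP.alt, smul_zero]
  · simp only [smul_apply]
    rw [hP.inv]
  · simp only [smul_apply, smul_eq_mul]
    exact mul_nonneg hr (hP.nonneg v)

theorem PosM.mulX {J : EndF E4 M} {f : SF M} (hf : ∀ x, 0 ≤ f x) {P : X2 M} (hP : P ∈ PosM J) :
    mulX M f P ∈ PosM J := fun x => Pos.smul (hP x) (hf x)

theorem qG_fmul_left (F b c : F2 E4 M) (f : M → ℝ) (x : M) :
    qG F (Ch.fmul f b) c x = f x * qG F b c x :=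
  q_smul_left (at2 F x) (f x) (at2 b x) (at2 c x)

end Mul

section Main

variable {M : Type*} [MetricSpace M] [CompactSpace M] [ChartedSpace E4 M]
    [IsManifold 𝓘(ℝ, E4) ∞ M] [MeasurableSpace M] [BorelSpace M]


end Main

end

end Crest.Agent.R240.Vm
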