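import Mathlib
import Crest.Agent.R240.Lin3
import Crest.Agent.R240.PhiR

-- ▼ part R240/DensA
section

/-!
Row 240 (S0371), PART D2 (helper703): a bounded function whose integrals against nonnegative smooth
functions compactly supported in an open set `U` are nonnegative, is a.e. nonnegative on `U`.
-/

set_option autoImplicit false

open Set Function Filter Topology MeasureTheory Metric
open scoped Manifold ContDiff Topology

namespace Crest.Agent.R240.Dens

noncomputable section

variable {E : Type*} [NormedAddCommGroup E] [NormedSpace ℝ E] [FiniteDimensional ℝ E]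
  [MeasurableSpace E] [BorelSpace E]

/-- approximation of the integral over a compact subset of `U` by smooth functions. -/
theorem setIntegral_nonneg_of_smooth {s : Measure E} [IsFiniteMeasure s] {U : Set E}
    (hU : IsOpen U) {f : E → ℝ} (hf : Measurable f)
    (hfi : ∀ K ⊆ U, IsCompact K → IntegrableOn f K s)
    (h : ∀ g : E → ℝ, ContDiff ℝ ∞ g → HasCompactSupport g → tsupport g ⊆ U → (∀ x, 0 ≤ g x) →
      0 ≤ ∫ x, g x * f x ∂s) {K : Set E} (hK : IsCompact K) (hKU : K ⊆ U) :
    0 ≤ ∫ x in K, f x ∂s := by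
  obtain ⟨δ, δpos, hδU⟩ : ∃ δ, 0 < δ ∧ cthickening δ K ⊆ U := hK.exists_cthickening_subset_open hU hKU
  have hδ : IsCompact (cthickening δ K) := hK.cthickening
  obtain ⟨u, -, u_pos, u_lim⟩ : ∃ u, StrictAnti u ∧ (∀ (n : ℕ), u n ∈ Ioo 0 δ)
    ∧ Tendsto u atTop (𝓝 0) := exists_seq_strictAnti_tendsto' δpos
  let v : ℕ → Set E := fun n ↦ thickening (u n) K
  have vK : ∀ n, v n ⊆ cthickening δ K :=
    fun n ↦ thickening_subset_cthickening_of_le (u_pos n).2.le _
  have : ∀ n, ∃ (g : E → ℝ), support g = v n ∧ ContDiff ℝ ∞ g ∧ Set.range g ⊆ Set.Icc 0 1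
          ∧ ∀ x ∈ K, g x = 1 := by
    intro n
    rcases exists_contMDiff_support_eq_eq_one_iff 𝓘(ℝ, E) isOpen_thickening hK.isClosed
      (self_subset_thickening (u_pos n).1 K) with ⟨g, g_smooth, g_range, g_supp, hg⟩
    exact ⟨g, g_supp, g_smooth.contDiff, g_range, fun x hx ↦ (hg x).1 hx⟩
  choose g g_supp g_diff g_range hg using this
  have hg0 : ∀ n x, 0 ≤ g n x := fun n x => (g_range n (mem_range_self x)).1
  have hg1 : ∀ n x, g n x ≤ 1 := fun n x => (g_range n (mem_range_self x)).2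
  have hts : ∀ n, tsupport (g n) ⊆ cthickening δ K := by
    intro n
    refine closure_minimal ?_ isClosed_cthickening
    rw [g_supp]
    exact vK n
  have L : Tendsto (fun n ↦ ∫ x, g n x * f x ∂s) atTop (𝓝 (∫ x in K, f x ∂s)) := by
    rw [← integral_indicator hK.measurableSet]
    have hbi : Integrable ((cthickening δ K).indicator fun x => ‖f x‖) s := by
      rw [integrable_indicator_iff hδ.measurableSet]
      exact (hfi _ hδU hδ).norm
    refine tendsto_integral_of_dominated_convergence _ ?_ hbi ?_ ?_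
    · exact fun n ↦ (g_diff n).continuous.aestronglyMeasurable.mul hf.aestronglyMeasurable
    · intro n
      filter_upwards with x
      rw [norm_mul]
      by_cases hx : x ∈ cthickening δ K
      · rw [indicator_of_mem hx]
        refine mul_le_of_le_one_left (norm_nonneg _) ?_
        rw [Real.norm_of_nonneg (hg0 n x)]
        exact hg1 n x
      · have h0 : g n x = 0 := by
          by_contra h0
          exact hx (hts n (subset_tsupport _ h0))
        simp [h0, indicator_of_notMem hx]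
    · filter_upwards with x
      by_cases hxs : x ∈ K
      · have : ∀ n, g n x = 1 := fun n ↦ hg n x hxs
        simp [this, indicator_of_mem hxs f]
      · simp_rw [indicator_of_notMem hxs f]
        apply tendsto_const_nhds.congr'
        suffices H : ∀ᶠ n in atTop, g n x = 0 by
          filter_upwards [H] with n hn using by simp [hn]
        obtain ⟨ε, εpos, hε⟩ : ∃ ε, 0 < ε ∧ x ∉ thickening ε K := by
          rw [← hK.isClosed.closure_eq, closure_eq_iInter_thickening K] at hxs
          simpa using hxs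
        filter_upwards [(tendsto_order.1 u_lim).2 _ εpos] with n hn
        rw [← notMem_support, g_supp]
        contrapose hε
        exact thickening_mono hn.le K hε
  refine ge_of_tendsto' L fun n => h (g n) (g_diff n) ?_ ((hts n).trans hδU) (hg0 n)
  exact HasCompactSupport.of_support_subset_isCompact hδ (by rw [g_supp]; exact vK n)

/-- a function with nonnegative integrals against nonnegative test functions is nonnegative. -/
theorem ae_nonneg_of_smooth {s : Measure E} [IsFiniteMeasure s] {U : Set E}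
    (hU : IsOpen U) {f : E → ℝ} (hf : Measurable f)
    (hfi : ∀ K ⊆ U, IsCompact K → IntegrableOn f K s)
    (h : ∀ g : E → ℝ, ContDiff ℝ ∞ g → HasCompactSupport g → tsupport g ⊆ U → (∀ x, 0 ≤ g x) →
      0 ≤ ∫ x, g x * f x ∂s) :
    ∀ᵐ x ∂s, x ∈ U → 0 ≤ f x := by
  have key : ∀ n : ℕ, s ({x | f x < -(1 / ((n : ℝ) + 1))} ∩ U) = 0 := by
    intro n
    by_contra hne
    set A : Set E := {x | f x < -(1 / ((n : ℝ) + 1))} ∩ U with hA
    have hAm : MeasurableSet A :=
      (measurableSet_lt hf measurable_const).inter hU.measurableSet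
    have hpos : 0 < s A := pos_iff_ne_zero.2 hne
    obtain ⟨K, hKA, hK, hKpos⟩ := hAm.exists_lt_isCompact_of_ne_top (measure_ne_top s A) hpos
    have hKU : K ⊆ U := hKA.trans inter_subset_right
    have h1 := setIntegral_nonneg_of_smooth hU hf hfi h hK hKU
    have h2 : ∫ x in K, f x ∂s ≤ ∫ x in K, -(1 / ((n : ℝ) + 1)) ∂s := by
      refine setIntegral_mono_on (hfi K hKU hK) (integrableOn_const (measure_ne_top s K))
        hK.measurableSet fun x hx => ?_
      exact (hKA hx).1.le
    rw [setIntegral_const, smul_eq_mul] at h2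
    have h3 : 0 < s.real K := by
      rw [measureReal_def]
      exact ENNReal.toReal_pos hKpos.ne' (measure_ne_top s K)
    have h4 : (0 : ℝ) < 1 / ((n : ℝ) + 1) := Nat.one_div_pos_of_nat
    nlinarith
  have key2 : s (⋃ n : ℕ, ({x | f x < -(1 / ((n : ℝ) + 1))} ∩ U)) = 0 := measure_iUnion_null key
  rw [ae_iff]
  refine measure_mono_null ?_ key2
  intro x hx
  simp only [mem_ofPred_eq, Classical.not_imp, not_le] at hx
  obtain ⟨hxU, hx0⟩ := hx
  obtain ⟨n, hn⟩ := exists_nat_one_div_lt (neg_pos.2 hx0)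
  have hn' : f x < -(1 / ((n : ℝ) + 1)) := by linarith
  exact mem_iUnion.2 ⟨n, hn', hxU⟩

theorem ae_eq_of_smooth {s : Measure E} [IsFiniteMeasure s] {U : Set E}
    (hU : IsOpen U) {f : E → ℝ} (hf : Measurable f)
    (hfi : ∀ K ⊆ U, IsCompact K → IntegrableOn f K s)
    (h : ∀ g : E → ℝ, ContDiff ℝ ∞ g → HasCompactSupport g → tsupport g ⊆ U →
      ∫ x, g x * f x ∂s = 0) :
    ∀ᵐ x ∂s, x ∈ U → f x = 0 := by
  have h1 := ae_nonneg_of_smooth hU hf hfi (fun g h1 h2 h3 _ => (h g h1 h2 h3).ge)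
  have h2 := ae_nonneg_of_smooth hU hf.neg (fun K h1 h2 => (hfi K h1 h2).neg) (fun g h1 h2 h3 _ => by
    have := h g h1 h2 h3
    simp only [Pi.neg_apply, mul_neg, integral_neg, this, neg_zero, le_refl])
  filter_upwards [h1, h2] with x hx1 hx2 hxU
  exact le_antisymm (by simpa using hx2 hxU) (hx1 hxU)

end

end Crest.Agent.R240.Dens
end

-- ▼ part R240/DensB
section

/-!
Row 240 (S0371), PART D2 (helper703): pointwise duality. A linear functional on bilinear forms which
kills `J`-anti-invariant forms and is nonnegative on the forms `ξ ∧ Jc ξ` is `q F φ ·` with `φ` a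
nonnegative `J`-invariant form.
-/

set_option autoImplicit false
set_option maxSynthPendingDepth 3

namespace Crest.Agent.R240.Dens

open Crest.Agent.R240

noncomputable section

/-- the elementary forms `dx_i ∧ dx_j`. -/
def EE (i j : Fin 4) : Bil := wed (pr i) (pr j)

theorem EE_apply (i j : Fin 4) (u v : E4) : EE i j u v = u i * v j - u j * v i := by
  rw [EE, wed_apply]; simp only [pr_apply]

theorem EE_alt (i j : Fin 4) : Alt (EE i j) := wed_alt _ _

theorem ent_EE (i j k l : Fin 4) : ent (EE i j) k l =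
    (if i = k then (1 : ℝ) else 0) * (if j = l then (1 : ℝ) else 0)
      - (if j = k then (1 : ℝ) else 0) * (if i = l then (1 : ℝ) else 0) := by
  unfold ent
  rw [EE_apply]
  simp only [ee_apply]

theorem alt_sum {b : Bil} (hb : Alt b) : b =
    ent b 0 1 • EE 0 1 + ent b 0 2 • EE 0 2 + ent b 0 3 • EE 0 3 + ent b 1 2 • EE 1 2
      + ent b 1 3 • EE 1 3 + ent b 2 3 • EE 2 3 := by
  ext u v
  rw [alt_expand hb]
  simp only [add_apply, smul_apply, EE_apply, smul_eq_mul]
  ring

theorem W_EE01 (b : Bil) : W b (EE 0 1) = ent b 2 3 := by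
  unfold W; simp only [ent_EE]; simp
theorem W_EE02 (b : Bil) : W b (EE 0 2) = - ent b 1 3 := by
  unfold W; simp only [ent_EE]; simp
theorem W_EE03 (b : Bil) : W b (EE 0 3) = ent b 1 2 := by
  unfold W; simp only [ent_EE]; simp
theorem W_EE12 (b : Bil) : W b (EE 1 2) = ent b 0 3 := by
  unfold W; simp only [ent_EE]; simp
theorem W_EE13 (b : Bil) : W b (EE 1 3) = - ent b 0 2 := by
  unfold W; simp only [ent_EE]; simp
theorem W_EE23 (b : Bil) : W b (EE 2 3) = ent b 0 1 := by
  unfold W; simp only [ent_EE]; simp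

/-- nondegeneracy of `W` on alternating forms. -/
theorem W_nondeg {b : Bil} (hb : Alt b) (h : ∀ c, Alt c → W b c = 0) : b = 0 := by
  have h0 : Alt (0 : Bil) := fun v => by simp
  have h01 := h _ (EE_alt 0 1)
  have h02 := h _ (EE_alt 0 2)
  have h03 := h _ (EE_alt 0 3)
  have h12 := h _ (EE_alt 1 2)
  have h13 := h _ (EE_alt 1 3)
  have h23 := h _ (EE_alt 2 3)
  rw [W_EE01] at h01
  rw [W_EE02] at h02
  rw [W_EE03] at h03
  rw [W_EE12] at h12
  rw [W_EE13] at h13
  rw [W_EE23] at h23
  refine alt_ext hb h0 ?_ ?_ ?_ ?_ ?_ ?_ <;> rw [ent_zero] <;> linarith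

theorem invp_inv {J : E4 →L[ℝ] E4} (hJ : ∀ v, J (J v) = -v) (b : Bil) (u v : E4) :
    invp J b (J u) (J v) = invp J b u v := by
  rw [invp_apply, invp_apply, hJ, hJ]
  simp only [map_neg, neg_apply, neg_neg]
  ring

theorem antip_anti {J : E4 →L[ℝ] E4} (hJ : ∀ v, J (J v) = -v) (b : Bil) (u v : E4) :
    antip J b (J u) (J v) = - antip J b u v := by
  rw [antip_apply, antip_apply, hJ, hJ]
  simp only [map_neg, neg_apply, neg_neg]
  ring

theorem alt_invp {b : Bil} (hb : Alt b) (J : E4 →L[ℝ] E4) : Alt (invp J b) := by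
  intro v; rw [invp_apply, hb, hb]; norm_num

theorem alt_antip {b : Bil} (hb : Alt b) (J : E4 →L[ℝ] E4) : Alt (antip J b) := by
  intro v; rw [antip_apply, hb, hb]; norm_num

theorem alt_add {b c : Bil} (hb : Alt b) (hc : Alt c) : Alt (b + c) := by
  intro v; simp [hb v, hc v]

theorem alt_smul {b : Bil} (hb : Alt b) (r : ℝ) : Alt (r • b) := by
  intro v; simp [hb v]


theorem alt_zero : Alt (0 : Bil) := fun v => by simp

theorem W_mixed {J : E4 →L[ℝ] E4} (hJ : ∀ v, J (J v) = -v) {F : Bil} (hF : SPos J F)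
    {b c : Bil} (hb' : Alt b) (hc' : Alt c) (hb : ∀ u v, b (J u) (J v) = b u v)
    (hc : ∀ u v, c (J u) (J v) = - c u v) : W b c = 0 := by
  obtain ⟨A, hA⟩ := exists_frame hJ hF
  have h1 := W_pull hb' hc' (A : E4 →L[ℝ] E4)
  rw [W_mixed0 (hc'.pull _) (hA.pull_inv hb) (hA.pull_anti hc)] at h1
  rcases mul_eq_zero.1 h1.symm with h | h
  · exact absurd h (det_ne A)
  · exact h

theorem spos_W_ne {J : E4 →L[ℝ] E4} (hJ : ∀ v, J (J v) = -v) {F : Bil} (hF : SPos J F) :
    W F F ≠ 0 := by
  obtain ⟨A, hA⟩ := exists_frame hJ hF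
  exact hA.W_ne hF.alt

theorem antip_eq_zero_of_W {J : E4 →L[ℝ] E4} (hJ : ∀ v, J (J v) = -v) {F : Bil}
    (hF : SPos J F) {b : Bil} (hb : Alt b) (h : ∀ c, Alt c → W b (antip J c) = 0) :
    antip J b = 0 := by
  apply W_nondeg (alt_antip hb J)
  intro c hc
  have e1 : W (antip J b) c = W (antip J b) (invp J c) + W (antip J b) (antip J c) := by
    rw [← W_add_right, invp_add_antip]
  have e2 : W b (antip J c) = W (invp J b) (antip J c) + W (antip J b) (antip J c) := by
    rw [← W_add_left, invp_add_antip]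
  have e3 : W (antip J b) (invp J c) = 0 := by
    rw [W_comm]
    exact W_mixed hJ hF (alt_invp hc J) (alt_antip hb J) (invp_inv hJ c) (antip_anti hJ b)
  have e4 : W (invp J b) (antip J c) = 0 :=
    W_mixed hJ hF (alt_invp hb J) (alt_antip hc J) (invp_inv hJ b) (antip_anti hJ c)
  rw [e1, e3, zero_add]
  have := h c hc
  rw [e2, e4, zero_add] at this
  exact this

/-- the covector dual to `v` in the standard structure. -/
def xiv (v : E4) : E4 →L[ℝ] ℝ := (-v 2) • pr 0 + v 3 • pr 1 + v 0 • pr 2 + (-v 1) • pr 3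

theorem xiv_apply (v w : E4) : xiv v w = -v 2 * w 0 + v 3 * w 1 + v 0 * w 2 + (-v 1) * w 3 := by
  simp [xiv]

theorem pos_of_W0 {b : Bil} (halt : Alt b) (hb : ∀ u v, b (J0 u) (J0 v) = b u v)
    (h : ∀ ξ : E4 →L[ℝ] ℝ, 0 ≤ W b (wed ξ (Jc J0 ξ))) (v : E4) : 0 ≤ b v (J0 v) := by
  have h1 := h (xiv v)
  have hc : ∀ u w, wed (xiv v) (Jc J0 (xiv v)) (J0 u) (J0 w) = wed (xiv v) (Jc J0 (xiv v)) u w :=
    (wed_Jc_pos J0_J0 (xiv v)).inv
  rw [W_inv0 hb hc] at h1
  obtain ⟨h13, h12⟩ := inv0_ent hb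
  rw [alt_expand halt, h13, h12]
  simp only [J0_0, J0_1, J0_2, J0_3]
  have e : ∀ i j, ent (wed (xiv v) (Jc J0 (xiv v))) i j
      = xiv v (ee i) * (-(xiv v (J0 (ee j)))) - (-(xiv v (J0 (ee i)))) * xiv v (ee j) := by
    intro i j
    unfold ent
    rw [wed_apply, Jc_apply, Jc_apply]
  rw [e, e, e, e] at h1
  simp only [J0_ee0, J0_ee1, J0_ee2, J0_ee3, map_neg, xiv_apply, ee_apply] at h1
  simp at h1
  nlinarith [h1]

/-- positivity of a `J`-invariant form from its pairings with `ξ ∧ Jc ξ`. -/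
theorem pos_of_q {J : E4 →L[ℝ] E4} (hJ : ∀ v, J (J v) = -v) {F : Bil} (hF : SPos J F)
    {b : Bil} (halt : Alt b) (hb : ∀ u v, b (J u) (J v) = b u v)
    (h : ∀ ξ : E4 →L[ℝ] ℝ, 0 ≤ q F b (wed ξ (Jc J ξ))) : Pos J b := by
  refine ⟨halt, hb, ?_⟩
  obtain ⟨A, hA⟩ := exists_frame hJ hF
  have h0 : ∀ v, 0 ≤ pull (A : E4 →L[ℝ] E4) b v (J0 v) := by
    apply pos_of_W0 (halt.pull _) (hA.pull_inv hb)
    intro ξ0
    have h1 := h (ξ0.comp (A.symm : E4 →L[ℝ] E4))
    rw [hA.q_eq hF.alt halt (wed_alt _ _)] at h1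
    have e : pull (A : E4 →L[ℝ] E4) (wed (ξ0.comp (A.symm : E4 →L[ℝ] E4))
        (Jc J (ξ0.comp (A.symm : E4 →L[ℝ] E4)))) = wed ξ0 (Jc J0 ξ0) := by
      ext u v
      rw [pull_apply, wed_apply, wed_apply]
      have e1 : ∀ w : E4, A.symm (J (A w)) = J0 w := by
        intro w
        rw [hA.cplx]
        simp
      simp only [Jc_apply, ContinuousLinearMap.comp_apply, ContinuousLinearEquiv.coe_coe,
        ContinuousLinearEquiv.symm_apply_apply, e1]
    rw [e] at h1
    linarith
  intro v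
  have h2 := h0 (A.symm v)
  rw [pull_apply] at h2
  simp only [ContinuousLinearEquiv.coe_coe, ContinuousLinearEquiv.apply_symm_apply] at h2
  rw [← hA.cplx] at h2
  simpa using h2

/-- the form dual to a linear functional with respect to `q F`. -/
def dq (F : Bil) (l : Bil →L[ℝ] ℝ) : Bil :=
  W F F • (l (EE 2 3) • EE 0 1 + (-(l (EE 1 3))) • EE 0 2 + l (EE 1 2) • EE 0 3
    + l (EE 0 3) • EE 1 2 + (-(l (EE 0 2))) • EE 1 3 + l (EE 0 1) • EE 2 3)

theorem dq_alt (F : Bil) (l : Bil →L[ℝ] ℝ) : Alt (dq F l) := by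
  unfold dq
  exact alt_smul (alt_add (alt_add (alt_add (alt_add (alt_add (alt_smul (EE_alt 0 1) _)
    (alt_smul (EE_alt 0 2) _)) (alt_smul (EE_alt 0 3) _)) (alt_smul (EE_alt 1 2) _))
    (alt_smul (EE_alt 1 3) _)) (alt_smul (EE_alt 2 3) _)) _

theorem q_dq {F : Bil} (hF : W F F ≠ 0) (l : Bil →L[ℝ] ℝ) {b : Bil} (hb : Alt b) :
    q F (dq F l) b = l b := by
  unfold q
  rw [div_eq_iff hF]
  unfold dq
  rw [W_smul_left]
  simp only [W_add_left, W_smul_left]
  rw [W_comm (EE 0 1), W_comm (EE 0 2), W_comm (EE 0 3), W_comm (EE 1 2), W_comm (EE 1 3),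
    W_comm (EE 2 3), W_EE01, W_EE02, W_EE03, W_EE12, W_EE13, W_EE23]
  conv_rhs => rw [alt_sum hb]
  simp only [map_add, map_smul, smul_eq_mul]
  ring

/-- **Pointwise duality.** -/
theorem dq_pos {J : E4 →L[ℝ] E4} (hJ : ∀ v, J (J v) = -v) {F : Bil} (hF : SPos J F)
    (l : Bil →L[ℝ] ℝ) (hl : ∀ b, Alt b → l (antip J b) = 0)
    (hpos : ∀ ξ : E4 →L[ℝ] ℝ, 0 ≤ l (wed ξ (Jc J ξ))) : Pos J (dq F l) := by
  have hW := spos_W_ne hJ hF
  have h1 : antip J (dq F l) = 0 := by
    apply antip_eq_zero_of_W hJ hF (dq_alt F l)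
    intro c hc
    have h2 := q_dq hW l (alt_antip hc J)
    rw [hl c hc] at h2
    unfold q at h2
    rcases div_eq_zero_iff.1 h2 with h | h
    · exact h
    · exact absurd h hW
  have h2 : ∀ u v, dq F l (J u) (J v) = dq F l u v := by
    intro u v
    have h3 : antip J (dq F l) u v = 0 := by rw [h1]; simp
    rw [antip_apply] at h3
    linarith
  refine pos_of_q hJ hF (dq_alt F l) h2 ?_
  intro ξ
  rw [q_dq hW l (wed_alt _ _)]
  exact hpos ξ

end

end Crest.Agent.R240.Dens
end

-- ▼ part R240/Vm1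
section

/-!
# R240, block V: a vector valued Riesz theorem (polar form of a current of order 0)

`exists_density`: a linear functional on a space of (square integrable) fields `X → V`,
bounded by `C ∫ ‖f‖ ds`, is `f ↦ ∫ ⟪φ, f⟫ ds` with `φ` measurable and `‖φ‖ ≤ C` everywhere.
-/

set_option autoImplicit false
set_option linter.unusedSectionVars false
open MeasureTheory Set
open scoped ENNReal NNReal

namespace Crest.Agent.R240.Vm

variable {X : Type*} [MeasurableSpace X] {V : Type*} [NormedAddCommGroup V]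
  [InnerProductSpace ℝ V] [FiniteDimensional ℝ V] [MeasurableSpace V] [BorelSpace V]

/-- square integrable functions as a submodule of all functions. -/
def L2fun (s : Measure X) (V : Type*) [NormedAddCommGroup V]
    [InnerProductSpace ℝ V] : Submodule ℝ (X → V) where
  carrier := {f | MemLp f 2 s}
  add_mem' := fun {_ _} hf hg => hf.add hg
  zero_mem' := MemLp.zero
  smul_mem' := fun c _ hf => hf.const_smul c


theorem L2fun_integrable {s : Measure X} [IsFiniteMeasure s] {f : X → V} (hf : f ∈ L2fun s V) :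
    Integrable f s := by
  have h : MemLp f 2 s := hf
  exact (h.mono_exponent (p := 1) (by norm_num)).integrable (le_refl _)

/-- **Vector valued Riesz theorem.** -/
theorem exists_density (s : Measure X) [IsFiniteMeasure s] {C : ℝ} (hC : 0 ≤ C)
    (D : Submodule ℝ (X → V)) (hD : ∀ f ∈ D, MemLp f 2 s)
    (Phi : D →ₗ[ℝ] ℝ) (hPhi : ∀ f : D, Phi f ≤ C * ∫ x, ‖(f : X → V) x‖ ∂s) :
    ∃ φ : X → V, Measurable φ ∧ (∀ x, ‖φ x‖ ≤ C) ∧
      ∀ f : D, Phi f = ∫ x, inner ℝ (φ x) ((f : X → V) x) ∂s := by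
  classical
  have hDle : D ≤ L2fun s V := fun f hf => hD f hf
  -- the partial functional on `L2fun`
  let N : L2fun s V → ℝ := fun f => C * ∫ x, ‖(f : X → V) x‖ ∂s
  let D' : Submodule ℝ (L2fun s V) := D.comap (L2fun s V).subtype
  let ι : D' →ₗ[ℝ] D :=
    { toFun := fun f => ⟨((f : L2fun s V) : X → V), f.2⟩
      map_add' := fun _ _ => rfl
      map_smul' := fun _ _ => rfl }
  let F : L2fun s V →ₗ.[ℝ] ℝ := ⟨D', Phi.comp ι⟩
  obtain ⟨g, hg1, hg2⟩ := exists_extension_of_le_sublinear F N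
    (by
      intro c hc f
      simp only [N]
      have : ∀ x, ‖((c • f : L2fun s V) : X → V) x‖ = c * ‖(f : X → V) x‖ := by
        intro x
        rw [Submodule.coe_smul, Pi.smul_apply, norm_smul, Real.norm_of_nonneg hc.le]
      simp only [this]
      rw [integral_const_mul]; ring)
    (by
      intro f h
      simp only [N]
      rw [← mul_add]
      apply mul_le_mul_of_nonneg_left _ hC
      rw [← integral_add (L2fun_integrable f.2).norm (L2fun_integrable h.2).norm]
      apply integral_mono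
      · exact (L2fun_integrable (f + h).2).norm
      · exact (L2fun_integrable f.2).norm.add (L2fun_integrable h.2).norm
      · intro x
        exact norm_add_le _ _)
    (by
      intro f
      exact hPhi (ι f))
  have hgN : ∀ f, |g f| ≤ N f := by
    intro f
    rw [abs_le]
    constructor
    · have h1 := hg2 (-f)
      have h2 : N (-f) = N f := by
        simp only [N]
        congr 1
        apply integral_congr_ae
        filter_upwards with x
        simp
      rw [map_neg, h2] at h1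
      linarith
    · exact hg2 f
  have hgae : ∀ f h : L2fun s V, (f : X → V) =ᵐ[s] (h : X → V) → g f = g h := by
    intro f h hfh
    have h1 := hgN (f - h)
    have h2 : N (f - h) = 0 := by
      simp only [N]
      have : ∫ x, ‖((f - h : L2fun s V) : X → V) x‖ ∂s = 0 := by
        rw [integral_eq_zero_of_ae]
        filter_upwards [hfh] with x hx
        simp [hx]
      rw [this, mul_zero]
    rw [h2, map_sub] at h1
    have := abs_nonpos_iff.mp h1
    linarith
  -- descend to `Lp`
  let rep : Lp V 2 s → L2fun s V := fun u => ⟨fun x => u x, Lp.memLp u⟩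
  let Ψ0 : Lp V 2 s →ₗ[ℝ] ℝ :=
    { toFun := fun u => g (rep u)
      map_add' := by
        intro u v
        rw [← map_add]
        apply hgae
        exact Lp.coeFn_add u v
      map_smul' := by
        intro c u
        rw [RingHom.id_apply, ← map_smul]
        apply hgae
        exact Lp.coeFn_smul c u }
  have hΨ0 : ∀ u : Lp V 2 s, |Ψ0 u| ≤ C * ∫ x, ‖u x‖ ∂s := fun u => hgN (rep u)
  have hbd : ∀ u : Lp V 2 s, ‖Ψ0 u‖ ≤ (C * Real.sqrt (s.real univ)) * ‖u‖ := by
    intro u
    refine (hΨ0 u).trans ?_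
    rw [mul_assoc]
    apply mul_le_mul_of_nonneg_left _ hC
    have hu := Lp.memLp u
    -- Cauchy-Schwarz
    have h1 : ∫ x, ‖u x‖ ∂s ≤ Real.sqrt (∫ x, (1:ℝ) ^ 2 ∂s) * Real.sqrt (∫ x, ‖u x‖ ^ 2 ∂s) := by
      have hn : MemLp (fun x => ‖u x‖) (ENNReal.ofReal 2) s := by
        simpa using hu.norm
      have ho : MemLp (fun _ : X => (1:ℝ)) (ENNReal.ofReal 2) s := memLp_const _
      have hh := integral_mul_le_Lp_mul_Lq_of_nonneg (μ := s) (f := fun _ => (1:ℝ))
        (g := fun x => ‖u x‖) (p := 2) (q := 2) Real.HolderConjugate.two_two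
        (Filter.Eventually.of_forall fun _ => zero_le_one)
        (Filter.Eventually.of_forall fun _ => norm_nonneg _) ho hn
      simp only [one_mul] at hh
      rw [Real.sqrt_eq_rpow, Real.sqrt_eq_rpow]
      simpa using hh
    have h2 : Real.sqrt (∫ x, ‖u x‖ ^ 2 ∂s) = ‖u‖ := by
      have h3 : ‖u‖ ^ 2 = ∫ x, ‖u x‖ ^ 2 ∂s := by
        have h4 := L2.inner_def (𝕜 := ℝ) u u
        rw [real_inner_self_eq_norm_sq] at h4
        rw [h4]
        apply integral_congr_ae
        filter_upwards with x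
        exact real_inner_self_eq_norm_sq _
      rw [← h3, Real.sqrt_sq (norm_nonneg _)]
    rw [h2] at h1
    simpa using h1
  let Ψ : Lp V 2 s →L[ℝ] ℝ := Ψ0.mkContinuous _ hbd
  let φ0 : Lp V 2 s := (InnerProductSpace.toDual ℝ (Lp V 2 s)).symm Ψ
  have hφ0 : ∀ u : Lp V 2 s, ∫ x, inner ℝ (φ0 x) (u x) ∂s = g (rep u) := by
    intro u
    rw [← L2.inner_def]
    have := InnerProductSpace.toDual_symm_apply (𝕜 := ℝ) (x := u) (y := Ψ)
    exact this
  have hφ0' : ∀ u : L2fun s V, ∫ x, inner ℝ (φ0 x) ((u : X → V) x) ∂s = g u := by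
    intro u
    have hm : MemLp (u : X → V) 2 s := u.2
    have h1 := hφ0 (hm.toLp (u : X → V))
    have h2 : (fun x => (hm.toLp (u : X → V)) x) =ᵐ[s] (u : X → V) := hm.coeFn_toLp
    rw [hgae (rep (hm.toLp (u : X → V))) u h2] at h1
    rw [← h1]
    apply integral_congr_ae
    filter_upwards [h2] with x hx
    rw [hx]
  -- the a.e. bound
  have hsm : StronglyMeasurable (fun x => φ0 x) := Lp.stronglyMeasurable φ0
  have hmeas : Measurable (fun x => φ0 x) := hsm.measurable
  let A : Set X := {x | C < ‖φ0 x‖}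
  have hA : MeasurableSet A := measurableSet_lt measurable_const hmeas.norm
  have hA0 : s A = 0 := by
    let u : X → V := A.indicator (fun x => (‖φ0 x‖)⁻¹ • φ0 x)
    have hum : AEStronglyMeasurable u s :=
      ((hsm.norm.inv₀).smul hsm).aestronglyMeasurable.indicator hA
    have hub : ∀ x, ‖u x‖ ≤ 1 := by
      intro x
      by_cases hx : x ∈ A
      · simp only [u, indicator_of_mem hx, norm_smul, norm_inv, norm_norm]
        by_cases h0 : ‖φ0 x‖ = 0
        · simp [h0]
        · rw [inv_mul_cancel₀ h0]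
      · simp [u, indicator_of_notMem hx]
    have hu2 : MemLp u 2 s := MemLp.of_bound hum 1 (Filter.Eventually.of_forall hub)
    have h1 := hφ0' ⟨u, hu2⟩
    have h2 := (abs_le.mp (hgN ⟨u, hu2⟩)).2
    rw [← h1] at h2
    simp only [N] at h2
    -- ⟪φ0,u⟫ = indicator ‖φ0‖
    have h3 : ∀ x, inner ℝ (φ0 x) (u x) = A.indicator (fun x => ‖φ0 x‖) x := by
      intro x
      by_cases hx : x ∈ A
      · simp only [u, indicator_of_mem hx, inner_smul_right, real_inner_self_eq_norm_sq]
        have h0 : ‖φ0 x‖ ≠ 0 := by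
          have : C < ‖φ0 x‖ := hx
          linarith
        field_simp
      · simp [u, indicator_of_notMem hx]
    have h4 : ∀ x, ‖u x‖ = A.indicator (fun _ => (1:ℝ)) x := by
      intro x
      by_cases hx : x ∈ A
      · simp only [u, indicator_of_mem hx, norm_smul, norm_inv, norm_norm]
        have h0 : ‖φ0 x‖ ≠ 0 := by
          have : C < ‖φ0 x‖ := hx
          linarith
        rw [inv_mul_cancel₀ h0]
      · simp [u, indicator_of_notMem hx]
    simp only [h3, h4] at h2
    have hi1 : Integrable (A.indicator fun x => ‖φ0 x‖) s := by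
      have : Integrable (fun x => φ0 x) s :=
        ((Lp.memLp φ0).mono_exponent (p := 1) (by norm_num)).integrable (le_refl _)
      exact this.norm.indicator hA
    have hi2 : Integrable (A.indicator fun _ : X => C) s := (integrable_const C).indicator hA
    have h5 : C * ∫ x, A.indicator (fun _ => (1:ℝ)) x ∂s = ∫ x, A.indicator (fun _ => C) x ∂s := by
      rw [← integral_const_mul]
      apply integral_congr_ae
      filter_upwards with x
      by_cases hx : x ∈ A <;> simp [hx]
    rw [h5] at h2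
    have h6 : ∫ x, (A.indicator (fun x => ‖φ0 x‖) x - A.indicator (fun _ => C) x) ∂s ≤ 0 := by
      rw [integral_sub hi1 hi2]; linarith
    have h7 : 0 ≤ᵐ[s] fun x => (A.indicator (fun x => ‖φ0 x‖) x - A.indicator (fun _ => C) x) := by
      filter_upwards with x
      by_cases hx : x ∈ A
      · have : C < ‖φ0 x‖ := hx
        simp only [indicator_of_mem hx, Pi.zero_apply]
        linarith
      · simp [indicator_of_notMem hx]
    have h8 : ∫ x, (A.indicator (fun x => ‖φ0 x‖) x - A.indicator (fun _ => C) x) ∂s = 0 :=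
      le_antisymm h6 (integral_nonneg_of_ae h7)
    have h9 := (integral_eq_zero_iff_of_nonneg_ae h7 (hi1.sub hi2)).mp h8
    rw [measure_eq_zero_iff_ae_notMem]
    filter_upwards [h9] with x hx hxA
    have : C < ‖φ0 x‖ := hxA
    simp only [indicator_of_mem hxA, Pi.zero_apply] at hx
    linarith
  refine ⟨fun x => if ‖φ0 x‖ ≤ C then φ0 x else 0, ?_, ?_, ?_⟩
  · exact Measurable.ite (measurableSet_le hmeas.norm measurable_const) hmeas measurable_const
  · intro x
    by_cases hx : ‖φ0 x‖ ≤ C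
    · simp [hx]
    · simp [hx, hC]
  · intro f
    have hf2 : MemLp (f : X → V) 2 s := hD f f.2
    have h1 := hφ0' ⟨(f : X → V), hf2⟩
    have h2 : g ⟨(f : X → V), hf2⟩ = Phi f := by
      have := hg1 (⟨⟨(f : X → V), hf2⟩, f.2⟩ : D')
      exact this
    rw [← h2, ← h1]
    apply integral_congr_ae
    have : ∀ᵐ x ∂s, x ∉ A := measure_eq_zero_iff_ae_notMem.mp hA0
    filter_upwards [this] with x hx
    have hx' : ‖φ0 x‖ ≤ C := not_lt.mp hx
    simp [hx']

end Crest.Agent.R240.Vm
end

-- ▼ part R240/Dens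
section

/-!
Row 240 (S0371), PART D2 (helper703): the density of a positive functional on the smooth two-forms
compactly supported in an open set `U` of `E4`, in `q`-encoding.
-/

set_option autoImplicit false
set_option maxSynthPendingDepth 3

open Set Function Filter Topology MeasureTheory Metric
open scoped Manifold ContDiff Topology

namespace Crest.Agent.R240.Dens

open Crest.Agent.R240

noncomputable section

/-- smooth two-forms with compact support in `U`. -/
def TF (U : Set E4) : Submodule ℝ (E4 → Bil) where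
  carrier := {β | ContDiff ℝ ∞ β ∧ HasCompactSupport β ∧ tsupport β ⊆ U ∧ ∀ y, Alt (β y)}
  add_mem' := by
    rintro a b ⟨ha1, ha2, ha3, ha4⟩ ⟨hb1, hb2, hb3, hb4⟩
    refine ⟨ha1.add hb1, ha2.add hb2, ?_, fun y => alt_add (ha4 y) (hb4 y)⟩
    exact (tsupport_add a b).trans (union_subset ha3 hb3)
  zero_mem' := by
    refine ⟨contDiff_const, ?_, ?_, fun y => alt_zero⟩
    · exact HasCompactSupport.zero
    · simp [tsupport]
  smul_mem' := by
    rintro c a ⟨ha1, ha2, ha3, ha4⟩
    refine ⟨contDiff_const.smul ha1, ?_, ?_, fun y => alt_smul (ha4 y) c⟩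
    · exact ha2.smul_left (f := fun _ => c)
    · refine (closure_mono ?_).trans ha3
      intro y hy hy0
      apply hy
      simp only [Pi.smul_apply, hy0, smul_zero]

theorem mem_TF {U : Set E4} {β : E4 → Bil} : β ∈ TF U ↔
    ContDiff ℝ ∞ β ∧ HasCompactSupport β ∧ tsupport β ⊆ U ∧ ∀ y, Alt (β y) := Iff.rfl

/-- product of a test function with a form smooth on `U`. -/
theorem contDiff_smul_of_tsupport {V : Type*} [NormedAddCommGroup V] [NormedSpace ℝ V]
    {U : Set E4} (hU : IsOpen U) {g : E4 → ℝ} (hg : ContDiff ℝ ∞ g) (hgU : tsupport g ⊆ U)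
    {h : E4 → V} (hh : ContDiffOn ℝ ∞ h U) : ContDiff ℝ ∞ (fun y => g y • h y) := by
  rw [contDiff_iff_contDiffAt]
  intro y
  by_cases hy : y ∈ U
  · exact hg.contDiffAt.smul (hh.contDiffAt (hU.mem_nhds hy))
  · have hy' : y ∉ tsupport g := fun h => hy (hgU h)
    have h0 : (fun y => g y • h y) =ᶠ[𝓝 y] fun _ => (0 : V) := by
      have h1 := (notMem_tsupport_iff_eventuallyEq).1 hy'
      filter_upwards [h1] with z hz
      simp [hz]
    exact contDiffAt_const.congr_of_eventuallyEq h0

theorem smul_mem_TF {U : Set E4} (hU : IsOpen U) {g : E4 → ℝ} (hg : ContDiff ℝ ∞ g)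
    (hgc : HasCompactSupport g) (hgU : tsupport g ⊆ U) {h : E4 → Bil} (hh : ContDiffOn ℝ ∞ h U)
    (halt : ∀ y ∈ U, Alt (h y)) : (fun y => g y • h y) ∈ TF U := by
  have hsub : tsupport (fun y => g y • h y) ⊆ tsupport g := by
    refine closure_mono ?_
    intro y hy hy0
    apply hy
    simp only [hy0, zero_smul]
  refine ⟨contDiff_smul_of_tsupport hU hg hgU hh, hgc.smul_right, hsub.trans hgU, ?_⟩
  intro y
  by_cases hy : y ∈ U
  · exact alt_smul (halt y hy) _
  · have hy' : g y = 0 := by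
      by_contra h0
      exact hy (hgU (subset_tsupport g h0))
    simp only [hy', zero_smul]
    exact alt_zero

/-- Riesz: a functional dominated by a measure is given by a bounded measurable density. -/
theorem exists_functional_density (s : Measure E4) [IsFiniteMeasure s] {C : ℝ}
    (U : Set E4) (Φ : TF U →ₗ[ℝ] ℝ)
    (hΦ : ∀ β : TF U, |Φ β| ≤ C * ∫ y, ‖(β : E4 → Bil) y‖ ∂s) :
    ∃ l : E4 → (Bil →L[ℝ] ℝ), ∃ C' : ℝ, 0 ≤ C' ∧
      (∀ β : E4 → Bil, Measurable β → Measurable fun y => l y (β y)) ∧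
      (∀ y, ‖l y‖ ≤ C') ∧ ∀ β : TF U, Φ β = ∫ y, l y ((β : E4 → Bil) y) ∂s := by
  classical
  let V := EuclideanSpace ℝ (Fin (Module.finrank ℝ Bil))
  let e : Bil ≃L[ℝ] V := ContinuousLinearEquiv.ofFinrankEq (by simp [V])
  let D : Submodule ℝ (E4 → V) := (TF U).map (LinearMap.compLeft (e : Bil →L[ℝ] V).toLinearMap E4)
  have hDmem : ∀ f ∈ D, (fun y => e.symm (f y)) ∈ TF U := by
    rintro f ⟨β, hβ, rfl⟩
    have : (fun y => e.symm ((LinearMap.compLeft (e : Bil →L[ℝ] V).toLinearMap E4) β y)) = β := by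
      ext1 y
      simp [LinearMap.compLeft]
    rw [this]
    exact hβ
  let ι : D →ₗ[ℝ] TF U :=
    { toFun := fun f => ⟨fun y => e.symm ((f : E4 → V) y), hDmem f f.2⟩
      map_add' := fun f g => by
        ext1
        funext y
        simp
      map_smul' := fun c f => by
        ext1
        funext y
        simp }
  let K : ℝ := ‖(e.symm : V →L[ℝ] Bil)‖
  have hDL2 : ∀ f ∈ D, MemLp f 2 s := by
    rintro f ⟨β, hβ, rfl⟩
    obtain ⟨h1, h2, h3, h4⟩ := hβ
    have hc : Continuous (fun y => e (β y)) := e.continuous.comp h1.continuous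
    have hcs : HasCompactSupport (fun y => e (β y)) := by
      apply h2.comp_left (g := fun b => e b)
      simp
    exact hc.memLp_of_hasCompactSupport hcs
  have hbound : ∀ f : D, (Φ.comp ι) f ≤ (|C| * K) * ∫ x, ‖(f : E4 → V) x‖ ∂s := by
    intro f
    have h1 := hΦ (ι f)
    have h2 : (Φ.comp ι) f ≤ |Φ (ι f)| := le_abs_self _
    refine h2.trans (h1.trans ?_)
    have hi : Integrable (fun x => ‖(f : E4 → V) x‖) s :=
      ((hDL2 f f.2).mono_exponent (p := 1) (by norm_num)).integrable (le_refl _) |>.norm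
    have h3 : ∫ y, ‖((ι f : TF U) : E4 → Bil) y‖ ∂s ≤ K * ∫ x, ‖(f : E4 → V) x‖ ∂s := by
      rw [← integral_const_mul]
      apply integral_mono_of_nonneg (Eventually.of_forall fun _ => norm_nonneg _) (hi.const_mul _)
      refine Eventually.of_forall fun y => ?_
      exact (e.symm : V →L[ℝ] Bil).le_opNorm _
    have h4 : 0 ≤ ∫ y, ‖((ι f : TF U) : E4 → Bil) y‖ ∂s := integral_nonneg fun _ => norm_nonneg _
    calc C * ∫ y, ‖((ι f : TF U) : E4 → Bil) y‖ ∂s
        ≤ |C| * ∫ y, ‖((ι f : TF U) : E4 → Bil) y‖ ∂s :=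
          mul_le_mul_of_nonneg_right (le_abs_self C) h4
      _ ≤ |C| * (K * ∫ x, ‖(f : E4 → V) x‖ ∂s) := mul_le_mul_of_nonneg_left h3 (abs_nonneg C)
      _ = _ := by ring
  obtain ⟨φ, hφm, hφb, hφ⟩ := Vm.exists_density s (C := |C| * K)
    (mul_nonneg (abs_nonneg _) (norm_nonneg _)) D hDL2 (Φ.comp ι) hbound
  refine ⟨fun y => (innerSL ℝ (φ y)).comp (e : Bil →L[ℝ] V), (|C| * K) * ‖(e : Bil →L[ℝ] V)‖,
    by positivity, ?_, ?_, ?_⟩
  · intro β hβ
    have : (fun y => ((innerSL ℝ (φ y)).comp (e : Bil →L[ℝ] V)) (β y))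
        = fun y => inner ℝ (φ y) (e (β y)) := rfl
    rw [this]
    exact hφm.inner (e.continuous.measurable.comp hβ)
  · intro y
    refine (ContinuousLinearMap.opNorm_comp_le _ _).trans ?_
    apply mul_le_mul_of_nonneg_right _ (norm_nonneg _)
    rw [innerSL_apply_norm]
    exact hφb y
  · intro β
    have hmem : (fun y => e ((β : E4 → Bil) y)) ∈ D := ⟨β, β.2, rfl⟩
    have h1 := hφ ⟨_, hmem⟩
    have h2 : ι ⟨_, hmem⟩ = β := by
      ext1
      funext y
      simp [ι]
    rw [LinearMap.comp_apply, h2] at h1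
    rw [h1]
    rfl


theorem continuous_ent (i j : Fin 4) : Continuous fun b : Bil => ent b i j := by
  unfold ent
  fun_prop

theorem continuous_W : Continuous fun b : Bil => W b b := by
  unfold W
  have := continuous_ent
  fun_prop

theorem abs_W_le (F : Bil) : |W F F| ≤ 6 * ‖F‖ ^ 2 := by
  have h := abs_ent_le F
  have e : ∀ a b : ℝ, |a| ≤ ‖F‖ → |b| ≤ ‖F‖ → |a * b| ≤ ‖F‖ ^ 2 := by
    intro a b ha hb
    rw [abs_mul, sq]
    exact mul_le_mul ha hb (abs_nonneg _) (norm_nonneg _)
  have h1 := e _ _ (h 0 1) (h 2 3)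
  have h2 := e _ _ (h 0 2) (h 1 3)
  have h3 := e _ _ (h 0 3) (h 1 2)
  have h4 : W F F = 2 * (ent F 0 1 * ent F 2 3) - 2 * (ent F 0 2 * ent F 1 3)
      + 2 * (ent F 0 3 * ent F 1 2) := by unfold W; ring
  rw [h4]
  rw [abs_le] at h1 h2 h3 ⊢
  constructor <;> linarith [h1.1, h1.2, h2.1, h2.2, h3.1, h3.2]

/-- a constant -/
def KE : ℝ := ‖EE 2 3‖ * ‖EE 0 1‖ + ‖EE 1 3‖ * ‖EE 0 2‖ + ‖EE 1 2‖ * ‖EE 0 3‖
    + ‖EE 0 3‖ * ‖EE 1 2‖ + ‖EE 0 2‖ * ‖EE 1 3‖ + ‖EE 0 1‖ * ‖EE 2 3‖

theorem KE_nonneg : 0 ≤ KE := by unfold KE; positivity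

theorem norm_dq_le (F : Bil) (l : Bil →L[ℝ] ℝ) : ‖dq F l‖ ≤ 6 * ‖F‖ ^ 2 * (‖l‖ * KE) := by
  unfold dq
  rw [norm_smul]
  have h0 : ‖W F F‖ ≤ 6 * ‖F‖ ^ 2 := abs_W_le F
  refine mul_le_mul h0 ?_ (norm_nonneg _) (by positivity)
  have e : ∀ a b : Bil, ‖l a • b‖ ≤ ‖l‖ * (‖a‖ * ‖b‖) := by
    intro a b
    rw [norm_smul, ← mul_assoc]
    exact mul_le_mul_of_nonneg_right (l.le_opNorm a) (norm_nonneg _)
  have e' : ∀ a b : Bil, ‖(-(l a)) • b‖ ≤ ‖l‖ * (‖a‖ * ‖b‖) := by
    intro a b
    rw [neg_smul, norm_neg]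
    exact e a b
  unfold KE
  refine (norm_add_le _ _).trans ?_
  refine (add_le_add (norm_add_le _ _) le_rfl).trans ?_
  refine (add_le_add (add_le_add (norm_add_le _ _) le_rfl) le_rfl).trans ?_
  refine (add_le_add (add_le_add (add_le_add (norm_add_le _ _) le_rfl) le_rfl) le_rfl).trans ?_
  refine (add_le_add (add_le_add (add_le_add (add_le_add (norm_add_le _ _) le_rfl) le_rfl) le_rfl)
    le_rfl).trans ?_
  have := e (EE 2 3) (EE 0 1)
  have := e' (EE 1 3) (EE 0 2)
  have := e (EE 1 2) (EE 0 3)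
  have := e (EE 0 3) (EE 1 2)
  have := e' (EE 0 2) (EE 1 3)
  have := e (EE 0 1) (EE 2 3)
  nlinarith

theorem contDiff_pull (b : Bil) : ContDiff ℝ ∞ fun A : E4 →L[ℝ] E4 => pull A b := by
  unfold pull
  exact ((ContinuousLinearMap.compL ℝ E4 E4 ℝ).flip.contDiff).clm_comp
    ((ContinuousLinearMap.compL ℝ E4 E4 (E4 →L[ℝ] ℝ) b).contDiff)

theorem contDiff_antip (b : Bil) : ContDiff ℝ ∞ fun A : E4 →L[ℝ] E4 => antip A b := by
  unfold antip
  exact (contDiff_const.sub (contDiff_pull b)).const_smul (1/2 : ℝ)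

theorem contDiff_wedJ (ξ : E4 →L[ℝ] ℝ) : ContDiff ℝ ∞ fun A : E4 →L[ℝ] E4 => wed ξ (Jc A ξ) := by
  have h1 : ContDiff ℝ ∞ fun A : E4 →L[ℝ] E4 => Jc A ξ := by
    unfold Jc
    exact (ContinuousLinearMap.compL ℝ E4 E4 ℝ ξ).contDiff.neg
  unfold wed
  refine ContDiff.sub ?_ ?_
  · exact ((ContinuousLinearMap.smulRightL ℝ E4 (E4 →L[ℝ] ℝ) ξ).contDiff).comp h1
  · exact ((ContinuousLinearMap.smulRightL ℝ E4 (E4 →L[ℝ] ℝ)).flip ξ).contDiff.comp h1

theorem continuous_wed (A : E4 →L[ℝ] E4) : Continuous fun ξ : E4 →L[ℝ] ℝ => wed ξ (Jc A ξ) := by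
  have h1 : Continuous fun ξ : E4 →L[ℝ] ℝ => Jc A ξ := by
    unfold Jc
    exact (((ContinuousLinearMap.compL ℝ E4 E4 ℝ).flip A).continuous).neg
  unfold wed
  refine Continuous.sub ?_ ?_
  · exact (ContinuousLinearMap.smulRightL ℝ E4 (E4 →L[ℝ] ℝ)).continuous₂.comp
      (continuous_id.prodMk h1)
  · exact (ContinuousLinearMap.smulRightL ℝ E4 (E4 →L[ℝ] ℝ)).continuous₂.comp
      (h1.prodMk continuous_id)

theorem antip_add (J : E4 →L[ℝ] E4) (a b : Bil) : antip J (a + b) = antip J a + antip J b := by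
  ext u v
  simp only [antip_apply, add_apply]
  ring

theorem antip_smul (J : E4 →L[ℝ] E4) (c : ℝ) (b : Bil) : antip J (c • b) = c • antip J b := by
  ext u v
  simp only [antip_apply, smul_apply, smul_eq_mul]
  ring

theorem l_antip_eq_zero {J : E4 →L[ℝ] E4} {l : Bil →L[ℝ] ℝ}
    (h : ∀ i j : Fin 4, l (antip J (EE i j)) = 0) {b : Bil} (hb : Alt b) : l (antip J b) = 0 := by
  rw [alt_sum hb]
  simp only [antip_add, antip_smul, map_add, map_smul, h, smul_zero, add_zero]

theorem pos_smul {J : E4 →L[ℝ] E4} {b : Bil} (hb : Pos J b) {c : ℝ} (hc : 0 ≤ c) :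
    Pos J (c • b) where
  alt := alt_smul hb.alt c
  inv u v := by simp only [smul_apply, hb.inv]
  nonneg v := by
    simp only [smul_apply, smul_eq_mul]
    exact mul_nonneg hc (hb.nonneg v)

theorem spos_pos {J : E4 →L[ℝ] E4} {F : Bil} (hF : SPos J F) : Pos J F where
  alt := hF.alt
  inv := hF.inv
  nonneg v := by
    by_cases h : v = 0
    · simp [h]
    · exact (hF.pos v h).le

/-- **The chart density**: a functional on the smooth two-forms compactly supported in `U`,
dominated by the finite measure `s`, killing `J`-anti-invariant forms, nonnegative on nonnegative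
forms and with `Φ (g F) = ∫ g ds`, has a bounded measurable nonnegative density `φ` with
`q F φ F = 1` at every point of `U`. -/
theorem exists_chart_density (s : Measure E4) [IsFiniteMeasure s] {C : ℝ} {U : Set E4}
    (hU : IsOpen U) {J : E4 → E4 →L[ℝ] E4} {F : E4 → Bil} (hJs : ContDiffOn ℝ ∞ J U)
    (hJ : ∀ y ∈ U, ∀ v, J y (J y v) = -v) (hFs : ContDiffOn ℝ ∞ F U)
    (hF : ∀ y ∈ U, SPos (J y) (F y)) (Φ : TF U →ₗ[ℝ] ℝ)
    (hΦ : ∀ β : TF U, |Φ β| ≤ C * ∫ y, ‖(β : E4 → Bil) y‖ ∂s)
    (hanti : ∀ β : TF U, (∀ y ∈ U, ∀ u v, (β : E4 → Bil) y (J y u) (J y v)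
      = -(β : E4 → Bil) y u v) → Φ β = 0)
    (hpos : ∀ β : TF U, (∀ y ∈ U, Pos (J y) ((β : E4 → Bil) y)) → 0 ≤ Φ β)
    (hmass : ∀ (β : TF U) (g : E4 → ℝ), ContDiff ℝ ∞ g → HasCompactSupport g → tsupport g ⊆ U →
      (∀ y, (β : E4 → Bil) y = g y • F y) → Φ β = ∫ y, g y ∂s) :
    ∃ φ : E4 → Bil, ∃ C' : ℝ, 0 ≤ C' ∧ Measurable φ ∧ (∀ y ∈ U, Pos (J y) (φ y)) ∧
      (∀ y ∈ U, q (F y) (φ y) (F y) = 1) ∧ (∀ y ∈ U, ‖φ y‖ ≤ C' * (‖F y‖ + ‖F y‖ ^ 2)) ∧
      (∀ y ∉ U, φ y = 0) ∧
      ∀ β : TF U, Φ β = ∫ y, q (F y) (φ y) ((β : E4 → Bil) y) ∂s := by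
  classical
  obtain ⟨l, C', hC', hlm, hlb, hl⟩ := exists_functional_density s U Φ hΦ
  have hUm : MeasurableSet U := hU.measurableSet
  -- global measurable versions
  set J' : E4 → E4 →L[ℝ] E4 := U.piecewise J (fun _ => 0) with hJ'
  set F' : E4 → Bil := U.piecewise F (fun _ => 0) with hF'
  have hJ'U : ∀ y ∈ U, J' y = J y := fun y hy => piecewise_eq_of_mem _ _ _ hy
  have hF'U : ∀ y ∈ U, F' y = F y := fun y hy => piecewise_eq_of_mem _ _ _ hy
  have hF'n : ∀ y ∉ U, F' y = 0 := fun y hy => piecewise_eq_of_notMem _ _ _ hy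
  have hJ'm : Measurable J' :=
    hJs.continuousOn.measurable_piecewise continuousOn_const hUm
  have hF'm : Measurable F' :=
    hFs.continuousOn.measurable_piecewise continuousOn_const hUm
  -- integrability of `l y (β y)` for locally bounded measurable `β`
  have hint : ∀ (β h : E4 → Bil), Measurable β → ContinuousOn h U → (∀ y ∈ U, β y = h y) →
      ∀ K ⊆ U, IsCompact K → IntegrableOn (fun y => l y (β y)) K s := by
    intro β h hβ hh hβh K hKU hK
    obtain ⟨B, hB⟩ := hK.exists_bound_of_continuousOn (hh.mono hKU)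
    refine Measure.integrableOn_of_bounded (M := C' * B) (measure_ne_top s K)
      (hlm β hβ).aestronglyMeasurable ?_
    filter_upwards [ae_restrict_mem hK.measurableSet] with y hy
    refine (ContinuousLinearMap.le_opNorm _ _).trans ?_
    rw [hβh y (hKU hy)]
    exact mul_le_mul (hlb y) (hB y hy) (norm_nonneg _) hC'
  -- (1) anti-invariant forms
  have h1 : ∀ i j : Fin 4, ∀ᵐ y ∂s, y ∈ U → l y (antip (J' y) (EE i j)) = 0 := by
    intro i j
    have hcd : ContDiffOn ℝ ∞ (fun y => antip (J y) (EE i j)) U :=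
      (contDiff_antip (EE i j)).comp_contDiffOn hJs
    have hm : Measurable (fun y => antip (J' y) (EE i j)) :=
      (contDiff_antip (EE i j)).continuous.measurable.comp hJ'm
    refine ae_eq_of_smooth hU (hlm _ hm)
      (hint _ _ hm hcd.continuousOn (fun y hy => by rw [hJ'U y hy])) ?_
    intro g hg hgc hgU
    have hmem : (fun y => g y • antip (J y) (EE i j)) ∈ TF U :=
      smul_mem_TF hU hg hgc hgU hcd (fun y _ => alt_antip (EE_alt i j) _)
    have e1 : Φ ⟨_, hmem⟩ = 0 := by
      apply hanti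
      intro y hy u v
      simp only [smul_apply, antip_anti (hJ y hy), smul_eq_mul, mul_neg]
    rw [hl ⟨_, hmem⟩] at e1
    rw [← e1]
    apply integral_congr_ae
    refine Eventually.of_forall fun y => ?_
    by_cases hy : y ∈ U
    · simp only [map_smul, smul_eq_mul, hJ'U y hy]
    · have h0 : g y = 0 := by
        by_contra h0
        exact hy (hgU (subset_tsupport g h0))
      simp [h0]
  -- (2) positivity
  have h2 : ∀ ξ : E4 →L[ℝ] ℝ, ∀ᵐ y ∂s, y ∈ U → 0 ≤ l y (wed ξ (Jc (J' y) ξ)) := by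
    intro ξ
    have hcd : ContDiffOn ℝ ∞ (fun y => wed ξ (Jc (J y) ξ)) U :=
      (contDiff_wedJ ξ).comp_contDiffOn hJs
    have hm : Measurable (fun y => wed ξ (Jc (J' y) ξ)) :=
      (contDiff_wedJ ξ).continuous.measurable.comp hJ'm
    refine ae_nonneg_of_smooth hU (hlm _ hm)
      (hint _ _ hm hcd.continuousOn (fun y hy => by rw [hJ'U y hy])) ?_
    intro g hg hgc hgU hg0
    have hmem : (fun y => g y • wed ξ (Jc (J y) ξ)) ∈ TF U :=
      smul_mem_TF hU hg hgc hgU hcd (fun y _ => wed_alt _ _)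
    have e1 : 0 ≤ Φ ⟨_, hmem⟩ := by
      apply hpos
      intro y hy
      exact pos_smul (wed_Jc_pos (hJ y hy) ξ) (hg0 y)
    rw [hl ⟨_, hmem⟩] at e1
    refine e1.trans_eq ?_
    apply integral_congr_ae
    refine Eventually.of_forall fun y => ?_
    by_cases hy : y ∈ U
    · simp only [map_smul, smul_eq_mul, hJ'U y hy]
    · have h0 : g y = 0 := by
        by_contra h0
        exact hy (hgU (subset_tsupport g h0))
      simp [h0]
  -- (3) normalisation
  have h3 : ∀ᵐ y ∂s, y ∈ U → l y (F' y) - 1 = 0 := by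
    refine ae_eq_of_smooth hU ((hlm _ hF'm).sub measurable_const) ?_ ?_
    · intro K hKU hK
      exact (hint _ _ hF'm hFs.continuousOn hF'U K hKU hK).sub
        (integrableOn_const (measure_ne_top s K))
    intro g hg hgc hgU
    have hmem : (fun y => g y • F y) ∈ TF U :=
      smul_mem_TF hU hg hgc hgU hFs (fun y hy => (hF y hy).alt)
    have e1 := hmass ⟨_, hmem⟩ g hg hgc hgU (fun y => rfl)
    rw [hl ⟨_, hmem⟩] at e1
    have hgi : Integrable g s := hg.continuous.integrable_of_hasCompactSupport hgc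
    have e2 : ∫ y, g y * (l y (F' y) - 1) ∂s = ∫ y, (l y (g y • F y) - g y) ∂s := by
      apply integral_congr_ae
      refine Eventually.of_forall fun y => ?_
      by_cases hy : y ∈ U
      · simp only [map_smul, smul_eq_mul, hF'U y hy]
        ring
      · have h0 : g y = 0 := by
          by_contra h0
          exact hy (hgU (subset_tsupport g h0))
        simp [h0]
    have hmem' := mem_TF.1 hmem
    have hli : Integrable (fun y => l y (g y • F y)) s := by
      obtain ⟨B, hB⟩ := hmem'.2.1.exists_bound_of_continuous hmem'.1.continuous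
      refine Integrable.of_bound (hlm _ hmem'.1.continuous.measurable).aestronglyMeasurable
        (C' * B) (Eventually.of_forall fun y => ?_)
      exact (ContinuousLinearMap.le_opNorm _ _).trans
        (mul_le_mul (hlb y) (hB y) (norm_nonneg _) hC')
    rw [e2, integral_sub hli hgi]
    simp only at e1
    rw [e1, sub_self]
  -- the good set
  have hgood : ∀ᵐ y ∂s, y ∈ U → ((∀ b, Alt b → l y (antip (J y) b) = 0) ∧
      (∀ ξ : E4 →L[ℝ] ℝ, 0 ≤ l y (wed ξ (Jc (J y) ξ))) ∧ l y (F y) = 1) := by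
    have h1' : ∀ᵐ y ∂s, ∀ i j : Fin 4, y ∈ U → l y (antip (J' y) (EE i j)) = 0 := by
      rw [ae_all_iff]
      intro i
      rw [ae_all_iff]
      exact h1 i
    have h2' : ∀ᵐ y ∂s, ∀ n : ℕ, y ∈ U → 0 ≤ l y (wed (TopologicalSpace.denseSeq (E4 →L[ℝ] ℝ) n)
        (Jc (J' y) (TopologicalSpace.denseSeq (E4 →L[ℝ] ℝ) n))) := by
      rw [ae_all_iff]
      exact fun n => h2 _
    filter_upwards [h1', h2', h3] with y hy1 hy2 hy3 hyU
    rw [hJ'U y hyU] at hy1 hy2
    rw [hF'U y hyU] at hy3
    refine ⟨fun b hb => l_antip_eq_zero (fun i j => hy1 i j hyU) hb, ?_, by linarith [hy3 hyU]⟩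
    have hcl : IsClosed {ξ : E4 →L[ℝ] ℝ | 0 ≤ l y (wed ξ (Jc (J y) ξ))} :=
      isClosed_le continuous_const ((l y).continuous.comp (continuous_wed (J y)))
    intro ξ
    have hd := TopologicalSpace.denseRange_denseSeq (E4 →L[ℝ] ℝ)
    have hsub : closure (range (TopologicalSpace.denseSeq (E4 →L[ℝ] ℝ)))
        ⊆ {ξ : E4 →L[ℝ] ℝ | 0 ≤ l y (wed ξ (Jc (J y) ξ))} := by
      apply closure_minimal _ hcl
      rintro _ ⟨n, rfl⟩
      exact hy2 n hyU
    exact hsub (hd ξ)
  set N : Set E4 := {y | ¬ (y ∈ U → ((∀ b, Alt b → l y (antip (J y) b) = 0) ∧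
      (∀ ξ : E4 →L[ℝ] ℝ, 0 ≤ l y (wed ξ (Jc (J y) ξ))) ∧ l y (F y) = 1))} with hN
  have hN0 : s N = 0 := hgood
  set N' : Set E4 := toMeasurable s N with hN'
  have hN'0 : s N' = 0 := by rw [hN', measure_toMeasurable, hN0]
  set G : Set E4 := U \ N' with hG
  have hGm : MeasurableSet G := hUm.diff (measurableSet_toMeasurable s N)
  have hGgood : ∀ y ∈ G, (∀ b, Alt b → l y (antip (J y) b) = 0) ∧
      (∀ ξ : E4 →L[ℝ] ℝ, 0 ≤ l y (wed ξ (Jc (J y) ξ))) ∧ l y (F y) = 1 := by
    intro y hy
    have hyN : y ∉ N := fun h => hy.2 (subset_toMeasurable s N h)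
    simp only [hN, mem_ofPred_eq, not_not] at hyN
    exact hyN hy.1
  have hWne : ∀ y ∈ U, W (F y) (F y) ≠ 0 := fun y hy => spos_W_ne (hJ y hy) (hF y hy)
  refine ⟨fun y => if y ∈ G then dq (F' y) (l y) else F' y, 6 * C' * KE + 1, ?_, ?_, ?_, ?_, ?_,
    ?_, ?_⟩
  · have := KE_nonneg
    positivity
  · refine Measurable.ite hGm ?_ hF'm
    have hW : Measurable fun y => W (F' y) (F' y) := continuous_W.measurable.comp hF'm
    have hlE : ∀ i j, Measurable fun y => l y (EE i j) := fun i j =>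
      hlm (fun _ => EE i j) measurable_const
    unfold dq
    exact hW.smul ((((((((hlE 2 3).smul_const _).add ((hlE 1 3).neg.smul_const _)).add
      ((hlE 1 2).smul_const _)).add ((hlE 0 3).smul_const _)).add
      ((hlE 0 2).neg.smul_const _)).add ((hlE 0 1).smul_const _)))
  · intro y hy
    by_cases hyG : y ∈ G
    · simp only [hyG, if_true, hF'U y hy]
      obtain ⟨a1, a2, a3⟩ := hGgood y hyG
      exact dq_pos (hJ y hy) (hF y hy) (l y) a1 a2
    · simp only [hyG, if_false, hF'U y hy]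
      exact spos_pos (hF y hy)
  · intro y hy
    by_cases hyG : y ∈ G
    · simp only [hyG, if_true, hF'U y hy]
      obtain ⟨a1, a2, a3⟩ := hGgood y hyG
      rw [q_dq (hWne y hy) _ (hF y hy).alt, a3]
    · simp only [hyG, if_false, hF'U y hy]
      unfold q
      exact div_self (hWne y hy)
  · intro y hy
    have hK := KE_nonneg
    by_cases hyG : y ∈ G
    · simp only [hyG, if_true, hF'U y hy]
      refine (norm_dq_le _ _).trans ?_
      have e1 : 6 * ‖F y‖ ^ 2 * (‖l y‖ * KE) ≤ 6 * ‖F y‖ ^ 2 * (C' * KE) := by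
        apply mul_le_mul_of_nonneg_left _ (by positivity)
        exact mul_le_mul_of_nonneg_right (hlb y) hK
      have e2 : 0 ≤ ‖F y‖ := norm_nonneg _
      have e3 : 0 ≤ C' * KE := mul_nonneg hC' hK
      have e4 : 0 ≤ C' * KE * ‖F y‖ := mul_nonneg e3 e2
      nlinarith [sq_nonneg ‖F y‖]
    · simp only [hyG, if_false, hF'U y hy]
      have e2 : 0 ≤ ‖F y‖ := norm_nonneg _
      have e3 : 0 ≤ C' * KE := mul_nonneg hC' hK
      have e4 : 0 ≤ C' * KE * ‖F y‖ := mul_nonneg e3 e2
      have e5 : 0 ≤ C' * KE * ‖F y‖ ^ 2 := by positivity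
      nlinarith [sq_nonneg ‖F y‖]
  · intro y hy
    have hyG : y ∉ G := fun h => hy h.1
    simp only [hyG, if_false, hF'n y hy]
  · intro β
    rw [hl β]
    apply integral_congr_ae
    have hNae : ∀ᵐ y ∂s, y ∉ N' := measure_eq_zero_iff_ae_notMem.1 hN'0
    filter_upwards [hNae] with y hyN
    by_cases hy : y ∈ U
    · have hyG : y ∈ G := ⟨hy, hyN⟩
      simp only [hyG, if_true, hF'U y hy]
      rw [q_dq (hWne y hy) _ (β.2.2.2.2 y)]
    · have h0 : (β : E4 → Bil) y = 0 := by
        by_contra h0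
        exact hy (β.2.2.2.1 (subset_tsupport _ h0))
      rw [h0, map_zero]
      unfold q W
      simp [ent_zero]

end

end Crest.Agent.R240.Dens
end

-- ▼ part R240/DensM

/-!
Row 240 (S0371), PART D2 (helper703): the chart density of a positive functional on the smooth
two-forms of `M`.
-/

set_option autoImplicit false
set_option maxSynthPendingDepth 3

open Set Function Filter Topology MeasureTheory Metric
open scoped Manifold ContDiff Topology

namespace Crest.Agent.R240.DensM

open Crest.Agent.R240 Crest.Agent.R240.Ch Crest.Agent.R240.Dens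

noncomputable section

section Ext

variable {M : Type*} [TopologicalSpace M] [ChartedSpace E4 M] [IsManifold 𝓘(ℝ, E4) ∞ M]

theorem at2_ext2_mem {p x : M} (hx : x ∈ (chartAt E4 p).source) (β : E4 → Bil) (u v : E4) :
    at2 (ext2 p β) x u v = β (chartAt E4 p x) (tcc x p x u) (tcc x p x v) := by
  unfold at2 ext2
  rw [if_pos hx]
  rfl

theorem at2_ext2_notMem {p x : M} (hx : x ∉ (chartAt E4 p).source) (β : E4 → Bil) :
    at2 (ext2 p β) x = 0 := by
  unfold at2 ext2
  rw [if_neg hx]

theorem at2_ext2_zero {p x : M} {β : E4 → Bil} (hx : β (chartAt E4 p x) = 0) :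
    at2 (ext2 p β) x = 0 := by
  by_cases h : x ∈ (chartAt E4 p).source
  · ext u v
    rw [at2_ext2_mem h, hx]
    rfl
  · exact at2_ext2_notMem h β

theorem tcc_cancel2 {p x : M} (hx : x ∈ (chartAt E4 p).source) (v : E4) :
    tcc x p x (tcc p x x v) = v := by
  rw [tcc_comp hx (mem_chart_source _ x) hx, tcc_self hx]

theorem rep_ext2_self {p : M} {y : E4} (hy : y ∈ (chartAt E4 p).target) (β : E4 → Bil) :
    rep p (ext2 p β) y = β y := by
  ext u v
  rw [rep_apply, at2_ext2_mem (symm_mem hy), (chartAt E4 p).right_inv hy, tcc_cancel2 (symm_mem hy),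
    tcc_cancel2 (symm_mem hy)]

/-- extension by zero of a smooth form with compact support in the chart target. -/
theorem smooth2_ext2 [T2Space M] [MeasurableSpace M] [BorelSpace M] {p : M} {β : E4 → Bil} (hβ : ContDiffOn ℝ ∞ β (chartAt E4 p).target)
    (halt : ∀ y, Alt (β y)) {K : Set E4} (hK : IsCompact K) (hKt : K ⊆ (chartAt E4 p).target)
    (h0 : ∀ y ∉ K, β y = 0) : Smooth2 (ext2 p β) := by
  refine Smooth2.of_local ?_ ?_
  · intro x v
    by_cases hx : x ∈ (chartAt E4 p).source
    · rw [at2_ext2_mem hx]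
      exact halt _ _
    · rw [at2_ext2_notMem hx]
      rfl
  · intro x
    by_cases hx : x ∈ (chartAt E4 p).source
    · refine ⟨p, hx, ?_⟩
      have hy := (chartAt E4 p).map_source hx
      have h1 : ContDiffAt ℝ ∞ β (chartAt E4 p x) :=
        hβ.contDiffAt ((chartAt E4 p).open_target.mem_nhds hy)
      refine h1.congr_of_eventuallyEq ?_
      filter_upwards [(chartAt E4 p).open_target.mem_nhds hy] with y hy'
      exact rep_ext2_self hy' β
    · refine ⟨x, mem_chart_source E4 x, ?_⟩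
      have hcl : IsClosed ((chartAt E4 p).symm '' K) := (Vm.isCompact_core hK hKt).isClosed
      have hx' : x ∉ (chartAt E4 p).symm '' K := fun h => hx (Vm.core_subset hKt h)
      have hxt := (chartAt E4 x).map_source (mem_chart_source E4 x)
      have hcont : ContinuousAt (chartAt E4 x).symm (chartAt E4 x x) :=
        (chartAt E4 x).continuousAt_symm hxt
      have hnh : ((chartAt E4 p).symm '' K)ᶜ ∈ 𝓝 ((chartAt E4 x).symm (chartAt E4 x x)) := by
        rw [(chartAt E4 x).left_inv (mem_chart_source E4 x)]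
        exact hcl.isOpen_compl.mem_nhds hx'
      have hev : rep x (ext2 p β) =ᶠ[𝓝 (chartAt E4 x x)] fun _ => (0 : Bil) := by
        filter_upwards [hcont hnh] with y hy
        have hz : at2 (ext2 p β) ((chartAt E4 x).symm y) = 0 := by
          by_cases hs : (chartAt E4 x).symm y ∈ (chartAt E4 p).source
          · apply at2_ext2_zero
            apply h0
            intro hmem
            exact hy ((Vm.mem_core_iff hKt hs).2 hmem)
          · exact at2_ext2_notMem hs β
        ext u v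
        rw [rep_apply, hz]
        rfl
      exact contDiffAt_const.congr_of_eventuallyEq hev

theorem ext2_add (p : M) (β γ : E4 → Bil) : ext2 p (β + γ) = ext2 p β + ext2 p γ := by
  funext x
  by_cases hx : x ∈ (chartAt E4 p).source
  · have h : ∀ u v, at2 (ext2 p (β + γ)) x u v = (at2 (ext2 p β) x + at2 (ext2 p γ) x) u v := by
      intro u v
      rw [add_apply, add_apply, at2_ext2_mem hx, at2_ext2_mem hx, at2_ext2_mem hx]
      rfl
    exact ContinuousLinearMap.ext fun u => ContinuousLinearMap.ext fun v => h u v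
  · have h : at2 (ext2 p (β + γ)) x = at2 (ext2 p β) x + at2 (ext2 p γ) x := by
      rw [at2_ext2_notMem hx, at2_ext2_notMem hx, at2_ext2_notMem hx]
      ext u v
      simp
    exact h

theorem ext2_smul (p : M) (c : ℝ) (β : E4 → Bil) : ext2 p (c • β) = c • ext2 p β := by
  funext x
  by_cases hx : x ∈ (chartAt E4 p).source
  · have h : ∀ u v, at2 (ext2 p (c • β)) x u v = (c • at2 (ext2 p β) x) u v := by
      intro u v
      rw [smul_apply, smul_apply, at2_ext2_mem hx, at2_ext2_mem hx]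
      rfl
    exact ContinuousLinearMap.ext fun u => ContinuousLinearMap.ext fun v => h u v
  · have h : at2 (ext2 p (c • β)) x = c • at2 (ext2 p β) x := by
      rw [at2_ext2_notMem hx, at2_ext2_notMem hx]
      ext u v
      simp
    exact h

/-- a form vanishing off the chart core is the extension of its representation. -/
theorem eq_ext2 {p : M} {b : F2 E4 M} (h0 : ∀ x ∉ (chartAt E4 p).source, at2 b x = 0)
    {β : E4 → Bil} (hβ : ∀ y ∈ (chartAt E4 p).target, β y = rep p b y) : b = ext2 p β := by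
  funext x
  by_cases hx : x ∈ (chartAt E4 p).source
  · have h : ∀ u v, at2 b x u v = at2 (ext2 p β) x u v := by
      intro u v
      rw [at2_ext2_mem hx, hβ _ ((chartAt E4 p).map_source hx), ← apply_eq_rep hx]
    exact ContinuousLinearMap.ext fun u => ContinuousLinearMap.ext fun v => h u v
  · have h : at2 b x = at2 (ext2 p β) x := by
      rw [h0 x hx, at2_ext2_notMem hx]
    exact h

end Ext


theorem measurable_q {F b c : E4 → Bil} (hF : Measurable F) (hb : Measurable b)
    (hc : Measurable c) : Measurable fun y => q (F y) (b y) (c y) := by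
  have he : ∀ {a : E4 → Bil}, Measurable a → ∀ i j, Measurable fun y => ent (a y) i j :=
    fun ha i j => (continuous_ent i j).measurable.comp ha
  unfold q W
  have h1 := he hF
  have h2 := he hb
  have h3 := he hc
  fun_prop

section Tr

variable {M : Type*} [TopologicalSpace M] [ChartedSpace E4 M] [IsManifold 𝓘(ℝ, E4) ∞ M]

/-- transfer of `Pos` from the chart to `M`. -/
theorem pos_ext2 {p : M} {J : EndF E4 M} {β : E4 → Bil}
    (h : ∀ y ∈ (chartAt E4 p).target, Pos (repJ p J y) (β y)) : PosG J (ext2 p β) := by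
  intro x
  by_cases hx : x ∈ (chartAt E4 p).source
  · have hy := h _ ((chartAt E4 p).map_source hx)
    refine ⟨fun v => ?_, fun u v => ?_, fun v => ?_⟩
    · rw [at2_ext2_mem hx]
      exact hy.alt _
    · rw [at2_ext2_mem hx, at2_ext2_mem hx, apply_eq_repJ hx, apply_eq_repJ hx]
      exact hy.inv _ _
    · rw [at2_ext2_mem hx, apply_eq_repJ hx]
      exact hy.nonneg _
  · rw [at2_ext2_notMem hx]
    refine ⟨fun v => rfl, fun u v => rfl, fun v => le_rfl⟩

theorem repJ_sq {J : EndF E4 M} (hsq : ∀ x v, atJ J x (atJ J x v) = -v) {p : M} {y : E4}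
    (hy : y ∈ (chartAt E4 p).target) (v : E4) : repJ p J y (repJ p J y v) = -v := by
  rw [repJ_apply, repJ_apply, tcc_cancel' (symm_mem hy), hsq, map_neg,
    tcc_cancel2 (symm_mem hy)]

theorem spos_rep {J : EndF E4 M} {F : F2 E4 M} (hFp : ∀ x, SPos (atJ J x) (at2 F x)) {p : M}
    {y : E4} (hy : y ∈ (chartAt E4 p).target) : SPos (repJ p J y) (rep p F y) := by
  have h := hFp ((chartAt E4 p).symm y)
  refine ⟨fun v => ?_, fun u v => ?_, fun v hv => ?_⟩
  · rw [rep_apply]
    exact h.alt _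
  · rw [rep_apply, rep_apply, repJ_apply, repJ_apply, tcc_cancel' (symm_mem hy),
      tcc_cancel' (symm_mem hy)]
    exact h.inv _ _
  · rw [rep_apply, repJ_apply, tcc_cancel' (symm_mem hy)]
    apply h.pos
    intro h0
    apply hv
    have := congrArg (tcc ((chartAt E4 p).symm y) p ((chartAt E4 p).symm y)) h0
    rwa [tcc_cancel2 (symm_mem hy), map_zero] at this

theorem bp_ext2 {p : M} {J : EndF E4 M} {β : E4 → Bil} :
    bp J (ext2 p β) = ext2 p (fun y => invp (repJ p J y) (β y)) := by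
  apply eq_ext2
  · intro x hx
    have h : at2 (bp J (ext2 p β)) x = invp (atJ J x) (at2 (ext2 p β) x) := rfl
    rw [h, at2_ext2_notMem hx]
    ext u v
    rw [invp_apply]
    simp
  · intro y hy
    rw [rep_bp hy, rep_ext2_self hy]

theorem ext2_zero' {p : M} {β : E4 → Bil} (h : ∀ y ∈ (chartAt E4 p).target, β y = 0) :
    ext2 p β = 0 := by
  funext x
  by_cases hx : x ∈ (chartAt E4 p).source
  · exact at2_ext2_zero (h _ ((chartAt E4 p).map_source hx))
  · exact at2_ext2_notMem hx β

end Tr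

section Main

variable {M : Type*} [TopologicalSpace M] [T2Space M] [ChartedSpace E4 M]
  [IsManifold 𝓘(ℝ, E4) ∞ M] [MeasurableSpace M] [BorelSpace M]

/-- extension by zero of a function. -/
theorem contMDiff_extF {p : M} {g : E4 → ℝ} (hg : ContDiff ℝ ∞ g) {K : Set E4} (hK : IsCompact K)
    (hKt : K ⊆ (chartAt E4 p).target) (h0 : ∀ y ∉ K, g y = 0) :
    ContMDiff 𝓘(ℝ, E4) 𝓘(ℝ, ℝ) ∞ (extF (E := E4) p g) := by
  intro x
  by_cases hx : x ∈ (chartAt E4 p).source
  · have h1 : ContMDiffAt 𝓘(ℝ, E4) 𝓘(ℝ, ℝ) ∞ (g ∘ chartAt E4 p) x :=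
      hg.contMDiff.contMDiffAt.comp x
        (contMDiffAt_of_mem_maximalAtlas (IsManifold.chart_mem_maximalAtlas p) hx)
    refine h1.congr_of_eventuallyEq ?_
    filter_upwards [(chartAt E4 p).open_source.mem_nhds hx] with z hz
    unfold extF
    rw [if_pos hz]
    rfl
  · have hcl : IsClosed ((chartAt E4 p).symm '' K) := (Vm.isCompact_core hK hKt).isClosed
    have hx' : x ∉ (chartAt E4 p).symm '' K := fun h => hx (Vm.core_subset hKt h)
    have hev : extF (E := E4) p g =ᶠ[𝓝 x] fun _ => (0 : ℝ) := by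
      filter_upwards [hcl.isOpen_compl.mem_nhds hx'] with z hz
      unfold extF
      split_ifs with hs
      · apply h0
        intro hmem
        exact hz ((Vm.mem_core_iff hKt hs).2 hmem)
      · rfl
    exact contMDiffAt_const.congr_of_eventuallyEq hev

/-- **The chart density of a positive current on `M`.** -/
theorem exists_density_M {J : EndF E4 M} (hJ : SmoothJ J) (hsq : ∀ x v, atJ J x (atJ J x v) = -v)
    {F : F2 E4 M} (hF : Smooth2 F) (hFp : ∀ x, SPos (atJ J x) (at2 F x))
    (Φ : X2 M →ₗ[ℝ] ℝ) (hinv : ∀ b, Φ b = Φ (invM J hJ b)) (hpos : ∀ P ∈ PosM J, 0 ≤ Φ P)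
    (s : Measure M) [IsFiniteMeasure s]
    (hmass : ∀ f : Vm.SF M, Φ (Vm.mulX M f ⟨F, hF⟩) = ∫ x, f x ∂s)
    (N : X2 M → M → ℝ) (hN0 : ∀ b x, 0 ≤ N b x) (hNz : ∀ b x, at2 b.1 x = 0 → N b x = 0)
    (hNle : ∀ (p : M) (K : Set E4), IsCompact K → K ⊆ (chartAt E4 p).target →
      ∃ C : ℝ, ∀ b : X2 M, ∀ y ∈ K, N b ((chartAt E4 p).symm y) ≤ C * ‖rep p b.1 y‖)
    (hdom : ∀ b, |Φ b| ≤ ∫ x, N b x ∂s)
    (p : M) {K : Set E4} (hK : IsCompact K) (hKt : K ⊆ (chartAt E4 p).target) :
    ∃ φ : E4 → Bil, ∃ C' : ℝ, Measurable φ ∧ (∀ y, ‖φ y‖ ≤ C') ∧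
      (∀ y ∈ K, Pos (repJ p J y) (φ y)) ∧
      (∀ y ∈ K, q (rep p F y) (φ y) (rep p F y) = 1) ∧
      ∀ b : X2 M, (∀ x ∉ (chartAt E4 p).symm '' K, at2 b.1 x = 0) →
        Φ b = ∫ y, q (rep p F y) (φ y) (rep p b.1 y) ∂(Vm.smap s (chartAt E4 p) K) := by
  classical
  have htop : IsOpen (chartAt E4 p).target := (chartAt E4 p).open_target
  obtain ⟨δ, δpos, hδt⟩ : ∃ δ, 0 < δ ∧ cthickening δ K ⊆ (chartAt E4 p).target :=
    hK.exists_cthickening_subset_open htop hKt
  set V : Set E4 := thickening δ K with hVdef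
  set K1 : Set E4 := cthickening δ K with hK1def
  have hVo : IsOpen V := isOpen_thickening
  have hK1 : IsCompact K1 := hK.cthickening
  have hKV : K ⊆ V := self_subset_thickening δpos K
  have hVK1 : V ⊆ K1 := thickening_subset_cthickening δ K
  have hVt : V ⊆ (chartAt E4 p).target := hVK1.trans hδt
  have hKK1 : K ⊆ K1 := hKV.trans hVK1
  -- the functional in the chart
  have hTF0 : ∀ β : TF V, ∀ y ∉ K1, (β : E4 → Bil) y = 0 := by
    intro β y hy
    by_contra h
    exact hy (hVK1 (β.2.2.2.1 (subset_tsupport _ h)))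
  have hsm : ∀ β : TF V, Smooth2 (ext2 p (β : E4 → Bil)) := fun β =>
    smooth2_ext2 β.2.1.contDiffOn β.2.2.2.2 hK1 hδt (hTF0 β)
  let Ψ : TF V →ₗ[ℝ] ℝ :=
    { toFun := fun β => Φ ⟨ext2 p (β : E4 → Bil), hsm β⟩
      map_add' := by
        intro β γ
        rw [← map_add]
        congr 1
        apply Subtype.ext
        exact ext2_add p _ _
      map_smul' := by
        intro c β
        rw [RingHom.id_apply, ← map_smul]
        congr 1
        apply Subtype.ext
        exact ext2_smul p c _ }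
  have hΨ : ∀ β : TF V, Ψ β = Φ ⟨ext2 p (β : E4 → Bil), hsm β⟩ := fun β => rfl
  obtain ⟨C1, hC1⟩ := hNle p K1 hK1 hδt
  set sV : Measure E4 := Vm.smap s (chartAt E4 p) K1 with hsV
  have hcore1 : MeasurableSet ((chartAt E4 p).symm '' K1) := Vm.measurableSet_core hK1 hδt
  -- domination
  have hΦdom : ∀ β : TF V, |Ψ β| ≤ |C1| * ∫ y, ‖(β : E4 → Bil) y‖ ∂sV := by
    intro β
    rw [hΨ]
    refine (hdom _).trans ?_
    have hcont : Continuous fun y => ‖(β : E4 → Bil) y‖ := β.2.1.continuous.norm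
    have hi : Integrable (fun y => ‖(β : E4 → Bil) y‖) sV :=
      hcont.integrable_of_hasCompactSupport β.2.2.1.norm
    have hi2 : Integrable (fun x => ‖(β : E4 → Bil) (chartAt E4 p x)‖)
        (s.restrict ((chartAt E4 p).symm '' K1)) := by
      have := (integrable_map_measure hi.aestronglyMeasurable
        (Vm.aemeasurable_chart (s := s) hK1 hδt)).1 hi
      exact this
    have hi3 : Integrable (((chartAt E4 p).symm '' K1).indicator
        (fun x => |C1| * ‖(β : E4 → Bil) (chartAt E4 p x)‖)) s := by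
      rw [integrable_indicator_iff hcore1]
      exact hi2.const_mul _
    have h1 : ∫ x, N ⟨ext2 p (β : E4 → Bil), hsm β⟩ x ∂s ≤
        ∫ x, ((chartAt E4 p).symm '' K1).indicator
          (fun x => |C1| * ‖(β : E4 → Bil) (chartAt E4 p x)‖) x ∂s := by
      apply integral_mono_of_nonneg (Eventually.of_forall fun x => hN0 _ x) hi3
      refine Eventually.of_forall fun x => ?_
      by_cases hx : x ∈ (chartAt E4 p).symm '' K1
      · simp only [indicator_of_mem hx]
        obtain ⟨y, hy, rfl⟩ := hx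
        have h2 := hC1 ⟨ext2 p (β : E4 → Bil), hsm β⟩ y hy
        simp only [rep_ext2_self (hδt hy)] at h2
        rw [(chartAt E4 p).right_inv (hδt hy)]
        exact h2.trans (mul_le_mul_of_nonneg_right (le_abs_self _) (norm_nonneg _))
      · simp only [indicator_of_notMem hx]
        apply le_of_eq
        apply hNz
        by_cases hs : x ∈ (chartAt E4 p).source
        · apply at2_ext2_zero
          apply hTF0
          intro hmem
          exact hx ((Vm.mem_core_iff hδt hs).2 hmem)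
        · exact at2_ext2_notMem hs _
    refine h1.trans (le_of_eq ?_)
    rw [integral_indicator hcore1, integral_const_mul, hsV,
      Vm.integral_smap hK1 hδt hcont.aestronglyMeasurable]
  -- anti-invariant forms
  have hanti : ∀ β : TF V, (∀ y ∈ V, ∀ u v, (β : E4 → Bil) y (repJ p J y u) (repJ p J y v)
      = -(β : E4 → Bil) y u v) → Ψ β = 0 := by
    intro β hβ
    rw [hΨ, hinv]
    have h0 : invM J hJ ⟨ext2 p (β : E4 → Bil), hsm β⟩ = 0 := by
      apply Subtype.ext
      rw [invM_coe]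
      change bp J (ext2 p (β : E4 → Bil)) = 0
      rw [bp_ext2]
      apply ext2_zero'
      intro y _
      ext u v
      rw [invp_apply]
      by_cases hy : y ∈ V
      · rw [hβ y hy]
        simp
      · have : (β : E4 → Bil) y = 0 := by
          by_contra h
          exact hy (β.2.2.2.1 (subset_tsupport _ h))
        rw [this]
        simp
    rw [h0, map_zero]
  -- positivity
  have hposV : ∀ β : TF V, (∀ y ∈ V, Pos (repJ p J y) ((β : E4 → Bil) y)) → 0 ≤ Ψ β := by
    intro β hβ
    rw [hΨ]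
    apply hpos
    apply pos_ext2
    intro y _
    by_cases hy : y ∈ V
    · exact hβ y hy
    · have : (β : E4 → Bil) y = 0 := by
        by_contra h
        exact hy (β.2.2.2.1 (subset_tsupport _ h))
      rw [this]
      exact ⟨fun v => rfl, fun u v => rfl, fun v => le_rfl⟩
  -- mass
  have hmassV : ∀ (β : TF V) (g : E4 → ℝ), ContDiff ℝ ∞ g → HasCompactSupport g →
      tsupport g ⊆ V → (∀ y, (β : E4 → Bil) y = g y • rep p F y) → Ψ β = ∫ y, g y ∂sV := by
    intro β g hg hgc hgV hβ
    have hg0 : ∀ y ∉ K1, g y = 0 := by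
      intro y hy
      by_contra h
      exact hy (hVK1 (hgV (subset_tsupport _ h)))
    have hf := contMDiff_extF (p := p) hg hK1 hδt hg0
    have h1 : (⟨ext2 p (β : E4 → Bil), hsm β⟩ : X2 M)
        = Vm.mulX M ⟨extF (E := E4) p g, hf⟩ ⟨F, hF⟩ := by
      apply Subtype.ext
      change ext2 p (β : E4 → Bil) = fmul (extF (E := E4) p g) F
      funext x
      by_cases hx : x ∈ (chartAt E4 p).source
      · have h : ∀ u v, at2 (ext2 p (β : E4 → Bil)) x u v
            = at2 (fmul (extF (E := E4) p g) F) x u v := by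
          intro u v
          have e1 : at2 (fmul (extF (E := E4) p g) F) x u v
              = extF (E := E4) p g x * at2 F x u v := rfl
          have e2 : extF (E := E4) p g x = g (chartAt E4 p x) := by
            unfold extF; rw [if_pos hx]
          rw [at2_ext2_mem hx, hβ, e1, e2, apply_eq_rep hx]
          rfl
        exact ContinuousLinearMap.ext fun u => ContinuousLinearMap.ext fun v => h u v
      · have h : at2 (ext2 p (β : E4 → Bil)) x = at2 (fmul (extF (E := E4) p g) F) x := by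
          have e1 : at2 (fmul (extF (E := E4) p g) F) x = extF (E := E4) p g x • at2 F x := rfl
          have e2 : extF (E := E4) p g x = 0 := by
            unfold extF; rw [if_neg hx]
          rw [at2_ext2_notMem hx, e1, e2]
          ext u v
          simp
        exact h
    rw [hΨ, h1]
    refine (hmass ⟨extF (E := E4) p g, hf⟩).trans ?_
    rw [hsV, Vm.integral_smap hK1 hδt hg.continuous.aestronglyMeasurable]
    rw [← integral_indicator hcore1]
    apply integral_congr_ae
    refine Eventually.of_forall fun x => ?_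
    change extF (E := E4) p g x = _
    by_cases hx : x ∈ (chartAt E4 p).source
    · have e2 : extF (E := E4) p g x = g (chartAt E4 p x) := by
        unfold extF; rw [if_pos hx]
      rw [e2]
      by_cases hc : x ∈ (chartAt E4 p).symm '' K1
      · rw [indicator_of_mem hc]
      · rw [indicator_of_notMem hc]
        apply hg0
        intro hmem
        exact hc ((Vm.mem_core_iff hδt hx).2 hmem)
    · have e2 : extF (E := E4) p g x = 0 := by
        unfold extF; rw [if_neg hx]
      rw [e2, indicator_of_notMem]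
      exact fun h => hx (Vm.core_subset hδt h)
  have hJV : ∀ y ∈ V, ∀ v, repJ p J y (repJ p J y v) = -v := fun y hy v =>
    repJ_sq hsq (hVt hy) v
  have hFV : ∀ y ∈ V, SPos (repJ p J y) (rep p F y) := fun y hy => spos_rep hFp (hVt hy)
  obtain ⟨φ, C', hC', hφm, hφpos, hφF, hφb, hφ0, hφ⟩ := exists_chart_density sV hVo
    ((hJ p).mono hVt) hJV ((hF.2 p).mono hVt) hFV Ψ hΦdom hanti hposV hmassV
  obtain ⟨BF, hBF⟩ := hK1.exists_bound_of_continuousOn ((hF.2 p).continuousOn.mono hδt)
  have hBF0 : ∀ y ∈ V, ‖rep p F y‖ ≤ |BF| := fun y hy =>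
    (hBF y (hVK1 hy)).trans (le_abs_self _)
  refine ⟨φ, C' * (|BF| + |BF| ^ 2), hφm, ?_, fun y hy => hφpos y (hKV hy),
    fun y hy => hφF y (hKV hy), ?_⟩
  · intro y
    by_cases hy : y ∈ V
    · refine (hφb y hy).trans ?_
      apply mul_le_mul_of_nonneg_left _ hC'
      have h1 := hBF0 y hy
      have h2 := norm_nonneg (rep p F y)
      have h3 : ‖rep p F y‖ ^ 2 ≤ |BF| ^ 2 := by gcongr
      linarith
    · rw [hφ0 y hy, norm_zero]
      positivity
  intro b hb
  -- the representation of `b`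
  set β : E4 → Bil := (chartAt E4 p).target.indicator (rep p b.1) with hβdef
  have hβt : ∀ y ∈ (chartAt E4 p).target, β y = rep p b.1 y := fun y hy =>
    indicator_of_mem hy _
  have hβ0 : ∀ y ∉ K, β y = 0 := by
    intro y hy
    by_cases hyt : y ∈ (chartAt E4 p).target
    · rw [hβt y hyt]
      have h0 : at2 b.1 ((chartAt E4 p).symm y) = 0 := by
        apply hb
        rintro ⟨z, hz, hzy⟩
        apply hy
        have : z = y := (chartAt E4 p).symm.injOn (hKt hz) hyt hzy
        rwa [← this]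
      ext u v
      rw [rep_apply, h0]
      rfl
    · exact indicator_of_notMem hyt _
  have hβsupp : tsupport β ⊆ K := by
    apply closure_minimal _ hK.isClosed
    intro y hy
    by_contra h
    exact hy (hβ0 y h)
  have hβc : HasCompactSupport β := HasCompactSupport.of_support_subset_isCompact hK (by
    intro y hy
    by_contra h
    exact hy (hβ0 y h))
  have hβs : ContDiff ℝ ∞ β := by
    rw [contDiff_iff_contDiffAt]
    intro y
    by_cases hyt : y ∈ (chartAt E4 p).target
    · refine (((b.2 : Smooth2 b.1).2 p).contDiffAt (htop.mem_nhds hyt)).congr_of_eventuallyEq ?_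
      filter_upwards [htop.mem_nhds hyt] with z hz
      exact hβt z hz
    · have hyK : y ∉ K := fun h => hyt (hKt h)
      have hev : β =ᶠ[𝓝 y] fun _ => (0 : Bil) := by
        filter_upwards [hK.isClosed.isOpen_compl.mem_nhds hyK] with z hz
        exact hβ0 z hz
      exact contDiffAt_const.congr_of_eventuallyEq hev
  have hβa : ∀ y, Alt (β y) := by
    intro y
    by_cases hyt : y ∈ (chartAt E4 p).target
    · rw [hβt y hyt]
      intro v
      rw [rep_apply]
      exact (b.2 : Smooth2 b.1).1 _ _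
    · have : β y = 0 := indicator_of_notMem hyt _
      rw [this]
      exact alt_zero
  have hβTF : β ∈ TF V := ⟨hβs, hβc, hβsupp.trans hKV, hβa⟩
  have hbext : b.1 = ext2 p β := by
    apply eq_ext2
    · intro x hx
      apply hb
      exact fun h => hx (Vm.core_subset hKt h)
    · exact hβt
  have hΦb : Φ b = Ψ ⟨β, hβTF⟩ := by
    rw [hΨ]
    congr 1
    apply Subtype.ext
    exact hbext
  rw [hΦb, hφ ⟨β, hβTF⟩]
  -- measurability of the integrand
  set F'' : E4 → Bil := (chartAt E4 p).target.indicator (rep p F) with hF''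
  have hF''m : Measurable F'' := by
    have h1 : F'' = (chartAt E4 p).target.piecewise (rep p F) (fun _ => 0) := by
      funext y
      by_cases hyt : y ∈ (chartAt E4 p).target
      · rw [hF'', indicator_of_mem hyt, piecewise_eq_of_mem _ _ _ hyt]
      · rw [hF'', indicator_of_notMem hyt, piecewise_eq_of_notMem _ _ _ hyt]
    rw [h1]
    exact (hF.2 p).continuousOn.measurable_piecewise continuousOn_const htop.measurableSet
  have hGm : Measurable fun y => q (F'' y) (φ y) (β y) :=
    measurable_q hF''m hφm hβs.continuous.measurable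
  have hq0 : ∀ A B : Bil, q A B 0 = 0 := by
    intro A B
    unfold q W
    simp [ent_zero]
  have hG1 : ∀ y, q (rep p F y) (φ y) (β y) = q (F'' y) (φ y) (β y) := by
    intro y
    by_cases hyt : y ∈ (chartAt E4 p).target
    · rw [hF'', indicator_of_mem hyt]
    · have : β y = 0 := indicator_of_notMem hyt _
      rw [this, hq0, hq0]
  have e1 : ∫ y, q (rep p F y) (φ y) (((⟨β, hβTF⟩ : TF V) : E4 → Bil) y) ∂sV
      = ∫ x in (chartAt E4 p).symm '' K1, q (F'' (chartAt E4 p x)) (φ (chartAt E4 p x))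
        (β (chartAt E4 p x)) ∂s := by
    have : (fun y => q (rep p F y) (φ y) (((⟨β, hβTF⟩ : TF V) : E4 → Bil) y))
        = fun y => q (F'' y) (φ y) (β y) := by
      funext y
      exact hG1 y
    rw [this, hsV, Vm.integral_smap hK1 hδt hGm.aestronglyMeasurable]
  have e2 : ∫ y, q (rep p F y) (φ y) (rep p b.1 y) ∂(Vm.smap s (chartAt E4 p) K)
      = ∫ x in (chartAt E4 p).symm '' K, q (F'' (chartAt E4 p x)) (φ (chartAt E4 p x))
        (β (chartAt E4 p x)) ∂s := by
    have : ∫ y, q (rep p F y) (φ y) (rep p b.1 y) ∂(Vm.smap s (chartAt E4 p) K)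
        = ∫ y, q (F'' y) (φ y) (β y) ∂(Vm.smap s (chartAt E4 p) K) := by
      apply integral_congr_ae
      filter_upwards [Vm.ae_mem_smap (s := s) hK hKt] with y hy
      rw [← hG1 y, hβt y (hKt hy)]
    rw [this, Vm.integral_smap hK hKt hGm.aestronglyMeasurable]
  rw [e1, e2]
  apply setIntegral_eq_of_subset_of_forall_sdiff_eq_zero hcore1 (image_mono hKK1)
  rintro x ⟨hx1, hx2⟩
  have hxs := Vm.core_subset hδt hx1
  have : β (chartAt E4 p x) = 0 := by
    apply hβ0
    intro hmem
    exact hx2 ((Vm.mem_core_iff hKt hxs).2 hmem)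
  rw [this, hq0]

end Main

end

end Crest.Agent.R240.DensM
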