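import Mathlib
import Crest.Agent.R240.TopDefs
import Crest.Agent.R240.Sm2
import Crest.Agent.R240.SmAvg
import Crest.Agent.R240.Sm3
import Crest.Agent.R240.DensM
import Crest.Agent.R240.Cmp
import Crest.Agent.R240.IntTop
import Crest.Agent.R240.Iface

-- ▼ part R240/SmOne
section

/-!
# Row 240, block R (smoothing): one-forms (helper461)

The pull-back `pull1 G p z s` of one-forms by the diffeomorphisms `psi G p z`, its joint
smoothness, and the naturality of the exterior derivative: the pull-back of an exact two-form is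
exact.
-/

set_option autoImplicit false
set_option maxSynthPendingDepth 3
set_option linter.unusedSectionVars false

open Set Function Filter Metric Bundle
open scoped Manifold ContDiff Topology

namespace Crest.Agent.R240.Sm

open Crest.Agent.R240.Ch

noncomputable section

section Local

variable {E : Type*} [NormedAddCommGroup E] [NormedSpace ℝ E]

/-- naturality of the exterior derivative of one-forms on a normed space. -/
lemma d1_comp {σ : E → E →L[ℝ] ℝ} {f : E → E} {y : E}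
    (hσ : DifferentiableAt ℝ σ (f y)) (hf : ContDiffAt ℝ 2 f y) :
    d1 (fun y => (σ (f y)).comp (fderiv ℝ f y)) y = pb (d1 σ (f y)) (fderiv ℝ f y) := by
  have hf1 : DifferentiableAt ℝ f y := hf.differentiableAt (by norm_num)
  have hf2 : DifferentiableAt ℝ (fderiv ℝ f) y :=
    (hf.fderiv_right (m := 1) (by norm_num)).differentiableAt (by norm_num)
  have hs : IsSymmSndFDerivAt ℝ f y := by
    refine ContDiffAt.isSymmSndFDerivAt hf ?_
    simp
  have h1 : DifferentiableAt ℝ (fun y => σ (f y)) y := hσ.comp y hf1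
  have hfd : ∀ u, fderiv ℝ (fun y => σ (f y)) y u = fderiv ℝ σ (f y) (fderiv ℝ f y u) := by
    intro u
    have := fderiv_comp y hσ hf1
    have h2 : (σ ∘ f) = fun y => σ (f y) := rfl
    rw [← h2, this]
    rfl
  have key : ∀ u v, fderiv ℝ (fun y => (σ (f y)).comp (fderiv ℝ f y)) y u v =
      fderiv ℝ σ (f y) (fderiv ℝ f y u) (fderiv ℝ f y v)
        + σ (f y) (fderiv ℝ (fderiv ℝ f) y u v) := by
    intro u v
    have h3 := fderiv_clm_comp h1 hf2
    rw [h3]
    simp only [add_apply, ContinuousLinearMap.comp_apply, ContinuousLinearMap.compL_apply,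
      ContinuousLinearMap.flip_apply, hfd]
    ring
  ext u v
  rw [d1_apply, key, key, pb_apply, d1_apply, hs.eq u v]
  ring

lemma d1_congr {σ τ : E → E →L[ℝ] ℝ} {y : E} (h : σ =ᶠ[𝓝 y] τ) : d1 σ y = d1 τ y := by
  rw [d1, d1, h.fderiv_eq]

end Local

section Defs

variable {E : Type*} [NormedAddCommGroup E] [NormedSpace ℝ E]
variable {M : Type*} [TopologicalSpace M] [ChartedSpace E M] [IsManifold 𝓘(ℝ, E) ∞ M]
variable (G : Fam E) (p : M)

open Classical in
/-- the pull-back of a one-form by `psi G p z`. -/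
def pull1 (z : E) (s : F1 E M) : F1 E M := fun x =>
  (if x ∈ (chartAt E p).source then
    (rep1 p s (G.g z (chartAt E p x))).comp ((G.dg z (chartAt E p x)).comp (tcc x p x))
   else at1 s x : E →L[ℝ] ℝ)

end Defs

section Basic

variable {E : Type*} [NormedAddCommGroup E] [NormedSpace ℝ E]
variable {M : Type*} [TopologicalSpace M] [ChartedSpace E M] [IsManifold 𝓘(ℝ, E) ∞ M]
variable {G : Fam E} {p : M}

lemma at1_pull1_of_mem {x : M} (hx : x ∈ (chartAt E p).source) (z : E) (s : F1 E M) :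
    at1 (pull1 G p z s) x =
      (rep1 p s (G.g z (chartAt E p x))).comp ((G.dg z (chartAt E p x)).comp (tcc x p x)) :=
  if_pos hx

lemma at1_pull1_of_notMem {x : M} (hx : x ∉ (chartAt E p).source) (z : E) (s : F1 E M) :
    at1 (pull1 G p z s) x = at1 s x := if_neg hx

lemma rep1_eq_comp (q : M) (s : F1 E M) (y : E) :
    rep1 q s y = (at1 s ((chartAt E q).symm y)).comp
      (tcc q ((chartAt E q).symm y) ((chartAt E q).symm y)) := rfl

lemma at1_eq_comp {q x : M} (hx : x ∈ (chartAt E q).source) (s : F1 E M) :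
    at1 s x = (rep1 q s (chartAt E q x)).comp (tcc x q x) := by
  ext u
  exact apply_eq_rep1 hx s u

/-- **the pull-back in the chart at `p`.** -/
lemma rep1_pull1 {y : E} (hy : y ∈ (chartAt E p).target) (z : E) (s : F1 E M) :
    rep1 p (pull1 G p z s) y = (rep1 p s (G.g z y)).comp (G.dg z y) := by
  rw [rep1_eq_comp, at1_pull1_of_mem (symm_mem hy), (chartAt E p).right_inv hy]
  ext u
  simp only [ContinuousLinearMap.comp_apply]
  rw [tcc_cancel (symm_mem hy)]

/-- off the compact set the pull-back does not change anything. -/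
lemma pull1_off {z : E} (hz : z ∈ ball (0 : E) G.r) {x : M} (hx : x ∉ KM G p) (s : F1 E M) :
    at1 (pull1 G p z s) x = at1 s x := by
  by_cases h : x ∈ (chartAt E p).source
  · have h1 := notMem_K_of h hx
    rw [at1_pull1_of_mem h, G.id_off z hz _ h1, G.dg_id_off hz h1, at1_eq_comp h s]
    rfl
  · exact at1_pull1_of_notMem h z s

/-- change of chart for representations. -/
lemma rep1_change {q p : M} {y : E} (hy : y ∈ (chartAt E q).target)
    (hp : (chartAt E q).symm y ∈ (chartAt E p).source) (s : F1 E M) :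
    rep1 q s y = (rep1 p s (Ch.trans (E := E) q p y)).comp
      (fderiv ℝ (Ch.trans (E := E) q p) y) := by
  ext u
  have h1 := rep1_trans (symm_mem hy) hp s u
  rw [(chartAt E q).right_inv hy, tcc_eq_fderiv_trans, (chartAt E q).right_inv hy] at h1
  exact h1

end Basic

section Smooth

variable {E : Type*} [NormedAddCommGroup E] [NormedSpace ℝ E]
variable {M : Type*} [TopologicalSpace M] [ChartedSpace E M] [IsManifold 𝓘(ℝ, E) ∞ M]
variable {G : Fam E} {p : M}
variable {Z : Type*} [NormedAddCommGroup Z] [NormedSpace ℝ Z]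

omit [NormedSpace ℝ E] [IsManifold 𝓘(ℝ, E) ∞ M] in
lemma eventually_overlap {q p : M} {y : E} (hy : y ∈ (chartAt E q).target)
    (hp : (chartAt E q).symm y ∈ (chartAt E p).source) :
    ∀ᶠ y' in 𝓝 y, y' ∈ (chartAt E q).target ∧ (chartAt E q).symm y' ∈ (chartAt E p).source := by
  have ho : IsOpen ((chartAt E q).target ∩ (chartAt E q).symm ⁻¹' (chartAt E p).source) :=
    (chartAt E q).isOpen_inter_preimage_symm (chartAt E p).open_source
  filter_upwards [ho.mem_nhds ⟨hy, hp⟩] with y' hy' using hy'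

/-- joint smoothness at a point of a family of one-forms does not depend on the chart. -/
lemma jsmooth1_change {β : Z → F1 E M} {q p x : M} (hq : x ∈ (chartAt E q).source)
    (hp : x ∈ (chartAt E p).source) {z : Z}
    (h : ContDiffAt ℝ ∞ (fun w : Z × E => rep1 p (β w.1) w.2) (z, chartAt E p x)) :
    ContDiffAt ℝ ∞ (fun w : Z × E => rep1 q (β w.1) w.2) (z, chartAt E q x) := by
  have hy : chartAt E q x ∈ (chartAt E q).target := (chartAt E q).map_source hq
  have hpx : (chartAt E q).symm (chartAt E q x) ∈ (chartAt E p).source := by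
    rw [(chartAt E q).left_inv hq]; exact hp
  have ht := trans_contDiffAt hy hpx
  have ht' : ContDiffAt ℝ ∞ (fderiv ℝ (Ch.trans (E := E) q p)) (chartAt E q x) :=
    ht.fderiv_right (by simp)
  have htx : Ch.trans (E := E) q p (chartAt E q x) = chartAt E p x := trans_apply hq
  have h1 : ContDiffAt ℝ ∞ (fun w : Z × E => rep1 p (β w.1) (Ch.trans (E := E) q p w.2))
      (z, chartAt E q x) := by
    have h2 : ContDiffAt ℝ ∞ (fun w : Z × E => (w.1, Ch.trans (E := E) q p w.2))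
        (z, chartAt E q x) :=
      contDiffAt_fst.prodMk (ContDiffAt.comp (z, chartAt E q x) (g := Ch.trans (E := E) q p)
        (f := fun w : Z × E => w.2) ht contDiffAt_snd)
    have h3 : ContDiffAt ℝ ∞ (fun w : Z × E => rep1 p (β w.1) w.2)
        ((fun w : Z × E => (w.1, Ch.trans (E := E) q p w.2)) (z, chartAt E q x)) := by
      simp only [htx]; exact h
    exact ContDiffAt.comp (z, chartAt E q x) (g := fun w : Z × E => rep1 p (β w.1) w.2)
      (f := fun w : Z × E => (w.1, Ch.trans (E := E) q p w.2)) h3 h2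
  have h4 : ContDiffAt ℝ ∞ (fun w : Z × E => fderiv ℝ (Ch.trans (E := E) q p) w.2)
      (z, chartAt E q x) :=
    ContDiffAt.comp (z, chartAt E q x) (g := fderiv ℝ (Ch.trans (E := E) q p))
      (f := fun w : Z × E => w.2) ht' contDiffAt_snd
  have h5 := h1.clm_comp h4
  refine h5.congr_of_eventuallyEq ?_
  have hev2 : ∀ᶠ w : Z × E in 𝓝 (z, chartAt E q x), w.2 ∈ (chartAt E q).target ∧
      (chartAt E q).symm w.2 ∈ (chartAt E p).source :=
    (continuous_snd.tendsto (z, chartAt E q x)).eventually (eventually_overlap hy hpx)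
  filter_upwards [hev2] with w hw
  exact rep1_change hw.1 hw.2 (β w.1)

/-- **joint smoothness of the pull-back of one-forms** in all charts. -/
theorem contDiffOn_rep1_pull1 [T2Space M] (hG : G.K ⊆ (chartAt E p).target) {s : F1 E M}
    (hs : Smooth1 s) (q : M) :
    ContDiffOn ℝ ∞ (fun w : E × E => rep1 q (pull1 G p w.1 s) w.2)
      (ball 0 G.r ×ˢ (chartAt E q).target) := by
  rintro ⟨z, y⟩ ⟨hz, hy⟩
  apply ContDiffAt.contDiffWithinAt
  have hbz : ball (0 : E) G.r ∈ 𝓝 z := isOpen_ball.mem_nhds hz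
  by_cases hx : (chartAt E q).symm y ∈ (chartAt E p).source
  · have h := jsmooth1_change (β := fun z => pull1 G p z s) (symm_mem hy) hx (z := z) ?_
    · rwa [(chartAt E q).right_inv hy] at h
    set t := chartAt E p ((chartAt E q).symm y) with ht
    have htt : t ∈ (chartAt E p).target := (chartAt E p).map_source hx
    have hgt : G.g z t ∈ (chartAt E p).target := G.mem_of_mem hz hG htt
    have hmem : (z, t) ∈ (ball (0 : E) G.r ×ˢ (univ : Set E)) := ⟨hz, mem_univ _⟩
    have ho : (ball (0 : E) G.r ×ˢ (univ : Set E)) ∈ 𝓝 (z, t) :=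
      (isOpen_ball.prod isOpen_univ).mem_nhds hmem
    have h1 : ContDiffAt ℝ ∞ (fun w : E × E => G.g w.1 w.2) (z, t) :=
      (G.smooth (z, t) hmem).contDiffAt ho
    have h2 : ContDiffAt ℝ ∞ (fun w : E × E => G.dg w.1 w.2) (z, t) :=
      (G.contDiffOn_dg (z, t) hmem).contDiffAt ho
    have h3 : ContDiffAt ℝ ∞ (rep1 p s) (G.g z t) := contDiffOn_chart_iff.1 (hs p) _ hgt
    have h4 : ContDiffAt ℝ ∞ (fun w : E × E => rep1 p s (G.g w.1 w.2)) (z, t) :=
      ContDiffAt.comp (z, t) (g := rep1 p s) (f := fun w : E × E => G.g w.1 w.2) h3 h1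
    have h5 := h4.clm_comp h2
    refine h5.congr_of_eventuallyEq ?_
    have h6 : ∀ᶠ w : E × E in 𝓝 (z, t), w.2 ∈ (chartAt E p).target :=
      (continuous_snd.tendsto (z, t)).eventually ((chartAt E p).open_target.mem_nhds htt)
    filter_upwards [h6] with w hw
    exact rep1_pull1 hw w.1 s
  · have hx' : (chartAt E q).symm y ∉ KM G p := fun h => hx (KM_subset hG h)
    have h1 : ContDiffAt ℝ ∞ (fun w : E × E => rep1 q s w.2) (z, y) :=
      ContDiffAt.comp (z, y) (g := rep1 q s) (f := fun w : E × E => w.2)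
        (contDiffOn_chart_iff.1 (hs q) y hy) contDiffAt_snd
    refine h1.congr_of_eventuallyEq ?_
    have h2 : ∀ᶠ y' in 𝓝 y, (chartAt E q).symm y' ∉ KM G p :=
      ((chartAt E q).continuousAt_symm hy).preimage_mem_nhds
        ((isClosed_KM hG).isOpen_compl.mem_nhds hx')
    have h3 : ∀ᶠ w : E × E in 𝓝 (z, y), (chartAt E q).symm w.2 ∉ KM G p :=
      (continuous_snd.tendsto (z, y)).eventually h2
    have h4 : ∀ᶠ w : E × E in 𝓝 (z, y), w.1 ∈ ball (0 : E) G.r :=
      (continuous_fst.tendsto (z, y)).eventually hbz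
    filter_upwards [h3, h4] with w hw hw2
    rw [rep1_eq_comp, rep1_eq_comp, pull1_off hw2 hw]

theorem smooth1_pull1 [T2Space M] (hG : G.K ⊆ (chartAt E p).target) {s : F1 E M}
    (hs : Smooth1 s) {z : E} (hz : z ∈ ball (0 : E) G.r) : Smooth1 (pull1 G p z s) := by
  intro q y hy
  have h := (contDiffOn_rep1_pull1 hG hs q (z, y) ⟨hz, hy⟩).contDiffAt
    ((isOpen_ball.prod (chartAt E q).open_target).mem_nhds ⟨hz, hy⟩)
  exact (ContDiffAt.comp y (g := fun w : E × E => rep1 q (pull1 G p w.1 s) w.2)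
    (f := fun y => (z, y)) h (contDiffAt_const.prodMk contDiffAt_id)).contDiffWithinAt

lemma Smooth1.diff {s : F1 E M} (hs : Smooth1 s) {p : M} {y : E} (hy : y ∈ (chartAt E p).target) :
    DifferentiableAt ℝ (rep1 p s) y :=
  (contDiffOn_chart_iff.1 (hs p) y hy).differentiableAt (by simp)

/-- change of charts for the exterior derivative of a one-form. -/
lemma d1_rep1_change {q p : M} {y : E} (hy : y ∈ (chartAt E q).target)
    (hp : (chartAt E q).symm y ∈ (chartAt E p).source) {s : F1 E M} (hs : Smooth1 s) :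
    d1 (rep1 q s) y = pb (d1 (rep1 p s) (Ch.trans (E := E) q p y))
      (fderiv ℝ (Ch.trans (E := E) q p) y) := by
  have hev : rep1 q s =ᶠ[𝓝 y] fun y => (rep1 p s (Ch.trans (E := E) q p y)).comp
      (fderiv ℝ (Ch.trans (E := E) q p) y) := by
    filter_upwards [eventually_overlap hy hp] with y' hy'
    exact rep1_change hy'.1 hy'.2 s
  rw [d1_congr hev]
  have ht := trans_contDiffAt hy hp
  refine d1_comp (Smooth1.diff hs ?_) (ht.of_le ?_)
  · exact (chartAt E p).map_source hp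
  · exact_mod_cast ENat.LEInfty.out

/-- if `b = ds` at a point in one chart then it holds in all charts. -/
lemma ex_change {q p : M} {y : E} (hy : y ∈ (chartAt E q).target)
    (hp : (chartAt E q).symm y ∈ (chartAt E p).source) {s : F1 E M} (hs : Smooth1 s) {b : F2 E M}
    (h : rep p b (Ch.trans (E := E) q p y) = d1 (rep1 p s) (Ch.trans (E := E) q p y)) :
    rep q b y = d1 (rep1 q s) y := by
  rw [rep_change hy hp, h, d1_rep1_change hy hp hs]

/-- `b = ds`, in all charts. -/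
def ExBy (b : F2 E M) (s : F1 E M) : Prop :=
  ∀ q : M, ∀ y ∈ (chartAt E q).target, rep q b y = d1 (rep1 q s) y

/-- **the pull-back of an exact form is exact.** -/
theorem ExBy.pullG [T2Space M] (hG : G.K ⊆ (chartAt E p).target) {b : F2 E M} {s : F1 E M}
    (hs : Smooth1 s) (h : ExBy b s) {z : E} (hz : z ∈ ball (0 : E) G.r) :
    ExBy (pullG G p z b) (pull1 G p z s) := by
  intro q y hy
  have hs' : Smooth1 (pull1 G p z s) := smooth1_pull1 hG hs hz
  by_cases hx : (chartAt E q).symm y ∈ (chartAt E p).source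
  · refine ex_change hy hx hs' ?_
    set t := Ch.trans (E := E) q p y with ht
    have htt : t ∈ (chartAt E p).target := (chartAt E p).map_source hx
    have hgt : G.g z t ∈ (chartAt E p).target := G.mem_of_mem hz hG htt
    have hev : rep1 p (pull1 G p z s) =ᶠ[𝓝 t] fun t => (rep1 p s (G.g z t)).comp
        (fderiv ℝ (G.g z) t) := by
      filter_upwards [(chartAt E p).open_target.mem_nhds htt] with t' ht'
      exact rep1_pull1 ht' z s
    rw [rep_pullG htt, d1_congr hev, h p _ hgt,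
      d1_comp (Smooth1.diff hs hgt) ((G.contDiff_g hz).contDiffAt.of_le ?_)]
    · rfl
    · exact_mod_cast ENat.LEInfty.out
  · have hx' : (chartAt E q).symm y ∉ KM G p := fun h => hx (KM_subset hG h)
    have hev : rep1 q (pull1 G p z s) =ᶠ[𝓝 y] rep1 q s := by
      have h2 : ∀ᶠ y' in 𝓝 y, (chartAt E q).symm y' ∉ KM G p :=
        ((chartAt E q).continuousAt_symm hy).preimage_mem_nhds
          ((isClosed_KM hG).isOpen_compl.mem_nhds hx')
      filter_upwards [h2] with y' hy'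
      rw [rep1_eq_comp, rep1_eq_comp, pull1_off hz hy']
    rw [d1_congr hev, ← h q y hy, rep_eq_pb, rep_eq_pb, pullG_off hz hx']

end Smooth

end

end Crest.Agent.R240.Sm
end

-- ▼ part R240/SmEx
section

/-!
# Row 240, block R (smoothing): averages of exact forms are exact (helper461)

`(S1)` of note 10738, for one chart: `isEx_avg_pullG`.
-/

set_option autoImplicit false
set_option maxSynthPendingDepth 3
set_option linter.unusedSectionVars false

open Set Function Filter Metric Bundle MeasureTheory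
open scoped Manifold ContDiff Topology

namespace Crest.Agent.R240.Sm

open Crest.Agent.R240.Ch

noncomputable section

variable {M : Type*} [TopologicalSpace M] [ChartedSpace E4 M] [IsManifold 𝓘(ℝ, E4) ∞ M]

section Fam1

variable {Z : Type*} [NormedAddCommGroup Z] [NormedSpace ℝ Z]

/-- a jointly smooth family of one-forms, over the open parameter set `U`. -/
def JSm1 (U : Set Z) (σ : Z → F1 E4 M) : Prop :=
  ∀ q : M, ContDiffOn ℝ ∞ (fun w : Z × E4 => rep1 q (σ w.1) w.2) (U ×ˢ (chartAt E4 q).target)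

lemma JSm1.continuousOn_at1 {U : Set Z} {σ : Z → F1 E4 M} (hσ : JSm1 U σ) (x : M) :
    ContinuousOn (fun z => at1 (σ z) x) U := by
  have h1 : ContinuousOn (fun z => rep1 x (σ z) (chartAt E4 x x)) U :=
    (hσ x).continuousOn.comp (f := fun z => ((z, chartAt E4 x x) : Z × E4)) (by fun_prop)
      (fun z hz => ⟨hz, mem_chart_target E4 x⟩)
  have h2 : (fun z => at1 (σ z) x) = fun z => rep1 x (σ z) (chartAt E4 x x) := by
    funext z
    ext u
    rw [at1_eq_comp (mem_chart_source E4 x) (σ z)]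
    show rep1 x (σ z) (chartAt E4 x x) (tcc x x x u) = _
    rw [tcc_self (mem_chart_source E4 x)]
  rw [h2]
  exact h1

lemma JSm1.diffAt {U : Set Z} (hU : IsOpen U) {σ : Z → F1 E4 M} (hσ : JSm1 U σ) {q : M} {y : E4}
    (hy : y ∈ (chartAt E4 q).target) {z : Z} (hz : z ∈ U) :
    DifferentiableAt ℝ (fun w : E4 × Z => rep1 q (σ w.2) w.1) (y, z) :=
  ((contDiffOn_swap (hσ q)).contDiffAt
    (((chartAt E4 q).open_target.prod hU).mem_nhds ⟨hy, hz⟩)).differentiableAt (by simp)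


lemma JSm1.continuousOn_fderiv {Z : Type} [NormedAddCommGroup Z] [NormedSpace ℝ Z]
    {U : Set Z} (hU : IsOpen U) {σ : Z → F1 E4 M} (hσ : JSm1 U σ)
    {q : M} {y : E4} (hy : y ∈ (chartAt E4 q).target) :
    ContinuousOn (fun z => fderiv ℝ (rep1 q (σ z)) y) U := by
  have h3 := contDiffOn_swap (hσ q)
  have hdg := SmJ.contDiffOn_dx ((chartAt E4 q).open_target.prod hU) h3
  have h4 : ContinuousOn (fun z => SmJ.dx (fun w : E4 × Z => rep1 q (σ w.2) w.1) (y, z)) U :=
    hdg.continuousOn.comp (f := fun z : Z => ((y, z) : E4 × Z)) (by fun_prop)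
        fun z hz => ⟨hy, hz⟩
  refine h4.congr fun z hz => ?_
  exact (SmJ.hasFDerivAt_dx (hσ.diffAt hU hy hz)).fderiv

/-- the antisymmetrisation, as a continuous linear map. -/
def asL : Bil →L[ℝ] Bil :=
  ContinuousLinearMap.id ℝ Bil - ((ContinuousLinearMap.flipₗᵢ ℝ E4 E4 ℝ) : Bil ≃ₗᵢ[ℝ] Bil)


lemma d1_eq_asL (s : E4 → E4 →L[ℝ] ℝ) (y : E4) : d1 s y = asL (fderiv ℝ s y) := rfl

end Fam1

section Avg

variable {Z : Type} [NormedAddCommGroup Z] [NormedSpace ℝ Z] [MeasureSpace Z] [BorelSpace Z]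
  [IsFiniteMeasureOnCompacts (volume : Measure Z)]

/-- the average of a family of one-forms. -/
def avg1 (κ : Z → ℝ) (σ : Z → F1 E4 M) : F1 E4 M := fun x =>
  (∫ z, κ z • at1 (σ z) x : E4 →L[ℝ] ℝ)

lemma at1_avg1 (κ : Z → ℝ) (σ : Z → F1 E4 M) (x : M) :
    at1 (avg1 κ σ) x = ∫ z, κ z • at1 (σ z) x := rfl

lemma rep1_avg1 {U : Set Z} (hU : IsOpen U) {κ : Z → ℝ} (hκ : Continuous κ)
    (hc : HasCompactSupport κ) (hs : tsupport κ ⊆ U) {σ : Z → F1 E4 M} (hσ : JSm1 U σ)
    (q : M) (y : E4) :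
    rep1 q (avg1 κ σ) y = ∫ z, κ z • rep1 q (σ z) y := by
  set x := (chartAt E4 q).symm y with hx
  have hi : Integrable (fun z => κ z • at1 (σ z) x) :=
    integrable_smul_of hU hκ hc hs (hσ.continuousOn_at1 x)
  have h := ((ContinuousLinearMap.compL ℝ E4 E4 ℝ).flip (tcc q x x)).integral_comp_comm hi
  rw [rep1_eq_comp, at1_avg1]
  change ((ContinuousLinearMap.compL ℝ E4 E4 ℝ).flip (tcc q x x)) _ = _
  rw [← h]
  rfl

theorem smooth1_avg1 {U : Set Z} (hU : IsOpen U) {κ : Z → ℝ} (hκ : Continuous κ)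
    (hc : HasCompactSupport κ) (hs : tsupport κ ⊆ U) {σ : Z → F1 E4 M} (hσ : JSm1 U σ) :
    Smooth1 (avg1 κ σ) := by
  intro q
  have h3 := contDiffOn_swap (hσ q)
  refine (contDiffOn_integral hU (chartAt E4 q).open_target hκ hc hs h3).congr fun y _ => ?_
  exact rep1_avg1 hU hκ hc hs hσ q y

/-- **the exterior derivative of the average is the average of the exterior derivatives.** -/
theorem d1_avg1 {U : Set Z} (hU : IsOpen U) {κ : Z → ℝ} (hκ : Continuous κ)
    (hc : HasCompactSupport κ) (hs : tsupport κ ⊆ U) {σ : Z → F1 E4 M} (hσ : JSm1 U σ)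
    {q : M} {y : E4} (hy : y ∈ (chartAt E4 q).target) :
    d1 (rep1 q (avg1 κ σ)) y = ∫ z, κ z • d1 (rep1 q (σ z)) y := by
  have h1 := hasFDerivAt_integral hU (chartAt E4 q).open_target hκ hc hs
    (contDiffOn_swap (hσ q)) hy
  have h2 : rep1 q (avg1 κ σ) = fun y => ∫ z, κ z • rep1 q (σ z) y :=
    funext fun y => rep1_avg1 hU hκ hc hs hσ q y
  have h4 : fderiv ℝ (rep1 q (avg1 κ σ)) y = ∫ z, κ z • fderiv ℝ (rep1 q (σ z)) y := by
    rw [h2, h1.fderiv]
    refine integral_congr_ae (Eventually.of_forall fun z => ?_)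
    simp only
    by_cases hz : z ∈ U
    · rw [← (SmJ.hasFDerivAt_dx (hσ.diffAt hU hy hz)).fderiv]
    · have : κ z = 0 := image_eq_zero_of_notMem_tsupport fun h' => hz (hs h')
      rw [this, zero_smul, zero_smul]
  rw [d1_eq_asL, h4, ← ContinuousLinearMap.integral_comp_comm _
    (integrable_smul_of hU hκ hc hs (hσ.continuousOn_fderiv hU hy))]
  refine integral_congr_ae (Eventually.of_forall fun z => ?_)
  simp only
  rw [map_smul, d1_eq_asL]

/-- **averages of exact forms are exact.** -/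
theorem exBy_avg {U : Set Z} (hU : IsOpen U) {κ : Z → ℝ} (hκ : Continuous κ)
    (hc : HasCompactSupport κ) (hs : tsupport κ ⊆ U) {σ : Z → F1 E4 M} (hσ : JSm1 U σ)
    {β : Z → F2 E4 M} (hβ : JSm U β) (h : ∀ z ∈ U, ExBy (β z) (σ z)) :
    ExBy (Sm.avg κ β) (avg1 κ σ) := by
  intro q y hy
  rw [d1_avg1 hU hκ hc hs hσ hy, rep_avg hU hκ hc hs hβ q y]
  refine integral_congr_ae (Eventually.of_forall fun z => ?_)
  simp only
  by_cases hz : z ∈ U
  · rw [h z hz q y hy]
  · have : κ z = 0 := image_eq_zero_of_notMem_tsupport fun h' => hz (hs h')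
    rw [this, zero_smul, zero_smul]

end Avg

section OneChart

variable [T2Space M] {G : Fam E4} {p : M}

/-- joint smoothness of the pull-back of a one-form, after a smooth change of parameter. -/
lemma jsm1_pull1 {W : Type*} [NormedAddCommGroup W] [NormedSpace ℝ W]
    (hG : G.K ⊆ (chartAt E4 p).target) {s : F1 E4 M} (hs : Smooth1 s) {U : Set W} {ζ : W → E4}
    (hζ : ContDiffOn ℝ ∞ ζ U) (hm : MapsTo ζ U (ball 0 G.r)) :
    JSm1 U (fun w => pull1 G p (ζ w) s) := fun q =>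
  contDiffOn_param (contDiffOn_rep1_pull1 hG hs q) hζ hm

lemma jsm_pullG0 {W : Type*} [NormedAddCommGroup W] [NormedSpace ℝ W]
    (hG : G.K ⊆ (chartAt E4 p).target) {b : F2 E4 M} (hb : Smooth2 b) {U : Set W} {ζ : W → E4}
    (hζ : ContDiffOn ℝ ∞ ζ U) (hm : MapsTo ζ U (ball 0 G.r)) :
    JSm U (fun w => pullG G p (ζ w) b) :=
  ⟨fun _ _ x v => pullG_alt hb.1 _ x v, fun q =>
    contDiffOn_param (contDiffOn_rep_pullG hG hb q) hζ hm⟩

lemma isOpen_scaled (r e : ℝ) : IsOpen {z : E4 | e • z ∈ ball (0 : E4) r} :=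
  isOpen_ball.preimage (by fun_prop)

/-- **(S1) in one chart: the averages `∫ κ(z) (ψ_{ez})^* b dz` of an exact form are exact.** -/
theorem isEx_avg_pullG (hG : G.K ⊆ (chartAt E4 p).target) {κ : E4 → ℝ} (hκ : Continuous κ)
    (hc : HasCompactSupport κ) {e : ℝ} (hs : ∀ z ∈ tsupport κ, e • z ∈ ball (0 : E4) G.r)
    {b : F2 E4 M} (hb2 : Smooth2 b) (hb : IsEx b) :
    IsEx (Sm.avg κ (fun z => pullG G p (e • z) b)) := by
  obtain ⟨s, hs1, hbs⟩ := hb
  set U : Set E4 := {z : E4 | e • z ∈ ball (0 : E4) G.r} with hU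
  have hUo : IsOpen U := isOpen_scaled G.r e
  have hζ : ContDiffOn ℝ ∞ (fun z : E4 => e • z) U := by fun_prop
  have hm : MapsTo (fun z : E4 => e • z) U (ball 0 G.r) := fun z hz => hz
  have hσ := jsm1_pull1 (p := p) hG hs1 hζ hm
  have hβ := jsm_pullG0 (p := p) hG hb2 hζ hm
  refine ⟨avg1 κ (fun z => pull1 G p (e • z) s), smooth1_avg1 hUo hκ hc hs hσ, ?_⟩
  exact exBy_avg hUo hκ hc hs hσ hβ fun z hz => ExBy.pullG hG hs1 hbs hz

end OneChart

end

end Crest.Agent.R240.Sm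
end

-- ▼ part R240/SmAdj

/-!
# Row 240, block R (smoothing): adjoint consistency (helper461)

`(S2)` of note 10738 = the field `adj` of `SmPack`.
-/

set_option autoImplicit false
set_option maxSynthPendingDepth 3
set_option linter.unusedSectionVars false

open Set Function Filter Metric Bundle MeasureTheory
open scoped Manifold ContDiff Topology

namespace Crest.Agent.R240.SmAdj

open Crest.Agent.R240.Ch Crest.Agent.R240.Sm

noncomputable section

section General

variable {M : Type*} [TopologicalSpace M] [ChartedSpace E4 M] [IsManifold 𝓘(ℝ, E4) ∞ M]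

/-- uniform normalisation constants on compact pieces of charts. -/
theorem exists_Bd {J : EndF E4 M} {F : F2 E4 M} (hJ : SmoothJ J)
    (hsq : ∀ x v, atJ J x (atJ J x v) = -v) (hF : Smooth2 F) (hFp : ∀ x, SPos (atJ J x) (at2 F x))
    (p : M) {K : Set E4} (hK : IsCompact K) (hKt : K ⊆ (chartAt E4 p).target) :
    ∃ m m' : ℝ, 0 < m ∧ 0 < m' ∧ ∀ y ∈ K, Bd (repJ p J y) (rep p F y) m m' := by
  obtain ⟨c, hc, hc'⟩ := unif_pos hF hJ (fun x v hv => (hFp x).pos v hv) p hK hKt
  obtain ⟨B, hB, hB'⟩ := bdd_on (hF.continuousOn p) hK hKt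
  obtain ⟨B2, hB2, hB2'⟩ := bdd_on (hJ.continuousOn p) hK hKt
  refine ⟨c, B * B2, hc, by positivity, fun y hy => ?_⟩
  refine ⟨DensM.repJ_sq hsq (hKt hy), DensM.spos_rep hFp (hKt hy), hc, hc' y hy, fun v => ?_⟩
  calc rep p F y v (repJ p J y v) ≤ |rep p F y v (repJ p J y v)| := le_abs_self _
    _ ≤ ‖rep p F y‖ * ‖v‖ * ‖repJ p J y v‖ := by
        rw [← Real.norm_eq_abs]; exact ContinuousLinearMap.le_opNorm₂ _ _ _
    _ ≤ ‖rep p F y‖ * ‖v‖ * (‖repJ p J y‖ * ‖v‖) := by
        gcongr; exact ContinuousLinearMap.le_opNorm _ _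
    _ ≤ B * ‖v‖ * (B2 * ‖v‖) := by
        gcongr
        · exact hB' y hy
        · exact hB2' y hy
    _ = B * B2 * ‖v‖ ^ 2 := by ring

/-- `Pos` in charts. -/
theorem pos_rep {J : EndF E4 M} {P : F2 E4 M} (hP : PosG J P) {p : M} {y : E4}
    (hy : y ∈ (chartAt E4 p).target) : Pos (repJ p J y) (rep p P y) := by
  have h := hP ((chartAt E4 p).symm y)
  refine ⟨fun v => ?_, fun u v => ?_, fun v => ?_⟩
  · rw [rep_apply]
    exact h.alt _
  · rw [rep_apply, rep_apply, repJ_apply, repJ_apply, tcc_cancel' (symm_mem hy),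
      tcc_cancel' (symm_mem hy)]
    exact h.inv _ _
  · rw [rep_apply, repJ_apply, tcc_cancel' (symm_mem hy)]
    exact h.nonneg _

/-- pointwise: `|q(P,R)| ≤ C |R| q(P,F)` for `P ≥ 0`, uniformly on compact pieces of charts. -/
theorem exists_q_bound {J : EndF E4 M} {F : F2 E4 M} (hJ : SmoothJ J)
    (hsq : ∀ x v, atJ J x (atJ J x v) = -v) (hF : Smooth2 F) (hFp : ∀ x, SPos (atJ J x) (at2 F x))
    (p : M) {K : Set E4} (hK : IsCompact K) (hKt : K ⊆ (chartAt E4 p).target) :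
    ∃ C : ℝ, 0 ≤ C ∧ ∀ y ∈ K, ∀ P : F2 E4 M, PosG J P → ∀ R : Bil, Alt R →
      |q (rep p F y) (rep p P y) R| ≤ C * ‖R‖ * q (rep p F y) (rep p P y) (rep p F y) := by
  obtain ⟨m, m', hm, hm', hB⟩ := exists_Bd hJ hsq hF hFp p hK hKt
  refine ⟨3 / m ^ 2 * (2 * m'), by positivity, fun y hy P hP R hR => ?_⟩
  have h1 := (hB y hy).abs_q_le (pos_rep hP (hKt hy)).alt hR
  have h2 := (hB y hy).norm_le_q (pos_rep hP (hKt hy))
  calc |q (rep p F y) (rep p P y) R| ≤ 3 / m ^ 2 * (‖rep p P y‖ * ‖R‖) := h1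
    _ ≤ 3 / m ^ 2 * ((2 * m' * q (rep p F y) (rep p P y) (rep p F y)) * ‖R‖) := by
        gcongr
    _ = _ := by ring

/-- a jointly smooth curve of forms stays close to its initial value. -/
theorem jsm_close {V : Set ℝ} (hV : IsOpen V) {h : ℝ → F2 E4 M} (hh : JSm V h) {e0 : ℝ}
    (hI : Icc 0 e0 ⊆ V) (p : M) {K : Set E4} (hK : IsCompact K)
    (hKt : K ⊆ (chartAt E4 p).target) :
    ∃ C : ℝ, 0 ≤ C ∧ ∀ e ∈ Icc 0 e0, ∀ y ∈ K, ‖rep p (h e) y - rep p (h 0) y‖ ≤ C * e := by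
  set f : ℝ × E4 → Bil := fun w => rep p (h w.1) w.2 with hf
  have hopen : IsOpen (V ×ˢ (chartAt E4 p).target) := hV.prod (chartAt E4 p).open_target
  have hfs : ContDiffOn ℝ ∞ f (V ×ˢ (chartAt E4 p).target) := hh.2 p
  have hfc : ContinuousOn (fderiv ℝ f) (V ×ˢ (chartAt E4 p).target) :=
    hfs.continuousOn_fderiv_of_isOpen hopen (by simp)
  obtain ⟨C, hC, hC'⟩ := bdd_on hfc (isCompact_Icc.prod hK) (prod_mono hI hKt)
  refine ⟨C, hC.le, fun e he y hy => ?_⟩
  have hd : ∀ t ∈ Icc (0 : ℝ) e0, HasDerivAt (fun t => rep p (h t) y)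
      (fderiv ℝ f (t, y) (1, 0)) t := by
    intro t ht
    have h1 : HasFDerivAt f (fderiv ℝ f (t, y)) (t, y) :=
      ((hfs.contDiffAt (hopen.mem_nhds ⟨hI ht, hKt hy⟩)).differentiableAt (by simp)).hasFDerivAt
    have h2 : HasDerivAt (fun t : ℝ => (t, y)) ((1 : ℝ), (0 : E4)) t :=
      (hasDerivAt_id t).prodMk (hasDerivAt_const t y)
    exact h1.comp_hasDerivAt t h2
  have hb : ∀ t ∈ Icc (0 : ℝ) e0, ‖fderiv ℝ f (t, y) (1, 0)‖ ≤ C := by
    intro t ht
    have h1 := (fderiv ℝ f (t, y)).le_opNorm (1, 0)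
    have h2 : ‖((1 : ℝ), (0 : E4))‖ = 1 := by simp [Prod.norm_def]
    rw [h2, mul_one] at h1
    exact h1.trans (hC' (t, y) ⟨ht, hy⟩)
  have h3 := (convex_Icc (0 : ℝ) e0).norm_image_sub_le_of_norm_hasDerivWithin_le
    (fun t ht => (hd t ht).hasDerivWithinAt) hb (left_mem_Icc.2 (he.1.trans he.2)) he
  simpa [abs_of_nonneg he.1] using h3

end General

section OneChart

variable {M : Type*} [TopologicalSpace M] [ChartedSpace E4 M] [IsManifold 𝓘(ℝ, E4) ∞ M]
  [T2Space M] {G : Fam E4} {p : M}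

/-- joint smoothness of `w ↦ (ψ_{ζ w})^* (β w)`. -/
theorem jsm_pullG_fam {W : Type*} [NormedAddCommGroup W] [NormedSpace ℝ W]
    (hG : G.K ⊆ (chartAt E4 p).target) {U : Set W} (hU : IsOpen U) {ζ : W → E4}
    (hζ : ContDiffOn ℝ ∞ ζ U) (hm : MapsTo ζ U (ball 0 G.r)) {β : W → F2 E4 M} (hβ : JSm U β) :
    JSm U (fun w => pullG G p (ζ w) (β w)) :=
  ⟨fun w hw x v => pullG_alt (hβ.1 w hw) (ζ w) x v, fun q =>
    (LF.pullG hG hU hζ hm).js hβ.2 q⟩

/-- joint smoothness in the scale of the averages. -/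
theorem jsm_avg_scale (hG : G.K ⊆ (chartAt E4 p).target) {κ : E4 → ℝ} (hκ : Continuous κ)
    (hc : HasCompactSupport κ) {ρ : ℝ} (hρ : tsupport κ ⊆ ball (0 : E4) ρ) {V : Set ℝ}
    (hV : IsOpen V) (hVr : ∀ e ∈ V, |e| * ρ < G.r) {h : ℝ → F2 E4 M} (hh : JSm V h) :
    JSm V (fun e => Sm.avg κ (fun z => pullG G p (e • z) (h e))) := by
  have hU : IsOpen (ball (0 : E4) ρ) := isOpen_ball
  refine JSm.avg (β := fun z e => pullG G p (e • z) (h e)) hU hV hκ hc hρ ?_
  have h1 : JSm (ball (0 : E4) ρ ×ˢ V) (fun w : E4 × ℝ => h w.2) :=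
    hh.comp (f := fun w : E4 × ℝ => w.2) contDiffOn_snd fun w hw => hw.2
  refine jsm_pullG_fam (ζ := fun w : E4 × ℝ => w.2 • w.1) hG (hU.prod hV)
    (contDiffOn_snd.smul contDiffOn_fst) ?_ h1
  rintro ⟨z, e⟩ ⟨hz, he⟩
  have hz' : ‖z‖ < ρ := by simpa using hz
  have : ‖e • z‖ < G.r := by
    rw [norm_smul, Real.norm_eq_abs]
    exact lt_of_le_of_lt (mul_le_mul_of_nonneg_left hz'.le (abs_nonneg e)) (hVr e he)
  simpa using this

theorem at2_avg_scale_zero {κ : E4 → ℝ} (h1 : ∫ z, κ z = 1) (b : F2 E4 M) (x : M) :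
    at2 (Sm.avg κ (fun z => pullG G p ((0 : ℝ) • z) b)) x = at2 b x := by
  rw [at2_avg]
  have : (fun z : E4 => κ z • at2 (pullG G p ((0 : ℝ) • z) b) x) = fun z => κ z • at2 b x := by
    funext z
    rw [zero_smul, pullG_zero]
  rw [this, integral_smul_const, h1, one_smul]

end OneChart

section Adj

variable {M : Type*} [TopologicalSpace M] [ChartedSpace E4 M] [IsManifold 𝓘(ℝ, E4) ∞ M]
  [T2Space M]

lemma jsm_scaled {G : Fam E4} {p : M} (hG : G.K ⊆ (chartAt E4 p).target) (e : ℝ) {b : F2 E4 M}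
    (hb : Smooth2 b) :
    JSm {z : E4 | e • z ∈ ball (0 : E4) G.r} (fun z => pullG G p (e • z) b) :=
  jsm_pullG0 hG hb (by fun_prop) fun _ hz => hz

/-- averages of pull-backs are smooth. -/
theorem smooth2_avg_pullG {G : Fam E4} {p : M} (hG : G.K ⊆ (chartAt E4 p).target) {κ : E4 → ℝ}
    (hκ : Continuous κ) (hc : HasCompactSupport κ) {e : ℝ}
    (hs : ∀ z ∈ tsupport κ, e • z ∈ ball (0 : E4) G.r) {b : F2 E4 M} (hb : Smooth2 b) :
    Smooth2 (Sm.avg κ (fun z => pullG G p (e • z) b)) :=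
  smooth2_avg (isOpen_scaled G.r e) hκ hc hs (jsm_scaled hG e hb)

variable [CompactSpace M] [MeasurableSpace M] [BorelSpace M]

/-- **the transpose of a one-chart average.** -/
theorem I_avg_adj {F h b : F2 E4 M} (hF : Int.Vol F) {G : Fam E4} {p : M}
    (hG : G.K ⊆ (chartAt E4 p).target) {κ : E4 → ℝ} (hκ : Continuous κ)
    (hc : HasCompactSupport κ) {e : ℝ} (hs : ∀ z ∈ tsupport κ, e • z ∈ ball (0 : E4) G.r)
    (hh : Smooth2 h) (hb : Smooth2 b) :
    Int.I F h (Sm.avg κ (fun z => pullG G p (e • z) b)) =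
      Int.I F (Sm.avg κ (fun z => pullG G.symm p (e • z) h)) b := by
  have hU := isOpen_scaled G.r e
  rw [I_avg hU hκ hc hs (jsm_scaled hG e hb) hF (Int.Smooth2.cont2 hh), Int.I_comm,
    I_avg hU hκ hc hs (jsm_scaled (G := G.symm) hG e hh) hF (Int.Smooth2.cont2 hb)]
  refine integral_congr_ae (Eventually.of_forall fun z => ?_)
  simp only
  by_cases hz : e • z ∈ ball (0 : E4) G.r
  · rw [I_pullG_adj hF hG hz hh hb, Int.I_comm]
  · have : κ z = 0 := image_eq_zero_of_notMem_tsupport fun h' => hz (hs z h')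
    rw [this, zero_mul, zero_mul]

end Adj

/-! ### compositions over a list of charts -/

section List

variable {M : Type*} [TopologicalSpace M] [ChartedSpace E4 M] [IsManifold 𝓘(ℝ, E4) ∞ M]
variable {ι : Type*} (G : ι → Fam E4) (p : ι → M) (κ : ι → E4 → ℝ)

/-- composition of the one-chart averages over a list of charts. -/
def avgL (e : ℝ) (l : List ι) (b : F2 E4 M) : F2 E4 M :=
  l.foldr (fun i b => Sm.avg (κ i) (fun z => pullG (G i) (p i) (e • z) b)) b

/-- its transpose. -/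
def avgLT (e : ℝ) (l : List ι) (h : F2 E4 M) : F2 E4 M :=
  l.foldl (fun h i => Sm.avg (κ i) (fun z => pullG (G i).symm (p i) (e • z) h)) h

@[simp] lemma avgL_nil (e : ℝ) (b : F2 E4 M) : avgL G p κ e [] b = b := rfl
@[simp] lemma avgL_cons (e : ℝ) (i : ι) (l : List ι) (b : F2 E4 M) :
    avgL G p κ e (i :: l) b =
      Sm.avg (κ i) (fun z => pullG (G i) (p i) (e • z) (avgL G p κ e l b)) := rfl
@[simp] lemma avgLT_nil (e : ℝ) (b : F2 E4 M) : avgLT G p κ e [] b = b := rfl
@[simp] lemma avgLT_cons (e : ℝ) (i : ι) (l : List ι) (h : F2 E4 M) :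
    avgLT G p κ e (i :: l) h =
      avgLT G p κ e l (Sm.avg (κ i) (fun z => pullG (G i).symm (p i) (e • z) h)) := rfl

variable [T2Space M]
variable {G p κ} (hG : ∀ i, (G i).K ⊆ (chartAt E4 (p i)).target) (hκ : ∀ i, Continuous (κ i))
  (hc : ∀ i, HasCompactSupport (κ i))

include hG hκ hc

theorem smooth2_avgL {e : ℝ} (hs : ∀ i, ∀ z ∈ tsupport (κ i), e • z ∈ ball (0 : E4) (G i).r)
    (l : List ι) {b : F2 E4 M} (hb : Smooth2 b) : Smooth2 (avgL G p κ e l b) := by
  induction l with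
  | nil => exact hb
  | cons i l ih => exact smooth2_avg_pullG (hG i) (hκ i) (hc i) (hs i) ih

theorem isEx_avgL {e : ℝ} (hs : ∀ i, ∀ z ∈ tsupport (κ i), e • z ∈ ball (0 : E4) (G i).r)
    (l : List ι) {b : F2 E4 M} (hb2 : Smooth2 b) (hb : IsEx b) : IsEx (avgL G p κ e l b) := by
  induction l with
  | nil => exact hb
  | cons i l ih =>
    exact isEx_avg_pullG (hG i) (hκ i) (hc i) (hs i) (smooth2_avgL hG hκ hc hs l hb2) ih

theorem smooth2_avgLT {e : ℝ} (hs : ∀ i, ∀ z ∈ tsupport (κ i), e • z ∈ ball (0 : E4) (G i).r)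
    (l : List ι) {h : F2 E4 M} (hh : Smooth2 h) : Smooth2 (avgLT G p κ e l h) := by
  induction l generalizing h with
  | nil => exact hh
  | cons i l ih =>
    exact ih (smooth2_avg_pullG (G := (G i).symm) (hG i) (hκ i) (hc i) (hs i) hh)

theorem jsm_avgLT {ρ : ℝ} (hρ0 : 0 < ρ) (hρ : ∀ i, tsupport (κ i) ⊆ ball (0 : E4) ρ) {e1 : ℝ}
    (hr : ∀ i, e1 * ρ ≤ (G i).r) (l : List ι) {h : ℝ → F2 E4 M}
    (hh : JSm {e : ℝ | |e| < e1} h) : JSm {e : ℝ | |e| < e1} (fun e => avgLT G p κ e l (h e)) := by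
  have hV : IsOpen {e : ℝ | |e| < e1} := isOpen_lt continuous_abs continuous_const
  induction l generalizing h with
  | nil => exact hh
  | cons i l ih =>
    refine ih (h := fun e => Sm.avg (κ i) (fun z => pullG (G i).symm (p i) (e • z) (h e))) ?_
    refine jsm_avg_scale (G := (G i).symm) (hG i) (hκ i) (hc i) (hρ i) hV ?_ hh
    intro e he
    exact lt_of_lt_of_le (mul_lt_mul_of_pos_right he hρ0) (hr i)

omit hG hκ hc in
theorem avgLT_zero (h1 : ∀ i, ∫ z, κ i z = 1) (l : List ι) (h : F2 E4 M) :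
    avgLT G p κ 0 l h = h := by
  induction l generalizing h with
  | nil => rfl
  | cons i l ih =>
    rw [avgLT_cons]
    have e1 : Sm.avg (κ i) (fun z => pullG (G i).symm (p i) ((0 : ℝ) • z) h) = h := by
      funext x
      exact at2_avg_scale_zero (h1 i) h x
    rw [e1]
    exact ih h

variable [CompactSpace M] [MeasurableSpace M] [BorelSpace M]

theorem I_avgL_adj {F : F2 E4 M} (hF : Int.Vol F) {e : ℝ}
    (hs : ∀ i, ∀ z ∈ tsupport (κ i), e • z ∈ ball (0 : E4) (G i).r)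
    (l : List ι) {h b : F2 E4 M} (hh : Smooth2 h) (hb : Smooth2 b) :
    Int.I F h (avgL G p κ e l b) = Int.I F (avgLT G p κ e l h) b := by
  induction l generalizing h with
  | nil => rfl
  | cons i l ih =>
    rw [avgL_cons, avgLT_cons, I_avg_adj hF (hG i) (hκ i) (hc i) (hs i) hh
      (smooth2_avgL hG hκ hc hs l hb)]
    exact ih (smooth2_avg_pullG (G := (G i).symm) (hG i) (hκ i) (hc i) (hs i) hh)

end List

section Final

variable {M : Type*} [MetricSpace M] [CompactSpace M] [ChartedSpace E4 M]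
    [IsManifold 𝓘(ℝ, E4) ∞ M] [MeasurableSpace M] [BorelSpace M]

/-- `D.I` is the pairing `Int.I`. -/
lemma dat_I_eq (D : Dat M) (b c : F2 E4 M) : D.I b c = Int.I D.F b c :=
  Int.IG_eq_I (Int.dat_volF D) D.vol b c

/-- uniform pointwise bound: `|q(P,R)| ≤ C δ q(P,F)` for `P ≥ 0` and `|R| ≤ δ`. -/
theorem exists_qG_bound (D : Dat M) (𝒰 : Cover M) :
    ∃ C : ℝ, 0 ≤ C ∧ ∀ (P R : F2 E4 M) (δ : ℝ), PosG D.J P → (∀ x, Alt (at2 R x)) →
      (∀ i, ∀ y ∈ 𝒰.K i, ‖rep (𝒰.p i) R y‖ ≤ δ) →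
      ∀ x, |qG D.F P R x| ≤ C * δ * qG D.F P D.F x := by
  have hpos : ∀ x, SPos (atJ D.J x) (at2 D.F x) := Int.dat_sposF D
  have h1 := fun i => exists_q_bound D.smJ D.sq (Int.dat_smF D) hpos (𝒰.p i) (𝒰.cpt i) (𝒰.sub i)
  choose C hC hC' using h1
  refine ⟨∑ i, C i, Finset.sum_nonneg fun i _ => hC i, fun P R δ hP hR hδ x => ?_⟩
  have hPa : ∀ x, Alt (at2 P x) := fun x => (hP x).alt
  obtain ⟨i, hx, hi⟩ := 𝒰.cov x
  have hK := interior_subset hi
  rw [Int.qG_chart' (Int.dat_volF D) hPa hR hx,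
    Int.qG_chart' (Int.dat_volF D) hPa (Int.dat_volF D).alt hx]
  have h2 := hC' i _ hK P hP (rep (𝒰.p i) R (chartAt E4 (𝒰.p i) x)) (alt_rep hR _)
  have hq : 0 ≤ q (rep (𝒰.p i) D.F (chartAt E4 (𝒰.p i) x))
      (rep (𝒰.p i) P (chartAt E4 (𝒰.p i) x)) (rep (𝒰.p i) D.F (chartAt E4 (𝒰.p i) x)) := by
    obtain ⟨m, m', hm, hm', hB⟩ := exists_Bd D.smJ D.sq (Int.dat_smF D) hpos (𝒰.p i) (𝒰.cpt i)
      (𝒰.sub i)
    have h3 := (hB _ hK).norm_le_q (pos_rep hP (𝒰.sub i hK))
    have h4 := (norm_nonneg _).trans h3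
    by_contra hneg
    have h5 : 2 * m' * q (rep (𝒰.p i) D.F (chartAt E4 (𝒰.p i) x))
      (rep (𝒰.p i) P (chartAt E4 (𝒰.p i) x)) (rep (𝒰.p i) D.F (chartAt E4 (𝒰.p i) x)) < 0 :=
      mul_neg_of_pos_of_neg (by positivity) (not_le.1 hneg)
    linarith
  have hδ0 : ‖rep (𝒰.p i) R (chartAt E4 (𝒰.p i) x)‖ ≤ δ := hδ i _ hK
  have hδ1 : 0 ≤ δ := (norm_nonneg _).trans hδ0
  calc _ ≤ C i * ‖rep (𝒰.p i) R (chartAt E4 (𝒰.p i) x)‖ * _ := h2
    _ ≤ (∑ i, C i) * δ * _ := by
        refine mul_le_mul_of_nonneg_right ?_ hq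
        exact mul_le_mul (Finset.single_le_sum (f := C) (fun j _ => hC j) (Finset.mem_univ i)) hδ0
          (norm_nonneg _) (Finset.sum_nonneg fun i _ => hC i)

variable {ι : Type*} {G : ι → Fam E4} {p : ι → M} {κ : ι → E4 → ℝ}

/-- **(S2), the field `adj` of `SmPack`**, for the composition over a list of charts. -/
theorem adj_avgL (D : Dat M) (𝒰 : Cover M) (hG : ∀ i, (G i).K ⊆ (chartAt E4 (p i)).target)
    (hκ : ∀ i, Continuous (κ i)) (hc : ∀ i, HasCompactSupport (κ i))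
    (h1 : ∀ i, ∫ z, κ i z = 1) {ρ : ℝ} (hρ0 : 0 < ρ)
    (hρ : ∀ i, tsupport (κ i) ⊆ ball (0 : E4) ρ) {e0 e1 : ℝ} (he01 : e0 < e1)
    (hr : ∀ i, e1 * ρ ≤ (G i).r) (l : List ι) :
    ∃ C : ℝ, ∀ e : ℝ, 0 < e → e ≤ e0 → ∀ P : F2 E4 M, Smooth2 P → PosG D.J P →
      (1 - C * e) * D.I P D.F ≤ D.I (avgL G p κ e l P) D.F := by
  set V : Set ℝ := {e : ℝ | |e| < e1} with hVd
  have hV : IsOpen V := isOpen_lt continuous_abs continuous_const
  have hvol := Int.dat_volF D
  have hFs := Int.dat_smF D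
  set h : ℝ → F2 E4 M := fun e => avgLT G p κ e l D.F with hh
  have hJ : JSm V h := jsm_avgLT hG hκ hc hρ0 hρ hr l (JSm.const hFs V)
  have hI : Icc 0 e0 ⊆ V := fun e he => by
    show |e| < e1
    rw [abs_of_nonneg he.1]; exact lt_of_le_of_lt he.2 he01
  have hclose := fun i => jsm_close hV hJ hI (𝒰.p i) (𝒰.cpt i) (𝒰.sub i)
  choose C hC hC' using hclose
  obtain ⟨C0, hC0, hC0'⟩ := exists_qG_bound D 𝒰
  refine ⟨C0 * ∑ i, C i, fun e he0 hee0 P hPs hP => ?_⟩
  have he : e ∈ Icc 0 e0 := ⟨he0.le, hee0⟩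
  have hs : ∀ i, ∀ z ∈ tsupport (κ i), e • z ∈ ball (0 : E4) (G i).r := by
    intro i z hz
    have hz' : ‖z‖ < ρ := by simpa using hρ i hz
    have : ‖e • z‖ < (G i).r := by
      rw [norm_smul, Real.norm_eq_abs, abs_of_pos he0]
      calc e * ‖z‖ < e * ρ := by gcongr
        _ ≤ e1 * ρ := by gcongr; linarith
        _ ≤ _ := hr i
    simpa using this
  have hhs : Smooth2 (h e) := smooth2_avgLT hG hκ hc hs l hFs
  have hh0 : h 0 = D.F := avgLT_zero h1 l D.F
  have hPc := Int.Smooth2.cont2 hPs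
  have hhc := Int.Smooth2.cont2 hhs
  have hFc := Int.Smooth2.cont2 hFs
  -- the difference
  set R : F2 E4 M := h e - D.F with hR
  have hRa : ∀ x, Alt (at2 R x) := fun x => (hhc.1 x).sub (hFc.1 x)
  have hRb : ∀ i, ∀ y ∈ 𝒰.K i, ‖rep (𝒰.p i) R y‖ ≤ (∑ i, C i) * e := by
    intro i y hy
    have h2 := hC' i e he y hy
    rw [hh0] at h2
    have h3 : rep (𝒰.p i) R y = rep (𝒰.p i) (h e) y - rep (𝒰.p i) D.F y := by
      ext u v; rfl
    rw [h3]
    refine h2.trans ?_
    gcongr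
    exact Finset.single_le_sum (f := C) (fun j _ => hC j) (Finset.mem_univ i)
  have hpt := hC0' P R _ hP hRa hRb
  have e1' : D.I (avgL G p κ e l P) D.F = Int.I D.F P (h e) := by
    rw [dat_I_eq, Int.I_comm, I_avgL_adj hG hκ hc hvol hs l hFs hPs, Int.I_comm]
  have e2 : D.I P D.F = Int.I D.F P D.F := dat_I_eq D P D.F
  rw [e1', e2]
  have hi1 := Int.integrable_qG hvol hPc hhc
  have hi2 := Int.integrable_qG hvol hPc hFc
  unfold Int.I
  rw [← integral_const_mul]
  refine integral_mono (hi2.const_mul _) hi1 fun x => ?_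
  have h4 := abs_le.1 (hpt x)
  have h5 : qG D.F P (h e) x = qG D.F P D.F x + qG D.F P R x := by
    rw [← Int.qG_add_right, hR]
    congr 1
    funext x
    show at2 (h e) x = at2 D.F x + (at2 (h e) x - at2 D.F x)
    ext u v
    simp
  simp only
  rw [h5]
  have h6 := h4.1
  nlinarith [h6]

end Final

end

end Crest.Agent.R240.SmAdj
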