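import Mathlib
import Crest.Agent.R240.SmSys
import Crest.Agent.R240.Sm7c
import Crest.Agent.R240.SmAdj
import Crest.Agent.R240.SmSignL

-- ▼ part R240/SmSysEx
section

/-!
Row 240, N8 (helper915): existence of a smoothing system.
-/

set_option autoImplicit false
set_option maxSynthPendingDepth 3
set_option linter.unusedSectionVars false

open Set Function Filter Metric MeasureTheory
open scoped Manifold ContDiff Topology
open Crest.Agent.R240.Ch

namespace Crest.Agent.R240.Sm

noncomputable section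

variable {M : Type*} [TopologicalSpace M] [ChartedSpace E4 M] [IsManifold 𝓘(ℝ, E4) ∞ M]

/-- **a smoothing system exists.** -/
theorem exists_sys [CompactSpace M] : Nonempty (Sys M) := by
  classical
  -- local data
  have hloc : ∀ x : M, ∃ (c : Cut E4) (K Ω : Set E4), tsupport c.θ ⊆ (chartAt E4 x).target ∧
      (∀ y, c.θ y ∈ Icc (0 : ℝ) 1) ∧ IsCompact K ∧ IsOpen Ω ∧ K ⊆ Ω ∧ (∀ y ∈ Ω, c.θ y = 1) ∧
      chartAt E4 x x ∈ interior K := by
    intro x
    have hx : chartAt E4 x x ∈ (chartAt E4 x).target := mem_chart_target E4 x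
    obtain ⟨r, hr, hsub⟩ := Metric.nhds_basis_closedBall.mem_iff.1
      ((chartAt E4 x).open_target.mem_nhds hx)
    obtain ⟨c, hc1, hc2, hc3⟩ := exists_cut (isCompact_closedBall (chartAt E4 x x) r)
      (chartAt E4 x).open_target hsub
    obtain ⟨Ω, hΩo, hKΩ, hΩ⟩ := eventually_nhdsSet_iff_exists.1 hc2
    exact ⟨c, closedBall (chartAt E4 x x) r, Ω, hc1, hc3, isCompact_closedBall _ _, hΩo, hKΩ, hΩ,
      ball_subset_interior_closedBall (mem_ball_self hr)⟩
  choose c K Ω h1 h2 h3 h4 h5 h6 h7 using hloc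
  obtain ⟨t, ht⟩ := isCompact_univ.elim_nhds_subcover
    (fun x : M => (chartAt E4 x).source ∩ (chartAt E4 x) ⁻¹' interior (K x)) (fun x _ => by
      have hs : (chartAt E4 x).source ∈ 𝓝 x := (chartAt E4 x).open_source.mem_nhds
        (mem_chart_source E4 x)
      have hi : interior (K x) ∈ 𝓝 (chartAt E4 x x) := isOpen_interior.mem_nhds (h7 x)
      exact inter_mem hs (((chartAt E4 x).continuousAt (mem_chart_source E4 x)).preimage_mem_nhds
        hi))
  refine ⟨{
    n := t.card
    p := fun i => (t.equivFin.symm i : M)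
    c := fun i => c (t.equivFin.symm i : M)
    sub := fun i => h1 _
    c01 := fun i => h2 _
    K := fun i => K (t.equivFin.symm i : M)
    Ω := fun i => Ω (t.equivFin.symm i : M)
    cpt := fun i => h3 _
    op := fun i => h4 _
    KΩ := fun i => h5 _
    one := fun i => h6 _
    cover := fun x => ?_ }⟩
  have hx := ht.2 (mem_univ x)
  simp only [mem_iUnion, exists_prop] at hx
  obtain ⟨y, hy, hxy⟩ := hx
  exact ⟨t.equivFin ⟨y, hy⟩, by simpa using hxy⟩

end

end Crest.Agent.R240.Sm
end

-- ▼ part R240/SmFApp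
section

/-!
Row 240, N8 (helper915): the field `approx` for the smoothing system (from 245's `Sm7c`).
-/

set_option autoImplicit false
set_option maxSynthPendingDepth 3
set_option linter.unusedSectionVars false

open Set Function Filter Metric MeasureTheory
open scoped Manifold ContDiff Topology
open Crest.Agent.R240.Ch

namespace Crest.Agent.R240.Sm

noncomputable section

variable {M : Type*} [MetricSpace M] [CompactSpace M] [ChartedSpace E4 M]
    [IsManifold 𝓘(ℝ, E4) ∞ M] [MeasurableSpace M] [BorelSpace M]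

theorem fApprox (𝒰 : Cover M) (S : Sys M) : FApprox 𝒰 S := by
  obtain ⟨e1, he1, he1', hok⟩ := S.exists_ok
  refine ⟨e1, he1, fun l => ?_⟩
  have h1 : ∀ i : Fin S.n, e1 < (S.G i).r := fun i => (hok e1 he1 le_rfl).2 i
  have h2 : ∀ i : Fin S.n, Sm7.Ker (kk ((oneK S.n) i).1) := fun i => kk_ker ((oneK S.n) i).2
  have h3 : ∀ i : Fin S.n, ∫ z, kk ((oneK S.n) i).1 z = 1 := fun i => by
    change ∫ z, kk (fun _ => 1) z = 1
    rw [kk_one, kap0_integral]
  obtain ⟨C, _, hC⟩ := Sm7.approx_AL' 𝒰 (G := S.G) (p := S.p) S.hG h2 h3 h1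
    (List.finRange S.n) l
  refine ⟨C, fun e he he' b => ?_⟩
  have h := hC e he he' (b : F2 E4 M) b.2
  have hco : (S.A e (oneK S.n) b : F2 E4 M) =
      Sm7.AL S.G S.p (fun i => kk ((oneK S.n) i).1) (List.finRange S.n) e (b : F2 E4 M) :=
    Sys.opL_coe (hok e he he') _ _ b
  have hco' : ((S.A e (oneK S.n) b - b : X2 M) : F2 E4 M) =
      Sm7.AL S.G S.p (fun i => kk ((oneK S.n) i).1) (List.finRange S.n) e (b : F2 E4 M) -
        (b : F2 E4 M) := by
    rw [← hco]; rfl
  rw [hco, hco']
  exact h

end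

end Crest.Agent.R240.Sm
end

-- ▼ part R240/SmF1
section

/-!
# Row 240, N8: the fields `exact` and `adj` of the smoothing package (helper461)
-/

set_option autoImplicit false
set_option maxSynthPendingDepth 3
set_option linter.unusedSectionVars false

open Set Function Filter Metric MeasureTheory
open scoped Manifold ContDiff Topology
open Crest.Agent.R240.Ch Crest.Agent.R240.SmAdj

namespace Crest.Agent.R240.Sm

noncomputable section

variable {M : Type*} [MetricSpace M] [CompactSpace M] [ChartedSpace E4 M]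
    [IsManifold 𝓘(ℝ, E4) ∞ M] [MeasurableSpace M] [BorelSpace M]

/-- the operators of the system as compositions of averages. -/
lemma Sys.opL_avgL {S : Sys M} {e : ℝ} (h : S.Ok e) (q : Fin S.n → KF) (l : List (Fin S.n))
    (b : X2 M) :
    (S.opL e q l b : F2 E4 M) = avgL S.G S.p (fun i => kk (q i).1) e l (b : F2 E4 M) := by
  induction l with
  | nil => rfl
  | cons i l ih =>
    rw [Sys.opL_cons, LinearMap.comp_apply, Sys.op1_coe h i (q i).2, ih, avgL_cons]
    rfl

lemma kk_hcs (q : E4 → ℝ) : HasCompactSupport (kk q) :=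
  (isCompact_closedBall (0 : E4) 1).of_isClosed_subset (isClosed_tsupport _) (kk_supp q)

/-- `SmPack.exact`. -/
theorem fExact (S : Sys M) : FExact S := by
  obtain ⟨e1, he1, -, hok⟩ := S.exists_ok
  refine ⟨e1, he1, fun e q he hle b hb => ?_⟩
  have h := hok e he hle
  have h1 := isEx_avgL (κ := fun i => kk (q i).1) S.hG (fun i => (kk_smooth (q i).2).continuous)
    (fun i => kk_hcs _) (fun i => (h.adm_kk i (q i).2).mem) (List.finRange S.n) b.2 hb
  rw [Sys.A, Sys.opL_avgL h]
  exact h1

/-- `SmPack.adj`. -/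
theorem fAdj (D : Dat M) (S : Sys M) : FAdj D S := by
  obtain ⟨e1, he1, -, hok⟩ := S.exists_ok
  obtain ⟨𝒰⟩ := exists_Cover (M := M)
  have h1 := adj_avgL (κ := fun _ : Fin S.n => kap0) D 𝒰 S.hG (fun _ => kap0_cont)
    (fun _ => kap0_comp) (fun _ => kap0_integral) (ρ := 2) two_pos
    (fun _ => by rw [tsupport_kap0]; exact closedBall_subset_ball (by norm_num))
    (e0 := e1 / 4) (e1 := e1 / 2) (by linarith)
    (fun i => by
      have := (hok e1 he1 le_rfl).2 i
      rw [Sys.G_r]; linarith) (List.finRange S.n)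
  obtain ⟨C, hC⟩ := h1
  refine ⟨e1 / 4, by positivity, C, fun e he hle P hP => ?_⟩
  have h := hok e he (by linarith)
  have h2 := hC e he hle P.1 P.2 hP
  rw [Sys.A, Sys.opL_avgL h]
  have h3 : (fun i => kk ((oneK S.n) i).1) = fun _ : Fin S.n => kap0 := by
    funext i; exact kk_one
  rw [h3]
  exact h2

end

end Crest.Agent.R240.Sm
end

-- ▼ part R240/SmSignF

/-!
# Row 240, N8 (helper136): the field `sign` of `SmPack`
-/

set_option autoImplicit false
set_option maxSynthPendingDepth 3

open Set Function Filter MeasureTheory Metric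
open scoped Manifold ContDiff Topology

namespace Crest.Agent.R240.SmSign

open Crest.Agent.R240.Ch Crest.Agent.R240.Sm

variable {M : Type*} [MetricSpace M] [CompactSpace M] [ChartedSpace E4 M]
    [IsManifold 𝓘(ℝ, E4) ∞ M] [MeasurableSpace M] [BorelSpace M]

omit [CompactSpace M] [MeasurableSpace M] [BorelSpace M] in
/-- **field `sign` of `SmPack`.** -/
theorem fSign (S : Sys M) : FSign S := by
  obtain ⟨e1, he1, -, hok⟩ := S.exists_ok
  refine ⟨e1, he1, fun k => ⟨2 ^ S.n, fun e he hee L b R hR q hq => ?_⟩⟩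
  have h := hok e he hee
  refine sign_AL (G := S.G) (p := S.p) S.hG (κ₀ := kap0) ⟨kap0_cont, tsupport_kap0.subset⟩
    (ρ := fun _ => e) (fun i => h.2 i) he (fun _ => le_rfl) (fun q => S.A e q)
    (fun q b => Sys.opL_coe h q (List.finRange S.n) b) (closedBall 0 1) k L b R
    (fun q hq h0 => hR q ⟨hq, h0⟩) q hq

end Crest.Agent.R240.SmSign
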