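import Mathlib
import Crest.Agent.R240.SmFE2_Mg
import Crest.Agent.R240.Lk1
import Crest.Agent.R240.Lin1
import Crest.Agent.R240.SmInt
import Crest.Agent.R240.SmJoint
import Crest.Agent.R240.SmSlice
import Crest.Agent.R240.Cmp
import Crest.Agent.R240.XInst
import Crest.Agent.R240.Fre
import Crest.Agent.R240.SmSys
import Crest.Agent.R240.NrmM
import Crest.Agent.R240.NrCm
import Crest.Agent.R240.Sm4a
import Crest.Agent.R240.Ch7
import Crest.Agent.R240.LkF_Mg
import Crest.Agent.R240.CmPi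
import Crest.Agent.R240.Sm7a
import Crest.Agent.R240.SmSignF_Mg
import Crest.Agent.R240.Q5_Mg
import Crest.Agent.R240.SmFCrude

-- ▼ part R240/SmFRepm
section

/-!
Row 240, N8: the field `repm` (helper837).
-/

set_option autoImplicit false
set_option maxSynthPendingDepth 3

open scoped Manifold ContDiff Topology
open Crest.Agent.R240.Ch Crest.Agent.R240.Sm

namespace Crest.Agent.R240.SmF

variable {M : Type*} [MetricSpace M] [CompactSpace M] [ChartedSpace E4 M]
    [IsManifold 𝓘(ℝ, E4) ∞ M] [MeasurableSpace M] [BorelSpace M]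

/-- **the field `repm`.** -/
theorem fRepm (D : Dat M) (S : Sys M) : FRepm D S := fRepm_of D S (exists_dens D S)

end Crest.Agent.R240.SmF
end

-- ▼ part R240/Lk2
section

/-!
# Row 240, LEAK (helper895), part 2: coefficients of jointly smooth functions
-/

set_option autoImplicit false
set_option maxSynthPendingDepth 3
set_option linter.unusedSectionVars false
open Set Filter Topology MeasureTheory
open scoped ContDiff

namespace Crest.Agent.R240.Lk

noncomputable section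

variable {d : Type} [Fintype d]

variable (d) in
/-- the compact cube inside the open unit cube -/
def Kc : Set (d → ℝ) := Icc (fun _ => 1 / 16) (fun _ => 15 / 16)

lemma isCompact_Kc : IsCompact (Kc d) := isCompact_Icc

lemma isClosed_Kc : IsClosed (Kc d) := isClosed_Icc

instance : CompactSpace (Kc d) := isCompact_iff_compactSpace.1 isCompact_Kc

lemma vol_Kc_le : (volume : Measure (d → ℝ)).real (Kc d) ≤ 1 := by
  have h : volume (Kc d) ≤ 1 := by
    rw [Kc, Real.volume_Icc_pi]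
    refine Finset.prod_le_one' (fun i _ => ?_)
    rw [ENNReal.ofReal_le_one]
    norm_num
  have := ENNReal.toReal_mono ENNReal.one_ne_top h
  simpa [Measure.real] using this

/-- Lebesgue measure on the cube -/
def muK : Measure (Kc d) := Measure.comap Subtype.val (volume : Measure (d → ℝ))

lemma muK_univ : (muK (d := d)) univ = volume (Kc d) := by
  rw [muK, comap_subtype_coe_apply isClosed_Kc.measurableSet, image_univ, Subtype.range_coe]

instance : IsFiniteMeasure (muK (d := d)) := ⟨by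
  rw [muK_univ]; exact isCompact_Kc.measure_lt_top⟩

section
variable {Y : Type} [NormedAddCommGroup Y] [NormedSpace ℝ Y]
  {V : Type} [NormedAddCommGroup V] [NormedSpace ℝ V]

/-- admissible: jointly smooth, supported in the cube -/
structure Adm (Y0 : Set Y) (H : Y × (d → ℝ) → V) : Prop where
  smooth : ContDiffOn ℝ ∞ H (Y0 ×ˢ univ)
  supp : ∀ y ∈ Y0, ∀ w ∉ Kc d, H (y, w) = 0

/-- the Fourier coefficients -/
def coef (s : Bool) (n : d → ℤ) (H : Y × (d → ℝ) → V) (y : Y) : V :=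
  ∫ w, tg s (ph n w) • H (y, w)

/-- the coefficient as a continuous linear map on `C(Kc, V)` -/
def Phi (V : Type) [NormedAddCommGroup V] [NormedSpace ℝ V] (s : Bool) (n : d → ℤ) :
    C(Kc d, V) →L[ℝ] V :=
  LinearMap.mkContinuous
    { toFun := fun f => ∫ w : Kc d, tg s (ph n (w : d → ℝ)) • f w ∂muK
      map_add' := fun f g => by
        have hI : ∀ f : C(Kc d, V), Integrable (fun w : Kc d => tg s (ph n (w : d → ℝ)) • f w) muK := by
          intro f
          have hc : Continuous (fun w : Kc d => tg s (ph n (w : d → ℝ)) • f w) := by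
            exact ((contDiff_tgph s n).continuous.comp continuous_subtype_val).smul f.continuous
          exact hc.integrable_of_hasCompactSupport (HasCompactSupport.of_compactSpace _)
        rw [← integral_add (hI f) (hI g)]
        simp
      map_smul' := fun c f => by
        simp only [ContinuousMap.smul_apply, RingHom.id_apply]
        rw [← integral_smul]
        congr 1
        funext w
        rw [smul_comm] }
    1 (fun f => by
      have h1 : ‖∫ w : Kc d, tg s (ph n (w : d → ℝ)) • f w ∂muK‖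
          ≤ ‖f‖ * (muK : Measure (Kc d)).real univ := by
        refine norm_integral_le_of_norm_le_const (Eventually.of_forall fun w => ?_)
        rw [norm_smul, Real.norm_eq_abs]
        calc |tg s (ph n (w : d → ℝ))| * ‖f w‖ ≤ 1 * ‖f‖ :=
              mul_le_mul (abs_tg_le _ _) (f.norm_coe_le_norm w) (norm_nonneg _) zero_le_one
          _ = ‖f‖ := one_mul _
      have h2 : (muK : Measure (Kc d)).real univ ≤ 1 := by
        have : (muK : Measure (Kc d)).real univ = (volume : Measure (d → ℝ)).real (Kc d) := by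
          simp only [Measure.real]
          rw [muK_univ]
        rw [this]
        exact vol_Kc_le
      calc _ ≤ ‖f‖ * (muK : Measure (Kc d)).real univ := h1
        _ ≤ ‖f‖ * 1 := mul_le_mul_of_nonneg_left h2 (norm_nonneg _)
        _ = 1 * ‖f‖ := by ring)

lemma Phi_norm_le (s : Bool) (n : d → ℤ) : ‖Phi V s n‖ ≤ 1 :=
  LinearMap.mkContinuous_norm_le _ zero_le_one _

lemma coef_eq_Phi {Y0 : Set Y} {H : Y × (d → ℝ) → V} (hH : Adm Y0 H) (s : Bool) (n : d → ℤ)
    {y : Y} (hy : y ∈ Y0) : coef s n H y = Phi V s n (SmJ.restr (Kc d) H y) := by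
  have h1 : coef s n H y = ∫ w in Kc d, tg s (ph n w) • H (y, w) := by
    rw [coef, setIntegral_eq_integral_of_forall_compl_eq_zero]
    intro w hw
    rw [hH.supp y hy w hw, smul_zero]
  rw [h1, ← integral_subtype_comap isClosed_Kc.measurableSet]
  change _ = ∫ w : Kc d, tg s (ph n (w : d → ℝ)) • (SmJ.restr (Kc d) H y) w ∂muK
  refine integral_congr_ae (Eventually.of_forall fun w => ?_)
  change tg s (ph n (w : d → ℝ)) • H (y, (w : d → ℝ))
    = tg s (ph n (w : d → ℝ)) • (SmJ.restr (Kc d) H y) w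
  rw [SmJ.restr_apply (U := Y0) (W := univ) (subset_univ _) hH.smooth.continuousOn hy]

lemma contDiffOn_restr {Y0 : Set Y} (hY : IsOpen Y0) {H : Y × (d → ℝ) → V} (hH : Adm Y0 H) :
    ContDiffOn ℝ ∞ (SmJ.restr (Kc d) H) Y0 :=
  SmJ.contDiffOn_restr (Kc d) hY isOpen_univ (subset_univ _) hH.smooth

/-- the coefficients are smooth -/
lemma contDiffOn_coef {Y0 : Set Y} (hY : IsOpen Y0) {H : Y × (d → ℝ) → V} (hH : Adm Y0 H)
    (s : Bool) (n : d → ℤ) : ContDiffOn ℝ ∞ (coef s n H) Y0 := by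
  have h1 : ContDiffOn ℝ ∞ (fun y => Phi V s n (SmJ.restr (Kc d) H y)) Y0 :=
    (Phi V s n).contDiff.comp_contDiffOn (contDiffOn_restr hY hH)
  exact h1.congr fun y hy => coef_eq_Phi hH s n hy

/-- the derivatives of the coefficients are bounded on compact sets, uniformly in `n` -/
lemma coef_bound {Y0 : Set Y} (hY : IsOpen Y0) {H : Y × (d → ℝ) → V} (hH : Adm Y0 H)
    {K : Set Y} (hK : IsCompact K) (hKY : K ⊆ Y0) (j : ℕ) :
    ∃ C, 0 ≤ C ∧ ∀ s n, ∀ y ∈ K, ‖iteratedFDeriv ℝ j (coef s n H) y‖ ≤ C := by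
  have hr := contDiffOn_restr hY hH
  have hc : ContinuousOn (fun y => ‖iteratedFDeriv ℝ j (SmJ.restr (Kc d) H) y‖) Y0 := by
    have h1 : ContinuousOn (iteratedFDerivWithin ℝ j (SmJ.restr (Kc d) H) Y0) Y0 :=
      hr.continuousOn_iteratedFDerivWithin (by exact_mod_cast le_top) hY.uniqueDiffOn
    refine h1.norm.congr fun y hy => ?_
    simp only
    rw [iteratedFDerivWithin_of_isOpen j hY hy]
  obtain ⟨C, hC⟩ := hK.exists_bound_of_continuousOn (hc.mono hKY)
  refine ⟨max C 0, le_max_right _ _, fun s n y hy => ?_⟩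
  have hy' := hKY hy
  have e1 : coef s n H =ᶠ[𝓝 y] fun y => Phi V s n (SmJ.restr (Kc d) H y) := by
    filter_upwards [hY.mem_nhds hy'] with z hz using coef_eq_Phi hH s n hz
  rw [(e1.iteratedFDeriv ℝ j).eq_of_nhds]
  have h2 := ContinuousLinearMap.norm_iteratedFDeriv_comp_left (Phi V s n)
    (hr.contDiffAt (hY.mem_nhds hy')) (n := j) (by exact_mod_cast le_top)
  refine h2.trans ?_
  calc ‖Phi V s n‖ * ‖iteratedFDeriv ℝ j (SmJ.restr (Kc d) H) y‖
      ≤ 1 * ‖iteratedFDeriv ℝ j (SmJ.restr (Kc d) H) y‖ :=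
        mul_le_mul_of_nonneg_right (Phi_norm_le s n) (norm_nonneg _)
    _ ≤ max C 0 := by
        rw [one_mul]
        have := hC y hy
        rw [Real.norm_of_nonneg (norm_nonneg _)] at this
        exact this.trans (le_max_left _ _)

end

end

end Crest.Agent.R240.Lk
end

-- ▼ part R240/Lk3
section

/-!
# Row 240, LEAK (helper895), part 3: decay of the coefficients (integration by parts)
-/

set_option autoImplicit false
set_option maxSynthPendingDepth 3
set_option linter.unusedSectionVars false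
open Set Filter Topology MeasureTheory
open scoped ContDiff

namespace Crest.Agent.R240.Lk

noncomputable section

variable {d : Type} [Fintype d] [DecidableEq d]
variable {Y : Type} [NormedAddCommGroup Y] [NormedSpace ℝ Y]
  {V : Type} [NormedAddCommGroup V] [NormedSpace ℝ V]

/-- derivative in the direction of the `a`-th inner variable -/
def Da (a : d) (H : Y × (d → ℝ) → V) (p : Y × (d → ℝ)) : V :=
  fderiv ℝ H p (0, Pi.single a 1)

lemma Adm.Da {Y0 : Set Y} (hY : IsOpen Y0) {H : Y × (d → ℝ) → V} (hH : Adm Y0 H) (a : d) :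
    Adm Y0 (Da a H) := by
  have ho : IsOpen (Y0 ×ˢ (univ : Set (d → ℝ))) := hY.prod isOpen_univ
  refine ⟨?_, ?_⟩
  · have h1 : ContDiffOn ℝ ∞ (fderiv ℝ H) (Y0 ×ˢ univ) := hH.smooth.fderiv_of_isOpen ho (by simp)
    exact h1.clm_apply contDiffOn_const
  · intro y hy w hw
    have e : H =ᶠ[𝓝 (y, w)] fun _ => 0 := by
      have hn : Y0 ×ˢ (Kc d)ᶜ ∈ 𝓝 (y, w) :=
        (hY.prod isClosed_Kc.isOpen_compl).mem_nhds ⟨hy, hw⟩
      filter_upwards [hn] with q hq
      exact hH.supp q.1 hq.1 q.2 hq.2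
    unfold Lk.Da
    rw [e.fderiv_eq]
    simp

lemma Adm.add {Y0 : Set Y} {H G : Y × (d → ℝ) → V} (hH : Adm Y0 H) (hG : Adm Y0 G) :
    Adm Y0 (fun p => H p + G p) :=
  ⟨hH.smooth.add hG.smooth, fun y hy w hw => by
    simp [hH.supp y hy w hw, hG.supp y hy w hw]⟩

lemma Adm.smul {Y0 : Set Y} {H : Y × (d → ℝ) → V} (hH : Adm Y0 H) (c : ℝ) :
    Adm Y0 (fun p => c • H p) :=
  ⟨hH.smooth.const_smul c, fun y hy w hw => by simp [hH.supp y hy w hw]⟩

lemma Adm.cont {Y0 : Set Y} {H : Y × (d → ℝ) → V} (hH : Adm Y0 H) {y : Y} (hy : y ∈ Y0) :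
    Continuous (fun w => H (y, w)) :=
  hH.smooth.continuousOn.comp_continuous (by fun_prop) fun w => ⟨hy, mem_univ _⟩

lemma Adm.csupp {Y0 : Set Y} {H : Y × (d → ℝ) → V} (hH : Adm Y0 H) {y : Y} (hy : y ∈ Y0) :
    HasCompactSupport (fun w => H (y, w)) :=
  HasCompactSupport.intro isCompact_Kc fun w hw => hH.supp y hy w hw

lemma Adm.integrable {Y0 : Set Y} {H : Y × (d → ℝ) → V} (hH : Adm Y0 H) {y : Y} (hy : y ∈ Y0)
    {f : (d → ℝ) → ℝ} (hf : Continuous f) : Integrable (fun w => f w • H (y, w)) := by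
  refine (hf.smul (hH.cont hy)).integrable_of_hasCompactSupport ?_
  exact (hH.csupp hy).smul_left

lemma Adm.diff {Y0 : Set Y} (hY : IsOpen Y0) {H : Y × (d → ℝ) → V} (hH : Adm Y0 H) {y : Y}
    (hy : y ∈ Y0) (w : d → ℝ) : HasFDerivAt (fun w => H (y, w))
      ((fderiv ℝ H (y, w)).comp (ContinuousLinearMap.inr ℝ Y (d → ℝ))) w := by
  have hd : DifferentiableAt ℝ H (y, w) :=
    (hH.smooth.contDiffAt ((hY.prod isOpen_univ).mem_nhds ⟨hy, mem_univ _⟩)).differentiableAt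
      (by simp)
  exact SmJ.hasFDerivAt_dy hd

lemma coef_add {Y0 : Set Y} {H G : Y × (d → ℝ) → V} (hH : Adm Y0 H) (hG : Adm Y0 G) (s : Bool)
    (n : d → ℤ) {y : Y} (hy : y ∈ Y0) :
    coef s n (fun p => H p + G p) y = coef s n H y + coef s n G y := by
  unfold coef
  rw [← integral_add (hH.integrable hy (contDiff_tgph s n).continuous)
    (hG.integrable hy (contDiff_tgph s n).continuous)]
  simp [smul_add]

lemma coef_smul (H : Y × (d → ℝ) → V) (c : ℝ) (s : Bool) (n : d → ℤ) (y : Y) :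
    coef s n (fun p => c • H p) y = c • coef s n H y := by
  unfold coef
  rw [← integral_smul]
  refine integral_congr_ae (Eventually.of_forall fun w => ?_)
  simp only
  rw [smul_comm]

/-- one integration by parts -/
lemma coef_Da {Y0 : Set Y} (hY : IsOpen Y0) {H : Y × (d → ℝ) → V} (hH : Adm Y0 H) (s : Bool)
    (n : d → ℤ) (a : d) {y : Y} (hy : y ∈ Y0) :
    coef s n (Da a H) y = (-(2 * Real.pi * n a * sg s)) • coef (!s) n H y := by
  have hf : Differentiable ℝ (fun w => tg s (ph n w)) :=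
    (contDiff_tgph s n).differentiable (by simp)
  have hg : Differentiable ℝ (fun w => H (y, w)) := fun w => (hH.diff hY hy w).differentiableAt
  have e1 : ∀ w, fderiv ℝ (fun w => H (y, w)) w (Pi.single a 1) = Da a H (y, w) := by
    intro w
    rw [(hH.diff hY hy w).fderiv]
    simp [Da]
  have hD := hH.Da hY a
  have h1 : Integrable (fun w => fderiv ℝ (fun w => tg s (ph n w)) w (Pi.single a 1) • H (y, w)) := by
    refine hH.integrable hy ?_
    simp only [fderiv_tgph]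
    exact continuous_const.mul (contDiff_tgph (!s) n).continuous
  have h2 : Integrable (fun w => tg s (ph n w) • fderiv ℝ (fun w => H (y, w)) w (Pi.single a 1)) := by
    simp only [e1]
    exact hD.integrable hy (contDiff_tgph s n).continuous
  have h3 : Integrable (fun w => tg s (ph n w) • H (y, w)) :=
    hH.integrable hy (contDiff_tgph s n).continuous
  have key := integral_smul_fderiv_eq_neg_fderiv_smul_of_integrable (μ := volume)
    (v := (Pi.single a 1 : d → ℝ)) h1 h2 h3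
    (fun x _ => hf x) (fun x _ => hg x)
  simp only [e1, fderiv_tgph] at key
  unfold coef
  rw [key, ← integral_neg, ← integral_smul]
  refine integral_congr_ae (Eventually.of_forall fun w => ?_)
  simp only
  rw [smul_smul, ← neg_smul]
  congr 1
  ring

/-- the operator `1 - (4π²)⁻¹ ∂_a²` -/
def Ta (a : d) (H : Y × (d → ℝ) → V) (p : Y × (d → ℝ)) : V :=
  H p + (-(4 * Real.pi ^ 2)⁻¹) • Da a (Da a H) p

lemma Adm.Ta {Y0 : Set Y} (hY : IsOpen Y0) {H : Y × (d → ℝ) → V} (hH : Adm Y0 H) (a : d) :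
    Adm Y0 (Ta a H) :=
  hH.add (((hH.Da hY a).Da hY a).smul _)

lemma coef_Ta {Y0 : Set Y} (hY : IsOpen Y0) {H : Y × (d → ℝ) → V} (hH : Adm Y0 H) (s : Bool)
    (n : d → ℤ) (a : d) {y : Y} (hy : y ∈ Y0) :
    coef s n (Ta a H) y = (1 + (n a : ℝ) ^ 2) • coef s n H y := by
  unfold Ta
  rw [coef_add hH (((hH.Da hY a).Da hY a).smul _) s n hy, coef_smul,
    coef_Da hY (hH.Da hY a) s n a hy, coef_Da hY hH (!s) n a hy, Bool.not_not, smul_smul, smul_smul,
    add_smul, one_smul]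
  congr 2
  have h := sg_mul s
  have hp : Real.pi ≠ 0 := Real.pi_ne_zero
  have : -(2 * Real.pi * ↑(n a) * sg s) * -(2 * Real.pi * ↑(n a) * sg (!s))
      = 4 * Real.pi ^ 2 * (n a : ℝ) ^ 2 * (sg s * sg (!s)) := by ring
  rw [mul_assoc, this, h]
  field_simp

/-- the full operator for a list of variables -/
def TL (l : List d) (H : Y × (d → ℝ) → V) : Y × (d → ℝ) → V := l.foldr Ta H

lemma Adm.TL {Y0 : Set Y} (hY : IsOpen Y0) {H : Y × (d → ℝ) → V} (hH : Adm Y0 H) (l : List d) :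
    Adm Y0 (TL l H) := by
  induction l with
  | nil => exact hH
  | cons a l ih => exact Adm.Ta hY ih a

lemma coef_TL {Y0 : Set Y} (hY : IsOpen Y0) {H : Y × (d → ℝ) → V} (hH : Adm Y0 H) (s : Bool)
    (n : d → ℤ) (l : List d) {y : Y} (hy : y ∈ Y0) :
    coef s n (TL l H) y = (l.map fun a => 1 + (n a : ℝ) ^ 2).prod • coef s n H y := by
  induction l with
  | nil => simp [TL]
  | cons a l ih =>
    change coef s n (Ta a (TL l H)) y = _
    rw [coef_Ta hY (hH.TL hY l) s n a hy, ih, smul_smul, List.map_cons, List.prod_cons]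

/-- `∏_a (1 - (4π²)⁻¹ ∂_a²)` -/
def TT (H : Y × (d → ℝ) → V) : Y × (d → ℝ) → V := TL (Finset.univ : Finset d).toList H

lemma coef_TT {Y0 : Set Y} (hY : IsOpen Y0) {H : Y × (d → ℝ) → V} (hH : Adm Y0 H) (s : Bool)
    (n : d → ℤ) {y : Y} (hy : y ∈ Y0) :
    coef s n (TT H) y = wt n • coef s n H y := by
  rw [TT, coef_TL hY hH s n _ hy]
  congr 1
  rw [wt, Finset.prod_map_toList]

/-- iterated -/
def TTr (r : ℕ) (H : Y × (d → ℝ) → V) : Y × (d → ℝ) → V := TT^[r] H

lemma Adm.TTr {Y0 : Set Y} (hY : IsOpen Y0) {H : Y × (d → ℝ) → V} (hH : Adm Y0 H) (r : ℕ) :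
    Adm Y0 (TTr r H) := by
  induction r with
  | zero => exact hH
  | succ r ih =>
    unfold Lk.TTr
    rw [Function.iterate_succ_apply']
    exact Adm.TL hY ih _

lemma coef_TTr {Y0 : Set Y} (hY : IsOpen Y0) {H : Y × (d → ℝ) → V} (hH : Adm Y0 H) (s : Bool)
    (n : d → ℤ) (r : ℕ) {y : Y} (hy : y ∈ Y0) :
    coef s n (TTr r H) y = (wt n ^ r) • coef s n H y := by
  induction r with
  | zero => simp [TTr]
  | succ r ih =>
    have e : TTr (r + 1) H = TT (TTr r H) := Function.iterate_succ_apply' _ _ _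
    rw [e, coef_TT hY (hH.TTr hY r) s n hy, ih, smul_smul, pow_succ']

/-- **decay of the coefficients** with all their derivatives, uniformly on compact sets -/
theorem coef_decay {Y0 : Set Y} (hY : IsOpen Y0) {H : Y × (d → ℝ) → V} (hH : Adm Y0 H)
    {K : Set Y} (hK : IsCompact K) (hKY : K ⊆ Y0) (j r : ℕ) :
    ∃ C, 0 ≤ C ∧ ∀ s n, ∀ y ∈ K, ‖iteratedFDeriv ℝ j (coef s n H) y‖ ≤ C * (wt n ^ r)⁻¹ := by
  obtain ⟨C, hC0, hC⟩ := coef_bound hY (hH.TTr hY r) hK hKY j
  refine ⟨C, hC0, fun s n y hy => ?_⟩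
  have hw : 0 < wt n ^ r := pow_pos (wt_pos n) r
  have e1 : coef s n H =ᶠ[𝓝 y] fun y => (wt n ^ r)⁻¹ • coef s n (TTr r H) y := by
    filter_upwards [hY.mem_nhds (hKY hy)] with z hz
    rw [coef_TTr hY hH s n r hz, smul_smul, inv_mul_cancel₀ hw.ne', one_smul]
  rw [(e1.iteratedFDeriv ℝ j).eq_of_nhds]
  have hsm : ContDiffAt ℝ j (coef s n (TTr r H)) y :=
    ((contDiffOn_coef hY (hH.TTr hY r) s n).contDiffAt (hY.mem_nhds (hKY hy))).of_le
      (by exact_mod_cast le_top)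
  have h2 : iteratedFDeriv ℝ j (fun y => (wt n ^ r)⁻¹ • coef s n (TTr r H) y) y
      = (wt n ^ r)⁻¹ • iteratedFDeriv ℝ j (coef s n (TTr r H)) y :=
    iteratedFDeriv_const_smul_apply hsm
  rw [h2, norm_smul, Real.norm_of_nonneg (inv_nonneg.2 hw.le), mul_comm]
  exact mul_le_mul_of_nonneg_right (hC s n y hy) (inv_nonneg.2 hw.le)

end

end Crest.Agent.R240.Lk
end

-- ▼ part R240/Lk4
section

/-!
# Row 240, LEAK (helper895), part 4: pointwise convergence of the Fourier expansion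
-/

set_option autoImplicit false
set_option maxSynthPendingDepth 3
set_option linter.unusedSectionVars false
open Set Filter Topology MeasureTheory
open scoped ContDiff

namespace Crest.Agent.R240.Lk

noncomputable section

variable {d : Type} [Fintype d]

/-- the periodisation of a function supported in `Kc` -/
def per (F : (d → ℝ) → ℝ) (w : d → ℝ) : ℝ := F fun i => Int.fract (w i)

lemma continuous_per {F : (d → ℝ) → ℝ} (hF : Continuous F) (h0 : ∀ w ∉ Kc d, F w = 0) :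
    Continuous (per F) := by
  rw [continuous_iff_continuousAt]
  intro w
  by_cases hw : ∀ i, Int.fract (w i) ≠ 0
  · have h1 : ContinuousAt (fun w : d → ℝ => fun i => Int.fract (w i)) w := by
      rw [continuousAt_pi]
      intro i
      have : ContinuousAt (fun x : ℝ => Int.fract x) (w i) := by
        apply continuousAt_fract
        intro h
        apply hw i
        rw [Int.fract, sub_eq_zero]
        exact h
      exact ContinuousAt.comp (f := fun w : d → ℝ => w i) (x := w) this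
        (continuous_apply i).continuousAt
    exact hF.continuousAt.comp h1
  · push Not at hw
    obtain ⟨i, hi⟩ := hw
    obtain ⟨k, hk⟩ : ∃ k : ℤ, w i = k := ⟨⌊w i⌋, by
      rw [Int.fract] at hi; linarith⟩
    have e : per F =ᶠ[𝓝 w] fun _ => 0 := by
      have hn : {w' : d → ℝ | |w' i - k| < 1 / 16} ∈ 𝓝 w := by
        have ho : IsOpen {w' : d → ℝ | |w' i - k| < 1 / 16} :=
          isOpen_lt (by fun_prop) continuous_const
        exact ho.mem_nhds (by simp [hk])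
      filter_upwards [hn] with w' hw'
      replace hw' : |w' i - k| < 1 / 16 := hw'
      apply h0
      intro hK
      have hK1 := hK.1 i
      have hK2 := hK.2 i
      simp only at hK1 hK2
      rw [abs_lt] at hw'
      have h1 := Int.fract_add_floor (w' i)
      have h2 : (⌊w' i⌋ : ℝ) = w' i - Int.fract (w' i) := by linarith
      have h3 : ((⌊w' i⌋ : ℤ) : ℝ) < k := by rw [h2]; linarith
      have h4 : ((k : ℤ) : ℝ) - 1 < ((⌊w' i⌋ : ℤ) : ℝ) := by rw [h2]; linarith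
      have h5 : ⌊w' i⌋ < k := by exact_mod_cast h3
      have h6 : k - 1 < ⌊w' i⌋ := by exact_mod_cast h4
      omega
    exact continuousAt_const.congr_of_eventuallyEq e

/-- the function on the torus -/
def tor (F : (d → ℝ) → ℝ) (x : UnitAddTorus d) : ℂ :=
  ((F fun i => ((AddCircle.equivIco (1 : ℝ) 0 (x i) : Ico (0:ℝ) (0 + 1)) : ℝ) : ℝ) : ℂ)

lemma tor_coe (F : (d → ℝ) → ℝ) (w : d → ℝ) :
    tor F (fun i => (w i : UnitAddCircle)) = (per F w : ℂ) := by
  unfold tor per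
  congr 2
  funext i
  have := AddCircle.coe_equivIco_mk_apply (p := (1:ℝ)) (w i)
  rw [div_one, mul_one] at this
  exact this

lemma continuous_tor {F : (d → ℝ) → ℝ} (hF : Continuous F) (h0 : ∀ w ∉ Kc d, F w = 0) :
    Continuous (tor F) := by
  have hq : IsOpenQuotientMap (Pi.map fun _ : d => (fun x : ℝ => (x : UnitAddCircle))) :=
    IsOpenQuotientMap.piMap fun _ => QuotientAddGroup.isOpenQuotientMap_mk
  rw [hq.isQuotientMap.continuous_iff]
  have : (tor F ∘ Pi.map fun _ : d => (fun x : ℝ => (x : UnitAddCircle)))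
      = fun w => (per F w : ℂ) := by
    funext w
    exact tor_coe F w
  rw [this]
  exact Complex.continuous_ofReal.comp (continuous_per hF h0)

lemma per_eq {F : (d → ℝ) → ℝ} {w : d → ℝ} (hw : ∀ i, w i ∈ Ico (0:ℝ) 1) : per F w = F w := by
  unfold per
  congr 1
  funext i
  exact Int.fract_eq_self.2 ⟨(hw i).1, (hw i).2⟩

lemma per_eq' {F : (d → ℝ) → ℝ} (h0 : ∀ w ∉ Kc d, F w = 0) {w : d → ℝ}
    (hw : ∀ i, w i ∈ Icc (0:ℝ) 1) : per F w = F w := by
  by_cases h : ∀ i, w i ≠ 1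
  · exact per_eq fun i => ⟨(hw i).1, lt_of_le_of_ne (hw i).2 (h i)⟩
  · push Not at h
    obtain ⟨i, hi⟩ := h
    rw [h0 w, per, h0]
    · intro hK
      have := hK.1 i
      simp only [hi, Int.fract_one] at this
      norm_num at this
    · intro hK
      have := hK.2 i
      simp only [hi] at this
      norm_num at this

lemma mFourier_coe (n : d → ℤ) (w : d → ℝ) :
    UnitAddTorus.mFourier n (fun i => (w i : UnitAddCircle))
      = (Real.cos (ph n w) : ℂ) + (Real.sin (ph n w) : ℂ) * Complex.I := by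
  have h1 : UnitAddTorus.mFourier n (fun i => (w i : UnitAddCircle))
      = ∏ i, Complex.exp (2 * Real.pi * Complex.I * (n i) * (w i) / (1 : ℝ)) := by
    change ∏ i, fourier (n i) ((w i : ℝ) : AddCircle (1:ℝ)) = _
    refine Finset.prod_congr rfl fun i _ => ?_
    rw [fourier_coe_apply]
  rw [h1, ← Complex.exp_sum, Complex.ofReal_cos, Complex.ofReal_sin, ← Complex.exp_mul_I]
  congr 1
  rw [ph]
  push_cast
  rw [Finset.mul_sum, Finset.sum_mul]
  refine Finset.sum_congr rfl fun i _ => ?_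
  simp
  ring

lemma mFourierCoeff_tor {F : (d → ℝ) → ℝ} (hF : Continuous F) (h0 : ∀ w ∉ Kc d, F w = 0)
    (n : d → ℤ) : UnitAddTorus.mFourierCoeff (tor F) n
      = ((∫ w, tg false (ph n w) * F w : ℝ) : ℂ) - ((∫ w, tg true (ph n w) * F w : ℝ) : ℂ) * Complex.I := by
  rw [UnitAddTorus.mFourierCoeff_eq_integral _ _ 0]
  have hc : HasCompactSupport F := HasCompactSupport.intro isCompact_Kc fun w hw => h0 w hw
  have hint : ∀ s, Integrable (fun w => tg s (ph n w) * F w) := fun s =>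
    ((contDiff_tgph s n).continuous.mul hF).integrable_of_hasCompactSupport hc.mul_left
  have hset : MeasurableSet {x : d → ℝ | ∀ i, x i ∈ Ioc ((0 : d → ℝ) i) ((0 : d → ℝ) i + 1)} := by
    have := MeasurableSet.univ_pi (fun i : d => measurableSet_Ioc (a := (0 : d → ℝ) i)
      (b := (0 : d → ℝ) i + 1))
    convert this using 1
    ext x; simp [Set.mem_pi]
  have e1 : ∀ w ∈ {x : d → ℝ | ∀ i, x i ∈ Ioc ((0 : d → ℝ) i) ((0 : d → ℝ) i + 1)},
      UnitAddTorus.mFourier (-n) (fun i => (w i : UnitAddCircle)) • tor F (fun i => (w i : UnitAddCircle))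
      = ((tg false (ph n w) * F w : ℝ) : ℂ) - ((tg true (ph n w) * F w : ℝ) : ℂ) * Complex.I := by
    intro w hw
    rw [tor_coe, per_eq' h0 (fun i => by
      have := hw i
      simp only [Pi.zero_apply, zero_add] at this
      exact ⟨this.1.le, this.2⟩), UnitAddTorus.mFourier_neg, mFourier_coe, smul_eq_mul]
    simp only [map_add, map_mul, Complex.conj_ofReal, Complex.conj_I, tg, Bool.false_eq_true,
      if_false, if_true, Complex.ofReal_mul]
    ring
  rw [setIntegral_congr_fun hset e1, setIntegral_eq_integral_of_forall_compl_eq_zero]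
  · rw [integral_sub, integral_mul_const, integral_complex_ofReal, integral_complex_ofReal]
    · exact (hint false).ofReal
    · exact ((hint true).ofReal).mul_const _
  · intro w hw
    have : F w = 0 := by
      apply h0
      intro hK
      apply hw
      intro i
      have a1 := hK.1 i
      have a2 := hK.2 i
      simp only at a1 a2
      simp only [Pi.zero_apply, zero_add]
      constructor <;> linarith
    simp [this]

/-- pointwise convergence, real scalar case -/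
theorem hasSum_scalar {F : (d → ℝ) → ℝ} (hF : Continuous F) (h0 : ∀ w ∉ Kc d, F w = 0)
    (hs : ∀ s, Summable fun n : d → ℤ => ‖∫ w, tg s (ph n w) * F w‖)
    {w : d → ℝ} (hw : ∀ i, w i ∈ Icc (0:ℝ) 1) :
    HasSum (fun n : d → ℤ => tg false (ph n w) * (∫ w, tg false (ph n w) * F w)
      + tg true (ph n w) * ∫ w, tg true (ph n w) * F w) (F w) := by
  have hsum : Summable (UnitAddTorus.mFourierCoeff (tor F)) := by
    refine Summable.of_norm_bounded ((hs false).add (hs true)) fun n => ?_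
    rw [mFourierCoeff_tor hF h0]
    refine (norm_sub_le _ _).trans ?_
    rw [norm_mul, Complex.norm_I, mul_one, Complex.norm_real, Complex.norm_real]
  have h1 := UnitAddTorus.hasSum_mFourier_series_apply_of_summable
    (f := ⟨tor F, continuous_tor hF h0⟩) hsum (fun i => (w i : UnitAddCircle))
  have h2 := (Complex.reCLM.hasSum h1)
  change HasSum (fun n => Complex.re (UnitAddTorus.mFourierCoeff (tor F) n •
    UnitAddTorus.mFourier n (fun i => (w i : UnitAddCircle))))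
    (Complex.re (tor F (fun i => (w i : UnitAddCircle)))) at h2
  rw [tor_coe, Complex.ofReal_re, per_eq' h0 hw] at h2
  refine h2.congr_fun fun n => ?_
  rw [mFourierCoeff_tor hF h0, mFourier_coe, smul_eq_mul]
  simp only [tg, Bool.false_eq_true, if_false, if_true, Complex.mul_re, Complex.sub_re,
    Complex.sub_im, Complex.add_re, Complex.add_im, Complex.mul_im, Complex.ofReal_re,
    Complex.ofReal_im, Complex.I_re, Complex.I_im]
  ring

end

end Crest.Agent.R240.Lk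
end

-- ▼ part R240/Lk5
section

/-!
# Row 240, LEAK (helper895), part 5: vector valued Fourier series and the product form

* `hasSum_vec` : pointwise convergence for functions with values in a Banach space;
* `tg_sum` : `tg s (∑ θ_i)` as a finite combination of products `∏ tg (σ_i) θ_i`;
* `hasSum_prod` : the series with product kernels on `ι → E4`.
-/

set_option autoImplicit false
set_option linter.unusedSectionVars false
set_option maxSynthPendingDepth 3

open Set Function Filter MeasureTheory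
open scoped ContDiff Topology

namespace Crest.Agent.R240.Lk

noncomputable section

section vec
variable {d : Type} [Fintype d] [DecidableEq d]
variable {V : Type} [NormedAddCommGroup V] [NormedSpace ℝ V] [CompleteSpace V]

theorem hasSum_vec {F : (d → ℝ) → V} (hF : Continuous F) (h0 : ∀ w ∉ Kc d, F w = 0)
    (hs : ∀ s, Summable fun n : d → ℤ => ‖∫ w, tg s (ph n w) • F w‖)
    {w : d → ℝ} (hw : ∀ i, w i ∈ Icc (0:ℝ) 1) :
    HasSum (fun n : d → ℤ => tg false (ph n w) • (∫ w, tg false (ph n w) • F w)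
      + tg true (ph n w) • ∫ w, tg true (ph n w) • F w) (F w) := by
  have hc : HasCompactSupport F := HasCompactSupport.intro isCompact_Kc fun w hw => h0 w hw
  have hint : ∀ s n, Integrable (fun w => tg s (ph n w) • F w) := fun s n =>
    ((contDiff_tgph s n).continuous.smul hF).integrable_of_hasCompactSupport hc.smul_left
  have hb : ∀ s (n : d → ℤ) (v : V), ‖tg s (ph n w) • v‖ ≤ ‖v‖ := by
    intro s n v
    rw [norm_smul, Real.norm_eq_abs]
    exact mul_le_of_le_one_left (norm_nonneg _) (abs_tg_le _ _)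
  have hsum : Summable (fun n : d → ℤ => tg false (ph n w) • (∫ w, tg false (ph n w) • F w)
      + tg true (ph n w) • ∫ w, tg true (ph n w) • F w) := by
    refine Summable.of_norm_bounded ((hs false).add (hs true)) fun n => ?_
    exact (norm_add_le _ _).trans (add_le_add (hb _ _ _) (hb _ _ _))
  have key : (∑' n : d → ℤ, (tg false (ph n w) • (∫ w, tg false (ph n w) • F w)
      + tg true (ph n w) • ∫ w, tg true (ph n w) • F w)) = F w := by
    rw [SeparatingDual.eq_iff_forall_dual_eq (R := ℝ)]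
    intro g
    have e1 : ∀ s n, g (∫ w, tg s (ph n w) • F w) = ∫ w, tg s (ph n w) * g (F w) := by
      intro s n
      rw [← ContinuousLinearMap.integral_comp_comm _ (hint s n)]
      simp only [map_smul, smul_eq_mul]
    have h1 := hasSum_scalar (F := fun w => g (F w)) (g.continuous.comp hF)
      (fun w hw => by rw [h0 w hw, map_zero]) (fun s => by
        refine Summable.of_nonneg_of_le (fun n => norm_nonneg _) (fun n => ?_)
          ((hs s).mul_left ‖g‖)
        rw [← e1]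
        exact g.le_opNorm _) hw
    have h2 := g.hasSum hsum.hasSum
    refine h2.unique ?_
    refine h1.congr_fun fun n => ?_
    rw [map_add, map_smul, map_smul, smul_eq_mul, smul_eq_mul, e1, e1]
  rw [← key]
  exact hsum.hasSum

end vec

section trig
variable {ι : Type} [Fintype ι] [DecidableEq ι]

/-- the complex coefficients -/
def cc (σ : ι → Bool) : ℂ := ∏ i, (if σ i then Complex.I else 1)

lemma norm_cc (σ : ι → Bool) : ‖cc σ‖ = 1 := by
  unfold cc
  rw [norm_prod]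
  refine Finset.prod_eq_one fun i _ => ?_
  split_ifs <;> simp

/-- the real coefficients -/
def cs (s : Bool) (σ : ι → Bool) : ℝ := if s then (cc σ).im else (cc σ).re

lemma abs_cs_le (s : Bool) (σ : ι → Bool) : |cs s σ| ≤ 1 := by
  unfold cs
  split_ifs
  · exact (Complex.abs_im_le_norm _).trans (norm_cc σ).le
  · exact (Complex.abs_re_le_norm _).trans (norm_cc σ).le

lemma exp_sum (θ : ι → ℝ) : Complex.exp (((∑ i, θ i : ℝ) : ℂ) * Complex.I) =
    ∑ σ : ι → Bool, cc σ * ((∏ i, tg (σ i) (θ i) : ℝ) : ℂ) := by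
  have h1 : Complex.exp (((∑ i, θ i : ℝ) : ℂ) * Complex.I) =
      ∏ i, ∑ s : Bool, ((if s then Complex.I else 1) * (tg s (θ i) : ℂ)) := by
    push_cast
    rw [Finset.sum_mul, Complex.exp_sum]
    refine Finset.prod_congr rfl fun i _ => ?_
    rw [Complex.exp_mul_I, Fintype.sum_bool]
    simp only [tg, if_true, Bool.false_eq_true, if_false, one_mul]
    push_cast
    ring
  rw [h1, Finset.prod_univ_sum]
  rw [Fintype.piFinset_univ]
  refine Finset.sum_congr rfl fun σ _ => ?_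
  rw [Finset.prod_mul_distrib, cc]
  push_cast
  rfl

theorem tg_sum (s : Bool) (θ : ι → ℝ) : tg s (∑ i, θ i) =
    ∑ σ : ι → Bool, cs s σ * ∏ i, tg (σ i) (θ i) := by
  have h := exp_sum θ
  rw [Complex.exp_mul_I, ← Complex.ofReal_cos, ← Complex.ofReal_sin] at h
  cases s
  · have h2 := congrArg Complex.re h
    simp only [Complex.add_re, Complex.ofReal_re, Complex.mul_re, Complex.I_re, mul_zero,
      Complex.ofReal_im, Complex.I_im, mul_one, sub_self, add_zero, Complex.re_sum] at h2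
    simp only [tg, cs, Bool.false_eq_true, if_false]
    rw [h2]
    refine Finset.sum_congr rfl fun σ _ => ?_
    simp [tg]
  · have h2 := congrArg Complex.im h
    simp only [Complex.add_im, Complex.ofReal_im, Complex.mul_im, Complex.I_re, mul_zero,
      Complex.ofReal_re, Complex.I_im, mul_one, add_zero, zero_add, Complex.im_sum] at h2
    simp only [tg, cs, if_true]
    rw [h2]
    refine Finset.sum_congr rfl fun σ _ => ?_
    simp [tg]

end trig

section prod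
variable {ι : Type} [Fintype ι] [DecidableEq ι]
variable {V : Type} [NormedAddCommGroup V] [NormedSpace ℝ V] [CompleteSpace V]

/-- the cube coordinates -/
def wz (z : ι → E4) : ι × Fin 4 → ℝ := fun q => z q.1 q.2 / 8 + 1 / 2

/-- the one-factor phase -/
def th (n : Fin 4 → ℤ) (z : E4) : ℝ := 2 * Real.pi * ∑ a, (n a : ℝ) * (z a / 8 + 1 / 2)

/-- the index set of the expansion -/
abbrev Ix (ι : Type) : Type := ((ι × Fin 4 → ℤ) × Bool) × (ι → Bool)

/-- the slice of a multi-index -/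
def sl (n : ι × Fin 4 → ℤ) (i : ι) : Fin 4 → ℤ := fun a => n (i, a)

/-- the one-factor multiplier -/
def tf (ν : Ix ι) (i : ι) (z : E4) : ℝ := tg (ν.2 i) (th (sl ν.1.1 i) z)

lemma ph_wz (n : ι × Fin 4 → ℤ) (z : ι → E4) : ph n (wz z) = ∑ i, th (sl n i) (z i) := by
  unfold ph wz th sl
  rw [← Finset.mul_sum, Fintype.sum_prod_type]

lemma wz_mem {z : ι → E4} (hz : ∀ i, ‖z i‖ ≤ 4) : ∀ q, wz z q ∈ Icc (0:ℝ) 1 := by
  intro q
  have h1 : |z q.1 q.2| ≤ ‖z q.1‖ := by
    have := EuclideanSpace.norm_eq (z q.1)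
    rw [this]
    apply Real.abs_le_sqrt
    have : ‖z q.1 q.2‖ ^ 2 ≤ ∑ a, ‖z q.1 a‖ ^ 2 :=
      Finset.single_le_sum (f := fun a => ‖z q.1 a‖ ^ 2) (fun a _ => by positivity)
        (Finset.mem_univ q.2)
    simpa using this
  have h2 := (h1.trans (hz q.1))
  rw [abs_le] at h2
  unfold wz
  constructor <;> linarith [h2.1, h2.2]

/-- regrouping of a Fourier series into products -/
theorem hasSum_expand {c : (ι × Fin 4 → ℤ) × Bool → V} (hc : ∀ s, Summable fun n => ‖c (n, s)‖)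
    (z : ι → E4) {v : V}
    (h1 : HasSum (fun n : ι × Fin 4 → ℤ => tg false (ph n (wz z)) • c (n, false) +
      tg true (ph n (wz z)) • c (n, true)) v) :
    HasSum (fun ν : Ix ι => (∏ i, tf ν i (z i)) • (cs ν.1.2 ν.2 • c ν.1)) v := by
  have hA : Summable (fun p : (ι × Fin 4 → ℤ) × Bool => ‖c p‖) := by
    rw [← (Equiv.prodComm Bool (ι × Fin 4 → ℤ)).summable_iff]
    refine (summable_prod_of_nonneg fun _ => norm_nonneg _).2 ⟨fun s => hc s, ?_⟩
    exact (hasSum_fintype _).summable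
  have hsum : Summable (fun ν : Ix ι => (∏ i, tf ν i (z i)) • (cs ν.1.2 ν.2 • c ν.1)) := by
    have hb : ∀ ν : Ix ι, ‖(∏ i, tf ν i (z i)) • (cs ν.1.2 ν.2 • c ν.1)‖ ≤
        (fun p : (ι × Fin 4 → ℤ) × Bool => ‖c p‖) ν.1 * (fun _ : ι → Bool => (1:ℝ)) ν.2 := by
      intro ν
      rw [norm_smul, norm_smul, Real.norm_eq_abs, Real.norm_eq_abs, Finset.abs_prod, mul_one]
      have h2 : (∏ i, |tf ν i (z i)|) ≤ 1 :=
        Finset.prod_le_one (fun i _ => abs_nonneg _) (fun i _ => abs_tg_le _ _)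
      have h3 : 0 ≤ ∏ i, |tf ν i (z i)| := Finset.prod_nonneg fun i _ => abs_nonneg _
      calc (∏ i, |tf ν i (z i)|) * (|cs ν.1.2 ν.2| * ‖c ν.1‖) ≤ 1 * (1 * ‖c ν.1‖) :=
            mul_le_mul h2 (mul_le_mul_of_nonneg_right (abs_cs_le _ _) (norm_nonneg _))
              (by positivity) zero_le_one
        _ = ‖c ν.1‖ := by rw [one_mul, one_mul]
    refine Summable.of_norm_bounded ?_ hb
    have hB : Summable (fun _ : ι → Bool => (1:ℝ)) := (hasSum_fintype _).summable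
    exact Summable.mul_of_nonneg (f := fun p : (ι × Fin 4 → ℤ) × Bool => ‖c p‖)
      (g := fun _ : ι → Bool => (1:ℝ)) hA hB (fun _ => norm_nonneg _) (fun _ => zero_le_one)
  have hS := hsum.hasSum
  have h3 : HasSum (fun p : (ι × Fin 4 → ℤ) × Bool => tg p.2 (ph p.1 (wz z)) • c p)
      (∑' ν : Ix ι, (∏ i, tf ν i (z i)) • (cs ν.1.2 ν.2 • c ν.1)) := by
    refine hS.prod_fiberwise fun p => ?_
    have e : tg p.2 (ph p.1 (wz z)) • c p =
        ∑ σ : ι → Bool, (∏ i, tf (p, σ) i (z i)) • (cs p.2 σ • c p) := by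
      rw [ph_wz, tg_sum, Finset.sum_smul]
      refine Finset.sum_congr rfl fun σ _ => ?_
      rw [smul_smul, mul_comm (cs p.2 σ)]
      rfl
    rw [e]
    exact hasSum_fintype _
  have h4 : HasSum (fun n : ι × Fin 4 → ℤ => tg false (ph n (wz z)) • c (n, false) +
      tg true (ph n (wz z)) • c (n, true))
      (∑' ν : Ix ι, (∏ i, tf ν i (z i)) • (cs ν.1.2 ν.2 • c ν.1)) := by
    refine h3.prod_fiberwise fun n => ?_
    have := hasSum_fintype (fun s : Bool => tg s (ph n (wz z)) • c (n, s))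
    rw [Fintype.sum_bool, add_comm] at this
    exact this
  rw [h1.unique h4]
  exact hS

/-- **the expansion with product kernels** -/
theorem hasSum_prod {F : (ι × Fin 4 → ℝ) → V} (hF : Continuous F) (h0 : ∀ w ∉ Kc _, F w = 0)
    (hs : ∀ s, Summable fun n : ι × Fin 4 → ℤ => ‖∫ w, tg s (ph n w) • F w‖)
    {z : ι → E4} (hz : ∀ i, ‖z i‖ ≤ 4) :
    HasSum (fun ν : Ix ι => (∏ i, tf ν i (z i)) •
      (cs ν.1.2 ν.2 • ∫ w, tg ν.1.2 (ph ν.1.1 w) • F w)) (F (wz z)) :=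
  hasSum_expand (c := fun p => ∫ w, tg p.2 (ph p.1 w) • F w) hs z (hasSum_vec hF h0 hs (wz_mem hz))

end prod

end

end Crest.Agent.R240.Lk
end

-- ▼ part R240/SmHad
section

/-!
# Row 240, block R (helper245): Hadamard words (Taylor expansion with smooth remainder)

`Z` finite dimensional with basis `e`; `U ⊆ Z` open, star shaped at `0`.

* `had1 e a g z = ∫ s in 0..1, fderiv ℝ g (s • z) (e a)` and `hw1 e w g` (iterated);
* `zw e w z` : the monomial; `words ι n` : the words of length `n`;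
* `hw1_expand` : `g z = ∑_{n ≤ k} ∑_{w ∈ words n} zw w z • hw1 e w g 0 + ∑_{w ∈ words (k+1)} zw w z • hw1 e w g z`;
* `contDiffOn_hw1` : joint smoothness in parameters;
* `hw1_clm`, `hw1_add`, `hw1_smul` : linearity.
-/

set_option autoImplicit false
set_option linter.unusedSectionVars false
open Set Filter Topology MeasureTheory
open scoped ContDiff

namespace Crest.Agent.R240.SmJ

section
variable {Z : Type} [NormedAddCommGroup Z] [NormedSpace ℝ Z]
  {E' : Type} [NormedAddCommGroup E'] [NormedSpace ℝ E']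
  {V : Type} [NormedAddCommGroup V] [NormedSpace ℝ V]
  {V' : Type} [NormedAddCommGroup V'] [NormedSpace ℝ V']
  {ι : Type} [Fintype ι]

/-- the Hadamard coefficient in direction `e a` -/
noncomputable def had1 (e : Module.Basis ι ℝ Z) (a : ι) (g : Z → V) (z : Z) : V :=
  ∫ s in (0 : ℝ)..1, fderiv ℝ g (s • z) (e a)

/-- iterated Hadamard coefficients -/
noncomputable def hw1 (e : Module.Basis ι ℝ Z) : List ι → (Z → V) → Z → V
  | [], g => g
  | a :: w, g => had1 e a (hw1 e w g)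











section star
variable {U : Set Z} (hU : IsOpen U) (hs : ∀ z ∈ U, ∀ t ∈ Icc (0 : ℝ) 1, t • z ∈ U)
include hU hs

theorem contDiffOn_had1 {W : Set E'} (hW : IsOpen W) {G : Z × E' → V}
    (hG : ContDiffOn ℝ ∞ G (U ×ˢ W)) (e : Module.Basis ι ℝ Z) (a : ι) :
    ContDiffOn ℝ ∞ (fun p : Z × E' => had1 e a (fun z => G (z, p.2)) p.1) (U ×ˢ W) := by
  have hdx : ContDiffOn ℝ ∞ (dx G) (U ×ˢ W) := contDiffOn_dx (hU.prod hW) hG
  -- the integrand
  let s : Set ((Z × E') × ℝ) := {q | (q.2 • q.1.1, q.1.2) ∈ U ×ˢ W}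
  have hcont : Continuous (fun q : (Z × E') × ℝ => ((q.2 • q.1.1, q.1.2) : Z × E')) := by
    fun_prop
  have hsm : ContDiff ℝ ∞ (fun q : (Z × E') × ℝ => ((q.2 • q.1.1, q.1.2) : Z × E')) := by
    fun_prop
  have hso : IsOpen s := (hU.prod hW).preimage hcont
  have hsub : (U ×ˢ W) ×ˢ (Icc (0:ℝ) 1) ⊆ s := by
    rintro ⟨⟨z, x⟩, t⟩ ⟨⟨hz, hx⟩, ht⟩
    exact ⟨hs z hz t ht, hx⟩
  have hg : ContDiffOn ℝ ∞ (fun q : (Z × E') × ℝ => dx G (q.2 • q.1.1, q.1.2) (e a)) s := by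
    have h1 : ContDiffOn ℝ ∞ (fun q : (Z × E') × ℝ => dx G (q.2 • q.1.1, q.1.2)) s :=
      hdx.comp hsm.contDiffOn fun q hq => hq
    exact h1.clm_apply contDiffOn_const
  have h1 := contDiffOn_integral hso (hU.prod hW) (isCompact_Icc (a := (0:ℝ)) (b := 1)) hsub
    volume hg
  refine h1.congr fun p hp => ?_
  unfold had1
  rw [intervalIntegral.integral_of_le zero_le_one, integral_Icc_eq_integral_Ioc]
  refine setIntegral_congr_fun measurableSet_Ioc fun t ht => ?_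
  have hmem : (t • p.1, p.2) ∈ U ×ˢ W := ⟨hs _ hp.1 t ⟨ht.1.le, ht.2⟩, hp.2⟩
  have hd : DifferentiableAt ℝ G (t • p.1, p.2) :=
    (hG.contDiffAt ((hU.prod hW).mem_nhds hmem)).differentiableAt (by simp)
  change (fderiv ℝ (fun z => G (z, p.2)) (t • p.1)) (e a) = _
  rw [(hasFDerivAt_dx hd).fderiv]




theorem continuousOn_had_integrand {g : Z → V} (hg : ContDiffOn ℝ ∞ g U) {z : Z} (hz : z ∈ U)
    (v : Z) : ContinuousOn (fun t : ℝ => fderiv ℝ g (t • z) v) (Icc (0:ℝ) 1) := by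
  have h1 : ContinuousOn (fderiv ℝ g) U := hg.continuousOn_fderiv_of_isOpen hU (by simp)
  have h2 : ContinuousOn (fun t : ℝ => fderiv ℝ g (t • z)) (Icc (0:ℝ) 1) :=
    h1.comp (by fun_prop) fun t ht => hs z hz t ht
  exact h2.clm_apply continuousOn_const

theorem intervalIntegrable_had {g : Z → V} (hg : ContDiffOn ℝ ∞ g U) {z : Z} (hz : z ∈ U)
    (v : Z) : IntervalIntegrable (fun t : ℝ => fderiv ℝ g (t • z) v) volume 0 1 := by
  apply ContinuousOn.intervalIntegrable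
  rw [uIcc_of_le zero_le_one]
  exact continuousOn_had_integrand hU hs hg hz v

/-- **Hadamard's formula** -/
theorem had1_eq [CompleteSpace V] {g : Z → V} (hg : ContDiffOn ℝ ∞ g U)
    (e : Module.Basis ι ℝ Z) {z : Z} (hz : z ∈ U) :
    g z = g 0 + ∑ a, e.repr z a • had1 e a g z := by
  have h1 : ∀ t ∈ uIcc (0:ℝ) 1, HasDerivAt (fun t : ℝ => g (t • z)) (fderiv ℝ g (t • z) z) t := by
    intro t ht
    rw [uIcc_of_le zero_le_one] at ht
    have hd : DifferentiableAt ℝ g (t • z) :=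
      (hg.contDiffAt (hU.mem_nhds (hs z hz t ht))).differentiableAt (by simp)
    have h2 : HasDerivAt (fun t : ℝ => t • z) z t := by
      simpa using (hasDerivAt_id t).smul_const z
    exact hd.hasFDerivAt.comp_hasDerivAt t h2
  have h2 := intervalIntegral.integral_eq_sub_of_hasDerivAt h1
    (intervalIntegrable_had hU hs hg hz z)
  rw [one_smul, zero_smul] at h2
  have h3 : ∫ t in (0:ℝ)..1, fderiv ℝ g (t • z) z = ∑ a, e.repr z a • had1 e a g z := by
    have e1 : ∀ t : ℝ, fderiv ℝ g (t • z) z = ∑ a, e.repr z a • fderiv ℝ g (t • z) (e a) := by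
      intro t
      conv_lhs => rw [← e.sum_repr z]
      rw [map_sum]
      refine Finset.sum_congr rfl fun a _ => ?_
      rw [e.sum_repr, map_smul]
    simp_rw [e1]
    rw [intervalIntegral.integral_finsetSum]
    · refine Finset.sum_congr rfl fun a _ => ?_
      rw [intervalIntegral.integral_smul]
      rfl
    · intro a _
      exact (intervalIntegrable_had hU hs hg hz (e a)).smul _
  rw [h3] at h2
  rw [h2]
  abel


theorem had1_congr {g g' : Z → V} (h : ∀ z ∈ U, g z = g' z) (e : Module.Basis ι ℝ Z) (a : ι)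
    {z : Z} (hz : z ∈ U) : had1 e a g z = had1 e a g' z := by
  unfold had1
  refine intervalIntegral.integral_congr fun t ht => ?_
  rw [uIcc_of_le zero_le_one] at ht
  have : g =ᶠ[𝓝 (t • z)] g' := Filter.eventually_of_mem (hU.mem_nhds (hs z hz t ht)) h
  change fderiv ℝ g (t • z) (e a) = fderiv ℝ g' (t • z) (e a)
  rw [this.fderiv_eq]


theorem had1_clm [CompleteSpace V] [CompleteSpace V'] (A : V →L[ℝ] V') {g : Z → V}
    (hg : ContDiffOn ℝ ∞ g U) (e : Module.Basis ι ℝ Z) (a : ι) {z : Z} (hz : z ∈ U) :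
    had1 e a (fun z => A (g z)) z = A (had1 e a g z) := by
  unfold had1
  rw [← A.intervalIntegral_comp_comm (intervalIntegrable_had hU hs hg hz (e a))]
  refine intervalIntegral.integral_congr fun t ht => ?_
  rw [uIcc_of_le zero_le_one] at ht
  have hd : DifferentiableAt ℝ g (t • z) :=
    (hg.contDiffAt (hU.mem_nhds (hs z hz t ht))).differentiableAt (by simp)
  change fderiv ℝ (fun z => A (g z)) (t • z) (e a) = A (fderiv ℝ g (t • z) (e a))
  have h1 : HasFDerivAt (fun z => A (g z)) (A.comp (fderiv ℝ g (t • z))) (t • z) :=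
    A.hasFDerivAt.comp _ hd.hasFDerivAt
  rw [h1.fderiv]
  rfl






end star

end

end Crest.Agent.R240.SmJ
end

-- ▼ part R240/Lk6
section

/-!
# Row 240, LEAK (helper895), part 6: division by the scale, cut-off of jointly smooth families
-/

set_option autoImplicit false
set_option linter.unusedSectionVars false
set_option linter.style.haveILetI false
set_option maxSynthPendingDepth 3

open Set Function Filter MeasureTheory
open scoped Manifold ContDiff Topology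

namespace Crest.Agent.R240.Lk

open Crest.Agent.R240.Ch Crest.Agent.R240.Sm Crest.Agent.R240.SmJ

noncomputable section

variable {M : Type*} [TopologicalSpace M] [ChartedSpace E4 M] [IsManifold 𝓘(ℝ, E4) ∞ M]

section div
variable {Z : Type} [NormedAddCommGroup Z] [NormedSpace ℝ Z]

lemma at2_eq_rep (a : F2 E4 M) (x : M) : at2 a x = rep x a (chartAt E4 x x) := by
  ext u v
  exact (rep_self x a u v).symm

lemma jsm_at2 {U : Set Z} {β : Z → F2 E4 M} (h : JSm U β) (x : M) :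
    ContDiffOn ℝ ∞ (fun z => at2 (β z) x) U := by
  have h1 : ContDiffOn ℝ ∞ (fun z => rep x (β z) (chartAt E4 x x)) U :=
    (h.2 x).comp (f := fun z : Z => ((z, chartAt E4 x x) : Z × E4))
      (contDiff_id.prodMk contDiff_const).contDiffOn fun z hz => ⟨hz, mem_chart_target E4 x⟩
  exact h1.congr fun z _ => at2_eq_rep _ _

/-- **division by the scale.** -/
theorem exists_div [FiniteDimensional ℝ Z] {U : Set Z} (hU : IsOpen U)
    (hs : ∀ z ∈ U, ∀ t ∈ Icc (0 : ℝ) 1, t • z ∈ U) {β : Z → F2 E4 M} (hβ : JSm U β)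
    (h0 : ∀ x, at2 (β 0) x = 0) :
    ∃ δ : ℝ × Z → F2 E4 M, JSm {p : ℝ × Z | p.1 • p.2 ∈ U} δ ∧
      ∀ (e : ℝ) (z : Z), e • z ∈ U → ∀ x, at2 (β (e • z)) x = e • at2 (δ (e, z)) x := by
  classical
  set b := Module.finBasis ℝ Z with hb
  set δ : ℝ × Z → F2 E4 M := fun p x =>
    (∑ a, (b.repr p.2 a) • had1 b a (fun z => at2 (β z) x) (p.1 • p.2) : Bil) with hδ
  have hat : ∀ p x, at2 (δ p) x =
    ∑ a, (b.repr p.2 a) • had1 b a (fun z => at2 (β z) x) (p.1 • p.2) := fun _ _ => rfl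
  have hrep : ∀ q y, ∀ p : ℝ × Z, p.1 • p.2 ∈ U → rep q (δ p) y =
      ∑ a, (b.repr p.2 a) • had1 b a (fun z => rep q (β z) y) (p.1 • p.2) := by
    intro q y p hp
    rw [rep_eq_pull, ← pullL_apply, hat, map_sum]
    refine Finset.sum_congr rfl fun a _ => ?_
    rw [map_smul]
    congr 1
    have h1 := had1_clm hU hs (pullL (tcc q ((chartAt E4 q).symm y) ((chartAt E4 q).symm y)))
      (jsm_at2 hβ ((chartAt E4 q).symm y)) b a hp
    rw [← h1]
    rfl
  refine ⟨δ, ⟨?_, ?_⟩, ?_⟩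
  · intro p hp x v
    have hp' : p.1 • p.2 ∈ U := hp
    let ev : Bil →L[ℝ] ℝ := (ContinuousLinearMap.apply ℝ ℝ v).comp
      (ContinuousLinearMap.apply ℝ (E4 →L[ℝ] ℝ) v)
    have hev : ∀ c : Bil, ev c = c v v := fun c => rfl
    rw [← hev, hat, map_sum]
    refine Finset.sum_eq_zero fun a _ => ?_
    rw [map_smul, ← had1_clm hU hs ev (jsm_at2 hβ x) b a hp']
    have h2 : had1 b a (fun z => ev (at2 (β z) x)) (p.1 • p.2) = had1 b a (fun _ => (0:ℝ))
        (p.1 • p.2) := had1_congr hU hs (fun z hz => by rw [hev]; exact hβ.1 z hz x v) b a hp'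
    rw [h2]
    have h3 : had1 b a (fun _ => (0:ℝ)) (p.1 • p.2) = 0 := by
      unfold had1
      simp
    rw [h3, smul_zero]
  · intro q
    have h1 : ∀ a, ContDiffOn ℝ ∞ (fun w : (ℝ × Z) × E4 =>
        had1 b a (fun z => rep q (β z) w.2) (w.1.1 • w.1.2))
        ({p : ℝ × Z | p.1 • p.2 ∈ U} ×ˢ (chartAt E4 q).target) := by
      intro a
      have h2 := contDiffOn_had1 hU hs (chartAt E4 q).open_target (hβ.2 q) b a
      refine ContDiffOn.comp (g := fun p : Z × E4 => had1 b a (fun z => rep q (β z) p.2) p.1)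
        (f := fun w : (ℝ × Z) × E4 => (w.1.1 • w.1.2, w.2)) h2 ?_ ?_
      · have : ContDiff ℝ ∞ (fun w : (ℝ × Z) × E4 => (w.1.1 • w.1.2, w.2)) := by fun_prop
        exact this.contDiffOn
      · intro w hw
        exact ⟨hw.1, hw.2⟩
    have h2 : ContDiffOn ℝ ∞ (fun w : (ℝ × Z) × E4 =>
        ∑ a, (b.repr w.1.2 a) • had1 b a (fun z => rep q (β z) w.2) (w.1.1 • w.1.2))
        ({p : ℝ × Z | p.1 • p.2 ∈ U} ×ˢ (chartAt E4 q).target) := by
      refine ContDiffOn.sum fun a _ => ?_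
      have h3 : ContDiff ℝ ∞ (fun w : (ℝ × Z) × E4 => (b.repr w.1.2 a)) := by
        have h4 : ContDiff ℝ ∞ (fun z : Z => b.repr z a) := by
          have : (fun z : Z => b.repr z a) = fun z => (b.coord a).toContinuousLinearMap z := rfl
          rw [this]
          exact ContinuousLinearMap.contDiff _
        exact h4.comp (contDiff_snd.comp contDiff_fst)
      have h5 := h3.contDiffOn.smul (h1 a)
      exact h5
    exact h2.congr fun w hw => hrep q w.2 w.1 hw.1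
  · intro e z hz x
    have h1 := had1_eq hU hs (jsm_at2 hβ x) b hz
    rw [h1, h0 x, zero_add, hat, Finset.smul_sum]
    refine Finset.sum_congr rfl fun a _ => ?_
    rw [map_smul, Finsupp.smul_apply, smul_eq_mul, smul_smul]

/-- cut-off of a jointly smooth family. -/
theorem jsm_cut {W0 W : Set Z} (hW0 : IsOpen W0) {f : Z → ℝ} (hf : ContDiff ℝ ∞ f)
    (hcov : ∀ z ∈ W, z ∈ W0 ∨ z ∉ tsupport f) {β : Z → F2 E4 M} (hβ : JSm W0 β) :
    JSm W (fun z => f z • β z) := by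
  refine ⟨fun z hz x v => ?_, fun q w hw => ?_⟩
  · rw [at2_smul']
    change f z * at2 (β z) x v v = 0
    rcases hcov z hz with h | h
    · rw [hβ.1 z h x v, mul_zero]
    · rw [image_eq_zero_of_notMem_tsupport h, zero_mul]
  · rcases hcov w.1 hw.1 with h | h
    · have h1 := hβ.contDiffAt hW0 h (q := q) hw.2
      have h2 : ContDiffAt ℝ ∞ (fun w : Z × E4 => f w.1 • rep q (β w.1) w.2) w :=
        (hf.contDiffAt.comp w contDiffAt_fst).smul h1
      refine ContDiffAt.contDiffWithinAt ?_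
      refine h2.congr_of_eventuallyEq (Eventually.of_forall fun w => ?_)
      exact rep_smul' q _ _ _
    · refine ContDiffAt.contDiffWithinAt ?_
      have h2 : (fun w : Z × E4 => rep q (f w.1 • β w.1) w.2) =ᶠ[𝓝 w] fun _ => 0 := by
        have h3 : ∀ᶠ w' : Z × E4 in 𝓝 w, w'.1 ∉ tsupport f :=
          (continuous_fst.tendsto w).eventually
            ((isClosed_tsupport f).isOpen_compl.mem_nhds h)
        filter_upwards [h3] with w' hw'
        rw [image_eq_zero_of_notMem_tsupport hw', rep_smul', zero_smul]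
      exact contDiffAt_const.congr_of_eventuallyEq h2

end div

end

end Crest.Agent.R240.Lk
end

-- ▼ part R240/Lk7
section

/-!
# Row 240, LEAK (helper895), part 7: Fourier expansion of jointly smooth families of forms

`exists_fou` : for a jointly smooth family `β` on `U ⊆ (ι → E4)` with `β 0 = 0`, the family
`β (e • z)` is `∑_ν (∏ i, tf ν i (z i)) e c_ν(e)` for `‖z i‖ ≤ 1`, with smooth forms `c_ν(e)` that
decrease rapidly in `ν`, uniformly in `e`.
-/

set_option autoImplicit false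
set_option linter.unusedSectionVars false
set_option linter.style.haveILetI false
set_option maxSynthPendingDepth 3

open Set Function Filter MeasureTheory Metric
open scoped Manifold ContDiff Topology

namespace Crest.Agent.R240.Lk

open Crest.Agent.R240.Ch Crest.Agent.R240.Sm Crest.Agent.R240.SmJ

noncomputable section

variable {M : Type*} [TopologicalSpace M] [ChartedSpace E4 M] [IsManifold 𝓘(ℝ, E4) ∞ M]
variable {ι : Type} [Fintype ι] [DecidableEq ι]

/-- the parameters from the cube coordinates -/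
def zc (w : ι × Fin 4 → ℝ) : ι → E4 := fun i => WithLp.toLp 2 (fun a => 8 * (w (i, a) - 1 / 2))

lemma zc_wz (z : ι → E4) : zc (wz z) = z := by
  funext i
  ext a
  simp only [zc, wz]
  ring

lemma contDiff_zc : ContDiff ℝ ∞ (zc (ι := ι)) := by
  rw [contDiff_pi]
  intro i
  rw [contDiff_euclidean]
  intro a
  simp only [zc]
  fun_prop

lemma abs_apply_le (v : E4) (a : Fin 4) : |v a| ≤ ‖v‖ := by
  rw [EuclideanSpace.norm_eq]
  apply Real.abs_le_sqrt
  have : ‖v a‖ ^ 2 ≤ ∑ a, ‖v a‖ ^ 2 :=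
    Finset.single_le_sum (f := fun a => ‖v a‖ ^ 2) (fun a _ => by positivity) (Finset.mem_univ a)
  simpa using this

lemma mem_Kc_of {w : ι × Fin 4 → ℝ} (h : ∀ i, ‖zc w i‖ ≤ 7 / 2) : w ∈ Kc (ι × Fin 4) := by
  have h1 : ∀ q : ι × Fin 4, |8 * (w q - 1 / 2)| ≤ 7 / 2 := fun q =>
    (abs_apply_le (zc w q.1) q.2).trans (h q.1)
  constructor
  · intro q
    have := (abs_le.1 (h1 q)).1
    simp only
    linarith
  · intro q
    have := (abs_le.1 (h1 q)).2
    simp only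
    linarith

/-- the cut-off on the parameters -/
def cutZ (ρ : ℝ) (hρ : 1 < ρ) (z : ι → E4) : ℝ :=
  ∏ i, (⟨1, ρ, one_pos, hρ⟩ : ContDiffBump (0 : E4)) (z i)

lemma contDiff_cutZ {ρ : ℝ} (hρ : 1 < ρ) : ContDiff ℝ ∞ (cutZ (ι := ι) ρ hρ) := by
  unfold cutZ
  refine contDiff_prod fun i _ => ?_
  exact (ContDiffBump.contDiff _).comp (contDiff_apply ℝ E4 i)

lemma cutZ_one {ρ : ℝ} (hρ : 1 < ρ) {z : ι → E4} (hz : ∀ i, ‖z i‖ ≤ 1) : cutZ ρ hρ z = 1 := by
  unfold cutZ
  refine Finset.prod_eq_one fun i _ => ?_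
  exact ContDiffBump.one_of_mem_closedBall _ (by simpa using hz i)

lemma tsupport_cutZ {ρ : ℝ} (hρ : 1 < ρ) :
    tsupport (cutZ (ι := ι) ρ hρ) ⊆ {z | ∀ i, ‖z i‖ ≤ ρ} := by
  refine closure_minimal ?_ ?_
  · intro z hz i
    by_contra h
    push Not at h
    apply hz
    unfold cutZ
    refine Finset.prod_eq_zero (Finset.mem_univ i) ?_
    refine ContDiffBump.zero_of_le_dist _ ?_
    simpa using h.le
  · rw [Set.ofPred_forall]
    refine isClosed_iInter fun i => ?_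
    exact isClosed_le (by fun_prop) continuous_const

/-- the cut-off family in cube coordinates -/
def eta (ρ : ℝ) (hρ : 1 < ρ) (δ : ℝ × (ι → E4) → F2 E4 M) (p : ℝ × (ι × Fin 4 → ℝ)) : F2 E4 M :=
  cutZ ρ hρ (zc p.2) • δ (p.1, zc p.2)

lemma jsm_eta {U : Set (ι → E4)} (hU : IsOpen U) {e1 ρ : ℝ} (hρ : 1 < ρ)
    (hin : ∀ e : ℝ, |e| < e1 → ∀ z : ι → E4, (∀ i, ‖z i‖ ≤ ρ) → e • z ∈ U)
    {δ : ℝ × (ι → E4) → F2 E4 M} (hδ : JSm {p : ℝ × (ι → E4) | p.1 • p.2 ∈ U} δ) :
    JSm (Ioo (-e1) e1 ×ˢ (univ : Set (ι × Fin 4 → ℝ))) (eta ρ hρ δ) := by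
  have ho : IsOpen {p : ℝ × (ι → E4) | p.1 • p.2 ∈ U} :=
    hU.preimage (by fun_prop : Continuous fun p : ℝ × (ι → E4) => p.1 • p.2)
  set g : ℝ × (ι × Fin 4 → ℝ) → ℝ × (ι → E4) := fun p => (p.1, zc p.2) with hg
  have hgs : ContDiff ℝ ∞ g := contDiff_fst.prodMk (contDiff_zc.comp contDiff_snd)
  have h1 : JSm (g ⁻¹' {p : ℝ × (ι → E4) | p.1 • p.2 ∈ U}) (fun p => δ (g p)) :=
    hδ.comp hgs.contDiffOn (mapsTo_preimage _ _)
  refine jsm_cut (ho.preimage hgs.continuous) (f := fun p : ℝ × (ι × Fin 4 → ℝ) =>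
    cutZ ρ hρ (zc p.2)) ((contDiff_cutZ hρ).comp (contDiff_zc.comp contDiff_snd)) ?_ h1
  intro p hp
  by_cases h : ∀ i, ‖zc p.2 i‖ ≤ ρ
  · left
    exact hin p.1 (abs_lt.2 hp.1) _ h
  · right
    intro h2
    apply h
    have h3 : tsupport (fun p : ℝ × (ι × Fin 4 → ℝ) => cutZ ρ hρ (zc p.2)) ⊆
        (fun p : ℝ × (ι × Fin 4 → ℝ) => zc p.2) ⁻¹' {z : ι → E4 | ∀ i, ‖z i‖ ≤ ρ} := by
      refine closure_minimal ?_ ?_
      · intro p hp
        exact tsupport_cutZ hρ (subset_tsupport _ hp)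
      · refine IsClosed.preimage (contDiff_zc.continuous.comp continuous_snd) ?_
        rw [Set.ofPred_forall]
        refine isClosed_iInter fun i => ?_
        exact isClosed_le (by fun_prop) continuous_const
    exact h3 h2

lemma eta_zero {ρ : ℝ} (hρ : 1 < ρ) (hρ2 : ρ ≤ 7 / 2) (δ : ℝ × (ι → E4) → F2 E4 M) (e : ℝ)
    {w : ι × Fin 4 → ℝ} (hw : w ∉ Kc (ι × Fin 4)) (x : M) : at2 (eta ρ hρ δ (e, w)) x = 0 := by
  have h : cutZ ρ hρ (zc w) = 0 := by
    by_contra hne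
    apply hw
    have := tsupport_cutZ hρ (subset_tsupport _ hne)
    exact mem_Kc_of fun i => (this i).trans hρ2
  rw [eta, at2_smul', h, zero_smul]

/-- the family in a chart -/
def HH (q : M) (ρ : ℝ) (hρ : 1 < ρ) (δ : ℝ × (ι → E4) → F2 E4 M)
    (p : (ℝ × E4) × (ι × Fin 4 → ℝ)) : Bil := rep q (eta ρ hρ δ (p.1.1, p.2)) p.1.2

lemma adm_HH {U : Set (ι → E4)} (hU : IsOpen U) {e1 ρ : ℝ} (hρ : 1 < ρ) (hρ2 : ρ ≤ 7 / 2)
    (hin : ∀ e : ℝ, |e| < e1 → ∀ z : ι → E4, (∀ i, ‖z i‖ ≤ ρ) → e • z ∈ U)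
    {δ : ℝ × (ι → E4) → F2 E4 M} (hδ : JSm {p : ℝ × (ι → E4) | p.1 • p.2 ∈ U} δ) (q : M) :
    Adm (Ioo (-e1) e1 ×ˢ (chartAt E4 q).target) (HH q ρ hρ δ) := by
  refine ⟨?_, fun y hy w hw => ?_⟩
  · have h1 := (jsm_eta hU hρ hin hδ).2 q
    refine h1.comp (f := fun p : (ℝ × E4) × (ι × Fin 4 → ℝ) => ((p.1.1, p.2), p.1.2)) ?_ ?_
    · have : ContDiff ℝ ∞ (fun p : (ℝ × E4) × (ι × Fin 4 → ℝ) => ((p.1.1, p.2), p.1.2)) := by
        fun_prop
      exact this.contDiffOn
    · intro p hp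
      exact ⟨⟨hp.1.1, mem_univ _⟩, hp.1.2⟩
  · change rep q (eta ρ hρ δ (y.1, w)) y.2 = 0
    rw [rep_eq_pull, eta_zero hρ hρ2 δ y.1 hw, ← pullL_apply, map_zero]

/-- the coefficient forms -/
def cf (s : Bool) (n : ι × Fin 4 → ℤ) (ρ : ℝ) (hρ : 1 < ρ) (δ : ℝ × (ι → E4) → F2 E4 M) (e : ℝ) :
    F2 E4 M := fun x => (∫ w, tg s (ph n w) • at2 (eta ρ hρ δ (e, w)) x : Bil)

lemma at2_cf (s : Bool) (n : ι × Fin 4 → ℤ) (ρ : ℝ) (hρ : 1 < ρ) (δ : ℝ × (ι → E4) → F2 E4 M)
    (e : ℝ) (x : M) : at2 (cf s n ρ hρ δ e) x =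
      ∫ w, tg s (ph n w) • at2 (eta ρ hρ δ (e, w)) x := rfl

section
variable {U : Set (ι → E4)} (hU : IsOpen U) {e1 ρ : ℝ} (hρ : 1 < ρ) (hρ2 : ρ ≤ 7 / 2)
    (hin : ∀ e : ℝ, |e| < e1 → ∀ z : ι → E4, (∀ i, ‖z i‖ ≤ ρ) → e • z ∈ U)
    {δ : ℝ × (ι → E4) → F2 E4 M} (hδ : JSm {p : ℝ × (ι → E4) | p.1 • p.2 ∈ U} δ)
include hU hρ2 hin hδ

lemma cont_eta {e : ℝ} (he : |e| < e1) (x : M) :
    Continuous (fun w => at2 (eta ρ hρ δ (e, w)) x) := by
  have h1 := (adm_HH hU hρ hρ2 hin hδ x).cont (y := (e, chartAt E4 x x))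
    ⟨abs_lt.1 he, mem_chart_target E4 x⟩
  have h2 : (fun w => at2 (eta ρ hρ δ (e, w)) x) =
      fun w => HH x ρ hρ δ ((e, chartAt E4 x x), w) := by
    funext w
    exact at2_eq_rep _ _
  rw [h2]
  exact h1

lemma int_eta {e : ℝ} (he : |e| < e1) (x : M) (s : Bool) (n : ι × Fin 4 → ℤ) :
    Integrable (fun w => tg s (ph n w) • at2 (eta ρ hρ δ (e, w)) x) := by
  have hc : HasCompactSupport (fun w => at2 (eta ρ hρ δ (e, w)) x) :=
    HasCompactSupport.intro isCompact_Kc fun w hw => eta_zero hρ hρ2 δ e hw x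
  exact ((contDiff_tgph s n).continuous.smul
    (cont_eta hU hρ hρ2 hin hδ he x)).integrable_of_hasCompactSupport hc.smul_left

lemma rep_cf {e : ℝ} (he : |e| < e1) (s : Bool) (n : ι × Fin 4 → ℤ) (q : M) (y : E4) :
    rep q (cf s n ρ hρ δ e) y = coef s n (HH q ρ hρ δ) (e, y) := by
  rw [rep_eq_pull, at2_cf, ← pullL_apply, ← ContinuousLinearMap.integral_comp_comm _
    (int_eta hU hρ hρ2 hin hδ he _ s n)]
  refine integral_congr_ae (Eventually.of_forall fun w => ?_)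
  simp only
  rw [map_smul, pullL_apply, HH, rep_eq_pull]

lemma smooth2_cf {e : ℝ} (he : |e| < e1) (s : Bool) (n : ι × Fin 4 → ℤ) :
    Smooth2 (cf s n ρ hρ δ e) := by
  refine ⟨fun x v => ?_, fun q => ?_⟩
  · let ev : Bil →L[ℝ] ℝ := (ContinuousLinearMap.apply ℝ ℝ v).comp
      (ContinuousLinearMap.apply ℝ (E4 →L[ℝ] ℝ) v)
    have hev : ∀ c : Bil, ev c = c v v := fun c => rfl
    rw [at2_cf, ← hev, ← ContinuousLinearMap.integral_comp_comm _
      (int_eta hU hρ hρ2 hin hδ he x s n)]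
    refine integral_eq_zero_of_ae (Eventually.of_forall fun w => ?_)
    simp only [Pi.zero_apply]
    rw [map_smul, hev, (jsm_eta hU hρ hin hδ).1 (e, w) ⟨abs_lt.1 he, mem_univ _⟩ x v, smul_zero]
  · have h1 := contDiffOn_coef (isOpen_Ioo.prod (chartAt E4 q).open_target)
      (adm_HH hU hρ hρ2 hin hδ q) s n
    have h2 : ContDiffOn ℝ ∞ (fun y => coef s n (HH q ρ hρ δ) (e, y)) (chartAt E4 q).target := by
      refine h1.comp (f := fun y : E4 => ((e, y) : ℝ × E4)) ?_ ?_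
      · exact (contDiff_const.prodMk contDiff_id).contDiffOn
      · intro y hy
        exact ⟨abs_lt.1 he, hy⟩
    exact h2.congr fun y _ => rep_cf hU hρ hρ2 hin hδ he s n q y

lemma cm_cf (𝒰 : Cover M) {e0 : ℝ} (h01 : e0 < e1) (h00 : 0 ≤ e0) (m r : ℕ) :
    ∃ C, 0 ≤ C ∧ ∀ s n, ∀ e ∈ Icc 0 e0, 𝒰.cm m (cf s n ρ hρ δ e) ≤ C * (wt n ^ r)⁻¹ := by
  have hK : ∀ i : Fin 𝒰.N, IsCompact (Icc (0:ℝ) e0 ×ˢ 𝒰.K i) := fun i =>
    isCompact_Icc.prod (𝒰.cpt i)
  have hKY : ∀ i : Fin 𝒰.N, Icc (0:ℝ) e0 ×ˢ 𝒰.K i ⊆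
      Ioo (-e1) e1 ×ˢ (chartAt E4 (𝒰.p i)).target := fun i p hp =>
    ⟨⟨by linarith [hp.1.1, hp.1.2], by linarith [hp.1.2]⟩, 𝒰.sub i hp.2⟩
  choose C hC0 hC using fun (i : Fin 𝒰.N) (j : ℕ) =>
    coef_decay (isOpen_Ioo.prod (chartAt E4 (𝒰.p i)).open_target)
      (adm_HH hU hρ hρ2 hin hδ (𝒰.p i)) (hK i) (hKY i) j r
  refine ⟨∑ i, ∑ j ∈ Finset.range (m + 1), C i j,
    Finset.sum_nonneg fun i _ => Finset.sum_nonneg fun j _ => hC0 i j, fun s n e he => ?_⟩
  have hw : 0 ≤ (wt n ^ r)⁻¹ := inv_nonneg.2 (pow_nonneg (wt_pos n).le r)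
  have he' : |e| < e1 := by
    rw [abs_of_nonneg he.1]; linarith [he.2]
  refine cm_le 𝒰 (mul_nonneg (Finset.sum_nonneg fun i _ => Finset.sum_nonneg fun j _ => hC0 i j) hw)
    fun i j hj y hy => ?_
  have h1 : rep (𝒰.p i) (cf s n ρ hρ δ e) = fun y => coef s n (HH (𝒰.p i) ρ hρ δ) (e, y) :=
    funext fun y => rep_cf hU hρ hρ2 hin hδ he' s n (𝒰.p i) y
  have h2 : ‖iteratedFDeriv ℝ j (rep (𝒰.p i) (cf s n ρ hρ δ e)) y‖ ≤
      ‖iteratedFDeriv ℝ j (coef s n (HH (𝒰.p i) ρ hρ δ)) (e, y)‖ := by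
    rw [h1]
    exact norm_jy_le (isOpen_Ioo.prod (chartAt E4 (𝒰.p i)).open_target)
      (contDiffOn_coef (isOpen_Ioo.prod (chartAt E4 (𝒰.p i)).open_target)
        (adm_HH hU hρ hρ2 hin hδ (𝒰.p i)) s n) j (p := (e, y)) ⟨abs_lt.1 he', 𝒰.sub i hy⟩
  refine (h2.trans (hC i j s n (e, y) ⟨he, hy⟩)).trans (mul_le_mul_of_nonneg_right ?_ hw)
  calc C i j ≤ ∑ j ∈ Finset.range (m + 1), C i j :=
        Finset.single_le_sum (f := fun j => C i j) (fun j _ => hC0 i j)
          (Finset.mem_range.2 (Nat.lt_succ_of_le hj))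
    _ ≤ _ := Finset.single_le_sum (f := fun i => ∑ j ∈ Finset.range (m + 1), C i j)
          (fun i _ => Finset.sum_nonneg fun j _ => hC0 i j) (Finset.mem_univ i)

lemma summable_cf {e : ℝ} (he : |e| < e1) (x : M) (s : Bool) :
    Summable (fun n : ι × Fin 4 → ℤ => ‖∫ w, tg s (ph n w) • at2 (eta ρ hρ δ (e, w)) x‖) := by
  obtain ⟨C, hC0, hC⟩ := coef_decay (isOpen_Ioo.prod (chartAt E4 x).open_target)
      (adm_HH hU hρ hρ2 hin hδ x) (K := {(e, chartAt E4 x x)}) isCompact_singleton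
      (singleton_subset_iff.2 ⟨abs_lt.1 he, mem_chart_target E4 x⟩) 0 1
  refine Summable.of_nonneg_of_le (fun n => norm_nonneg _) (fun n => ?_)
    ((summable_wt_pow (d := ι × Fin 4) le_rfl).mul_left C)
  have h1 := hC s n (e, chartAt E4 x x) rfl
  rw [norm_iteratedFDeriv_zero] at h1
  have h2 : (∫ w, tg s (ph n w) • at2 (eta ρ hρ δ (e, w)) x) =
      coef s n (HH x ρ hρ δ) (e, chartAt E4 x x) := by
    rw [← rep_cf hU hρ hρ2 hin hδ he s n x (chartAt E4 x x), ← at2_eq_rep]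
    rfl
  rw [h2]
  exact h1

end

/-- **FOURIER EXPANSION of a jointly smooth family, divided by the scale.** -/
theorem exists_fou (𝒰 : Cover M) {U : Set (ι → E4)} (hU : IsOpen U)
    (hs : ∀ z ∈ U, ∀ t ∈ Icc (0:ℝ) 1, t • z ∈ U) {e0 e1 ρ : ℝ} (h00 : 0 ≤ e0) (h01 : e0 < e1)
    (hρ : 1 < ρ) (hρ2 : ρ ≤ 7 / 2)
    (hin : ∀ e : ℝ, |e| < e1 → ∀ z : ι → E4, (∀ i, ‖z i‖ ≤ ρ) → e • z ∈ U)
    {β : (ι → E4) → F2 E4 M} (hβ : JSm U β) (h0 : ∀ x, at2 (β 0) x = 0) :
    ∃ c : Ix ι → ℝ → F2 E4 M, (∀ ν, ∀ e ∈ Icc 0 e0, Smooth2 (c ν e)) ∧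
      (∀ m r : ℕ, ∃ C, 0 ≤ C ∧ ∀ ν : Ix ι, ∀ e ∈ Icc 0 e0,
        𝒰.cm m (c ν e) ≤ C * (wt ν.1.1 ^ r)⁻¹) ∧
      (∀ e ∈ Icc 0 e0, ∀ z : ι → E4, (∀ i, ‖z i‖ ≤ 1) → ∀ x,
        HasSum (fun ν : Ix ι => (∏ i, tf ν i (z i)) • (e • at2 (c ν e) x))
          (at2 (β (e • z)) x)) := by
  obtain ⟨δ, hδ, hdiv⟩ := exists_div hU hs hβ h0
  have habs : ∀ e ∈ Icc (0:ℝ) e0, |e| < e1 := fun e he => by
    rw [abs_of_nonneg he.1]; linarith [he.2]
  refine ⟨fun ν e => cs ν.1.2 ν.2 • cf ν.1.2 ν.1.1 ρ hρ δ e, ?_, ?_, ?_⟩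
  · intro ν e he
    exact Smooth2.smul _ (smooth2_cf hU hρ hρ2 hin hδ (habs e he) ν.1.2 ν.1.1)
  · intro m r
    obtain ⟨C, hC0, hC⟩ := cm_cf hU hρ hρ2 hin hδ 𝒰 h01 h00 m r
    refine ⟨C, hC0, fun ν e he => ?_⟩
    rw [cm_smul 𝒰 m (smooth2_cf hU hρ hρ2 hin hδ (habs e he) ν.1.2 ν.1.1)]
    refine (mul_le_of_le_one_left (cm_nonneg 𝒰 m _) (abs_cs_le _ _)).trans ?_
    exact hC ν.1.2 ν.1.1 e he
  · intro e he z hz x
    have hz4 : ∀ i, ‖z i‖ ≤ 4 := fun i => (hz i).trans (by norm_num)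
    have h1 := hasSum_prod (F := fun w => at2 (eta ρ hρ δ (e, w)) x)
      (cont_eta hU hρ hρ2 hin hδ (habs e he) x) (fun w hw => eta_zero hρ hρ2 δ e hw x)
      (summable_cf hU hρ hρ2 hin hδ (habs e he) x) hz4
    have h2 := h1.const_smul e
    have hez : e • z ∈ U := hin e (habs e he) z fun i => (hz i).trans hρ.le
    have h3 : e • at2 (eta ρ hρ δ (e, wz z)) x = at2 (β (e • z)) x := by
      rw [hdiv e z hez x]
      congr 1
      simp only [eta]
      rw [zc_wz, cutZ_one hρ hz, one_smul]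
    rw [h3] at h2
    refine h2.congr_fun fun ν => ?_
    rw [at2_smul', at2_cf]
    simp only [smul_smul]
    congr 1
    ring

end

end Crest.Agent.R240.Lk
end

-- ▼ part R240/Lk8
section

/-!
# Row 240, LEAK (helper895), part 8: functionals of finite order and series of forms
-/

set_option autoImplicit false
set_option linter.unusedSectionVars false
set_option maxSynthPendingDepth 3

open Set Function Filter MeasureTheory Metric
open scoped Manifold ContDiff Topology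

namespace Crest.Agent.R240.Lk

open Crest.Agent.R240.Ch Crest.Agent.R240.Sm

noncomputable section

section series
variable {M : Type*} [TopologicalSpace M] [ChartedSpace E4 M] [IsManifold 𝓘(ℝ, E4) ∞ M]

lemma F2_ext {a b : F2 E4 M} (h : ∀ x, at2 a x = at2 b x) : a = b := funext h

lemma coe_sum_range (c : ℕ → X2 M) (N : ℕ) :
    ((∑ n ∈ Finset.range N, c n : X2 M) : F2 E4 M) = ∑ n ∈ Finset.range N, (c n : F2 E4 M) := by
  induction N with
  | zero => simp
  | succ N ih => rw [Finset.sum_range_succ, Finset.sum_range_succ, ← ih, X2.coe_add]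

/-- functionals of finite order commute with series, sequences. -/
theorem hasSum_L_nat [T2Space M] (𝒰 : Cover M) (c : ℕ → X2 M)
    (hs : ∀ l, Summable fun n => 𝒰.cm l (c n : F2 E4 M)) (S : X2 M)
    (hS : ∀ x, HasSum (fun n => at2 (c n : F2 E4 M) x) (at2 (S : F2 E4 M) x))
    (L : X2 M →ₗ[ℝ] ℝ) {m : ℕ} {K : ℝ} (hL : ∀ b : X2 M, |L b| ≤ K * 𝒰.cm m (b : F2 E4 M)) :
    HasSum (fun n => L (c n)) (L S) := by
  obtain ⟨s, hsm, hsum, -, hlim⟩ := cm_complete 𝒰 (fun n => (c n : F2 E4 M)) (fun n => (c n).2) hs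
  have hsS : s = (S : F2 E4 M) := F2_ext fun x => (hsum x).unique (hS x)
  have hsumL : Summable fun n => L (c n) :=
    Summable.of_norm_bounded ((hs m).mul_left K) fun n => by
      rw [Real.norm_eq_abs]; exact hL (c n)
  have h1 : Tendsto (fun N => ∑ n ∈ Finset.range N, L (c n)) atTop (𝓝 (L S)) := by
    rw [tendsto_iff_norm_sub_tendsto_zero]
    have h2 := (hlim m).const_mul K
    rw [mul_zero] at h2
    refine squeeze_zero (fun N => norm_nonneg _) (fun N => ?_) h2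
    have e1 : (∑ n ∈ Finset.range N, L (c n)) - L S = -L (S - ∑ n ∈ Finset.range N, c n) := by
      rw [map_sub, map_sum]; ring
    rw [e1, norm_neg, Real.norm_eq_abs]
    refine (hL _).trans (le_of_eq ?_)
    rw [X2.coe_sub, coe_sum_range, hsS]
  have h3 := hsumL.hasSum
  rwa [tendsto_nhds_unique h3.tendsto_sum_nat h1] at h3

/-- functionals of finite order commute with series. -/
theorem hasSum_L [T2Space M] (𝒰 : Cover M) {I : Type} [Countable I] (c : I → X2 M)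
    (hs : ∀ l, Summable fun i => 𝒰.cm l (c i : F2 E4 M)) (S : X2 M)
    (hS : ∀ x, HasSum (fun i => at2 (c i : F2 E4 M) x) (at2 (S : F2 E4 M) x))
    (L : X2 M →ₗ[ℝ] ℝ) {m : ℕ} {K : ℝ} (hL : ∀ b : X2 M, |L b| ≤ K * 𝒰.cm m (b : F2 E4 M)) :
    HasSum (fun i => L (c i)) (L S) := by
  classical
  have : Encodable I := Encodable.ofCountable I
  have hinj : Injective (Encodable.encode : I → ℕ) := Encodable.encode_injective
  set c' : ℕ → X2 M := extend (Encodable.encode : I → ℕ) c 0 with hc'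
  have h1 : ∀ i, c' (Encodable.encode i) = c i := fun i => hinj.extend_apply c 0 i
  have h2 : ∀ n, n ∉ range (Encodable.encode : I → ℕ) → c' n = 0 := by
    intro n hn
    rw [hc', extend_apply']
    · rfl
    · rintro ⟨i, hi⟩
      exact hn ⟨i, hi⟩
  have hs' : ∀ l, Summable fun n => 𝒰.cm l (c' n : F2 E4 M) := by
    intro l
    rw [← hinj.summable_iff]
    · refine (hs l).congr fun i => ?_
      simp only [comp_apply, h1]
    · intro n hn
      rw [h2 n hn]
      exact cm_zero 𝒰 l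
  have hS' : ∀ x, HasSum (fun n => at2 (c' n : F2 E4 M) x) (at2 (S : F2 E4 M) x) := by
    intro x
    rw [← hinj.hasSum_iff]
    · refine (hS x).congr_fun fun i => ?_
      simp only [comp_apply, h1]
    · intro n hn
      rw [h2 n hn]
      rfl
  have h3 := hasSum_L_nat 𝒰 c' hs' S hS' L hL
  rw [← hinj.hasSum_iff] at h3
  · refine h3.congr_fun fun i => ?_
    simp only [comp_apply, h1]
  · intro n hn
    rw [h2 n hn, map_zero]

end series

section final
variable {M : Type*} [MetricSpace M] [CompactSpace M] [ChartedSpace E4 M]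
    [IsManifold 𝓘(ℝ, E4) ∞ M] [MeasurableSpace M] [BorelSpace M]

lemma summable_Ix (ι : Type) [Fintype ι] [DecidableEq ι] {r : ℕ} (hr : 1 ≤ r) :
    Summable (fun ν : Ix ι => (wt ν.1.1 ^ r)⁻¹) := by
  have h1 := summable_wt_pow (d := ι × Fin 4) hr
  have hw : ∀ n : ι × Fin 4 → ℤ, 0 ≤ (wt n ^ r)⁻¹ := fun n =>
    inv_nonneg.2 (pow_nonneg (wt_pos n).le r)
  have hB : Summable (fun _ : Bool => (1:ℝ)) := (hasSum_fintype _).summable
  have h2 : Summable (fun p : (ι × Fin 4 → ℤ) × Bool => (wt p.1 ^ r)⁻¹ * (1:ℝ)) :=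
    Summable.mul_of_nonneg (f := fun n : ι × Fin 4 → ℤ => (wt n ^ r)⁻¹)
      (g := fun _ : Bool => (1:ℝ)) h1 hB hw (fun _ => zero_le_one)
  have hC : Summable (fun _ : ι → Bool => (1:ℝ)) := (hasSum_fintype _).summable
  have h3 : Summable (fun ν : Ix ι => ((wt ν.1.1 ^ r)⁻¹ * (1:ℝ)) * (1:ℝ)) :=
    Summable.mul_of_nonneg (f := fun p : (ι × Fin 4 → ℤ) × Bool => (wt p.1 ^ r)⁻¹ * (1:ℝ))
      (g := fun _ : ι → Bool => (1:ℝ)) h2 hC (fun p => by
        change 0 ≤ (wt p.1 ^ r)⁻¹ * (1:ℝ)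
        rw [mul_one]; exact hw p.1)
      (fun _ => zero_le_one)
  simpa using h3

/-- **the leak from the series** (404's `hasSum_leak`) and the bound of multiplied kernels. -/
theorem fLeak_of (D : Dat M) (𝒰 : Cover M) (S : Sys M)
    (T : Ix (Fin S.n) → (Fin S.n → KF) → Fin S.n → KF)
    (h1 : ∃ e1 : ℝ, 0 < e1 ∧ (∀ e, 0 < e → e ≤ e1 → S.Ok e) ∧
      ∃ E : ℝ → Ix (Fin S.n) → X2 M → X2 M,
      (∀ r : ℕ, ∃ C : ℝ, 0 ≤ C ∧ ∀ e, 0 < e → e ≤ e1 → ∀ ν (P : X2 M),
        D.n2 (E e ν P : F2 E4 M) ≤ C * (wt ν.1.1 ^ r)⁻¹ * D.n2 (P : F2 E4 M)) ∧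
      (∀ e, 0 < e → e ≤ e1 → ∀ q ∈ ClK S.n 0, ∀ P : X2 M,
        (∀ l : ℕ, Summable fun ν => 𝒰.cm l (S.A e (T ν q) (E e ν P) : F2 E4 M)) ∧
        ∀ x, HasSum (fun ν => e • at2 (S.A e (T ν q) (E e ν P) : F2 E4 M) x)
          (at2 (D.pi'' (S.A e q (D.pi' P)) : F2 E4 M) x)))
    (h2 : ∀ k : ℕ, ∃ C : ℝ, 1 ≤ C ∧ ∀ e, S.Ok e → ∀ (L : X2 M →ₗ[ℝ] ℝ) (F : X2 M → ℝ) (n : ℝ),
      0 ≤ n → (∀ b, 0 ≤ F b) → (∀ p ∈ ClK S.n k, ∀ b, |L (S.A e p b)| ≤ n * F b) →
      ∀ q ∈ ClK S.n k, ∀ ν b, |L (S.A e (T ν q) b)| ≤ (C * wt ν.1.1 ^ k) ^ S.n * n * F b) :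
    FLeak D 𝒰 S := by
  obtain ⟨e1, he1, hok, E, hE, hser⟩ := h1
  refine ⟨e1, he1, fun k => ?_⟩
  obtain ⟨C1, hC1, hb⟩ := h2 k
  obtain ⟨C2, hC2, hn⟩ := hE (k * S.n + 1)
  have hwsum := summable_Ix (Fin S.n) (r := 1) le_rfl
  set Sw : ℝ := ∑' ν : Ix (Fin S.n), (wt ν.1.1 ^ 1)⁻¹ with hSw
  refine ⟨C1 ^ S.n * C2 * Sw, fun e he he' L hL hL' N hN hbd p hp b => ?_⟩
  obtain ⟨m, K, hLK⟩ := hL
  have hp0 : p ∈ ClK S.n 0 := ClK_anti S.n 0 k (Nat.zero_le _) hp
  obtain ⟨hsm, hpt⟩ := hser e he he' p hp0 b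
  have hn2 : 0 ≤ D.n2 (b : F2 E4 M) := Real.sqrt_nonneg _
  -- the series under `L`
  have hS1 : HasSum (fun ν => L (e • S.A e (T ν p) (E e ν b)))
      (L (D.pi'' (S.A e p (D.pi' b)))) := by
    refine hasSum_L 𝒰 (fun ν => e • S.A e (T ν p) (E e ν b)) (fun l => ?_)
      (D.pi'' (S.A e p (D.pi' b))) (fun x => ?_) L hLK
    · refine ((hsm l).mul_left |e|).congr fun ν => ?_
      rw [X2.coe_smul, cm_smul 𝒰 l (S.A e (T ν p) (E e ν b)).2]
    · refine (hpt x).congr_fun fun ν => ?_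
      rw [X2.coe_smul]
      rfl
  rw [← hL'] at hS1
  have hterm : ∀ ν : Ix (Fin S.n), ‖L (e • S.A e (T ν p) (E e ν b))‖ ≤
      (C1 ^ S.n * C2 * e * N * D.n2 (b : F2 E4 M)) * (wt ν.1.1 ^ 1)⁻¹ := by
    intro ν
    have hw := wt_pos ν.1.1
    have hw0 : 0 ≤ wt ν.1.1 := hw.le
    rw [map_smul, norm_smul, Real.norm_eq_abs, Real.norm_eq_abs, abs_of_pos he]
    have a1 := hb e (hok e he he') L (fun b => D.n2 (b : F2 E4 M)) N hN
      (fun b => Real.sqrt_nonneg _) hbd p hp ν (E e ν b)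
    have a2 := hn e he he' ν b
    have a3 : (C1 * wt ν.1.1 ^ k) ^ S.n * N * D.n2 (E e ν b : F2 E4 M) ≤
        (C1 * wt ν.1.1 ^ k) ^ S.n * N *
          (C2 * (wt ν.1.1 ^ (k * S.n + 1))⁻¹ * D.n2 (b : F2 E4 M)) := by
      refine mul_le_mul_of_nonneg_left a2 (mul_nonneg (pow_nonneg ?_ _) hN)
      exact mul_nonneg (by linarith) (pow_nonneg hw0 _)
    have a4 : e * ((C1 * wt ν.1.1 ^ k) ^ S.n * N *
          (C2 * (wt ν.1.1 ^ (k * S.n + 1))⁻¹ * D.n2 (b : F2 E4 M))) =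
        (C1 ^ S.n * C2 * e * N * D.n2 (b : F2 E4 M)) * (wt ν.1.1 ^ 1)⁻¹ := by
      rw [mul_pow, ← pow_mul, pow_add]
      have hne : wt ν.1.1 ^ (k * S.n) ≠ 0 := (pow_pos hw _).ne'
      have hne' : wt ν.1.1 ≠ 0 := hw.ne'
      field_simp
    calc e * |L (S.A e (T ν p) (E e ν b))| ≤ _ :=
          mul_le_mul_of_nonneg_left (a1.trans a3) he.le
      _ = _ := a4
  have hfin := tsum_of_norm_bounded (hwsum.hasSum.mul_left
    (C1 ^ S.n * C2 * e * N * D.n2 (b : F2 E4 M))) hterm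
  rw [hS1.tsum_eq, Real.norm_eq_abs] at hfin
  calc |L (S.A e p (D.pi' b))| ≤ C1 ^ S.n * C2 * e * N * D.n2 (b : F2 E4 M) * Sw := hfin
    _ = C1 ^ S.n * C2 * Sw * e * N * D.n2 (b : F2 E4 M) := by ring

end final

end

end Crest.Agent.R240.Lk
end

-- ▼ part R240/LkG
section

/-!
# Row 240, LEAK (helper404): a global finite frame of smooth two-forms; `L²` lemmas
-/

set_option autoImplicit false
set_option maxSynthPendingDepth 3
set_option linter.unusedSectionVars false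

open Set Function Filter Metric MeasureTheory
open scoped Manifold ContDiff Topology

namespace Crest.Agent.R240.Leak

open Crest.Agent.R240.Ch Crest.Agent.R240.Sm

noncomputable section

/-! ### pointwise -/

/-- expansion of an alternating form. -/
lemma alt_sum {b : Bil} (hb : Alt b) :
    b = ∑ k : Fin 4, ∑ l : Fin 4, (1 / 2 * ent b k l) • wed (pr k) (pr l) := by
  ext u v
  have e1 : (∑ k : Fin 4, ∑ l : Fin 4, (1 / 2 * ent b k l) • wed (pr k) (pr l)) u v
      = ∑ k : Fin 4, ∑ l : Fin 4, (1 / 2 * ent b k l) * (u k * v l - u l * v k) := by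
    rw [sum_apply, sum_apply]
    refine Finset.sum_congr rfl fun k _ => ?_
    rw [sum_apply, sum_apply]
    refine Finset.sum_congr rfl fun l _ => ?_
    have : ((1 / 2 * ent b k l) • wed (pr k) (pr l)) u v
        = (1 / 2 * ent b k l) * (wed (pr k) (pr l) u v) := rfl
    rw [this, wed_apply]
    simp only [pr_apply]
  rw [e1, alt_expand hb]
  simp only [Fin.sum_univ_four]
  rw [hb.ent_self 0, hb.ent_self 1, hb.ent_self 2, hb.ent_self 3, hb.ent_swap 1 0, hb.ent_swap 2 0,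
    hb.ent_swap 3 0, hb.ent_swap 2 1, hb.ent_swap 3 1, hb.ent_swap 3 2]
  ring

/-- the Hodge norm controls the values. -/
lemma norm_le_nr {J : E4 →L[ℝ] E4} {F b : Bil} (hJ : ∀ v, J (J v) = -v) (hF : SPos J F)
    (hb : Alt b) {R S : ℝ} (hR : ‖F‖ ≤ R) (hS : ‖J‖ ≤ S) : ‖b‖ ≤ √2 * (R * S) * nr J F b := by
  have hR0 : 0 ≤ R := (norm_nonneg _).trans hR
  have hS0 : 0 ≤ S := (norm_nonneg _).trans hS
  have hn0 : 0 ≤ nr J F b := Real.sqrt_nonneg _
  obtain ⟨A, hA⟩ := exists_frame hJ hF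
  have hn : ∀ w, ‖A.symm w‖ ^ 2 ≤ R * S * ‖w‖ ^ 2 := by
    intro w
    have h1 : F w (J w) = ‖A.symm w‖ ^ 2 := by
      have := hA.normsq (A.symm w)
      simpa using this
    rw [← h1]
    calc F w (J w) ≤ |F w (J w)| := le_abs_self _
      _ ≤ ‖F‖ * ‖w‖ * ‖J w‖ := F.le_opNorm₂ _ _
      _ ≤ R * ‖w‖ * (S * ‖w‖) := by
          have h2 : ‖J w‖ ≤ S * ‖w‖ := (J.le_opNorm w).trans (by gcongr)
          gcongr
      _ = R * S * ‖w‖ ^ 2 := by ring
  refine ContinuousLinearMap.opNorm_le_bound₂ _ (by positivity) fun u v => ?_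
  have h1 : b u v = pull (A : E4 →L[ℝ] E4) b (A.symm u) (A.symm v) := by simp
  have h2 := alt_apply_sq_le (hb.pull (A : E4 →L[ℝ] E4)) (A.symm u) (A.symm v)
  have h3 : N0 (pull (A : E4 →L[ℝ] E4) b) = 2 * nsq J F b := by
    rw [Ns.frame_nsq hF hA hb]; ring
  have h4 : 0 ≤ nsq J F b := Ns.nsq_nonneg hJ hF hb
  have h6 : nr J F b ^ 2 = nsq J F b := Real.sq_sqrt h4
  have h7 : √2 ^ 2 = (2 : ℝ) := Real.sq_sqrt (by norm_num)
  rw [Real.norm_eq_abs]
  apply abs_le_of_sq_le_sq _ (by positivity)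
  rw [h1]
  refine h2.trans ?_
  rw [h3]
  calc 2 * nsq J F b * (‖A.symm u‖ ^ 2 * ‖A.symm v‖ ^ 2)
      = 2 * nsq J F b * ‖A.symm u‖ ^ 2 * ‖A.symm v‖ ^ 2 := by ring
    _ ≤ 2 * nsq J F b * (R * S * ‖u‖ ^ 2) * (R * S * ‖v‖ ^ 2) := by
        have := hn u
        have := hn v
        gcongr
    _ = (√2 ^ 2) * (nr J F b ^ 2) * (R * S) ^ 2 * ‖u‖ ^ 2 * ‖v‖ ^ 2 := by
        rw [h7, h6]; ring
    _ = (√2 * (R * S) * nr J F b * ‖u‖ * ‖v‖) ^ 2 := by ring

variable {M : Type*} [MetricSpace M] [CompactSpace M] [ChartedSpace E4 M]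
    [IsManifold 𝓘(ℝ, E4) ∞ M] [MeasurableSpace M] [BorelSpace M]

/-- `‖rep p b y‖ ≤ C |b|_x` on compact pieces. -/
theorem rep_le_nr (D : Dat M) (p : M) {K : Set E4} (hK : IsCompact K)
    (hKt : K ⊆ (chartAt E4 p).target) :
    ∃ C : ℝ, 0 ≤ C ∧ ∀ b : F2 E4 M, (∀ x, Alt (at2 b x)) → ∀ y ∈ K,
      ‖rep p b y‖ ≤ C * D.nr b ((chartAt E4 p).symm y) := by
  have hsF := Int.dat_smF D
  have cF : ContinuousOn (rep p D.F) K := (hsF.2 p).continuousOn.mono hKt
  have cJ : ContinuousOn (repJ p D.J) K := (D.smJ p).continuousOn.mono hKt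
  obtain ⟨R, hR⟩ := hK.exists_bound_of_continuousOn cF
  obtain ⟨S, hS⟩ := hK.exists_bound_of_continuousOn cJ
  refine ⟨√2 * (max R 0 * max S 0), by positivity, fun b hb y hy => ?_⟩
  rw [NrCm.nr_chart D hb (hKt hy)]
  have hJ : ∀ v, repJ p D.J y (repJ p D.J y v) = -v := by
    intro v
    rw [repJ_apply, repJ_apply, tcc_cancel' (symm_mem (hKt hy)), D.sq, map_neg,
      tcc_cancel (symm_mem (hKt hy))]
  have hF : SPos (repJ p D.J y) (rep p D.F y) := by
    have h := Int.dat_sposF D ((chartAt E4 p).symm y)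
    refine ⟨fun v => ?_, fun u v => ?_, fun v hv => ?_⟩
    · rw [rep_apply]; exact h.alt _
    · rw [rep_apply, rep_apply, repJ_apply, repJ_apply, tcc_cancel' (symm_mem (hKt hy)),
        tcc_cancel' (symm_mem (hKt hy))]
      exact h.inv _ _
    · rw [rep_apply, repJ_apply, tcc_cancel' (symm_mem (hKt hy))]
      refine h.pos _ fun h0 => hv ?_
      have := congrArg (tcc ((chartAt E4 p).symm y) p ((chartAt E4 p).symm y)) h0
      rwa [tcc_cancel (symm_mem (hKt hy)), map_zero] at this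
  have hbr : Alt (rep p b y) := fun v => by rw [rep_apply]; exact hb _ _
  exact norm_le_nr hJ hF hbr ((hR y hy).trans (le_max_left _ _)) ((hS y hy).trans (le_max_left _ _))

/-! ### the frame -/

section frame

/-- the coefficient functions -/
def fco (A : FA E4 M) (i : Fin A.n) (k l : Fin 4) : X2 M →ₗ[ℝ] (M → ℝ) where
  toFun b x := A.χ i x * (1 / 2 * ent (rep (A.c i) b.1 (chartAt E4 (A.c i) x)) k l)
  map_add' a b := by
    funext x
    have e : rep (A.c i) (a + b : X2 M).1 (chartAt E4 (A.c i) x)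
        = rep (A.c i) a.1 (chartAt E4 (A.c i) x) + rep (A.c i) b.1 (chartAt E4 (A.c i) x) := rfl
    rw [e, ent_add, Pi.add_apply]
    ring
  map_smul' r a := by
    funext x
    have e : rep (A.c i) (r • a : X2 M).1 (chartAt E4 (A.c i) x)
        = r • rep (A.c i) a.1 (chartAt E4 (A.c i) x) := rfl
    rw [e, ent_smul, Pi.smul_apply, RingHom.id_apply, smul_eq_mul]
    ring

lemma fco_apply (A : FA E4 M) (i : Fin A.n) (k l : Fin 4) (b : X2 M) (x : M) :
    fco A i k l b x = A.χ i x * (1 / 2 * ent (rep (A.c i) b.1 (chartAt E4 (A.c i) x)) k l) := rfl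

lemma smoothF_fco (A : FA E4 M) (i : Fin A.n) (k l : Fin 4) (b : X2 M) :
    SmoothF E4 (fco A i k l b) := by
  have hχ : SmoothF E4 (A.χ i) := (smoothF_iff _).1 (A.χ_smooth i)
  refine SmoothF.of_local fun x => ?_
  by_cases hx : x ∈ (chartAt E4 (A.c i)).source
  · refine ⟨A.c i, hx, ?_⟩
    have hy := (chartAt E4 (A.c i)).map_source hx
    have h1 : ContDiffAt ℝ ∞ (repF (A.c i) (A.χ i)) (chartAt E4 (A.c i) x) :=
      contDiffOn_chart_iff.1 (hχ (A.c i)) _ hy
    have h2 : ContDiffAt ℝ ∞ (rep (A.c i) b.1) (chartAt E4 (A.c i) x) :=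
      contDiffOn_chart_iff.1 (b.2.2 (A.c i)) _ hy
    have h3 : ContDiffAt ℝ ∞ (fun y => ent (rep (A.c i) b.1 y) k l) (chartAt E4 (A.c i) x) :=
      (h2.clm_apply contDiffAt_const).clm_apply contDiffAt_const
    have h4 := h1.mul (contDiffAt_const (c := (1 / 2 : ℝ)) |>.mul h3)
    refine h4.congr_of_eventuallyEq ?_
    filter_upwards [(chartAt E4 (A.c i)).open_target.mem_nhds hy] with y hy'
    simp only [repF, fco_apply]
    rw [(chartAt E4 (A.c i)).right_inv hy']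
  · refine ⟨x, mem_chart_source E4 x, ?_⟩
    have hx' : x ∉ tsupport (A.χ i) := fun h => hx (A.χ_supp i h).1
    refine (contDiffAt_const (c := (0 : ℝ))).congr_of_eventuallyEq ?_
    have hc : ContinuousAt (chartAt E4 x).symm (chartAt E4 x x) :=
      (chartAt E4 x).continuousAt_symm (mem_chart_target E4 x)
    have hn : (tsupport (A.χ i))ᶜ ∈ 𝓝 ((chartAt E4 x).symm (chartAt E4 x x)) := by
      rw [(chartAt E4 x).left_inv (mem_chart_source E4 x)]
      exact (isClosed_tsupport _).isOpen_compl.mem_nhds hx'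
    filter_upwards [hc.preimage_mem_nhds hn] with y hy
    simp only [repF, fco_apply]
    rw [image_eq_zero_of_notMem_tsupport hy, zero_mul]

theorem exists_frame_ix (D : Dat M) : ∃ (n : ℕ) (c : Fin n → Fin 4 → Fin 4 → X2 M)
    (f : Fin n → Fin 4 → Fin 4 → X2 M →ₗ[ℝ] (M → ℝ)) (C : ℝ), 0 ≤ C ∧
    (∀ i k l b, SmoothF E4 (f i k l b)) ∧
    (∀ (b : X2 M) x, at2 b.1 x = ∑ i, ∑ k, ∑ l, f i k l b x • at2 (c i k l).1 x) ∧
    (∀ i k l (b : X2 M) x, |f i k l b x| ≤ C * D.nr b.1 x) := by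
  obtain ⟨A⟩ : Nonempty (FA E4 M) := exists_FA
  have hcut : ∀ i : Fin A.n, ∃ c : Cut E4, tsupport c.θ ⊆ (chartAt E4 (A.c i)).target ∧
      (∀ᶠ y in 𝓝ˢ (A.K i), c.θ y = 1) ∧ ∀ y, c.θ y ∈ Icc (0 : ℝ) 1 := fun i =>
    exists_cut (A.isCompact_K i) (chartAt E4 (A.c i)).open_target (A.K_sub i)
  choose ct hct1 hct2 hct3 using hcut
  have hct2' : ∀ i, ∀ y ∈ A.K i, (ct i).θ y = 1 := fun i y hy =>
    (hct2 i).self_of_nhdsSet y hy
  have hsm : ∀ i k l, Smooth2 (ext2 (A.c i) (fun y => (ct i).θ y • wed (pr k) (pr l)) : F2 E4 M) := by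
    intro i k l
    refine Sm4.smooth2_ext2 (K := tsupport (ct i).θ) (ct i).comp (hct1 i) ?_ ?_ ?_
    · exact (ct i).smooth.smul contDiff_const
    · intro y hy
      rw [image_eq_zero_of_notMem_tsupport hy]
      exact zero_smul ℝ _
    · intro y v
      have : ((ct i).θ y • wed (pr k) (pr l)) v v = (ct i).θ y * (wed (pr k) (pr l) v v) := rfl
      rw [this, wed_alt, mul_zero]
  choose C hC0 hC using fun i => rep_le_nr D (A.c i) (A.isCompact_K i) (A.K_sub i)
  refine ⟨A.n, fun i k l => ⟨_, hsm i k l⟩, fco A, ∑ i, C i, Finset.sum_nonneg fun i _ => hC0 i,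
    smoothF_fco A, fun b x => ?_, fun i k l b x => ?_⟩
  · have h1 : ∀ i, ∑ k : Fin 4, ∑ l : Fin 4, fco A i k l b x •
        at2 (ext2 (A.c i) (fun y => (ct i).θ y • wed (pr k) (pr l)) : F2 E4 M) x
        = A.χ i x • at2 b.1 x := by
      intro i
      by_cases hx : A.χ i x = 0
      · simp only [fco_apply, hx, zero_mul, zero_smul, Finset.sum_const_zero]
      · have hx1 := A.χ_supp i (subset_tsupport _ hx)
        have hyK : chartAt E4 (A.c i) x ∈ A.K i := interior_subset hx1.2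
        have halt : Alt (rep (A.c i) b.1 (chartAt E4 (A.c i) x)) := fun v => by
          rw [rep_apply]; exact b.2.1 _ _
        have h2 : ∀ k l, at2 (ext2 (A.c i) (fun y => (ct i).θ y • wed (pr k) (pr l)) : F2 E4 M) x
            = pullL (tcc x (A.c i) x) (wed (pr k) (pr l)) := by
          intro k l
          rw [Sm4.at2_ext2_of_mem hx1.1, hct2' i _ hyK]
          ext u v
          simp only [pb_apply, pullL_apply, pull_apply]
          have : ((1 : ℝ) • wed (pr k) (pr l)) ((tcc x (A.c i) x) u) ((tcc x (A.c i) x) v)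
              = 1 * (wed (pr k) (pr l) ((tcc x (A.c i) x) u) ((tcc x (A.c i) x) v)) := rfl
          rw [this, one_mul]
        have h3 : at2 b.1 x = pullL (tcc x (A.c i) x) (rep (A.c i) b.1 (chartAt E4 (A.c i) x)) := by
          rw [pullL_apply]; exact at2_eq_pull hx1.1 b.1
        have h4 : ∑ k : Fin 4, ∑ l : Fin 4, fco A i k l b x •
            at2 (ext2 (A.c i) (fun y => (ct i).θ y • wed (pr k) (pr l)) : F2 E4 M) x
            = A.χ i x • pullL (tcc x (A.c i) x) (∑ k : Fin 4, ∑ l : Fin 4,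
              (1 / 2 * ent (rep (A.c i) b.1 (chartAt E4 (A.c i) x)) k l) • wed (pr k) (pr l)) := by
          rw [map_sum, Finset.smul_sum]
          refine Finset.sum_congr rfl fun k _ => ?_
          rw [map_sum, Finset.smul_sum]
          refine Finset.sum_congr rfl fun l _ => ?_
          rw [map_smul, smul_smul, h2, fco_apply]
        rw [h4, ← alt_sum halt, ← h3]
    simp only [h1]
    rw [← Finset.sum_smul, A.χ_sum, one_smul]
  · rw [fco_apply]
    by_cases hx : A.χ i x = 0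
    · rw [hx, zero_mul, abs_zero]
      exact mul_nonneg (Finset.sum_nonneg fun i _ => hC0 i) (NM.nr_nonneg D _ _)
    · have hx1 := A.χ_supp i (subset_tsupport _ hx)
      have hyK : chartAt E4 (A.c i) x ∈ A.K i := interior_subset hx1.2
      have h1 := hC i b.1 (fun x v => b.2.1 x v) _ hyK
      rw [(chartAt E4 (A.c i)).left_inv hx1.1] at h1
      have h2 := abs_ent_le (rep (A.c i) b.1 (chartAt E4 (A.c i) x)) k l
      have h3 : C i * D.nr b.1 x ≤ (∑ i, C i) * D.nr b.1 x :=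
        mul_le_mul_of_nonneg_right
          (Finset.single_le_sum (fun i _ => hC0 i) (Finset.mem_univ i)) (NM.nr_nonneg D _ _)
      rw [abs_mul, abs_mul]
      have h4 : |A.χ i x| ≤ 1 := abs_le.2 ⟨by linarith [A.χ_nonneg i x], A.χ_le i x⟩
      have h5 : |(1 / 2 : ℝ)| = 1 / 2 := abs_of_pos (by norm_num)
      have h6 := abs_nonneg (ent (rep (A.c i) b.1 (chartAt E4 (A.c i) x)) k l)
      have h7 := abs_nonneg (A.χ i x)
      rw [h5]
      nlinarith [norm_nonneg (rep (A.c i) b.1 (chartAt E4 (A.c i) x))]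

/-- **a global finite frame** with coefficient functionals. -/
theorem exists_frame (D : Dat M) : ∃ (n : ℕ) (c : Fin n → X2 M)
    (f : Fin n → X2 M →ₗ[ℝ] (M → ℝ)) (C : ℝ), 0 ≤ C ∧
    (∀ j b, SmoothF E4 (f j b)) ∧
    (∀ (b : X2 M) x, at2 b.1 x = ∑ j, f j b x • at2 (c j).1 x) ∧
    (∀ j (b : X2 M) x, |f j b x| ≤ C * D.nr b.1 x) := by
  obtain ⟨n, c, f, C, hC, hs, he, hb⟩ := exists_frame_ix D
  let σ := (Fintype.equivFin (Fin n × Fin 4 × Fin 4))
  refine ⟨Fintype.card (Fin n × Fin 4 × Fin 4),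
    fun j => c (σ.symm j).1 (σ.symm j).2.1 (σ.symm j).2.2,
    fun j => f (σ.symm j).1 (σ.symm j).2.1 (σ.symm j).2.2, C, hC, fun j b => hs _ _ _ b,
    fun b x => ?_, fun j b x => hb _ _ _ b x⟩
  rw [σ.symm.sum_comp (fun j => f j.1 j.2.1 j.2.2 b x • at2 (c j.1 j.2.1 j.2.2).1 x), he,
    Fintype.sum_prod_type]
  refine Finset.sum_congr rfl fun i _ => ?_
  rw [Fintype.sum_prod_type]

end frame

/-! ### `L²` lemmas -/

/-- monotonicity of the `L²` norm. -/
theorem n2_mono (D : Dat M) {b c : F2 E4 M} (hb : Smooth2 b) (hc : Smooth2 c) {K : ℝ}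
    (hK : 0 ≤ K) (h : ∀ x, D.nr b x ≤ K * D.nr c x) : D.n2 b ≤ K * D.n2 c := by
  rw [NM.n2_eq D hb, NM.n2_eq D hc]
  have h1 : ∫ x, D.nr b x ^ 2 ∂D.μ ≤ K ^ 2 * ∫ x, D.nr c x ^ 2 ∂D.μ := by
    rw [← integral_const_mul]
    refine integral_mono (NM.integrable_cont D ((NM.continuous_nr D hb).pow 2))
      (NM.integrable_cont D (continuous_const.mul ((NM.continuous_nr D hc).pow 2))) fun x => ?_
    have := h x
    have h0 := NM.nr_nonneg D b x
    calc D.nr b x ^ 2 ≤ (K * D.nr c x) ^ 2 := pow_le_pow_left₀ h0 this 2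
      _ = K ^ 2 * D.nr c x ^ 2 := by ring
  calc √(∫ x, D.nr b x ^ 2 ∂D.μ) ≤ √(K ^ 2 * ∫ x, D.nr c x ^ 2 ∂D.μ) := Real.sqrt_le_sqrt h1
    _ = K * √(∫ x, D.nr c x ^ 2 ∂D.μ) := by
        rw [Real.sqrt_mul (sq_nonneg K), Real.sqrt_sq hK]

/-- `‖f g‖₂ ≤ K C ‖b‖₂` if `|g| ≤ K` and `|f| ≤ C |b|`. -/
theorem n2_fmul_le (D : Dat M) {b g : F2 E4 M} (hb : Smooth2 b) {f : M → ℝ}
    (hfg : Smooth2 (fmul f g)) {K C : ℝ} (hK : 0 ≤ K) (hC : 0 ≤ C) (h1 : ∀ x, D.nr g x ≤ K)
    (h2 : ∀ x, |f x| ≤ C * D.nr b x) : D.n2 (fmul f g) ≤ K * C * D.n2 b := by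
  refine n2_mono D hfg hb (by positivity) fun x => ?_
  rw [NM.nr_fmul]
  calc |f x| * D.nr g x ≤ (C * D.nr b x) * K :=
        mul_le_mul (h2 x) (h1 x) (NM.nr_nonneg D _ _) ((abs_nonneg _).trans (h2 x))
    _ = K * C * D.nr b x := by ring

end

end Crest.Agent.R240.Leak
end

-- ▼ part R240/LkP1
section

/-!
# Row 240, LEAK (helper404): bounds for the composed pull-backs and for the operators `S.A e q`
-/

set_option autoImplicit false
set_option maxSynthPendingDepth 3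
set_option linter.unusedSectionVars false

open Set Function Filter Metric MeasureTheory
open scoped Manifold ContDiff Topology

namespace Crest.Agent.R240.Leak

open Crest.Agent.R240.Ch Crest.Agent.R240.Sm Crest.Agent.R240.Lk Crest.Agent.R240.SmJ

noncomputable section

/-! ### summability over the index set of the Fourier expansion -/

lemma summable_fst {A B : Type*} [Finite B] {f : A → ℝ} (hf : Summable f) (h0 : ∀ a, 0 ≤ f a) :
    Summable fun p : A × B => f p.1 := by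
  have := Fintype.ofFinite B
  have h := hf.mul_of_nonneg (g := fun _ : B => (1:ℝ)) Summable.of_finite h0 (fun _ => zero_le_one)
  simpa using h

lemma summable_Ix {ι : Type} [Fintype ι] {r : ℕ} (hr : 1 ≤ r) :
    Summable fun ν : Ix ι => (wt ν.1.1 ^ r)⁻¹ := by
  classical
  have h0 : ∀ n : ι × Fin 4 → ℤ, 0 ≤ (wt n ^ r)⁻¹ := fun n =>
    inv_nonneg.2 (pow_nonneg (wt_pos n).le r)
  have h1 : Summable fun n : ι × Fin 4 → ℤ => (wt n ^ r)⁻¹ := summable_wt_pow hr
  have h2 : Summable fun p : (ι × Fin 4 → ℤ) × Bool => (wt p.1 ^ r)⁻¹ := summable_fst h1 h0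
  exact summable_fst (B := ι → Bool) h2 fun p => h0 p.1

/-! ### pointwise structure of the composed pull-back -/

section man

variable {M : Type*} [TopologicalSpace M] [ChartedSpace E4 M] [IsManifold 𝓘(ℝ, E4) ∞ M]

lemma exists_pullPP {ι : Type*} (G : ι → Fam E4) (p : ι → M) (l : List ι) (z : ι → E4) (x : M) :
    ∃ D : E4 →L[ℝ] E4, ∀ b : F2 E4 M, at2 (PP G p l z b) x = pull D (at2 b (PS G p l z x)) := by
  induction l generalizing x with
  | nil => exact ⟨ContinuousLinearMap.id ℝ E4, fun b => by rw [pull_id]; rfl⟩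
  | cons i l ih =>
    obtain ⟨D1, h1⟩ := exists_pb (G i) (p i) (z i) x
    obtain ⟨D2, h2⟩ := ih (psi (G i) (p i) (z i) x)
    refine ⟨D2.comp D1, fun b => ?_⟩
    rw [PP_cons, h1, h2, pull_comp]
    rfl


/-- multiplication by a smooth function is bounded for `cm m`. -/
lemma cm_fmul_le (𝒰 : Cover M) {f : M → ℝ} (hf : SmoothF E4 f) (m : ℕ) :
    ∃ C : ℝ, 0 ≤ C ∧ ∀ g : F2 E4 M, Smooth2 g → 𝒰.cm m (fmul f g) ≤ C * 𝒰.cm m g := by
  have h : ∀ i : Fin 𝒰.N, ∃ C : ℝ, 0 ≤ C ∧ ∀ b : E4 → Bil,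
      ContDiffOn ℝ ∞ b (chartAt E4 (𝒰.p i)).target → ∀ B : ℝ, 0 ≤ B →
      (∀ j ≤ m, ∀ y ∈ 𝒰.K i, ‖iteratedFDeriv ℝ j b y‖ ≤ B) → ∀ j ≤ m, ∀ y ∈ 𝒰.K i,
      ‖iteratedFDeriv ℝ j (fun y => (repF (𝒰.p i) f y • ContinuousLinearMap.id ℝ Bil) (b y)) y‖
        ≤ C * B := fun i =>
    N5.clm_bound (chartAt E4 (𝒰.p i)).open_target ((hf (𝒰.p i)).smul contDiffOn_const)
      (𝒰.cpt i) (𝒰.sub i) m
  choose C hC0 hC using h
  refine ⟨∑ i, C i, Finset.sum_nonneg fun i _ => hC0 i, fun g hg => ?_⟩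
  have hcg := Ch.cm_nonneg 𝒰 m g
  refine Ch.cm_le 𝒰 (mul_nonneg (Finset.sum_nonneg fun i _ => hC0 i) hcg) fun i j hj y hy => ?_
  have h1 := hC i (rep (𝒰.p i) g) (hg.2 _) (𝒰.cm m g) hcg
    (fun j hj y hy => Ch.le_cm 𝒰 hj hg hy) j hj y hy
  have h2 : (fun y => (repF (𝒰.p i) f y • ContinuousLinearMap.id ℝ Bil) (rep (𝒰.p i) g y))
      = rep (𝒰.p i) (fmul f g) := by
    funext y
    rfl
  rw [h2] at h1
  exact h1.trans (mul_le_mul_of_nonneg_right
    (Finset.single_le_sum (fun i _ => hC0 i) (Finset.mem_univ i)) hcg)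

/-- triangle inequality for finite sums. -/
lemma cm_sum_le' (𝒰 : Cover M) (m : ℕ) {κ : Type*} (s : Finset κ) (X : κ → X2 M) :
    𝒰.cm m ((∑ j ∈ s, X j : X2 M) : F2 E4 M) ≤ ∑ j ∈ s, 𝒰.cm m (X j : F2 E4 M) := by
  classical
  induction s using Finset.induction_on with
  | empty =>
    simp only [Finset.sum_empty]
    exact le_of_eq (Ch.cm_zero 𝒰 m)
  | insert a s ha ih =>
    rw [Finset.sum_insert ha, Finset.sum_insert ha]
    exact (Ch.cm_add_le 𝒰 m (X a).2 (∑ j ∈ s, X j : X2 M).2).trans (add_le_add le_rfl ih)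

variable [T2Space M]


end man

/-! ### the concrete system -/

section sys

variable {M : Type*} [TopologicalSpace M] [ChartedSpace E4 M] [IsManifold 𝓘(ℝ, E4) ∞ M]
variable {S : Sys M}

lemma admK {e : ℝ} (h : S.Ok e) (q : Fin S.n → KF) : AdmK S.G (fun i => kk (q i).1) e where
  cont i := (kk_smooth (q i).2).continuous
  comp i := (kk_ker (q i).2).cpt
  supp i z hz := by
    have h1 := kk_supp _ hz
    rw [mem_closedBall_zero_iff] at h1
    rw [mem_ball_zero_iff, norm_smul, Real.norm_eq_abs, abs_of_pos h.1]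
    have h2 := h.2 i
    have h3 : (S.G i).r = (S.c i).z0 := rfl
    rw [h3]
    nlinarith [h.1, norm_nonneg z]




/-- the compact set of parameters. -/
def CC (n : ℕ) (e : ℝ) : Set (Fin n → E4) := Set.pi univ fun _ => closedBall (0 : E4) e


lemma smul_mem_CC {n : ℕ} {e e1 : ℝ} (he : 0 < e) (he1 : e ≤ e1) {z : Fin n → E4}
    (hz : ∀ i, ‖z i‖ ≤ 1) : e • z ∈ CC n e1 := by
  intro i _
  rw [mem_closedBall_zero_iff, Pi.smul_apply, norm_smul, Real.norm_eq_abs, abs_of_pos he]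
  have := hz i
  nlinarith [norm_nonneg (z i)]

lemma CC_subset {e1 : ℝ} (h : S.Ok e1) : CC S.n e1 ⊆ UU S.G := by
  intro z hz i
  have h1 := hz i (mem_univ i)
  rw [mem_closedBall_zero_iff] at h1
  rw [mem_ball_zero_iff]
  exact lt_of_le_of_lt h1 (h.2 i)






end sys

/-! ### `L²` bounds of finite sums -/

section dat

variable {M : Type*} [MetricSpace M] [CompactSpace M] [ChartedSpace E4 M]
    [IsManifold 𝓘(ℝ, E4) ∞ M] [MeasurableSpace M] [BorelSpace M]

lemma n2_sum_le (D : Dat M) {κ : Type*} (s : Finset κ) (X : κ → X2 M) :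
    D.n2 ((∑ j ∈ s, X j : X2 M) : F2 E4 M) ≤ ∑ j ∈ s, D.n2 (X j : F2 E4 M) := by
  classical
  induction s using Finset.induction_on with
  | empty =>
    simp only [Finset.sum_empty]
    have h := NM.n2_smul D 0 (0 : F2 E4 M)
    rw [abs_zero, zero_mul, zero_smul] at h
    exact le_of_eq h
  | insert a s ha ih =>
    rw [Finset.sum_insert ha, Finset.sum_insert ha]
    exact (NM.n2_add_le D (X a).2 (∑ j ∈ s, X j : X2 M).2).trans (add_le_add le_rfl ih)

end dat

end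

end Crest.Agent.R240.Leak
end

-- ▼ part R240/LkH0
section

/-!
# Row 240, LEAK: multiplied kernels (helper461)
-/

set_option autoImplicit false
set_option maxSynthPendingDepth 3
set_option linter.unusedSectionVars false

open Set Function Filter MeasureTheory Metric
open scoped Manifold ContDiff Topology

namespace Crest.Agent.R240.Lk

open Crest.Agent.R240.Ch Crest.Agent.R240.Sm

noncomputable section

variable {ι : Type} [Fintype ι]

lemma contDiff_th (n : Fin 4 → ℤ) : ContDiff ℝ ∞ (th n) := by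
  unfold th
  refine contDiff_const.mul (ContDiff.sum fun a _ => contDiff_const.mul ?_)
  have h : ContDiff ℝ ∞ (fun z : E4 => z a) := by
    exact (EuclideanSpace.proj a : E4 →L[ℝ] ℝ).contDiff
  exact (h.div_const 8).add contDiff_const

omit [Fintype ι] in
lemma contDiff_tf (ν : Ix ι) (i : ι) : ContDiff ℝ ∞ (tf ν i) :=
  (contDiff_tg (ν.2 i)).comp (contDiff_th (sl ν.1.1 i))

/-- all kernel factors multiplied by a constant. -/
def mulK {N : ℕ} (c : ℝ) (q : Fin N → KF) : Fin N → KF := fun i =>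
  ⟨fun z => c * (q i).1 z, contDiff_const.mul (q i).2⟩

/-- the kernel factors multiplied by the trigonometric factors. -/
def tfK {N : ℕ} (ν : Ix (Fin N)) (q : Fin N → KF) : Fin N → KF := fun i =>
  ⟨fun z => (q i).1 z * tf ν i z, (q i).2.mul (contDiff_tf ν i)⟩

@[simp] lemma mulK_coe {N : ℕ} (c : ℝ) (q : Fin N → KF) (i : Fin N) :
    (mulK c q i).1 = fun z => c * (q i).1 z := rfl

@[simp] lemma tfK_coe {N : ℕ} (ν : Ix (Fin N)) (q : Fin N → KF) (i : Fin N) :
    (tfK ν q i).1 = fun z => (q i).1 z * tf ν i z := rfl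

end

end Crest.Agent.R240.Lk
end

-- ▼ part R240/LkQ
section

/-!
# Row 240, LEAK (helper895), part Q: bounds of the composed pull-backs and the interchange of the
series and the integral.
-/

set_option autoImplicit false
set_option linter.unusedSectionVars false
set_option maxSynthPendingDepth 3

open Set Function Filter MeasureTheory Metric
open scoped Manifold ContDiff Topology

namespace Crest.Agent.R240.Lk

open Crest.Agent.R240.Ch Crest.Agent.R240.Sm Crest.Agent.R240.Leak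

noncomputable section

variable {M : Type*} [TopologicalSpace M] [ChartedSpace E4 M] [IsManifold 𝓘(ℝ, E4) ∞ M]
  [T2Space M]

/-- the composed pull-back of the system -/
abbrev PS' (S : Sys M) (z : Fin S.n → E4) (b : F2 E4 M) : F2 E4 M :=
  PP S.G S.p (List.finRange S.n) z b

omit [T2Space M] in
lemma HG_S (S : Sys M) : HG S.G S.p := S.hG

lemma jsm_PS (S : Sys M) {b : F2 E4 M} (hb : Smooth2 b) :
    JSm (UU S.G) (fun z : Fin S.n → E4 => PS' S z b) := jsm_PP (HG_S S) hb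

lemma jb_PS (𝒰 : Cover M) (S : Sys M) {C : Set (Fin S.n → E4)} (hCc : IsCompact C) (hCU : C ⊆ UU S.G) (m : ℕ) : ∃ A : ℝ, 0 ≤ A ∧ ∀ b : F2 E4 M, Smooth2 b → JB 𝒰 m C (fun w => PS' S w b) (A * 𝒰.cm m b) := by
  have hLF : LF (UU S.G) (fun z : Fin S.n → E4 => PP (M := M) S.G S.p (List.finRange S.n) z)
      (fun z => PS S.G S.p (List.finRange S.n) z) := SmCrM.LF_PP (HG_S S) (List.finRange S.n)
  exact LF.jb_const 𝒰 isOpen_UU hLF hCc hCU m

lemma slice_PS (𝒰 : Cover M) (S : Sys M) {b : F2 E4 M} (hb : Smooth2 b) {w : Fin S.n → E4} (hw : w ∈ UU S.G) {i : Fin 𝒰.N} {y : E4} (hy : y ∈ 𝒰.K i) (j : ℕ) :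
    ‖iteratedFDeriv ℝ j (rep (𝒰.p i) (PS' S w b)) y‖ ≤ ‖iteratedFDeriv ℝ j (fun v : (Fin S.n → E4) × E4 => rep (𝒰.p i) (PS' S v.1 b) v.2) (w, y)‖ := by
  have hop : IsOpen (UU S.G ×ˢ (chartAt E4 (𝒰.p i)).target) :=
    (isOpen_UU (G := S.G)).prod (chartAt E4 (𝒰.p i)).open_target
  have h2 := SmJ.norm_jy_le hop
    ((jsm_PS S hb).2 (𝒰.p i)) j (p := (w, y)) ⟨hw, 𝒰.sub i hy⟩
  exact h2

/-- **uniform `C^m` bounds of the composed pull-backs** -/
theorem PP_bd (𝒰 : Cover M) (S : Sys M) {e1 : ℝ} (h : ∀ i, e1 < (S.c i).z0)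
    (m : ℕ) : ∃ A : ℝ, 0 ≤ A ∧ ∀ b : F2 E4 M, Smooth2 b → ∀ e, 0 ≤ e → e ≤ e1 →
      ∀ z : Fin S.n → E4, (∀ i, ‖z i‖ ≤ 1) → ∀ i, ∀ y ∈ 𝒰.K i, ∀ j ≤ m,
        ‖iteratedFDeriv ℝ j (rep (𝒰.p i) (PS' S (e • z) b)) y‖ ≤ A * 𝒰.cm m b := by
  have hCc : IsCompact (Set.pi univ fun _ : Fin S.n => closedBall (0 : E4) e1) := isCompact_univ_pi fun _ => isCompact_closedBall _ _
  have hCU : (Set.pi univ fun _ : Fin S.n => closedBall (0 : E4) e1) ⊆ UU S.G := by
    intro z hz i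
    have h1 := hz i (mem_univ i)
    rw [mem_closedBall_zero_iff] at h1
    rw [mem_ball_zero_iff]
    exact lt_of_le_of_lt h1 (h i)
  obtain ⟨A, hA, hJ⟩ := jb_PS 𝒰 S hCc hCU m
  refine ⟨A, hA, fun b hb e he he' z hz i y hy j hj => ?_⟩
  have hmem : e • z ∈ (Set.pi univ fun _ : Fin S.n => closedBall (0 : E4) e1) := by
    intro i _
    rw [mem_closedBall_zero_iff, Pi.smul_apply, norm_smul, Real.norm_eq_abs, abs_of_nonneg he]
    calc e * ‖z i‖ ≤ e * 1 := mul_le_mul_of_nonneg_left (hz i) he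
      _ ≤ e1 := by rw [mul_one]; exact he'
  exact (slice_PS 𝒰 S hb (hCU hmem) hy j).trans (hJ b hb i (e • z) hmem y hy j hj)

/-- pointwise bound at a point -/
theorem PP_bd_at (𝒰 : Cover M) (S : Sys M) {e1 : ℝ} (h : ∀ i, e1 < (S.c i).z0) (x : M) :
    ∃ A : ℝ, 0 ≤ A ∧ ∀ b : F2 E4 M, Smooth2 b → ∀ e, 0 ≤ e → e ≤ e1 →
      ∀ z : Fin S.n → E4, (∀ i, ‖z i‖ ≤ 1) →
        ‖at2 (PS' S (e • z) b) x‖ ≤ A * 𝒰.cm 0 b := by
  obtain ⟨A, hA, hb⟩ := PP_bd 𝒰 S h 0
  obtain ⟨i, hi1, hi2⟩ := 𝒰.cov x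
  refine ⟨‖pullL (tcc x (𝒰.p i) x)‖ * A, mul_nonneg (norm_nonneg _) hA,
    fun b hbs e he he' z hz => ?_⟩
  have h1 := hb b hbs e he he' z hz i _ (interior_subset hi2) 0 le_rfl
  rw [norm_iteratedFDeriv_zero] at h1
  rw [at2_eq_pull hi1, ← pullL_apply]
  refine (ContinuousLinearMap.le_opNorm _ _).trans ?_
  rw [mul_assoc]
  exact mul_le_mul_of_nonneg_left h1 (norm_nonneg _)

/-! ### the kernels -/

omit [T2Space M] in
lemma admK_tf (S : Sys M) {e : ℝ} (h : S.Ok e) (q : Fin S.n → KF) :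
    AdmK S.G (fun i => kk (q i).1) e :=
  ⟨fun i => (kk_smooth (q i).2).continuous,
    fun i => (isCompact_closedBall (0 : E4) 1).of_isClosed_subset (isClosed_tsupport _)
      (kk_supp (q i).1), fun i z hz => by
      have h1 := kk_supp (q i).1 hz
      rw [mem_closedBall_zero_iff] at h1
      rw [mem_ball_zero_iff, norm_smul, Real.norm_eq_abs, abs_of_pos h.1]
      calc e * ‖z‖ ≤ e * 1 := mul_le_mul_of_nonneg_left h1 h.1.le
        _ < (S.G i).r := by rw [mul_one]; exact h.2 i⟩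

/-- the operator as an integral -/
theorem at2_A (S : Sys M) {e : ℝ} (h : S.Ok e) (q : Fin S.n → KF) (b : X2 M) (x : M) :
    at2 (S.A e q b : F2 E4 M) x =
      ∫ z : Fin S.n → E4, kp (fun i => kk (q i).1) z • at2 (PS' S (e • z) b) x := by
  rw [Sys.A, Sys.opL_coe h q _ b, AL_eq_AA, at2_AA (HG_S S) (admK_tf S h q) b.2 x]

theorem A_eq_avg (S : Sys M) {e : ℝ} (h : S.Ok e) (q : Fin S.n → KF) (b : X2 M) :
    (S.A e q b : F2 E4 M) = avg (kp (fun i => kk (q i).1)) (fun z => PS' S (e • z) b) :=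
  F2_ext fun x => at2_A S h q b x

omit [T2Space M] in
/-- the mass of the product kernel -/
lemma abs_kp_le (N : ℕ) {q : Fin N → KF} (hq : q ∈ ClK N 0) (ν : Ix (Fin N)) (z : Fin N → E4) :
    |kp (fun i => kk (tfK ν q i).1) z| ≤ kp (fun _ => kap0) z := by
  unfold kp
  rw [Finset.abs_prod]
  refine Finset.prod_le_prod (fun i _ => abs_nonneg _) fun i _ => ?_
  simp only [tfK_coe, kk]
  by_cases h : kap0 (z i) = 0
  · rw [h, mul_zero, abs_zero]
  · have h1 : |(q i).1 (z i)| ≤ 1 := ClK.abs_le hq i (by simpa using (norm_lt_of_kap0 h).le)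
    rw [abs_mul, abs_mul, abs_of_nonneg (kap0_nonneg _)]
    have h2 : |tf ν i (z i)| ≤ 1 := abs_tg_le _ _
    have h3 : |(q i).1 (z i)| * |tf ν i (z i)| ≤ 1 := by
      calc |(q i).1 (z i)| * |tf ν i (z i)| ≤ 1 * 1 :=
            mul_le_mul h1 h2 (abs_nonneg _) zero_le_one
        _ = 1 := mul_one 1
    calc |(q i).1 (z i)| * |tf ν i (z i)| * kap0 (z i) ≤ 1 * kap0 (z i) :=
          mul_le_mul_of_nonneg_right h3 (kap0_nonneg _)
      _ = kap0 (z i) := one_mul _

lemma kp_kap0_int (N : ℕ) : Integrable (kp (fun _ : Fin N => kap0)) :=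
  (continuous_kp fun _ => kap0_cont).integrable_of_hasCompactSupport
    (hasCompactSupport_kp fun _ => kap0_comp)

lemma kp_kap0_nonneg (N : ℕ) (z : Fin N → E4) : 0 ≤ kp (fun _ : Fin N => kap0) z :=
  Finset.prod_nonneg fun _ _ => kap0_nonneg _

/-- the mass -/
def mass (N : ℕ) : ℝ := ∫ z, kp (fun _ : Fin N => kap0) z

lemma mass_nonneg (N : ℕ) : 0 ≤ mass N := integral_nonneg fun z => kp_kap0_nonneg N z

lemma norm_of_kp_ne {N : ℕ} {q : Fin N → KF} {z : Fin N → E4}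
    (h : kp (fun i => kk (q i).1) z ≠ 0) (i : Fin N) : ‖z i‖ ≤ 1 :=
  (kk_ne (Finset.prod_ne_zero_iff.1 h i (Finset.mem_univ i))).le

lemma norm_of_tsupport {N : ℕ} {q : Fin N → KF} {z : Fin N → E4}
    (h : z ∈ tsupport (kp (fun i => kk (q i).1))) (i : Fin N) : ‖z i‖ ≤ 1 := by
  have h1 := tsupport_kp _ h i (mem_univ i)
  have h2 := kk_supp _ h1
  simpa using h2

/-- **`C^m` bounds, uniform in the multiplier** -/
theorem cm_A_tfK (𝒰 : Cover M) (S : Sys M) {e1 : ℝ} (h : ∀ i, e1 < (S.c i).z0) (m : ℕ) :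
    ∃ C : ℝ, 0 ≤ C ∧ ∀ e, 0 < e → e ≤ e1 → ∀ q ∈ ClK S.n 0, ∀ ν (b : X2 M),
      𝒰.cm m (S.A e (tfK ν q) b : F2 E4 M) ≤ C * 𝒰.cm m (b : F2 E4 M) := by
  obtain ⟨A, hA, hbd⟩ := PP_bd 𝒰 S h m
  refine ⟨mass S.n * A, mul_nonneg (mass_nonneg _) hA, fun e he he' q hq ν b => ?_⟩
  have hok : S.Ok e := ⟨he, fun i => lt_of_le_of_lt he' (h i)⟩
  have hadm := admK_tf S hok (tfK ν q)
  rw [A_eq_avg S hok]
  have h1 := Sm7.cm_avg_le 𝒰 (isOpen_UE (G := S.G) e) (continuous_kp hadm.cont)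
    (hasCompactSupport_kp hadm.comp) (tsupport_kp_UE hadm)
    (jsm_PPe (l := List.finRange S.n) (HG_S S) b.2 e) (m := m)
    (B := A * 𝒰.cm m (b : F2 E4 M)) (mul_nonneg hA (cm_nonneg 𝒰 m _))
    (fun z hz i y hy j hj => hbd b b.2 e he.le he' z (fun i => norm_of_tsupport hz i) i y hy j hj)
  refine h1.trans ?_
  rw [mul_assoc]
  refine mul_le_mul_of_nonneg_right ?_ (mul_nonneg hA (cm_nonneg 𝒰 m _))
  refine integral_mono ?_ (kp_kap0_int S.n) fun z => abs_kp_le S.n hq ν z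
  exact ((continuous_kp hadm.cont).integrable_of_hasCompactSupport
    (hasCompactSupport_kp hadm.comp)).abs

/-- **interchange of the series and the integral** -/
theorem interchange (𝒰 : Cover M) (S : Sys M) {e : ℝ} (hok : S.Ok e) {q : Fin S.n → KF}
    (hq : q ∈ ClK S.n 0) (B : Ix (Fin S.n) → X2 M)
    (hB : Summable fun ν => 𝒰.cm 0 (B ν : F2 E4 M)) (x : M) (V : (Fin S.n → E4) → Bil)
    (hV : ∀ z : Fin S.n → E4, (∀ i, ‖z i‖ ≤ 1) →
      HasSum (fun ν => (∏ i, tf ν i (z i)) • at2 (PS' S (e • z) (B ν)) x) (V z)) :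
    HasSum (fun ν => at2 (S.A e (tfK ν q) (B ν) : F2 E4 M) x)
      (∫ z : Fin S.n → E4, kp (fun i => kk (q i).1) z • V z) := by
  obtain ⟨A, hA, hbd⟩ := PP_bd_at 𝒰 S (e1 := e) hok.2 x
  set F : Ix (Fin S.n) → (Fin S.n → E4) → Bil := fun ν z =>
    kp (fun i => kk (tfK ν q i).1) z • at2 (PS' S (e • z) (B ν)) x with hF
  have hint : ∀ ν, Integrable (F ν) := fun ν =>
    integrable_PP (HG_S S) (admK_tf S hok (tfK ν q)) (B ν).2 x
  have hnorm : ∀ ν, ∫ z, ‖F ν z‖ ≤ mass S.n * A * 𝒰.cm 0 (B ν : F2 E4 M) := by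
    intro ν
    have h1 : ∀ z, ‖F ν z‖ ≤ kp (fun _ : Fin S.n => kap0) z * (A * 𝒰.cm 0 (B ν : F2 E4 M)) := by
      intro z
      simp only [hF]
      rw [norm_smul, Real.norm_eq_abs]
      by_cases hz : kp (fun i => kk (tfK ν q i).1) z = 0
      · rw [hz, abs_zero, zero_mul]
        exact mul_nonneg (kp_kap0_nonneg _ _) (mul_nonneg hA (cm_nonneg 𝒰 0 _))
      · exact mul_le_mul (abs_kp_le S.n hq ν z)
          (hbd _ (B ν).2 e hok.1.le le_rfl z fun i => norm_of_kp_ne hz i) (norm_nonneg _)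
          (kp_kap0_nonneg _ _)
    calc ∫ z, ‖F ν z‖ ≤ ∫ z, kp (fun _ : Fin S.n => kap0) z * (A * 𝒰.cm 0 (B ν : F2 E4 M)) :=
          integral_mono (hint ν).norm ((kp_kap0_int S.n).mul_const _) h1
      _ = mass S.n * A * 𝒰.cm 0 (B ν : F2 E4 M) := by
          rw [integral_mul_const, mass, mul_assoc]
  have hsum : Summable fun ν => ∫ z, ‖F ν z‖ :=
    Summable.of_nonneg_of_le (fun ν => integral_nonneg fun z => norm_nonneg _) hnorm
      (hB.mul_left _)
  have h2 := hasSum_integral_of_summable_integral_norm hint hsum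
  have h3 : (fun z => ∑' ν, F ν z) = fun z => kp (fun i => kk (q i).1) z • V z := by
    funext z
    have e1 : ∀ ν, F ν z = kp (fun i => kk (q i).1) z •
        ((∏ i, tf ν i (z i)) • at2 (PS' S (e • z) (B ν)) x) := by
      intro ν
      simp only [hF]
      rw [smul_smul]
      congr 1
      unfold kp
      rw [← Finset.prod_mul_distrib]
      refine Finset.prod_congr rfl fun i _ => ?_
      simp only [tfK_coe, kk]
      ring
    by_cases hz : kp (fun i => kk (q i).1) z = 0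
    · simp only [e1, hz, zero_smul, tsum_zero]
    · have h4 := (hV z fun i => norm_of_kp_ne hz i).const_smul (kp (fun i => kk (q i).1) z)
      simp only [e1]
      exact h4.tsum_eq
  rw [h3] at h2
  refine h2.congr_fun fun ν => ?_
  rw [at2_A S hok]

end

end Crest.Agent.R240.Lk
end

-- ▼ part R240/LkP
section

/-!
# Row 240, LEAK (helper404): the Fourier series of the leak

`hasSum_leak` : for a `J`-invariant form, the anti-invariant part of `S.A e q (D.pi' P)` is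
`e` times a rapidly converging series of terms `S.A e (tfK ν q) (E e ν P)`.
-/

set_option autoImplicit false
set_option maxSynthPendingDepth 3
set_option linter.unusedSectionVars false

open Set Function Filter Metric MeasureTheory
open scoped Manifold ContDiff Topology

namespace Crest.Agent.R240.Leak

open Crest.Agent.R240.Ch Crest.Agent.R240.Sm Crest.Agent.R240.Lk Crest.Agent.R240.SmJ

noncomputable section

section man

variable {M : Type*} [TopologicalSpace M] [ChartedSpace E4 M] [IsManifold 𝓘(ℝ, E4) ∞ M]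

/-- the value at a point as a linear map. -/
def at2Lin (x : M) : F2 E4 M →ₗ[ℝ] Bil where
  toFun b := at2 b x
  map_add' _ _ := rfl
  map_smul' _ _ := rfl

/-- `TT z` as a linear map. -/
def TTLin {ι : Type*} (J : EndF E4 M) (G : ι → Fam E4) (p : ι → M) (l : List ι) (z : ι → E4) :
    F2 E4 M →ₗ[ℝ] F2 E4 M where
  toFun b := TT J G p l z b
  map_add' a b := TT_add z a b
  map_smul' r a := TT_smul z r a

/-- expansion of `TT z b` in a frame. -/
lemma TT_frame {ι : Type*} {J : EndF E4 M} {G : ι → Fam E4} {p : ι → M} {l : List ι}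
    (hG : HG G p) {z : ι → E4} (hz : z ∈ UU G) {n : ℕ} (c : Fin n → X2 M) (a : Fin n → ℝ)
    {b : F2 E4 M} {x : M} (h : at2 b x = ∑ j, a j • at2 (c j).1 x) :
    at2 (TT J G p l z b) x = ∑ j, a j • at2 (TT J G p l z (c j).1) x := by
  have h1 : at2 b x = at2 (∑ j, a j • (c j).1) x := by
    rw [h]
    have := map_sum (at2Lin x) (fun j => a j • (c j).1) Finset.univ
    exact this.symm
  rw [TT_local hG hz h1]
  have h2 : TT J G p l z (∑ j, a j • (c j).1) = ∑ j, a j • TT J G p l z (c j).1 := by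
    have := map_sum (TTLin J G p l z) (fun j => a j • (c j).1) Finset.univ
    simp only [map_smul] at this
    exact this
  rw [h2]
  have h3 := map_sum (at2Lin x) (fun j => a j • TT J G p l z (c j).1) Finset.univ
  exact h3

/-- product of a smooth function and a smooth form. -/
def fX {f : M → ℝ} (hf : SmoothF E4 f) (b : X2 M) : X2 M := ⟨fmul f b.1, Smooth2.fmul hf b.2⟩



/-- the forms of the expansion. -/
def EE {N n : ℕ} {f : Fin n → X2 M →ₗ[ℝ] (M → ℝ)} (hf : ∀ j b, SmoothF E4 (f j b))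
    (d : Fin n → Ix (Fin N) → ℝ → X2 M) (e : ℝ) (ν : Ix (Fin N)) (P : X2 M) : X2 M :=
  ∑ j, fX (hf j P) (d j ν e)

lemma at2_EE {N n : ℕ} {f : Fin n → X2 M →ₗ[ℝ] (M → ℝ)} (hf : ∀ j b, SmoothF E4 (f j b))
    (d : Fin n → Ix (Fin N) → ℝ → X2 M) (e : ℝ) (ν : Ix (Fin N)) (P : X2 M) (x : M) :
    at2 (EE hf d e ν P : F2 E4 M) x = ∑ j, f j P x • at2 (d j ν e).1 x := by
  have h := map_sum ((at2Lin x).comp (Submodule.subtype _ : X2 M →ₗ[ℝ] F2 E4 M))
    (fun j => fX (hf j P) (d j ν e)) Finset.univ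
  exact h

/-- **the expansion of the leak for fixed parameters**. -/
lemma hasSum_z {N n : ℕ} {J : EndF E4 M} {G : Fin N → Fam E4} {p : Fin N → M} {l : List (Fin N)}
    (hG : HG G p) {c : Fin n → X2 M} {f : Fin n → X2 M →ₗ[ℝ] (M → ℝ)}
    (hf : ∀ j b, SmoothF E4 (f j b))
    (hfr : ∀ (b : X2 M) x, at2 b.1 x = ∑ j, f j b x • at2 (c j).1 x)
    {d : Fin n → Ix (Fin N) → ℝ → X2 M} {e : ℝ} {z : Fin N → E4} (hz : e • z ∈ UU G)
    (hd : ∀ j x, HasSum (fun ν : Ix (Fin N) => (∏ i, tf ν i (z i)) • (e • at2 (d j ν e).1 x))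
      (at2 (TT J G p l (e • z) (c j).1) x)) (P : X2 M) (x : M) :
    HasSum (fun ν : Ix (Fin N) => (∏ i, tf ν i (z i)) • (e • at2 (PP G p l (e • z) (EE hf d e ν P).1) x))
      (at2 (Ch.bpp J (PP G p l (e • z) (Ch.bp J P.1))) x) := by
  obtain ⟨D, hD⟩ := exists_pullPP G p l (e • z) x
  rw [bpp_PP hG hz, hD, TT_frame hG hz c _ (hfr P _)]
  have h1 : HasSum (fun ν : Ix (Fin N) => ∑ j, f j P (PS G p l (e • z) x) •
      ((∏ i, tf ν i (z i)) • (e • at2 (d j ν e).1 (PS G p l (e • z) x))))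
      (∑ j, f j P (PS G p l (e • z) x) •
        at2 (TT J G p l (e • z) (c j).1) (PS G p l (e • z) x)) :=
    hasSum_sum fun j _ => (hd j _).const_smul _
  have h2 := h1.mapL (pullL D)
  rw [pullL_apply] at h2
  refine h2.congr_fun fun ν => ?_
  rw [hD, at2_EE, ← pullL_apply, ← map_smul, ← map_smul]
  congr 1
  rw [Finset.smul_sum, Finset.smul_sum]
  refine Finset.sum_congr rfl fun j _ => ?_
  simp only [smul_smul]
  congr 1
  ring

end man

section sys

variable {M : Type*} [MetricSpace M] [CompactSpace M] [ChartedSpace E4 M]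
    [IsManifold 𝓘(ℝ, E4) ∞ M] [MeasurableSpace M] [BorelSpace M]

/-- Fourier expansion of the leak of one smooth form. -/
lemma exists_fouX (D : Dat M) (𝒰 : Cover M) (S : Sys M) {e2 : ℝ} (h2 : S.Ok e2) (c : X2 M) :
    ∃ d : Ix (Fin S.n) → ℝ → X2 M,
      (∀ m r : ℕ, ∃ C, 0 ≤ C ∧ ∀ ν, ∀ e ∈ Icc 0 (e2 / 4),
        𝒰.cm m (d ν e : F2 E4 M) ≤ C * (wt ν.1.1 ^ r)⁻¹) ∧
      (∀ e ∈ Icc 0 (e2 / 4), ∀ z : Fin S.n → E4, (∀ i, ‖z i‖ ≤ 1) → ∀ x,
        HasSum (fun ν : Ix (Fin S.n) => (∏ i, tf ν i (z i)) • (e • at2 (d ν e).1 x))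
          (at2 (TT D.J S.G S.p (List.finRange S.n) (e • z) c.1) x)) := by
  classical
  have he2 : 0 < e2 := h2.1
  have hin : ∀ e : ℝ, |e| < e2 / 2 → ∀ z : Fin S.n → E4, (∀ i, ‖z i‖ ≤ 3 / 2) →
      e • z ∈ UU S.G := by
    intro e he z hz i
    rw [mem_ball_zero_iff, Pi.smul_apply, norm_smul, Real.norm_eq_abs]
    have h3 : (S.G i).r = (S.c i).z0 := rfl
    have h4 := h2.2 i
    have h5 := hz i
    rw [h3]
    have : |e| * ‖z i‖ ≤ e2 / 2 * (3 / 2) := mul_le_mul he.le h5 (norm_nonneg _) (by positivity)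
    linarith
  have hj : JSm (UU S.G) (fun z => TT D.J S.G S.p (List.finRange S.n) z c.1) :=
    jsm_TT D.smJ (fun i => S.hG i) c.2
  have h0 : ∀ x, at2 (TT D.J S.G S.p (List.finRange S.n) (0 : Fin S.n → E4) c.1) x = 0 := by
    intro x
    rw [TT_zero D.sq]
    rfl
  obtain ⟨d, hd1, hd2, hd3⟩ := exists_fou 𝒰 (isOpen_UU (G := S.G))
    (fun z hz t ht => smul_mem_UU hz ht.1 ht.2)
    (e0 := e2 / 4) (e1 := e2 / 2) (ρ := 3 / 2) (by positivity) (by linarith) (by norm_num)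
    (by norm_num) hin hj h0
  have hd : ∀ ν, ∀ e ∈ Icc 0 (e2 / 4),
      ((if h : Smooth2 (d ν e) then (⟨d ν e, h⟩ : X2 M) else 0 : X2 M) : F2 E4 M) = d ν e :=
    fun ν e he => by rw [dif_pos (hd1 ν e he)]
  refine ⟨fun ν e => if h : Smooth2 (d ν e) then (⟨d ν e, h⟩ : X2 M) else 0, fun m r => ?_,
    fun e he z hz x => ?_⟩
  · obtain ⟨C, hC, h⟩ := hd2 m r
    refine ⟨C, hC, fun ν e he => ?_⟩
    rw [hd ν e he]
    exact h ν e he
  · refine (hd3 e he z hz x).congr_fun fun ν => ?_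
    rw [hd ν e he]

lemma cm_EE_le (𝒰 : Cover M) {N n : ℕ} {f : Fin n → X2 M →ₗ[ℝ] (M → ℝ)}
    (hf : ∀ j b, SmoothF E4 (f j b)) {d : Fin n → Ix (Fin N) → ℝ → X2 M} {e0 : ℝ}
    (hd : ∀ j, ∀ m r : ℕ, ∃ C, 0 ≤ C ∧ ∀ ν, ∀ e ∈ Icc 0 e0,
        𝒰.cm m (d j ν e : F2 E4 M) ≤ C * (wt ν.1.1 ^ r)⁻¹) (P : X2 M) (m r : ℕ) :
    ∃ C, 0 ≤ C ∧ ∀ ν, ∀ e ∈ Icc 0 e0,
        𝒰.cm m (EE hf d e ν P : F2 E4 M) ≤ C * (wt ν.1.1 ^ r)⁻¹ := by
  choose A hA0 hA using fun j => hd j m r
  choose B hB0 hB using fun j => cm_fmul_le 𝒰 (hf j P) m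
  refine ⟨∑ j, B j * A j, Finset.sum_nonneg fun j _ => mul_nonneg (hB0 j) (hA0 j),
    fun ν e he => ?_⟩
  refine (cm_sum_le' 𝒰 m Finset.univ fun j => fX (hf j P) (d j ν e)).trans ?_
  rw [Finset.sum_mul]
  refine Finset.sum_le_sum fun j _ => ?_
  rw [mul_assoc]
  exact (hB j _ (d j ν e).2).trans (mul_le_mul_of_nonneg_left (hA j ν e he) (hB0 j))

lemma n2_EE_le (D : Dat M) (𝒰 : Cover M) {N n : ℕ} {f : Fin n → X2 M →ₗ[ℝ] (M → ℝ)}
    (hf : ∀ j b, SmoothF E4 (f j b)) {K : ℝ} (hK : 0 ≤ K)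
    (hfK : ∀ j (b : X2 M) x, |f j b x| ≤ K * D.nr b.1 x)
    {d : Fin n → Ix (Fin N) → ℝ → X2 M} {e0 : ℝ}
    (hd : ∀ j, ∀ m r : ℕ, ∃ C, 0 ≤ C ∧ ∀ ν, ∀ e ∈ Icc 0 e0,
        𝒰.cm m (d j ν e : F2 E4 M) ≤ C * (wt ν.1.1 ^ r)⁻¹) (r : ℕ) :
    ∃ C, 0 ≤ C ∧ ∀ e ∈ Icc 0 e0, ∀ ν, ∀ P : X2 M,
        D.n2 (EE hf d e ν P : F2 E4 M) ≤ C * (wt ν.1.1 ^ r)⁻¹ * D.n2 (P : F2 E4 M) := by
  choose A hA0 hA using fun j => hd j 0 r
  obtain ⟨L, hL0, hL⟩ := NrCm.nr_le_cm D 𝒰
  refine ⟨∑ j, L * A j * K, Finset.sum_nonneg fun j _ =>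
    mul_nonneg (mul_nonneg hL0 (hA0 j)) hK, fun e he ν P => ?_⟩
  refine (n2_sum_le D Finset.univ fun j => fX (hf j P) (d j ν e)).trans ?_
  have hw : 0 ≤ (wt ν.1.1 ^ r)⁻¹ := inv_nonneg.2 (pow_nonneg (wt_pos _).le r)
  rw [Finset.sum_mul, Finset.sum_mul]
  refine Finset.sum_le_sum fun j _ => ?_
  have h1 : ∀ x, D.nr (d j ν e).1 x ≤ L * (A j * (wt ν.1.1 ^ r)⁻¹) := fun x =>
    (hL (d j ν e) x).trans (mul_le_mul_of_nonneg_left (hA j ν e he) hL0)
  have h2 := n2_fmul_le D P.2 (Smooth2.fmul (hf j P) (d j ν e).2)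
    (mul_nonneg hL0 (mul_nonneg (hA0 j) hw)) hK h1 (hfK j P)
  refine h2.trans (le_of_eq ?_)
  ring

/-- `antip` as a continuous linear map. -/
def antiL (J : E4 →L[ℝ] E4) : Bil →L[ℝ] Bil :=
  (1 / 2 : ℝ) • (ContinuousLinearMap.id ℝ Bil - pullL J)


/-- the leak as an integral. -/
lemma at2_leak (D : Dat M) (S : Sys M) {e : ℝ} (hok : S.Ok e) (q : Fin S.n → KF) (P : X2 M)
    (x : M) :
    at2 (D.pi'' (S.A e q (D.pi' P)) : F2 E4 M) x =
      ∫ z : Fin S.n → E4, kp (fun i => kk (q i).1) z •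
        at2 (Ch.bpp D.J (PP S.G S.p (List.finRange S.n) (e • z) (Ch.bp D.J P.1))) x := by
  have h1 : at2 (D.pi'' (S.A e q (D.pi' P)) : F2 E4 M) x =
      antiL (atJ D.J x) (at2 (S.A e q (D.pi' P) : F2 E4 M) x) := rfl
  have hint : Integrable (fun z : Fin S.n → E4 => kp (fun i => kk (q i).1) z •
      at2 (PP S.G S.p (List.finRange S.n) (e • z) (Ch.bp D.J P.1)) x) :=
    integrable_PP (fun i => S.hG i) (admK hok q) (D.pi' P).2 x
  rw [h1, at2_A S hok q (D.pi' P) x]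
  have h2 := (antiL (atJ D.J x)).integral_comp_comm hint
  refine Eq.trans h2.symm ?_
  refine integral_congr_ae (Eventually.of_forall fun z => ?_)
  simp only
  rw [map_smul]
  rfl

/-- **THE SERIES OF THE LEAK** -/
theorem hasSum_leak (D : Dat M) (𝒰 : Cover M) (S : Sys M) :
    ∃ e1 : ℝ, 0 < e1 ∧ (∀ e, 0 < e → e ≤ e1 → S.Ok e) ∧
      ∃ E : ℝ → Ix (Fin S.n) → X2 M → X2 M,
      (∀ r : ℕ, ∃ C : ℝ, 0 ≤ C ∧ ∀ e, 0 < e → e ≤ e1 → ∀ ν (P : X2 M),
        D.n2 (E e ν P : F2 E4 M) ≤ C * (wt ν.1.1 ^ r)⁻¹ * D.n2 (P : F2 E4 M)) ∧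
      (∀ e, 0 < e → e ≤ e1 → ∀ q ∈ ClK S.n 0, ∀ P : X2 M,
        (∀ l : ℕ, Summable fun ν => 𝒰.cm l (S.A e (tfK ν q) (E e ν P) : F2 E4 M)) ∧
        ∀ x, HasSum (fun ν => e • at2 (S.A e (tfK ν q) (E e ν P) : F2 E4 M) x)
          (at2 (D.pi'' (S.A e q (D.pi' P)) : F2 E4 M) x)) := by
  obtain ⟨e2, he2, -, hok2⟩ := S.exists_ok
  have h2 : S.Ok e2 := hok2 e2 he2 le_rfl
  have hle : e2 / 4 ≤ e2 := by linarith
  have hok : ∀ e, 0 < e → e ≤ e2 / 4 → S.Ok e := fun e he he' => hok2 e he (he'.trans hle)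
  obtain ⟨n, c, f, K, hK, hf, hfr, hfK⟩ := exists_frame D
  choose d hd1 hd2 using fun j => exists_fouX D 𝒰 S h2 (c j)
  refine ⟨e2 / 4, by positivity, hok, EE hf d, fun r => ?_, fun e he he' q hq P => ?_⟩
  · obtain ⟨C, hC, h⟩ := n2_EE_le D 𝒰 hf hK hfK hd1 r
    exact ⟨C, hC, fun e he he' ν P => h e ⟨he.le, he'⟩ ν P⟩
  · have hoke := hok e he he'
    have hcm : ∀ m, Summable fun ν => 𝒰.cm m (EE hf d e ν P : F2 E4 M) := by
      intro m
      obtain ⟨C, hC, h⟩ := cm_EE_le 𝒰 hf hd1 P m 1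
      exact Summable.of_nonneg_of_le (fun ν => Ch.cm_nonneg 𝒰 m _)
        (fun ν => h ν e ⟨he.le, he'⟩) ((summable_Ix (ι := Fin S.n) le_rfl).mul_left C)
    refine ⟨fun m => ?_, fun x => ?_⟩
    · obtain ⟨C, hC, h⟩ := cm_A_tfK 𝒰 S (e1 := e) hoke.2 m
      exact Summable.of_nonneg_of_le (fun ν => Ch.cm_nonneg 𝒰 m _)
        (fun ν => h e he le_rfl q hq ν _) ((hcm m).mul_left C)
    · rw [at2_leak D S hoke q P x]
      have hB : Summable fun ν => 𝒰.cm 0 ((e • EE hf d e ν P : X2 M) : F2 E4 M) := by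
        refine ((hcm 0).mul_left |e|).congr fun ν => ?_
        exact (Ch.cm_smul 𝒰 0 (EE hf d e ν P).2 e).symm
      have hV : ∀ z : Fin S.n → E4, (∀ i, ‖z i‖ ≤ 1) →
          HasSum (fun ν => (∏ i, tf ν i (z i)) •
            at2 (PS' S (e • z) ((e • EE hf d e ν P : X2 M) : F2 E4 M)) x)
            (at2 (Ch.bpp D.J (PP S.G S.p (List.finRange S.n) (e • z) (Ch.bp D.J P.1))) x) := by
        intro z hz
        have hez : e • z ∈ UU S.G := CC_subset hoke (smul_mem_CC he le_rfl hz)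
        have h3 := hasSum_z (J := D.J) (l := List.finRange S.n) (fun i => S.hG i) hf hfr hez
          (fun j x => hd2 j e ⟨he.le, he'⟩ z hz x) P x
        refine h3.congr_fun fun ν => ?_
        have h4 : PS' S (e • z) ((e • EE hf d e ν P : X2 M) : F2 E4 M) =
            e • PP S.G S.p (List.finRange S.n) (e • z) (EE hf d e ν P : F2 E4 M) := PP_smul _ _ _
        rw [h4]
        rfl
      have h5 := interchange 𝒰 S hoke hq (fun ν => e • EE hf d e ν P) hB x _ hV
      refine h5.congr_fun fun ν => ?_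
      rw [map_smul]
      rfl

end sys

end

end Crest.Agent.R240.Leak
end

-- ▼ part R240/LkH
section

/-!
# Row 240, LEAK: scaling of the kernels (helper461)
-/

set_option autoImplicit false
set_option maxSynthPendingDepth 3
set_option linter.unusedSectionVars false

open Set Function Filter MeasureTheory Metric
open scoped Manifold ContDiff Topology

namespace Crest.Agent.R240.Lk

open Crest.Agent.R240.Ch Crest.Agent.R240.Sm

noncomputable section

variable {M : Type*} [TopologicalSpace M] [ChartedSpace E4 M] [IsManifold 𝓘(ℝ, E4) ∞ M]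

lemma kk_mul (c : ℝ) (q : E4 → ℝ) : kk (fun z => c * q z) = fun z => c * kk q z := by
  funext z; simp only [kk]; ring

lemma opL_mulK (S : Sys M) [T2Space M] {e : ℝ} (h : S.Ok e) (c : ℝ) (q : Fin S.n → KF)
    (l : List (Fin S.n)) (b : X2 M) :
    S.opL e (mulK c q) l b = (c ^ l.length) • S.opL e q l b := by
  induction l with
  | nil => simp [Sys.opL_nil]
  | cons i l ih =>
    rw [Sys.opL_cons, Sys.opL_cons, LinearMap.comp_apply, LinearMap.comp_apply, ih, map_smul,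
      List.length_cons, pow_succ, mul_smul]
    congr 1
    apply Subtype.ext
    rw [Sys.op1_coe h i (mulK c q i).2]
    have h1 : ((c • S.op1 e i (q i).1 (S.opL e q l b) : X2 M) : F2 E4 M) =
        c • (S.op1 e i (q i).1 (S.opL e q l b) : F2 E4 M) := rfl
    rw [h1, Sys.op1_coe h i (q i).2, mulK_coe, kk_mul, A1_smul_left]

/-- scaling of all the kernels. -/
theorem A_mulK (S : Sys M) [T2Space M] {e : ℝ} (h : S.Ok e) (c : ℝ) (q : Fin S.n → KF)
    (b : X2 M) : S.A e (mulK c q) b = (c ^ S.n) • S.A e q b := by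
  have h1 := opL_mulK S h c q (List.finRange S.n) b
  rw [List.length_finRange] at h1
  exact h1

/-- bounds for kernels multiplied by trigonometric factors, from the multiplier bound. -/
theorem A_tfK_bound_of (S : Sys M) [T2Space M] (k : ℕ) {C : ℝ} (hC : 1 ≤ C)
    (hmult : ∀ q ∈ ClK S.n k, ∀ ν : Ix (Fin S.n), ∀ i : Fin S.n, ∀ j ≤ k,
      ∀ z ∈ closedBall (0 : E4) 1,
        ‖iteratedFDeriv ℝ j (fun z => (q i).1 z * tf ν i z) z‖ ≤ C * wt ν.1.1 ^ k) :
    ∀ e, S.Ok e → ∀ (L : X2 M →ₗ[ℝ] ℝ) (F : X2 M → ℝ) (n : ℝ), 0 ≤ n → (∀ b, 0 ≤ F b) →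
      (∀ p ∈ ClK S.n k, ∀ b, |L (S.A e p b)| ≤ n * F b) →
      ∀ q ∈ ClK S.n k, ∀ ν b, |L (S.A e (tfK ν q) b)| ≤ (C * wt ν.1.1 ^ k) ^ S.n * n * F b := by
  intro e he L F n hn hF hL q hq ν b
  set A : ℝ := C * wt ν.1.1 ^ k with hA
  have hA1 : 1 ≤ A := by
    have : 1 ≤ wt ν.1.1 ^ k := one_le_pow₀ (one_le_wt _)
    nlinarith
  have hA0 : 0 < A := lt_of_lt_of_le one_pos hA1
  have hmem : mulK A⁻¹ (tfK ν q) ∈ ClK S.n k := by
    intro i j hj z hz
    have h1 := hmult q hq ν i j hj z hz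
    have h2 : ContDiffAt ℝ j (fun z => (q i).1 z * tf ν i z) z :=
      ((tfK ν q i).2.of_le (by exact_mod_cast le_top)).contDiffAt
    have h3 : iteratedFDeriv ℝ j (mulK A⁻¹ (tfK ν q) i).1 z =
        A⁻¹ • iteratedFDeriv ℝ j (fun z => (q i).1 z * tf ν i z) z := by
      rw [mulK_coe]
      exact iteratedFDeriv_const_smul_apply (𝕜 := ℝ) (R := ℝ) (a := A⁻¹)
        (f := fun z => (q i).1 z * tf ν i z) h2
    rw [h3, norm_smul, norm_inv, Real.norm_eq_abs, abs_of_pos hA0]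
    calc A⁻¹ * ‖iteratedFDeriv ℝ j (fun z => (q i).1 z * tf ν i z) z‖ ≤ A⁻¹ * A := by gcongr
      _ = 1 := inv_mul_cancel₀ hA0.ne'
  have h4 := hL _ hmem b
  rw [A_mulK S he, map_smul, smul_eq_mul, abs_mul, abs_of_pos (by positivity)] at h4
  have h5 : |L (S.A e (tfK ν q) b)| = A ^ S.n * ((A⁻¹) ^ S.n * |L (S.A e (tfK ν q) b)|) := by
    rw [← mul_assoc, ← mul_pow, mul_inv_cancel₀ hA0.ne', one_pow, one_mul]
  rw [h5, mul_assoc]
  exact mul_le_mul_of_nonneg_left h4 (by positivity)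

end

end Crest.Agent.R240.Lk
end

-- ▼ part R240/LkMb
section

/-!
Row 240, N8 field `leak` (helper915): the multiplier bound.
-/

set_option autoImplicit false
set_option maxSynthPendingDepth 3
set_option linter.unusedSectionVars false

open Set Function Filter Metric
open scoped ContDiff Topology
open Crest.Agent.R240.Sm

namespace Crest.Agent.R240.Lk

noncomputable section

/-- linear part of the phase -/
def thL (n : Fin 4 → ℤ) : E4 →L[ℝ] ℝ :=
  (2 * Real.pi / 8) • ∑ a, (n a : ℝ) • (EuclideanSpace.proj a : E4 →L[ℝ] ℝ)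

lemma thL_apply (n : Fin 4 → ℤ) (z : E4) :
    thL n z = (2 * Real.pi / 8) * ∑ a, (n a : ℝ) * z a := by
  simp [thL]

lemma th_eq (n : Fin 4 → ℤ) (z : E4) : th n z = thL n z + 2 * Real.pi * ∑ a, (n a : ℝ) * (1 / 2) := by
  rw [thL_apply, th, Finset.mul_sum, Finset.mul_sum, Finset.mul_sum, ← Finset.sum_add_distrib]
  refine Finset.sum_congr rfl fun a _ => ?_
  ring

lemma norm_thL_le (n : Fin 4 → ℤ) : ‖thL n‖ ≤ ∑ a, |(n a : ℝ)| := by
  refine ContinuousLinearMap.opNorm_le_bound _ (Finset.sum_nonneg fun a _ => abs_nonneg _) fun z => ?_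
  rw [thL_apply]
  have h1 : |∑ a, (n a : ℝ) * z a| ≤ (∑ a, |(n a : ℝ)|) * ‖z‖ := by
    rw [Finset.sum_mul]
    refine (Finset.abs_sum_le_sum_abs _ _).trans (Finset.sum_le_sum fun a _ => ?_)
    rw [abs_mul]
    exact mul_le_mul_of_nonneg_left (PiLp.norm_apply_le z a) (abs_nonneg _)
  rw [norm_mul, Real.norm_eq_abs, Real.norm_eq_abs]
  have h2 : |2 * Real.pi / 8| ≤ 1 := by
    rw [abs_of_nonneg (by positivity)]
    have := Real.pi_le_four
    linarith
  calc |2 * Real.pi / 8| * |∑ a, (n a : ℝ) * z a| ≤ 1 * ((∑ a, |(n a : ℝ)|) * ‖z‖) :=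
        mul_le_mul h2 h1 (abs_nonneg _) zero_le_one
    _ = _ := one_mul _

lemma hasFDerivAt_tgth (s : Bool) (n : Fin 4 → ℤ) (z : E4) :
    HasFDerivAt (fun z => tg s (th n z)) ((sg s * tg (!s) (th n z)) • thL n) z := by
  have h1 : HasFDerivAt (th n) (thL n) z := by
    have h2 : HasFDerivAt (fun z => thL n z + 2 * Real.pi * ∑ a, (n a : ℝ) * (1 / 2)) (thL n) z :=
      (thL n).hasFDerivAt.add_const _
    exact h2.congr_of_eventuallyEq (Eventually.of_forall fun z => th_eq n z)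
  exact (hasDerivAt_tg s (th n z)).comp_hasFDerivAt z h1

lemma contDiff_tgth (s : Bool) (n : Fin 4 → ℤ) : ContDiff ℝ ∞ (fun z => tg s (th n z)) :=
  (contDiff_tg s).comp (contDiff_th n)

lemma norm_iter_tgth (n : Fin 4 → ℤ) (j : ℕ) : ∀ (s : Bool) (z : E4),
    ‖iteratedFDeriv ℝ j (fun z => tg s (th n z)) z‖ ≤ ‖thL n‖ ^ j := by
  induction j with
  | zero =>
    intro s z
    rw [norm_iteratedFDeriv_zero, pow_zero, Real.norm_eq_abs]
    exact abs_tg_le s _
  | succ j ih =>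
    intro s z
    rw [← norm_iteratedFDeriv_fderiv]
    set g : ℝ →L[ℝ] (E4 →L[ℝ] ℝ) := ContinuousLinearMap.smulRight (1 : ℝ →L[ℝ] ℝ) (sg s • thL n)
      with hg
    have e1 : fderiv ℝ (fun z => tg s (th n z)) = g ∘ fun z => tg (!s) (th n z) := by
      funext z
      rw [(hasFDerivAt_tgth s n z).fderiv, hg]
      simp only [comp_apply, ContinuousLinearMap.smulRight_apply, ContinuousLinearMap.one_apply,
        smul_smul]
      rw [mul_comm]
    rw [e1]
    refine (ContinuousLinearMap.norm_iteratedFDeriv_comp_left g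
      ((contDiff_tgth (!s) n).contDiffAt) (by exact_mod_cast le_top)).trans ?_
    have hgn : ‖g‖ ≤ ‖thL n‖ := by
      rw [hg, ContinuousLinearMap.norm_smulRight_apply, norm_smul]
      have h1 : ‖(1 : ℝ →L[ℝ] ℝ)‖ ≤ 1 := ContinuousLinearMap.norm_id_le
      have h2 : ‖sg s‖ = 1 := by cases s <;> simp [sg]
      rw [h2, one_mul]
      exact mul_le_of_le_one_left (norm_nonneg _) h1
    rw [pow_succ, mul_comm (‖thL n‖ ^ j)]
    exact mul_le_mul hgn (ih (!s) z) (norm_nonneg _) (norm_nonneg _)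

variable {N : ℕ}

lemma le_wt {d : Type} [Fintype d] (n : d → ℤ) (i : d) : |(n i : ℝ)| ≤ wt n := by
  classical
  have h1 : 1 + (n i : ℝ) ^ 2 ≤ wt n := by
    unfold wt
    rw [← Finset.mul_prod_erase Finset.univ (fun i => 1 + (n i : ℝ) ^ 2) (Finset.mem_univ i)]
    refine le_mul_of_one_le_right (by positivity) ?_
    refine Finset.prod_induction _ (fun r : ℝ => 1 ≤ r) (fun a b ha hb => ?_) le_rfl ?_
    · nlinarith
    · intro i _
      nlinarith [sq_nonneg (n i : ℝ)]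
  have h2 : |(n i : ℝ)| ≤ 1 + (n i : ℝ) ^ 2 := by
    rw [← sq_abs (n i : ℝ)]
    nlinarith [sq_nonneg (|(n i : ℝ)| - 1), abs_nonneg (n i : ℝ)]
  exact h2.trans h1

lemma norm_thL_sl_le (n : Fin N × Fin 4 → ℤ) (i : Fin N) : ‖thL (sl n i)‖ ≤ 4 * wt n := by
  refine (norm_thL_le _).trans ?_
  calc ∑ a, |(sl n i a : ℝ)| ≤ ∑ _a : Fin 4, wt n := Finset.sum_le_sum fun a _ => le_wt n (i, a)
    _ = 4 * wt n := by simp

/-- **the multiplier bound.** -/
theorem mult_bound' (N k : ℕ) : ∃ C : ℝ, 1 ≤ C ∧ ∀ q ∈ ClK N k, ∀ ν : Ix (Fin N), ∀ i : Fin N,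
    ∀ j ≤ k, ∀ z ∈ closedBall (0 : E4) 1,
      ‖iteratedFDeriv ℝ j (fun z => (q i).1 z * tf ν i z) z‖ ≤ C * wt ν.1.1 ^ k := by
  refine ⟨8 ^ k, one_le_pow₀ (by norm_num), fun q hq ν i j hj z hz => ?_⟩
  have hw : 1 ≤ 4 * wt ν.1.1 := by
    have := one_le_wt ν.1.1
    linarith
  have h1 := norm_iteratedFDeriv_mul_le (q i).2 (contDiff_tgth (ν.2 i) (sl ν.1.1 i)) z
    (n := j) (by exact_mod_cast le_top)
  refine h1.trans ?_
  have h2 : ∀ m ∈ Finset.range (j + 1), (j.choose m : ℝ) * ‖iteratedFDeriv ℝ m (q i).1 z‖ *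
      ‖iteratedFDeriv ℝ (j - m) (fun z => tg (ν.2 i) (th (sl ν.1.1 i) z)) z‖ ≤
      (j.choose m : ℝ) * (4 * wt ν.1.1) ^ k := by
    intro m hm
    have hm' : m ≤ j := Nat.lt_succ_iff.1 (Finset.mem_range.1 hm)
    have h3 := hq i m (hm'.trans hj) z hz
    have h4 := norm_iter_tgth (sl ν.1.1 i) (j - m) (ν.2 i) z
    have h5 : ‖thL (sl ν.1.1 i)‖ ^ (j - m) ≤ (4 * wt ν.1.1) ^ k :=
      (pow_le_pow_left₀ (norm_nonneg _) (norm_thL_sl_le _ _) _).trans
        (pow_le_pow_right₀ hw (by omega))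
    rw [mul_assoc]
    refine mul_le_mul_of_nonneg_left ?_ (Nat.cast_nonneg _)
    calc ‖iteratedFDeriv ℝ m (q i).1 z‖ *
        ‖iteratedFDeriv ℝ (j - m) (fun z => tg (ν.2 i) (th (sl ν.1.1 i) z)) z‖
        ≤ 1 * (4 * wt ν.1.1) ^ k := mul_le_mul h3 (h4.trans h5) (norm_nonneg _) zero_le_one
      _ = _ := one_mul _
  refine (Finset.sum_le_sum h2).trans ?_
  rw [← Finset.sum_mul]
  have h6 : (∑ m ∈ Finset.range (j + 1), (j.choose m : ℝ)) = 2 ^ j := by
    exact_mod_cast Nat.sum_range_choose j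
  rw [h6, mul_pow, ← mul_assoc]
  refine mul_le_mul_of_nonneg_right ?_ (by have := wt_pos ν.1.1; positivity)
  calc (2 : ℝ) ^ j * 4 ^ k ≤ 2 ^ k * 4 ^ k :=
        mul_le_mul_of_nonneg_right (pow_le_pow_right₀ (by norm_num) hj) (by positivity)
    _ = 8 ^ k := by rw [← mul_pow]; norm_num

end

end Crest.Agent.R240.Lk
end

-- ▼ part R240/N8

/-!
Row 240, N8 (helper915): **the smoothing package exists.**
-/

set_option autoImplicit false
set_option maxSynthPendingDepth 3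

open Set Function Filter Metric MeasureTheory
open scoped Manifold ContDiff Topology
open Crest.Agent.R240.Ch Crest.Agent.R240.Sm

namespace Crest.Agent.R240

noncomputable section

variable {M : Type*} [MetricSpace M] [CompactSpace M] [ChartedSpace E4 M]
    [IsManifold 𝓘(ℝ, E4) ∞ M] [MeasurableSpace M] [BorelSpace M]

/-- the field `leak` (895, 404, 461). -/
theorem Sm.fLeak (D : Dat M) (𝒰 : Cover M) (S : Sys M) : FLeak D 𝒰 S := by
  refine Lk.fLeak_of D 𝒰 S Lk.tfK (Leak.hasSum_leak D 𝒰 S) fun k => ?_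
  obtain ⟨C, hC, h⟩ := Lk.mult_bound' S.n k
  exact ⟨C, hC, Lk.A_tfK_bound_of S k hC h⟩

/-- N8 from the open fields. -/
theorem Dat.n8_of (D : Dat M) (hr : ∀ S : Sys M, FRepm D S)
    (hk : ∀ (𝒰 : Cover M) (S : Sys M), FLeak D 𝒰 S) : D.N8 := by
  intro 𝒰
  obtain ⟨S⟩ := exists_sys (M := M)
  exact smPack_of D 𝒰 S (fExact S) (fApprox 𝒰 S) (Q4.fBd D S) (Q4.fPos D S)
    (Q4.fLeak1 D S) (Q4.fLeak2 D S) (Q4.fLow D S) (fRep D 𝒰 S) (hr S)
    (fCrude D 𝒰 S) (hk 𝒰 S) (fAdj D S) (SmSign.fSign S)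

/-- **node N8.** -/
theorem Dat.n8 (D : Dat M) : D.N8 := D.n8_of (SmF.fRepm D) (Sm.fLeak D)

end

end Crest.Agent.R240
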