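import Mathlib
import Crest.Agent.R240.En1
import Crest.Agent.R240.NrmM
import Crest.Agent.R240.Ch7

-- ▼ part R240/FundLoc
section

/-!
Row 240 (S0371), helper456: the fundamental lemma for closedness, local version in `R^4`:
a `C^1` two-form `η` on an open set `U` with `∫ W(η, dS) = 0` for all smooth one-forms `S` with
compact support in `U` is closed on `U`.
-/

set_option autoImplicit false
set_option maxSynthPendingDepth 3
open scoped ContDiff Topology
open MeasureTheory Set

namespace Crest.Agent.R240.Fund

open Crest.Agent.R240.En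

noncomputable section

/-- the cyclic sum appearing in `Cl`. -/
def cyc (D : E4 →L[ℝ] Bil) (u v w : E4) : ℝ := D u v w + D v w u + D w u v

lemma cyc_rot (D : E4 →L[ℝ] Bil) (u v w : E4) : cyc D u v w = cyc D v w u := by
  unfold cyc; ring

lemma cyc_lin (D : E4 →L[ℝ] Bil) (u v w : E4) : cyc D u v w =
    u 0 * cyc D (ee 0) v w + u 1 * cyc D (ee 1) v w + u 2 * cyc D (ee 2) v w
      + u 3 * cyc D (ee 3) v w := by
  conv_lhs => rw [sum_ee u]
  simp only [cyc, map_add, map_smul, add_apply, smul_apply, smul_eq_mul]
  ring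

lemma cyc_zero_of_ee {D : E4 →L[ℝ] Bil} (h : ∀ i j k : Fin 4, cyc D (ee i) (ee j) (ee k) = 0)
    (u v w : E4) : cyc D u v w = 0 := by
  have h1 : ∀ (i j : Fin 4) (w : E4), cyc D (ee i) (ee j) w = 0 := by
    intro i j w
    rw [cyc_rot, cyc_rot, cyc_lin]
    simp only [h, mul_zero, add_zero]
  have h2 : ∀ (i : Fin 4) (v w : E4), cyc D (ee i) v w = 0 := by
    intro i v w
    rw [cyc_rot, cyc_lin]
    have : ∀ j : Fin 4, cyc D (ee j) w (ee i) = 0 := by
      intro j
      rw [← cyc_rot]
      exact h1 i j w
    simp only [this, mul_zero, add_zero]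
  rw [cyc_lin]
  simp only [h2, mul_zero, add_zero]

lemma cyc_zero_of_four {D : E4 →L[ℝ] Bil} (hs : ∀ u v w, D u v w = - D u w v)
    (c012 : cyc D (ee 0) (ee 1) (ee 2) = 0) (c013 : cyc D (ee 0) (ee 1) (ee 3) = 0)
    (c023 : cyc D (ee 0) (ee 2) (ee 3) = 0) (c123 : cyc D (ee 1) (ee 2) (ee 3) = 0)
    (u v w : E4) : cyc D u v w = 0 := by
  refine cyc_zero_of_ee ?_ u v w
  intro i j k
  have h1 := hs (ee i) (ee j) (ee k)
  have h2 := hs (ee j) (ee k) (ee i)
  have h3 := hs (ee k) (ee i) (ee j)
  unfold cyc at *
  fin_cases i <;> fin_cases j <;> fin_cases k <;> simp only [Fin.zero_eta, Fin.mk_one,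
    Fin.reduceFinMk] at h1 h2 h3 ⊢ <;> linarith

/-- the coordinate covectors -/
def pr (k : Fin 4) : Cov := EuclideanSpace.proj k

@[simp] lemma pr_apply (k : Fin 4) (v : E4) : pr k v = v k := rfl

lemma fderiv_entry {b : E4 → Bil} {x : E4} (hb : DifferentiableAt ℝ b x) (v w u : E4) :
    fderiv ℝ (fun y => b y v w) x u = fderiv ℝ b x u v w := by
  have h0 : HasFDerivAt b (fderiv ℝ b x) x := hb.hasFDerivAt
  have h1 : HasFDerivAt (fun y => b y v) _ x := h0.clm_apply (hasFDerivAt_const v x)
  have h2 : HasFDerivAt (fun y => b y v w) _ x := h1.clm_apply (hasFDerivAt_const w x)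
  rw [h2.fderiv]; simp

/-- integration by parts against one entry -/
lemma int_parts {b f : E4 → ℝ} (hb : ContDiff ℝ 1 b) (hf : ContDiff ℝ 1 f)
    (hc : HasCompactSupport f) (v : E4) :
    IZ (fun x => b x * fderiv ℝ f x v + f x * fderiv ℝ b x v) := by
  have h1 : ∀ x, fderiv ℝ (fun y => b y * f y) x v = b x * fderiv ℝ f x v + f x * fderiv ℝ b x v := by
    intro x
    rw [fderiv_fun_mul (hb.differentiable one_ne_zero x) (hf.differentiable one_ne_zero x)]
    simp
  have h2 : ContDiff ℝ 1 (fun y => b y * f y) := hb.mul hf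
  have h3 : HasCompactSupport (fun y => b y * f y) := hc.mul_left
  refine ⟨?_, ?_⟩
  · have h4 : Continuous fun x => fderiv ℝ (fun y => b y * f y) x v :=
      (h2.continuous_fderiv one_ne_zero).clm_apply continuous_const
    have h5 := h4.integrable_of_hasCompactSupport (μ := (volume : Measure E4))
      (h3.fderiv_apply (𝕜 := ℝ) v)
    simpa only [h1] using h5
  · have h5 := integral_fderiv_zero h2 h3 v
    simpa only [h1] using h5

lemma d1_smul_pr {f : E4 → ℝ} (hf : Differentiable ℝ f) (k : Fin 4) (x : E4) :
    d1 (fun y => f y • pr k) x = wed (fderiv ℝ f x) (pr k) := by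
  rw [d1_smul (hf x) (differentiableAt_const _)]
  have h0 : d1 (fun _ : E4 => pr k) x = 0 := by
    ext v w
    rw [d1_apply]
    simp
  rw [h0]
  ext v w
  simp

/-- the local fundamental lemma with a globally `C^1` form. -/
theorem cl_of_weak_global {U : Set E4} (hU : IsOpen U) {η : E4 → Bil} (hη : ContDiff ℝ 1 η)
    (halt : ∀ x, Alt (η x))
    (h : ∀ S : E4 → Cov, ContDiff ℝ ∞ S → HasCompactSupport S → tsupport S ⊆ U →
      ∫ x, W (η x) (d1 S x) = 0) {x : E4} (hx : x ∈ U) : Cl η x := by
  have hηd : Differentiable ℝ η := hη.differentiable one_ne_zero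
  have hbij : ∀ i j : Fin 4, ContDiff ℝ 1 (fun x => η x (ee i) (ee j)) := fun i j =>
    (hη.clm_apply contDiff_const).clm_apply contDiff_const
  have hs : ∀ x u v w, fderiv ℝ η x u v w = - fderiv ℝ η x u w v := by
    intro x u v w
    rw [← fderiv_entry (hηd x), ← fderiv_entry (hηd x)]
    have : (fun y => η y v w) = fun y => - (η y w v) := by
      funext y; exact (halt y).swap _ _
    rw [this, fderiv_fun_neg]; simp
  -- the weak identity, for one component
  have main : ∀ (i j k l : Fin 4) (σ : ℝ), σ ≠ 0 →
      (∀ (f : E4 → ℝ) (x : E4), W (η x) (wed (fderiv ℝ f x) (pr l)) =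
        σ * (η x (ee i) (ee j) * fderiv ℝ f x (ee k) + η x (ee j) (ee k) * fderiv ℝ f x (ee i)
          + η x (ee k) (ee i) * fderiv ℝ f x (ee j))) →
      ∀ x ∈ U, cyc (fderiv ℝ η x) (ee i) (ee j) (ee k) = 0 := by
    intro i j k l σ hσ hW
    have hcont : Continuous fun x => cyc (fderiv ℝ η x) (ee i) (ee j) (ee k) := by
      have h2 : ∀ a b c : Fin 4, Continuous fun x => fderiv ℝ η x (ee a) (ee b) (ee c) := by
        intro a b c
        have h3 : Continuous fun x => fderiv ℝ (fun y => η y (ee b) (ee c)) x (ee a) :=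
          ((hbij b c).continuous_fderiv one_ne_zero).clm_apply continuous_const
        simpa only [fderiv_entry (hηd _)] using h3
      unfold cyc
      exact ((h2 _ _ _).add (h2 _ _ _)).add (h2 _ _ _)
    have hae := hU.ae_eq_zero_of_integral_contDiff_smul_eq_zero (μ := (volume : Measure E4))
      (f := fun x => cyc (fderiv ℝ η x) (ee i) (ee j) (ee k))
      (hcont.locallyIntegrable.locallyIntegrableOn U) ?_
    · intro x hxU
      by_contra hne
      have hopen : IsOpen (U ∩ {x | cyc (fderiv ℝ η x) (ee i) (ee j) (ee k) ≠ 0}) :=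
        hU.inter (isOpen_ne_fun hcont continuous_const)
      have hpos := hopen.measure_pos (volume : Measure E4) ⟨x, hxU, hne⟩
      have hzero : volume (U ∩ {x | cyc (fderiv ℝ η x) (ee i) (ee j) (ee k) ≠ 0}) = 0 := by
        rw [ae_iff] at hae
        refine measure_mono_null ?_ hae
        intro y hy
        simp only [mem_ofPred_eq, not_forall]
        exact ⟨hy.1, hy.2⟩
      rw [hzero] at hpos
      exact lt_irrefl _ hpos
    · intro f hf hfc hfU
      have hf1 : ContDiff ℝ 1 f := hf.of_le (by simp)
      have hSt : tsupport (fun y => f y • pr l) ⊆ tsupport f := by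
        refine closure_mono ?_
        intro y hy hy'
        apply hy
        simp [hy']
      have hW0 := h (fun y => f y • pr l) (hf.smul contDiff_const)
        (hfc.mono (by intro y hy hy'; apply hy; simp [hy'])) (hSt.trans hfU)
      simp_rw [d1_smul_pr (hf1.differentiable one_ne_zero), hW] at hW0
      rw [integral_const_mul] at hW0
      have hW1 := (mul_eq_zero.1 hW0).resolve_left hσ
      have z1 := int_parts (hbij i j) hf1 hfc (ee k)
      have z2 := int_parts (hbij j k) hf1 hfc (ee i)
      have z3 := int_parts (hbij k i) hf1 hfc (ee j)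
      have z := ((z1.add z2).add z3).2
      have hfi : Integrable (fun x => f x * cyc (fderiv ℝ η x) (ee i) (ee j) (ee k)) :=
        (hf1.continuous.mul hcont).integrable_of_hasCompactSupport hfc.mul_right
      have hdf : ∀ v : E4, Continuous fun x => fderiv ℝ f x v := fun v =>
        (hf1.continuous_fderiv one_ne_zero).clm_apply continuous_const
      have hgi : ∀ a b c : Fin 4, Integrable (fun x => η x (ee a) (ee b) * fderiv ℝ f x (ee c)) :=
        fun a b c => ((hbij a b).continuous.mul (hdf _)).integrable_of_hasCompactSupport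
          (HasCompactSupport.mul_left (hfc.fderiv_apply (𝕜 := ℝ) (ee c)))
      have hsum : ∫ x, (f x * cyc (fderiv ℝ η x) (ee i) (ee j) (ee k) +
          (η x (ee i) (ee j) * fderiv ℝ f x (ee k) + η x (ee j) (ee k) * fderiv ℝ f x (ee i)
          + η x (ee k) (ee i) * fderiv ℝ f x (ee j))) = 0 := by
        rw [← z]
        refine integral_congr_ae (Filter.Eventually.of_forall fun x => ?_)
        simp only [fderiv_entry (hηd x), cyc]
        ring
      have hI : Integrable (fun x => η x (ee i) (ee j) * fderiv ℝ f x (ee k)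
          + η x (ee j) (ee k) * fderiv ℝ f x (ee i) + η x (ee k) (ee i) * fderiv ℝ f x (ee j)) :=
        ((hgi i j k).add (hgi j k i)).add (hgi k i j)
      rw [integral_add hfi hI, hW1, add_zero] at hsum
      simpa only [smul_eq_mul] using hsum
  have hsw : ∀ x (a b : Fin 4), η x (ee a) (ee b) = - η x (ee b) (ee a) := fun x a b =>
    (halt x).swap _ _
  have c012 := main 0 1 2 3 1 one_ne_zero (by
    intro f x
    rw [hsw x 2 0]
    simp [W, ent]
    ring)
  have c013 := main 0 1 3 2 (-1) (by norm_num) (by
    intro f x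
    rw [hsw x 3 0]
    simp [W, ent]
    ring)
  have c023 := main 0 2 3 1 1 one_ne_zero (by
    intro f x
    rw [hsw x 3 0]
    simp [W, ent]
    ring)
  have c123 := main 1 2 3 0 (-1) (by norm_num) (by
    intro f x
    rw [hsw x 3 1]
    simp [W, ent]
    ring)
  intro u v w
  exact cyc_zero_of_four (hs x) (c012 x hx) (c013 x hx) (c023 x hx) (c123 x hx) u v w

/-- the local fundamental lemma. -/
theorem cl_of_weak {U : Set E4} (hU : IsOpen U) {η : E4 → Bil} (hη : ContDiffOn ℝ ∞ η U)
    (halt : ∀ x ∈ U, Alt (η x))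
    (h : ∀ S : E4 → Cov, ContDiff ℝ ∞ S → HasCompactSupport S → tsupport S ⊆ U →
      ∫ x, W (η x) (d1 S x) = 0) {x : E4} (hx : x ∈ U) : Cl η x := by
  -- cut off
  obtain ⟨r, hr, hrU⟩ := Metric.isOpen_iff.1 hU x hx
  let φ : ContDiffBump x := ⟨r / 4, r / 2, by positivity, by linarith⟩
  have hφU : tsupport φ ⊆ U := by
    rw [φ.tsupport_eq]
    exact (Metric.closedBall_subset_ball (by show r / 2 < r; linarith)).trans hrU
  have hφ : ContDiff ℝ ∞ φ := φ.contDiff
  set η' : E4 → Bil := fun y => φ y • η y with hη'
  have hη'd : ContDiff ℝ 1 η' := by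
    rw [contDiff_iff_contDiffAt]
    intro y
    by_cases hy : y ∈ U
    · exact ((hφ.contDiffAt).smul (hη.contDiffAt (hU.mem_nhds hy))).of_le (by simp)
    · have h0 : ∀ᶠ z in 𝓝 y, η' z = 0 := by
        have : y ∈ (tsupport φ)ᶜ := fun hy' => hy (hφU hy')
        filter_upwards [(isClosed_tsupport φ).isOpen_compl.mem_nhds this] with z hz
        simp only [hη', image_eq_zero_of_notMem_tsupport hz]
        exact zero_smul ℝ (η z)
      exact (contDiffAt_const (c := (0 : Bil))).congr_of_eventuallyEq h0
  have halt' : ∀ y, Alt (η' y) := by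
    intro y v
    by_cases hy : y ∈ U
    · simp only [hη', smul_apply, halt y hy v, smul_zero]
    · have : y ∉ tsupport φ := fun hy' => hy (hφU hy')
      have h0 : η' y = 0 := by
        simp only [hη', image_eq_zero_of_notMem_tsupport this]
        exact zero_smul ℝ (η y)
      rw [h0]; rfl
  have hball : ∀ y ∈ Metric.ball x (r / 4), η' y = η y := by
    intro y hy
    have : φ y = 1 := φ.one_of_mem_closedBall (Metric.ball_subset_closedBall hy)
    simp only [hη', this, one_smul]
  have key : Cl η' x := by
    refine cl_of_weak_global (U := Metric.ball x (r / 4)) Metric.isOpen_ball hη'd halt' ?_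
      (Metric.mem_ball_self (by positivity))
    intro S hS hc hsub
    rw [← h S hS hc (hsub.trans ((Metric.ball_subset_ball (by linarith)).trans hrU))]
    refine integral_congr_ae (Filter.Eventually.of_forall fun y => ?_)
    show W (η' y) (d1 S y) = W (η y) (d1 S y)
    by_cases hy : y ∈ Metric.ball x (r / 4)
    · rw [hball y hy]
    · have hy' : y ∉ tsupport S := fun h' => hy (hsub h')
      have h0 : fderiv ℝ S y = 0 := by
        have : S =ᶠ[𝓝 y] fun _ => 0 := by
          filter_upwards [(isClosed_tsupport S).isOpen_compl.mem_nhds hy'] with z hz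
          exact image_eq_zero_of_notMem_tsupport hz
        rw [this.fderiv_eq]; simp
      simp [W, ent, h0]
  have hev : η =ᶠ[𝓝 x] η' := by
    filter_upwards [Metric.ball_mem_nhds x (show 0 < r / 4 by positivity)] with y hy
    exact (hball y hy).symm
  intro u v w
  rw [hev.fderiv_eq]
  exact key u v w

end

end Crest.Agent.R240.Fund
end

-- ▼ part R240/Fund

/-!
Row 240 (S0371), helper456: node FUND (du Bois-Reymond on `M`): a smooth two-form orthogonal to all
exact forms is closed.
-/

set_option autoImplicit false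
set_option maxSynthPendingDepth 3

open Set Function Filter MeasureTheory Metric
open scoped Manifold ContDiff Topology ENNReal

namespace Crest.Agent.R240.Fund

open Ch

noncomputable section

/-- conversion between the two closedness expressions. -/
theorem dd_of_Cl {b : E4 → Bil} {y : E4} (hb : DifferentiableAt ℝ b y) (halt : ∀ z, Alt (b z))
    (h : En.Cl b y) (u v w : E4) : dd b y u v w = 0 := by
  have hs : fderiv ℝ b y v u w = - fderiv ℝ b y v w u := by
    rw [← fderiv_entry hb, ← fderiv_entry hb]
    have : (fun y => b y u w) = fun y => - (b y w u) := by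
      funext z; exact (halt z).swap _ _
    rw [this, fderiv_fun_neg]; simp
  unfold dd
  have := h u v w
  rw [hs]
  linarith

variable {M : Type*} [MetricSpace M] [CompactSpace M] [ChartedSpace E4 M]
    [IsManifold 𝓘(ℝ, E4) ∞ M] [MeasurableSpace M] [BorelSpace M]

theorem W_zero_right (b : Bil) : W b 0 = 0 := by simp [W, ent_zero]

/-- **node FUND**. -/
theorem fund (D : Dat M) : D.FUND := by
  intro η hη
  show Closed2 η.1
  have hV := Int.dat_volF D
  intro p y0 hy0 u v w
  have hsm : Smooth2 η.1 := η.2
  -- a ball on which the chart orientation is constant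
  have hev := (Int.sg_locally_const hV hy0).and ((chartAt E4 p).open_target.mem_nhds hy0)
  obtain ⟨r, hr, hball⟩ := Metric.eventually_nhds_iff_ball.1 hev
  have hσ : Int.sg D.F p y0 ≠ 0 := by
    unfold Int.sg
    have h := hV.rep_ne hy0
    rcases lt_or_gt_of_ne h with h1 | h1
    · rw [sign_neg h1]; norm_num
    · rw [sign_pos h1]; norm_num
  have hcl : En.Cl (rep p η.1) y0 := by
    refine cl_of_weak (U := ball y0 r) isOpen_ball
      ((hsm.2 p).mono fun z hz => (hball z hz).2) (fun z _ => ?_) ?_ (mem_ball_self hr)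
    · intro v
      rw [rep_apply]
      exact hsm.1 _ _
    · intro S hS hSc hSU
      have hsub : tsupport S ⊆ (chartAt E4 p).target := fun z hz => (hball z (hSU hz)).2
      have hEx : IsEx (ext2 p (Ch.d1 S)) := isEx_ext2_d1' hS hSc hsub
      have h0 := hη ⟨ext2 p (Ch.d1 S), IsEx.smooth2 hEx⟩ hEx
      have hb2 : Smooth2 (ext2 p (Ch.d1 S)) := IsEx.smooth2 hEx
      have h1 : D.I η.1 (ext2 p (Ch.d1 S)) = ∫ y in (chartAt E4 p).target,
          Int.dens D.F p y • qG D.F η.1 (ext2 p (Ch.d1 S)) ((chartAt E4 p).symm y) := by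
        unfold Dat.I IG
        refine Int.isVol_integral hV (Int.dat_isVol D) p
          (NM.continuous_qG D hsm hb2).aestronglyMeasurable ?_
        intro x hx
        unfold qG q
        rw [Sm4.at2_ext2_of_notMem hx, W_zero_right, zero_div]
      have h2 : ∫ y in (chartAt E4 p).target,
          Int.dens D.F p y • qG D.F η.1 (ext2 p (Ch.d1 S)) ((chartAt E4 p).symm y) =
          ∫ y in (chartAt E4 p).target, Int.sg D.F p y0 * W (rep p η.1 y) (En.d1 S y) := by
        refine setIntegral_congr_fun (chartAt E4 p).open_target.measurableSet fun y hy => ?_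
        rw [Int.qG_chart hV (fun x => NM.alt_at hsm x) (fun x => NM.alt_at hb2 x) hy,
          smul_eq_mul, Int.dens_mul_q hV hy, Sm4.rep_ext2_self hy]
        show Int.sg D.F p y * W (rep p η.1 y) (En.d1 S y) = _
        by_cases hyU : y ∈ ball y0 r
        · rw [(hball y hyU).1]
        · have hy' : y ∉ tsupport S := fun h' => hyU (hSU h')
          have h0 : fderiv ℝ S y = 0 := by
            have : S =ᶠ[𝓝 y] fun _ => 0 := by
              filter_upwards [(isClosed_tsupport S).isOpen_compl.mem_nhds hy'] with z hz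
              exact image_eq_zero_of_notMem_tsupport hz
            rw [this.fderiv_eq]; simp
          have h00 : En.d1 S y = 0 := by
            ext a b
            rw [En.d1_apply, h0]; simp
          rw [h00, W_zero_right, mul_zero, mul_zero]
      have h3 : ∫ y in (chartAt E4 p).target, Int.sg D.F p y0 * W (rep p η.1 y) (En.d1 S y) =
          ∫ y, Int.sg D.F p y0 * W (rep p η.1 y) (En.d1 S y) := by
        refine setIntegral_eq_integral_of_forall_compl_eq_zero fun y hy => ?_
        have hy' : y ∉ tsupport S := fun h' => hy (hsub h')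
        have h0 : fderiv ℝ S y = 0 := by
          have : S =ᶠ[𝓝 y] fun _ => 0 := by
            filter_upwards [(isClosed_tsupport S).isOpen_compl.mem_nhds hy'] with z hz
            exact image_eq_zero_of_notMem_tsupport hz
          rw [this.fderiv_eq]; simp
        have h00 : En.d1 S y = 0 := by
          ext a b
          rw [En.d1_apply, h0]; simp
        rw [h00, W_zero_right, mul_zero]
      rw [h2, h3, integral_const_mul] at h1
      have h4 : D.I η.1 (ext2 p (Ch.d1 S)) = 0 := h0
      rw [h4] at h1
      exact (mul_eq_zero.1 h1.symm).resolve_left hσ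
  refine dd_of_Cl (hsm.diff hy0) (fun z v => ?_) hcl u v w
  rw [rep_apply]
  exact hsm.1 _ _

end

end Crest.Agent.R240.Fund
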