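import Mathlib
import Crest.Agent.R240.Met
import Crest.Agent.R240.Ch5
import Crest.Agent.R240.IntTop

/-!
Row 240, PART INT (helper240): `c r⁴ ≤ μ(B_r(x)) ≤ C r⁴`.
-/

set_option autoImplicit false
set_option maxSynthPendingDepth 3

open MeasureTheory Set Filter Topology Function Metric
open scoped Manifold ContDiff ENNReal

namespace Crest.Agent.R240.Int

open Crest.Agent.R240 Crest.Agent.R240.Ch

noncomputable section

theorem vol_ball_E4 (x : E4) {r : ℝ} (hr : 0 ≤ r) :
    volume (ball x r) = ENNReal.ofReal (r ^ 4) * volume (ball (0 : E4) 1) := by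
  have h := Measure.addHaar_ball (volume : Measure E4) x hr
  rwa [show Module.finrank ℝ E4 = 4 from finrank_euclideanSpace_fin] at h

/-- volume of the unit ball as a real number. -/
def v1 : ℝ := (volume (ball (0 : E4) 1)).toReal

theorem v1_pos : 0 < v1 :=
  ENNReal.toReal_pos (measure_ball_pos volume _ one_pos).ne' measure_ball_lt_top.ne

theorem ofReal_v1 : ENNReal.ofReal v1 = volume (ball (0 : E4) 1) :=
  ENNReal.ofReal_toReal measure_ball_lt_top.ne

theorem vol_ball_E4' (x : E4) {r : ℝ} (hr : 0 ≤ r) :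
    volume (ball x r) = ENNReal.ofReal (r ^ 4 * v1) := by
  rw [vol_ball_E4 x hr, ENNReal.ofReal_mul (by positivity), ofReal_v1]

variable {M : Type*} [MetricSpace M] [CompactSpace M] [ChartedSpace E4 M]
    [IsManifold 𝓘(ℝ, E4) ∞ M] [MeasurableSpace M] [BorelSpace M]

/-- uniform local comparison data: charts, radii, bi-Lipschitz constants. -/
theorem exists_unif (hb : Met.BiLip E4 M) (A : FA E4 M) :
    ∃ c C δ : ℝ, 0 < c ∧ 0 < C ∧ 0 < δ ∧
      (∀ i, ∀ y ∈ A.K i, ∀ z ∈ A.K i,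
        c * ‖y - z‖ ≤ dist ((chartAt E4 (A.c i)).symm y) ((chartAt E4 (A.c i)).symm z) ∧
        dist ((chartAt E4 (A.c i)).symm y) ((chartAt E4 (A.c i)).symm z) ≤ C * ‖y - z‖) ∧
      (∀ x : M, ∃ i, ball x δ ⊆ (chartAt E4 (A.c i)).source ∩
        chartAt E4 (A.c i) ⁻¹' interior (A.K i)) := by
  choose c C hc hC hcC using fun i => hb (A.c i) (A.K i) (A.isCompact_K i) (A.K_sub i)
  obtain ⟨δ, hδ, hδ2⟩ := lebesgue_number_lemma_of_metric (s := (univ : Set M)) isCompact_univ
    (c := fun i => (chartAt E4 (A.c i)).source ∩ chartAt E4 (A.c i) ⁻¹' interior (A.K i))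
    (fun i => (chartAt E4 (A.c i)).isOpen_inter_preimage isOpen_interior)
    (fun x _ => by
      obtain ⟨i, h1, h2⟩ := A.cover x
      exact mem_iUnion.mpr ⟨i, h1, h2⟩)
  obtain ⟨c', hc', hc'2⟩ : ∃ c' : ℝ, 0 < c' ∧ ∀ i, c' ≤ c i := by
    rcases isEmpty_or_nonempty (Fin A.n) with h | h
    · exact ⟨1, one_pos, fun i => (h.false i).elim⟩
    · refine ⟨Finset.univ.inf' Finset.univ_nonempty c, ?_, fun i => Finset.inf'_le _ (Finset.mem_univ i)⟩
      rw [Finset.lt_inf'_iff]; exact fun i _ => hc i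
  obtain ⟨C', hC', hC'2⟩ : ∃ C' : ℝ, 0 < C' ∧ ∀ i, C i ≤ C' := by
    refine ⟨1 + ∑ i, C i, ?_, fun i => ?_⟩
    · have : 0 ≤ ∑ i, C i := Finset.sum_nonneg fun i _ => (hC i).le
      linarith
    · have := Finset.single_le_sum (f := C) (fun i _ => (hC i).le) (Finset.mem_univ i)
      linarith
  refine ⟨c', C', δ, hc', hC', hδ, fun i y hy z hz => ?_, fun x => hδ2 x (mem_univ x)⟩
  have h := hcC i y hy z hz
  exact ⟨(mul_le_mul_of_nonneg_right (hc'2 i) (norm_nonneg _)).trans h.1,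
    h.2.trans (mul_le_mul_of_nonneg_right (hC'2 i) (norm_nonneg _))⟩

/-- bounds of the density on the compact cores. -/
theorem exists_dens_bd {F : F2 E4 M} (hF : Vol F) (A : FA E4 M) :
    ∃ d D : ℝ, 0 < d ∧ 0 < D ∧ ∀ i, ∀ y ∈ A.K i, d ≤ dens F (A.c i) y ∧ dens F (A.c i) y ≤ D := by
  have h1 : ∀ i, ∃ d D : ℝ, 0 < d ∧ 0 < D ∧ ∀ y ∈ A.K i, d ≤ dens F (A.c i) y ∧
      dens F (A.c i) y ≤ D := by
    intro i
    rcases (A.K i).eq_empty_or_nonempty with h0 | h0
    · exact ⟨1, 1, one_pos, one_pos, fun y hy => by rw [h0] at hy; exact hy.elim⟩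
    · have hcont := (hF.continuousOn_dens (A.c i)).mono (A.K_sub i)
      obtain ⟨y1, hy1, hmin⟩ := (A.isCompact_K i).exists_isMinOn h0 hcont
      obtain ⟨y2, hy2, hmax⟩ := (A.isCompact_K i).exists_isMaxOn h0 hcont
      exact ⟨_, _, hF.dens_pos (A.K_sub i hy1), hF.dens_pos (A.K_sub i hy2),
        fun y hy => ⟨hmin hy, hmax hy⟩⟩
  choose d D hd hD hdD using h1
  obtain ⟨c', hc', hc'2⟩ : ∃ c' : ℝ, 0 < c' ∧ ∀ i, c' ≤ d i := by
    rcases isEmpty_or_nonempty (Fin A.n) with h | h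
    · exact ⟨1, one_pos, fun i => (h.false i).elim⟩
    · refine ⟨Finset.univ.inf' Finset.univ_nonempty d, ?_, fun i => Finset.inf'_le _ (Finset.mem_univ i)⟩
      rw [Finset.lt_inf'_iff]; exact fun i _ => hd i
  refine ⟨c', 1 + ∑ i, D i, hc', ?_, fun i y hy => ⟨(hc'2 i).trans (hdD i y hy).1,
    (hdD i y hy).2.trans ?_⟩⟩
  · have : 0 ≤ ∑ i, D i := Finset.sum_nonneg fun i _ => (hD i).le
    linarith
  · have := Finset.single_le_sum (f := D) (fun i _ => (hD i).le) (Finset.mem_univ i)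
    linarith

/-- **upper bound**: `μ(B_r(x)) ≤ C r⁴` for all `r > 0`. -/
theorem mu_ball_le (hb : Met.BiLip E4 M) {F : F2 E4 M} (hF : Vol F) :
    ∃ C : ℝ, 0 < C ∧ ∀ x : M, ∀ r : ℝ, 0 < r → mu F (ball x r) ≤ ENNReal.ofReal (C * r ^ 4) := by
  obtain ⟨A⟩ := exists_FA (E := E4) (M := M)
  obtain ⟨c, C, δ, hc, hC, hδ, hbl, hcov⟩ := exists_unif hb A
  obtain ⟨d, D, hd, hD, hdD⟩ := exists_dens_bd hF A
  have hfin := isFinite_mu hF
  set m : ℝ := (mu F univ).toReal with hm
  have hm0 : 0 ≤ m := ENNReal.toReal_nonneg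
  set C1 : ℝ := D * ((2 / c) ^ 4 * v1) with hC1
  have hC1p : 0 < C1 := by have := v1_pos; positivity
  refine ⟨C1 + m / δ ^ 4, by positivity, fun x r hr => ?_⟩
  rcases le_or_gt r δ with hrδ | hrδ
  · obtain ⟨i, hi⟩ := hcov x
    set p := A.c i with hp
    have hsub : ball x r ⊆ (chartAt E4 p).source :=
      ((ball_subset_ball hrδ).trans hi).trans inter_subset_left
    have hKi : ∀ z ∈ ball x r, chartAt E4 p z ∈ A.K i := fun z hz =>
      interior_subset (hi (ball_subset_ball hrδ hz)).2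
    rw [mu_apply hF p measurableSet_ball hsub]
    have hx0 : x ∈ ball x r := mem_ball_self hr
    have hincl : (chartAt E4 p).target ∩ (chartAt E4 p).symm ⁻¹' (ball x r) ⊆
        A.K i ∩ ball (chartAt E4 p x) (2 / c * r) := by
      rintro y ⟨hy1, hy2⟩
      have hyK : y ∈ A.K i := by
        have := hKi _ hy2
        rwa [(chartAt E4 p).right_inv hy1] at this
      refine ⟨hyK, ?_⟩
      have h1 := (hbl i y hyK (chartAt E4 p x) (hKi x hx0)).1
      rw [(chartAt E4 p).left_inv (hsub hx0)] at h1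
      have h2 : dist ((chartAt E4 p).symm y) x < r := hy2
      rw [mem_ball, dist_eq_norm]
      have h3 : c * ‖y - chartAt E4 p x‖ < r := h1.trans_lt h2
      have h4 : ‖y - chartAt E4 p x‖ < r / c := by
        rw [lt_div_iff₀ hc]; linarith
      have h5 : r / c ≤ 2 / c * r := by
        rw [div_mul_eq_mul_div, div_le_div_iff_of_pos_right hc]; linarith
      linarith
    calc ∫⁻ y in (chartAt E4 p).target ∩ (chartAt E4 p).symm ⁻¹' (ball x r),
          ENNReal.ofReal (dens F p y)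
        ≤ ∫⁻ y in A.K i ∩ ball (chartAt E4 p x) (2 / c * r), ENNReal.ofReal (dens F p y) :=
          lintegral_mono_set hincl
      _ ≤ ∫⁻ _ in A.K i ∩ ball (chartAt E4 p x) (2 / c * r), ENNReal.ofReal D := by
          apply setLIntegral_mono' ((A.isCompact_K i).measurableSet.inter measurableSet_ball)
          intro y hy
          exact ENNReal.ofReal_le_ofReal (hdD i y hy.1).2
      _ ≤ ∫⁻ _ in ball (chartAt E4 p x) (2 / c * r), ENNReal.ofReal D :=
          lintegral_mono_set inter_subset_right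
      _ = ENNReal.ofReal D * volume (ball (chartAt E4 p x) (2 / c * r)) := by
          rw [setLIntegral_const]
      _ = ENNReal.ofReal (D * ((2 / c * r) ^ 4 * v1)) := by
          rw [vol_ball_E4' _ (by positivity), ← ENNReal.ofReal_mul hD.le]
      _ ≤ ENNReal.ofReal ((C1 + m / δ ^ 4) * r ^ 4) := by
          apply ENNReal.ofReal_le_ofReal
          have h1 : D * ((2 / c * r) ^ 4 * v1) = C1 * r ^ 4 := by rw [hC1]; ring
          rw [h1]
          have : 0 ≤ m / δ ^ 4 * r ^ 4 := by positivity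
          nlinarith
  · calc mu F (ball x r) ≤ mu F univ := measure_mono (subset_univ _)
      _ = ENNReal.ofReal m := (ENNReal.ofReal_toReal (measure_ne_top _ _)).symm
      _ ≤ ENNReal.ofReal ((C1 + m / δ ^ 4) * r ^ 4) := by
          apply ENNReal.ofReal_le_ofReal
          have h1 : δ ^ 4 ≤ r ^ 4 := pow_le_pow_left₀ hδ.le hrδ.le 4
          have h2 : m = m / δ ^ 4 * δ ^ 4 := by field_simp
          have h3 : m / δ ^ 4 * δ ^ 4 ≤ m / δ ^ 4 * r ^ 4 :=
            mul_le_mul_of_nonneg_left h1 (by positivity)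
          have h4 : 0 ≤ C1 * r ^ 4 := by positivity
          linarith [add_mul C1 (m / δ ^ 4) (r ^ 4)]


/-- upper bound for the data. -/
theorem dat_ball_le (D : Dat M) :
    ∃ C : ℝ, 0 < C ∧ ∀ x : M, ∀ r : ℝ, 0 < r → D.μ (ball x r) ≤ ENNReal.ofReal (C * r ^ 4) := by
  rw [isVol_eq_mu (dat_volF D) (dat_isVol D)]
  exact mu_ball_le D.bl (dat_volF D)


end

end Crest.Agent.R240.Int
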