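import Mathlib

/-!
# Row 240, scalar functions of Step 5: the logarithmic weight `H_K` and the log cut-off `g_K`

`Hf K t = 1/((t+K) log (t+K))`, `Df K t = |H_K'(t)| = (log s + 1)/(s² log² s)`, `s = t+K`,
`hf K u = - log (log (K-u))` (so `h' (u) = H(-u)`, `h''(u) = |H'|(-u)`),
`gf K t = smoothTransition (1 - 2(√log(t+K) - √log(1+K)))`.
Everything for `1 ≤ log K`, `0 ≤ t`.
-/

namespace Crest.Agent.R240.CutFun

open Real Filter Topology Set

/-- `H_K(t) = 1/((t+K) log (t+K))`. -/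
noncomputable def Hf (K t : ℝ) : ℝ := 1 / ((t + K) * Real.log (t + K))

/-- `|H_K'(t)| = (log s + 1)/(s² log² s)`, `s = t+K`. -/
noncomputable def Df (K t : ℝ) : ℝ :=
  (Real.log (t + K) + 1) / ((t + K) ^ 2 * Real.log (t + K) ^ 2)

/-- `h_K(u) = - log (log (K - u))`. -/
noncomputable def hf (K u : ℝ) : ℝ := - Real.log (Real.log (K - u))

section basic

variable {K t : ℝ}

theorem K_pos_of (hK : 1 ≤ Real.log K) (hK0 : 0 < K) : 1 < K := by
  by_contra h
  have h1 : K ≤ 1 := not_lt.mp h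
  have : Real.log K ≤ 0 := Real.log_nonpos hK0.le h1
  linarith

theorem log_ge (hK0 : 0 < K) (hK : 1 ≤ Real.log K) (ht : 0 ≤ t) :
    Real.log K ≤ Real.log (t + K) :=
  Real.log_le_log hK0 (by linarith)

theorem log_ge_one (hK0 : 0 < K) (hK : 1 ≤ Real.log K) (ht : 0 ≤ t) :
    1 ≤ Real.log (t + K) := le_trans hK (log_ge hK0 hK ht)

theorem s_pos (hK0 : 0 < K) (ht : 0 ≤ t) : 0 < t + K := by linarith

theorem Hf_pos (hK0 : 0 < K) (hK : 1 ≤ Real.log K) (ht : 0 ≤ t) : 0 < Hf K t := by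
  have h1 := log_ge_one hK0 hK ht
  have h2 := s_pos hK0 ht
  unfold Hf
  positivity

theorem Df_pos (hK0 : 0 < K) (hK : 1 ≤ Real.log K) (ht : 0 ≤ t) : 0 < Df K t := by
  have h1 := log_ge_one hK0 hK ht
  have h2 := s_pos hK0 ht
  have h3 : 0 < Real.log (t + K) := by linarith
  unfold Df
  positivity

/-- `H_K ≤ 1/(K log K)`. -/
theorem Hf_le (hK0 : 0 < K) (hK : 1 ≤ Real.log K) (ht : 0 ≤ t) :
    Hf K t ≤ 1 / (K * Real.log K) := by
  have h1 := log_ge hK0 hK ht
  have h3 : 0 < Real.log K := by linarith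
  unfold Hf
  apply one_div_le_one_div_of_le (by positivity)
  exact mul_le_mul (by linarith) h1 h3.le (by linarith)

/-- `H_K ≤ 1/log K`. -/
theorem Hf_le' (hK0 : 0 < K) (hK : 1 ≤ Real.log K) (ht : 0 ≤ t) :
    Hf K t ≤ 1 / Real.log K := by
  have h3 : 0 < Real.log K := by linarith
  have h4 := K_pos_of hK hK0
  refine (Hf_le hK0 hK ht).trans ?_
  apply one_div_le_one_div_of_le h3
  nlinarith


/-- Exact identity `H_K² (log s + 1) = |H_K'|`. -/
theorem Hf_sq_mul (hK0 : 0 < K) (hK : 1 ≤ Real.log K) (ht : 0 ≤ t) :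
    Hf K t ^ 2 * (Real.log (t + K) + 1) = Df K t := by
  have h1 := log_ge_one hK0 hK ht
  have h2 := s_pos hK0 ht
  unfold Hf Df
  field_simp

/-- `H_K² ≤ |H_K'| / log K`. -/
theorem Hf_sq_le (hK0 : 0 < K) (hK : 1 ≤ Real.log K) (ht : 0 ≤ t) :
    Hf K t ^ 2 ≤ Df K t / Real.log K := by
  have h1 := log_ge hK0 hK ht
  have h3 : 0 < Real.log K := by linarith
  rw [le_div_iff₀ h3, ← Hf_sq_mul hK0 hK ht]
  apply mul_le_mul_of_nonneg_left _ (sq_nonneg _)
  linarith

/-- `H_K(t) (1+t) ≤ 1/log K`. -/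
theorem Hf_mul_le (hK0 : 0 < K) (hK : 1 ≤ Real.log K) (ht : 0 ≤ t) :
    Hf K t * (1 + t) ≤ 1 / Real.log K := by
  have h1 := log_ge hK0 hK ht
  have h3 : 0 < Real.log K := by linarith
  have h4 := K_pos_of hK hK0
  have h5 : 0 < Real.log (t + K) := by linarith
  have h2 := s_pos hK0 ht
  unfold Hf
  rw [div_mul_eq_mul_div, one_mul, div_le_div_iff₀ (by positivity) h3, one_mul]
  exact mul_le_mul (by linarith) h1 h3.le h2.le

/-- `|H_K'| (1+t)² ≤ 2/log K`. -/
theorem Df_mul_le (hK0 : 0 < K) (hK : 1 ≤ Real.log K) (ht : 0 ≤ t) :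
    Df K t * (1 + t) ^ 2 ≤ 2 / Real.log K := by
  have h1 := log_ge hK0 hK ht
  have h1' := log_ge_one hK0 hK ht
  have h3 : 0 < Real.log K := by linarith
  have h4 := K_pos_of hK hK0
  have h5 : 0 < Real.log (t + K) := by linarith
  have h2 := s_pos hK0 ht
  rw [← Hf_sq_mul hK0 hK ht]
  have h6 := Hf_mul_le hK0 hK ht
  have h7 := (Hf_pos hK0 hK ht).le
  -- `(H(1+t)) ≤ 1/log s`
  have h8 : Hf K t * (1 + t) ≤ 1 / Real.log (t + K) := by
    unfold Hf
    rw [div_mul_eq_mul_div, one_mul, div_le_div_iff₀ (by positivity) h5, one_mul]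
    exact mul_le_mul_of_nonneg_right (by linarith) h5.le
  have h9 : 0 ≤ Hf K t * (1 + t) := by positivity
  calc Hf K t ^ 2 * (Real.log (t + K) + 1) * (1 + t) ^ 2
      = (Hf K t * (1 + t)) * ((Hf K t * (1 + t)) * (Real.log (t + K) + 1)) := by ring
    _ ≤ (1 / Real.log K) * ((1 / Real.log (t + K)) * (Real.log (t + K) + 1)) := by
        apply mul_le_mul h6 _ (by positivity) (by positivity)
        exact mul_le_mul_of_nonneg_right h8 (by linarith)
    _ ≤ (1 / Real.log K) * 2 := by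
        apply mul_le_mul_of_nonneg_left _ (by positivity)
        rw [div_mul_eq_mul_div, one_mul, div_le_iff₀ h5]
        linarith
    _ = 2 / Real.log K := by ring



end basic

section deriv

variable {K t u : ℝ}

theorem hasDerivAt_Hf (hK0 : 0 < K) (hK : 1 ≤ Real.log K) (ht : 0 ≤ t) :
    HasDerivAt (Hf K) (- Df K t) t := by
  have h1 := log_ge_one hK0 hK ht
  have h2 := s_pos hK0 ht
  have hs : HasDerivAt (fun x : ℝ => x + K) 1 t := (hasDerivAt_id t).add_const K
  have hl : HasDerivAt (fun x : ℝ => Real.log (x + K)) (1 / (t + K)) t := hs.log h2.ne'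
  have hm : HasDerivAt (fun x : ℝ => (x + K) * Real.log (x + K))
      (1 * Real.log (t + K) + (t + K) * (1 / (t + K))) t := hs.mul hl
  have hne : (t + K) * Real.log (t + K) ≠ 0 := by positivity
  have hi := hm.inv hne
  have he : (fun x : ℝ => ((x + K) * Real.log (x + K)))⁻¹ = Hf K := by
    funext x; simp [Hf, Pi.inv_apply]
  rw [he] at hi
  refine hi.congr_deriv ?_
  unfold Df
  have h3 : Real.log (t + K) ≠ 0 := by linarith
  field_simp


theorem hasDerivAt_Hf_neg (hK0 : 0 < K) (hK : 1 ≤ Real.log K) (hu : u ≤ 0) :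
    HasDerivAt (fun u => Hf K (-u)) (Df K (-u)) u := by
  have h := hasDerivAt_Hf (t := -u) hK0 hK (by linarith)
  have h2 : HasDerivAt (fun u : ℝ => -u) (-1) u := (hasDerivAt_id u).neg
  have := h.comp u h2
  exact this.congr_deriv (by ring)

theorem contDiffAt_Hf {n : WithTop ℕ∞} (hK0 : 0 < K) (hK : 1 ≤ Real.log K) (ht : 0 ≤ t) :
    ContDiffAt ℝ n (Hf K) t := by
  have h1 := log_ge_one hK0 hK ht
  have h2 := s_pos hK0 ht
  unfold Hf
  have hs : ContDiffAt ℝ n (fun x : ℝ => x + K) t := contDiffAt_id.add contDiffAt_const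
  have hl : ContDiffAt ℝ n (fun x : ℝ => Real.log (x + K)) t := hs.log h2.ne'
  exact contDiffAt_const.div (hs.mul hl) (by positivity)

theorem contDiffAt_Df {n : WithTop ℕ∞} (hK0 : 0 < K) (hK : 1 ≤ Real.log K) (ht : 0 ≤ t) :
    ContDiffAt ℝ n (Df K) t := by
  have h1 := log_ge_one hK0 hK ht
  have h2 := s_pos hK0 ht
  unfold Df
  have hs : ContDiffAt ℝ n (fun x : ℝ => x + K) t := contDiffAt_id.add contDiffAt_const
  have hl : ContDiffAt ℝ n (fun x : ℝ => Real.log (x + K)) t := hs.log h2.ne'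
  exact (hl.add contDiffAt_const).div ((hs.pow 2).mul (hl.pow 2)) (by positivity)




end deriv

section cutoff

variable {K t : ℝ}

/-- The exponent `q_K(t) = 2 √log(t+K) - 2 √log(1+K)`, with `q' = 1/((t+K) √log(t+K))`. -/
noncomputable def qf (K t : ℝ) : ℝ :=
  2 * √(Real.log (t + K)) - 2 * √(Real.log (1 + K))

/-- `q_K'(t) = 1/((t+K) √log(t+K))`. -/
noncomputable def dqf (K t : ℝ) : ℝ := 1 / ((t + K) * √(Real.log (t + K)))

/-- The log cut-off `g_K(t) = τ(1 - q_K(t))` with `τ = Real.smoothTransition`. -/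
noncomputable def gf (K t : ℝ) : ℝ := Real.smoothTransition (1 - qf K t)

/-- The derivative of `Real.smoothTransition` is bounded. -/
theorem exists_bound_deriv_smoothTransition :
    ∃ C : ℝ, 0 < C ∧ ∀ x, |deriv Real.smoothTransition x| ≤ C := by
  have hc : Continuous (deriv Real.smoothTransition) :=
    (Real.smoothTransition.contDiff (n := 1)).continuous_deriv le_rfl
  obtain ⟨C, hC⟩ := isCompact_Icc.exists_bound_of_continuousOn (s := Icc (-1 : ℝ) 2)
    hc.continuousOn
  refine ⟨max C 1, by positivity, fun x => ?_⟩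
  by_cases hx : x ∈ Icc (-1 : ℝ) 2
  · exact (hC x hx).trans (le_max_left _ _)
  · have h0 : deriv Real.smoothTransition x = 0 := by
      rw [mem_Icc, not_and_or, not_le, not_le] at hx
      rcases hx with hx | hx
      · have : Real.smoothTransition =ᶠ[𝓝 x] fun _ => 0 := by
          filter_upwards [Iio_mem_nhds hx] with y hy
          exact Real.smoothTransition.zero_of_nonpos (by linarith [mem_Iio.mp hy])
        rw [this.deriv_eq]; simp
      · have : Real.smoothTransition =ᶠ[𝓝 x] fun _ => 1 := by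
          filter_upwards [Ioi_mem_nhds hx] with y hy
          exact Real.smoothTransition.one_of_one_le (by linarith [mem_Ioi.mp hy])
        rw [this.deriv_eq]; simp
    rw [h0, abs_zero]
    positivity

/-- The constant bounding `|τ'|`. -/
noncomputable def Cτ : ℝ := exists_bound_deriv_smoothTransition.choose

theorem Cτ_pos : 0 < Cτ := exists_bound_deriv_smoothTransition.choose_spec.1

theorem abs_deriv_τ_le (x : ℝ) : |deriv Real.smoothTransition x| ≤ Cτ :=
  exists_bound_deriv_smoothTransition.choose_spec.2 x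


theorem gf_nonneg (K t : ℝ) : 0 ≤ gf K t := Real.smoothTransition.nonneg _

theorem gf_le_one (K t : ℝ) : gf K t ≤ 1 := Real.smoothTransition.le_one _

theorem hasDerivAt_qf (hK0 : 0 < K) (hK : 1 ≤ Real.log K) (ht : 0 ≤ t) :
    HasDerivAt (qf K) (dqf K t) t := by
  have h1 := log_ge_one hK0 hK ht
  have h2 := s_pos hK0 ht
  have h3 : 0 < √(Real.log (t + K)) := Real.sqrt_pos.mpr (by linarith)
  have hs : HasDerivAt (fun x : ℝ => x + K) 1 t := (hasDerivAt_id t).add_const K
  have hl : HasDerivAt (fun x : ℝ => Real.log (x + K)) (1 / (t + K)) t := hs.log h2.ne'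
  have hq := ((hl.sqrt (by linarith)).const_mul 2).sub_const (2 * √(Real.log (1 + K)))
  refine hq.congr_deriv ?_
  unfold dqf
  field_simp

theorem contDiffAt_qf {n : WithTop ℕ∞} (hK0 : 0 < K) (hK : 1 ≤ Real.log K) (ht : 0 ≤ t) :
    ContDiffAt ℝ n (qf K) t := by
  have h1 := log_ge_one hK0 hK ht
  have h2 := s_pos hK0 ht
  unfold qf
  have hs : ContDiffAt ℝ n (fun x : ℝ => x + K) t := contDiffAt_id.add contDiffAt_const
  have hl : ContDiffAt ℝ n (fun x : ℝ => Real.log (x + K)) t := hs.log h2.ne'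
  have hq : ContDiffAt ℝ n (fun x : ℝ => √(Real.log (x + K))) t := hl.sqrt (by linarith)
  exact (contDiffAt_const.mul hq).sub contDiffAt_const

theorem contDiffAt_gf {n : ℕ∞} (hK0 : 0 < K) (hK : 1 ≤ Real.log K) (ht : 0 ≤ t) :
    ContDiffAt ℝ n (gf K) t := by
  unfold gf
  exact (Real.smoothTransition.contDiffAt).comp t
    (contDiffAt_const.sub (contDiffAt_qf (n := n) hK0 hK ht))

/-- The derivative of the cut-off. -/
noncomputable def dgf (K t : ℝ) : ℝ := - (deriv Real.smoothTransition (1 - qf K t) * dqf K t)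

theorem hasDerivAt_gf (hK0 : 0 < K) (hK : 1 ≤ Real.log K) (ht : 0 ≤ t) :
    HasDerivAt (gf K) (dgf K t) t := by
  have hq := (hasDerivAt_qf hK0 hK ht).const_sub 1
  have hτ : HasDerivAt Real.smoothTransition (deriv Real.smoothTransition (1 - qf K t))
      (1 - qf K t) :=
    ((Real.smoothTransition.contDiff (n := 1)).differentiable (by norm_num)).differentiableAt
      |>.hasDerivAt
  have := hτ.comp t hq
  refine this.congr_deriv ?_
  unfold dgf
  ring


/-- `q'² ≤ |H'|`. -/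
theorem dqf_sq_le (hK0 : 0 < K) (hK : 1 ≤ Real.log K) (ht : 0 ≤ t) :
    dqf K t ^ 2 ≤ Df K t := by
  have h1 := log_ge_one hK0 hK ht
  have h2 := s_pos hK0 ht
  have h0 : 0 < Real.log (t + K) := by linarith
  have h3 : 0 < √(Real.log (t + K)) := Real.sqrt_pos.mpr (by linarith)
  have h4 : √(Real.log (t + K)) ^ 2 = Real.log (t + K) := Real.sq_sqrt (by linarith)
  unfold dqf Df
  rw [div_pow, one_pow, mul_pow, h4, div_le_div_iff₀ (by positivity) (by positivity), one_mul]
  nlinarith [mul_pos (pow_pos h2 2) h0]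


/-- `g'² ≤ Cτ² |H'|`. -/
theorem dgf_sq_le (hK0 : 0 < K) (hK : 1 ≤ Real.log K) (ht : 0 ≤ t) :
    dgf K t ^ 2 ≤ Cτ ^ 2 * Df K t := by
  unfold dgf
  rw [neg_sq, mul_pow]
  apply mul_le_mul _ (dqf_sq_le hK0 hK ht) (sq_nonneg _) (sq_nonneg _)
  rw [← sq_abs]
  exact pow_le_pow_left₀ (abs_nonneg _) (abs_deriv_τ_le _) 2



theorem qf_mono (hK0 : 0 < K) (hK : 1 ≤ Real.log K) {t₁ t₂ : ℝ} (h1 : 0 ≤ t₁) (h12 : t₁ ≤ t₂) :
    qf K t₁ ≤ qf K t₂ := by
  have a2 := s_pos hK0 h1
  have : Real.log (t₁ + K) ≤ Real.log (t₂ + K) := Real.log_le_log a2 (by linarith)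
  have := Real.sqrt_le_sqrt this
  unfold qf
  linarith

theorem gf_anti (hK0 : 0 < K) (hK : 1 ≤ Real.log K) {t₁ t₂ : ℝ} (h1 : 0 ≤ t₁) (h12 : t₁ ≤ t₂) :
    gf K t₂ ≤ gf K t₁ := by
  unfold gf
  apply Real.smoothTransition.monotone
  have := qf_mono hK0 hK h1 h12
  linarith

/-- `g_K = 1` on `[0,1]`. -/
theorem gf_eq_one (hK0 : 0 < K) (hK : 1 ≤ Real.log K) (ht : 0 ≤ t) (ht1 : t ≤ 1) :
    gf K t = 1 := by
  unfold gf
  apply Real.smoothTransition.one_of_one_le
  have := qf_mono hK0 hK ht ht1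
  have h2 : qf K 1 = 0 := by unfold qf; ring
  linarith

/-- `g_K = 0` far out: there is `t_K` with `g_K(t) = 0` for `t ≥ t_K`. -/
theorem exists_gf_eq_zero (K : ℝ) (hK0 : 0 < K) : ∃ tK : ℝ, 0 < tK ∧ ∀ t, tK ≤ t → gf K t = 0 := by
  set A : ℝ := √(Real.log (1 + K)) + 1 / 2
  refine ⟨Real.exp (A ^ 2), Real.exp_pos _, fun t ht => ?_⟩
  unfold gf
  apply Real.smoothTransition.zero_of_nonpos
  have h1 : A ^ 2 ≤ Real.log (t + K) := by
    rw [Real.le_log_iff_exp_le (by have := Real.exp_pos (A ^ 2); linarith)]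
    linarith
  have hA : 0 ≤ A := by positivity
  have h2 : A ≤ √(Real.log (t + K)) := by
    rw [← Real.sqrt_sq hA]
    exact Real.sqrt_le_sqrt h1
  have h3 : A = √(Real.log (1 + K)) + 1 / 2 := rfl
  unfold qf
  linarith

/-- `q_K(t) → 0` as `K → ∞`, quantitatively: `|q_K(t)| ≤ |t-1| / K` for `t ≥ 1`. -/
theorem qf_le (hK0 : 0 < K) (hK : 1 ≤ Real.log K) (ht : 1 ≤ t) :
    qf K t ≤ (t - 1) / K := by
  have h1 := log_ge_one (t := t) hK0 hK (by linarith)
  have h1' := log_ge_one (t := 1) hK0 hK (by linarith)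
  have hsum : √(Real.log (t + K)) + √(Real.log (1 + K)) ≥ 2 := by
    have a1 : 1 ≤ √(Real.log (t + K)) := Real.one_le_sqrt.mpr h1
    have a2 : 1 ≤ √(Real.log (1 + K)) := Real.one_le_sqrt.mpr h1'
    linarith
  have hmul : (√(Real.log (t + K)) - √(Real.log (1 + K))) *
      (√(Real.log (t + K)) + √(Real.log (1 + K))) = Real.log (t + K) - Real.log (1 + K) := by
    have e1 : √(Real.log (t + K)) ^ 2 = Real.log (t + K) := Real.sq_sqrt (by linarith)
    have e2 : √(Real.log (1 + K)) ^ 2 = Real.log (1 + K) := Real.sq_sqrt (by linarith)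
    nlinarith
  have hd : 0 ≤ √(Real.log (t + K)) - √(Real.log (1 + K)) := by
    have : Real.log (1 + K) ≤ Real.log (t + K) := Real.log_le_log (by linarith) (by linarith)
    have := Real.sqrt_le_sqrt this
    linarith
  have hlog : Real.log (t + K) - Real.log (1 + K) ≤ (t - 1) / (1 + K) := by
    rw [← Real.log_div (by linarith) (by linarith)]
    have := Real.log_le_sub_one_of_pos (x := (t + K) / (1 + K)) (by positivity)
    refine this.trans (le_of_eq ?_)
    field_simp
    ring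
  have hq : qf K t ≤ Real.log (t + K) - Real.log (1 + K) := by
    unfold qf
    nlinarith
  have h4 : (t - 1) / (1 + K) ≤ (t - 1) / K :=
    div_le_div_of_nonneg_left (by linarith) hK0 (by linarith)
  linarith

/-- `g_K(t) → 1` as `K → ∞`. -/
theorem tendsto_gf (ht : 0 ≤ t) : Tendsto (fun K => gf K t) atTop (𝓝 1) := by
  rcases le_total t 1 with h | h
  · refine tendsto_const_nhds.congr' ?_
    filter_upwards [eventually_ge_atTop (Real.exp 1)] with K hK
    have hK0 : 0 < K := lt_of_lt_of_le (Real.exp_pos 1) hK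
    have hK1 : 1 ≤ Real.log K := (Real.le_log_iff_exp_le hK0).mpr hK
    exact (gf_eq_one hK0 hK1 ht h).symm
  · have hq : Tendsto (fun K => 1 - qf K t) atTop (𝓝 1) := by
      have hz : Tendsto (fun K => qf K t) atTop (𝓝 0) := by
        have hup : Tendsto (fun K : ℝ => (t - 1) / K) atTop (𝓝 0) :=
          tendsto_const_nhds.div_atTop tendsto_id
        refine tendsto_of_tendsto_of_tendsto_of_le_of_le' tendsto_const_nhds hup ?_ ?_
        · filter_upwards [eventually_ge_atTop (Real.exp 1)] with K hK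
          have hK0 : 0 < K := lt_of_lt_of_le (Real.exp_pos 1) hK
          have hK1 : 1 ≤ Real.log K := (Real.le_log_iff_exp_le hK0).mpr hK
          have := qf_mono hK0 hK1 (by norm_num : (0 : ℝ) ≤ 1) h
          have h2 : qf K 1 = 0 := by unfold qf; ring
          linarith
        · filter_upwards [eventually_ge_atTop (Real.exp 1)] with K hK
          have hK0 : 0 < K := lt_of_lt_of_le (Real.exp_pos 1) hK
          have hK1 : 1 ≤ Real.log K := (Real.le_log_iff_exp_le hK0).mpr hK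
          exact qf_le hK0 hK1 h
      simpa using hz.const_sub 1
    have h1 : Real.smoothTransition 1 = 1 := Real.smoothTransition.one_of_one_le le_rfl
    have hc : Tendsto Real.smoothTransition (𝓝 1) (𝓝 1) := by
      have := (Real.smoothTransition.continuous).tendsto 1
      rwa [h1] at this
    exact hc.comp hq

end cutoff

end Crest.Agent.R240.CutFun
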