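import Mathlib
import Crest.Agent.R240.Loc5B
import Crest.Agent.R240.PotDefs

/-!
Row 240 (S0371), LOC5 (helper873): potentials `w`, mollifier, density `p_e`.
-/

set_option autoImplicit false
set_option maxSynthPendingDepth 3

open MeasureTheory Metric Set Filter Topology
open scoped ContDiff ENNReal

namespace Crest.Agent.R240.Loc5

noncomputable section

/-! ### `w` -/

theorem wpot_eq (s : Measure E4) (y : E4) : wpot s y = Kern.w s y := by
  unfold wpot Kern.w Kern.ker
  simp_rw [edist_dist]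

theorem w_restrict_iff (s : Measure E4) [IsFiniteMeasure s] {x0 : E4} {R : ℝ} (hR : 0 < R) {y : E4}
    (hy : y ∈ ball x0 R) :
    Kern.w (s.restrict (closedBall x0 (2 * R))) y < ⊤ ↔ wpot s y < ⊤ := by
  rw [wpot_eq]
  have hK : MeasurableSet (closedBall x0 (2 * R)) := measurableSet_closedBall
  have hsplit : Kern.w s y = (∫⁻ z in closedBall x0 (2 * R), Kern.ker 2 (dist y z) ∂s)
      + ∫⁻ z in (closedBall x0 (2 * R))ᶜ, Kern.ker 2 (dist y z) ∂s :=
    (lintegral_add_compl _ hK).symm
  have hfin : ∫⁻ z in (closedBall x0 (2 * R))ᶜ, Kern.ker 2 (dist y z) ∂s < ⊤ := by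
    calc ∫⁻ z in (closedBall x0 (2 * R))ᶜ, Kern.ker 2 (dist y z) ∂s
        ≤ ∫⁻ _ in (closedBall x0 (2 * R))ᶜ, Kern.ker 2 R ∂s := by
          apply setLIntegral_mono' hK.compl
          intro z hz
          apply Kern.ker_anti
          rw [mem_compl_iff, mem_closedBall, not_le] at hz
          rw [mem_ball] at hy
          have := dist_triangle z y x0
          rw [dist_comm z y] at this
          linarith
      _ = Kern.ker 2 R * s (closedBall x0 (2 * R))ᶜ := by rw [setLIntegral_const]
      _ < ⊤ := ENNReal.mul_lt_top (Kern.ker_ne_top 2 hR).lt_top (measure_lt_top s _)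
  have he : Kern.w (s.restrict (closedBall x0 (2 * R))) y
      = ∫⁻ z in closedBall x0 (2 * R), Kern.ker 2 (dist y z) ∂s := rfl
  rw [he, hsplit, ENNReal.add_lt_top]
  exact ⟨fun h => ⟨h, hfin⟩, fun h => h.1⟩

theorem wE_eq (s : Measure E4) [IsFiniteMeasure s] (c : E4) (R : ℝ) {e : ℝ} (he : 0 < e) (x : E4) :
    Pot.wE s c R e 2 x = (Kern.we (s.restrict (closedBall c R)) e x).toReal := by
  rw [Kern.we_eq_ofReal_integral _ he, ENNReal.toReal_ofReal]
  · unfold Pot.wE
    simp only [dist_eq_norm, one_div]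
  · exact integral_nonneg fun y => by positivity

theorem wE_three_le (s : Measure E4) [IsFiniteMeasure s] (c : E4) (R : ℝ) {C e : ℝ} (hC : 0 ≤ C)
    (hs : ∀ y r, 0 < r → s (ball y r) ≤ ENNReal.ofReal (C * r ^ 2)) (he : 0 < e) (x : E4) :
    e * Pot.wE s c R e 3 x ≤ 16 * C := by
  have h1 := Kern.lintegral_ker_three_le s x (fun r hr => hs x r hr) hC he
  have h0 : ∀ y, 0 < dist x y + e := fun y => by
    have := dist_nonneg (x := x) (y := y); linarith
  have hm : Measurable fun y => ((dist x y + e) ^ 3)⁻¹ := by fun_prop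
  have hint : Integrable (fun y => ((dist x y + e) ^ 3)⁻¹) s := by
    refine Integrable.of_bound (C := (e ^ 3)⁻¹) hm.aestronglyMeasurable ?_
    refine ae_of_all _ fun y => ?_
    rw [Real.norm_of_nonneg (by have := h0 y; positivity)]
    have := dist_nonneg (x := x) (y := y)
    apply inv_anti₀ (by positivity)
    exact pow_le_pow_left₀ he.le (by linarith) 3
  have h2 : ENNReal.ofReal (∫ y, ((dist x y + e) ^ 3)⁻¹ ∂s) ≤ ENNReal.ofReal (16 * C / e) := by
    rw [ofReal_integral_eq_lintegral_ofReal hint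
      (ae_of_all _ fun y => by have := h0 y; positivity)]
    refine le_trans (le_of_eq ?_) h1
    exact lintegral_congr fun y => (Kern.ker_of_pos 3 (h0 y)).symm
  have h3 : ∫ y, ((dist x y + e) ^ 3)⁻¹ ∂s ≤ 16 * C / e :=
    (ENNReal.ofReal_le_ofReal_iff (by positivity)).1 h2
  have h4 : Pot.wE s c R e 3 x ≤ ∫ y, ((dist x y + e) ^ 3)⁻¹ ∂s := by
    unfold Pot.wE
    simp only [one_div, ← dist_eq_norm]
    exact setIntegral_le_integral hint (ae_of_all _ fun y => by have := h0 y; positivity)
  have h5 : Pot.wE s c R e 3 x ≤ 16 * C / e := h4.trans h3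
  rw [le_div_iff₀ he] at h5
  linarith

theorem wE_nonneg (s : Measure E4) (c : E4) (R : ℝ) {e : ℝ} (he : 0 < e) (k : ℕ) (x : E4) :
    0 ≤ Pot.wE s c R e k x := by
  unfold Pot.wE
  exact integral_nonneg fun y => by positivity

/-! ### mollifier -/

/-- a standard mollifier. -/
structure Moll (ρ : E4 → ℝ) : Prop where
  sm : ContDiff ℝ ∞ ρ
  nn : ∀ z, 0 ≤ ρ z
  supp : ∀ z, 1 ≤ ‖z‖ → ρ z = 0
  int : ∫ z, ρ z = 1

theorem exists_moll : ∃ ρ : E4 → ℝ, Moll ρ := by
  let f : ContDiffBump (0 : E4) := ⟨1/2, 1, by norm_num, by norm_num⟩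
  refine ⟨f.normed volume, f.contDiff_normed, fun z => f.nonneg_normed z, fun z hz => ?_,
    f.integral_normed⟩
  have h1 : z ∉ Function.support (f.normed volume) := by
    rw [f.support_normed_eq]
    simp only [mem_ball, dist_zero_right, not_lt]
    exact hz
  simpa using h1

theorem Moll.ker {ρ : E4 → ℝ} (h : Moll ρ) {e : ℝ} (he : 0 < e) : Ker e (Pot.rhoE ρ e) where
  cont := by
    unfold Pot.rhoE
    exact continuous_const.mul (h.sm.continuous.comp (continuous_const_smul _))
  nonneg z := by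
    unfold Pot.rhoE
    have := h.nn (e⁻¹ • z)
    positivity
  supp z hz := by
    unfold Pot.rhoE
    rw [h.supp, mul_zero]
    rw [norm_smul, Real.norm_of_nonneg (by positivity), inv_mul_eq_div, le_div_iff₀ he, one_mul]
    exact hz
  int := by
    unfold Pot.rhoE
    rw [integral_const_mul]
    have h1 := Measure.integral_comp_smul (volume : Measure E4) ρ e⁻¹
    rw [h1, h.int]
    have h2 : Module.finrank ℝ E4 = 4 := by simp
    rw [h2, smul_eq_mul, mul_one, inv_pow, inv_inv, abs_of_pos (by positivity)]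
    field_simp

theorem Moll.bound {ρ : E4 → ℝ} (h : Moll ρ) : ∃ B, 0 ≤ B ∧ ∀ e, 0 < e → ∀ z,
    Pot.rhoE ρ e z ≤ B * (e ^ 4)⁻¹ := by
  have hc : HasCompactSupport ρ := by
    refine HasCompactSupport.intro (isCompact_closedBall (0 : E4) 1) ?_
    intro x hx
    apply h.supp
    rw [mem_closedBall, dist_zero_right, not_le] at hx
    exact hx.le
  obtain ⟨B, hB⟩ := hc.exists_bound_of_continuous h.sm.continuous
  refine ⟨max B 0, le_max_right _ _, fun e he z => ?_⟩
  unfold Pot.rhoE
  rw [mul_comm]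
  exact mul_le_mul_of_nonneg_right (((le_abs_self _).trans (hB _)).trans (le_max_left _ _))
    (by positivity)

/-! ### the density `p_e` -/

/-- the mollified mass density. -/
def pe (s : Measure E4) (B : ℝ) (k : E4 → ℝ) (x : E4) : ℝ := B * ∫ y, k (x - y) ∂s

section pe

variable {s : Measure E4} [IsFiniteMeasure s] {B e : ℝ} {k : E4 → ℝ}

theorem integrable_k_c (hk : Ker e k) (x : E4) : Integrable (fun y => k (x - y)) s := by
  obtain ⟨B, hB0, hB⟩ := hk.bound
  refine Integrable.of_bound (C := B) (hk.cont.comp (by fun_prop)).aestronglyMeasurable ?_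
  exact ae_of_all _ fun y => by
    rw [Real.norm_of_nonneg (hk.nonneg _)]
    exact hB _

omit [IsFiniteMeasure s] in
theorem pe_nonneg (hB : 0 ≤ B) (hk : Ker e k) (x : E4) : 0 ≤ pe s B k x :=
  mul_nonneg hB (integral_nonneg fun _ => hk.nonneg _)

theorem continuous_pe (hk : Ker e k) : Continuous (pe s B k) := by
  obtain ⟨B', hB0, hB'⟩ := hk.bound
  unfold pe
  refine continuous_const.mul ?_
  refine continuous_of_dominated (bound := fun _ => B') ?_ ?_ (integrable_const _) ?_
  · intro x
    exact (hk.cont.comp (by fun_prop)).aestronglyMeasurable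
  · intro x
    exact ae_of_all _ fun y => by
      rw [Real.norm_of_nonneg (hk.nonneg _)]
      exact hB' _
  · exact ae_of_all _ fun y => hk.cont.comp (by fun_prop)

theorem pe_le (hB : 0 ≤ B) (hk : Ker e k) (he : 0 < e) {B' C : ℝ} (hB' : ∀ z, k z ≤ B' * (e ^ 4)⁻¹)
    (hB0 : 0 ≤ B') (hC : 0 ≤ C)
    (hs : ∀ y r, 0 < r → s (ball y r) ≤ ENNReal.ofReal (C * r ^ 2)) (x : E4) :
    e ^ 2 * pe s B k x ≤ B * B' * C := by
  have h1 : ∫ y, k (x - y) ∂s ≤ ∫ y, (ball x e).indicator (fun _ => B' * (e ^ 4)⁻¹) y ∂s := by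
    refine integral_mono (integrable_k_c hk x) ((integrable_const _).indicator measurableSet_ball) ?_
    intro y
    by_cases hy : y ∈ ball x e
    · rw [indicator_of_mem hy]; exact hB' _
    · rw [indicator_of_notMem hy]
      rw [mem_ball, not_lt, dist_comm, dist_eq_norm] at hy
      exact (hk.supp _ hy).le
  rw [integral_indicator measurableSet_ball, setIntegral_const, smul_eq_mul] at h1
  have h2 : s.real (ball x e) ≤ C * e ^ 2 := by
    unfold Measure.real
    exact ENNReal.toReal_le_of_le_ofReal (by positivity) (hs x e he)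
  have h3 : ∫ y, k (x - y) ∂s ≤ C * e ^ 2 * (B' * (e ^ 4)⁻¹) :=
    h1.trans (mul_le_mul_of_nonneg_right h2 (by positivity))
  unfold pe
  calc e ^ 2 * (B * ∫ y, k (x - y) ∂s) ≤ e ^ 2 * (B * (C * e ^ 2 * (B' * (e ^ 4)⁻¹))) := by gcongr
    _ = B * B' * C := by field_simp

theorem setIntegral_pe_le (hB : 0 ≤ B) (hk : Ker e k) {K : Set E4} (hK : IsCompact K) :
    ∫ x in K, pe s B k x ≤ B * s.real univ := by
  unfold pe
  rw [integral_const_mul]
  refine mul_le_mul_of_nonneg_left ?_ hB
  have hm : Measurable fun z : E4 × E4 => k (z.1 - z.2) :=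
    hk.cont.measurable.comp (measurable_fst.sub measurable_snd)
  obtain ⟨B', hB0, hB'⟩ := hk.bound
  have : IsFiniteMeasure ((volume : Measure E4).restrict K) :=
    isFiniteMeasure_restrict.2 hK.measure_lt_top.ne
  have hint : Integrable (fun z : E4 × E4 => k (z.1 - z.2)) (((volume : Measure E4).restrict K).prod s) := by
    refine Integrable.of_bound (C := B') hm.aestronglyMeasurable ?_
    exact ae_of_all _ fun y => by
      rw [Real.norm_of_nonneg (hk.nonneg _)]
      exact hB' _
  rw [integral_integral_swap (f := fun x y => k (x - y)) hint]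
  have h1 : ∫ y, (∫ x in K, k (x - y)) ∂s ≤ ∫ _, (1 : ℝ) ∂s := by
    refine integral_mono hint.integral_prod_right (integrable_const _) ?_
    intro y
    have h2 := setIntegral_le_integral (s := K) (hk.integrable_sub y) (ae_of_all _ fun x => hk.nonneg (x - y))
    rw [hk.int_sub] at h2
    exact h2
  simpa using h1

end pe

end

end Crest.Agent.R240.Loc5
-- keep-prune
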