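import Mathlib
import Crest.Agent.R240.Lin1
import Crest.Agent.R240.PotS
import Crest.Agent.R240.PotGeo
import Crest.Agent.R240.FrKer
import Crest.Agent.R240.En1
import Crest.Agent.R240.PotAlg
import Crest.Agent.R240.PotFS
import Crest.Agent.R240.PotDefs

-- ▼ part R240/PotGG
section

/-!
Row 240 (S0371), Part P: vector version of the smoothing lemma.
`GG μ p T r x = ∫ T(t)(r(x - p t)) dμ(t)` for `r : E4 → V` smooth compactly supported (V finite
dimensional) and a family of linear functionals `T t : V →ₗ[ℝ] ℝ` with `T · v` integrable for all v.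
-/

set_option autoImplicit false
set_option maxSynthPendingDepth 3
open scoped ContDiff
open MeasureTheory

namespace Crest.Agent.R240.Pot

variable {Ω : Type*} [MeasurableSpace Ω]
variable {V : Type*} [NormedAddCommGroup V] [NormedSpace ℝ V] [FiniteDimensional ℝ V]

/-- vector smoothing -/
noncomputable def GG (μ : Measure Ω) (p : Ω → E4) (T : Ω → V →ₗ[ℝ] ℝ) (r : E4 → V) (x : E4) : ℝ :=
  ∫ t, T t (r (x - p t)) ∂μ

/-- directional derivative of a vector function -/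
noncomputable def ddv (r : E4 → V) (v : E4) : E4 → V := fun z => fderiv ℝ r z v

lemma ddv_contDiff {r : E4 → V} (hr : ContDiff ℝ ∞ r) (v : E4) : ContDiff ℝ ∞ (ddv r v) :=
  (hr.fderiv_right (m := ∞) le_rfl).clm_apply contDiff_const

lemma ddv_compact {r : E4 → V} (hc : HasCompactSupport r) (v : E4) : HasCompactSupport (ddv r v) :=
  hc.fderiv_apply (𝕜 := ℝ) v

/-- coordinate functions of a vector function, w.r.t. the standard basis of `V` -/
noncomputable def cf (r : E4 → V) (k : Module.Basis.ofVectorSpaceIndex ℝ V) : E4 → ℝ := fun z =>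
  (Module.Basis.ofVectorSpace ℝ V).repr (r z) k

noncomputable instance instFinIdx : Fintype (Module.Basis.ofVectorSpaceIndex ℝ V) :=
  FiniteDimensional.fintypeBasisIndex (Module.Basis.ofVectorSpace ℝ V)

/-- the coordinate functional as continuous linear map -/
noncomputable def cfl (k : Module.Basis.ofVectorSpaceIndex ℝ V) : V →L[ℝ] ℝ :=
  LinearMap.toContinuousLinearMap ((Module.Basis.ofVectorSpace ℝ V).coord k)


lemma cf_contDiff {r : E4 → V} (hr : ContDiff ℝ ∞ r) (k : Module.Basis.ofVectorSpaceIndex ℝ V) :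
    ContDiff ℝ ∞ (cf r k) := by
  have h : cf r k = fun z => cfl k (r z) := rfl
  rw [h]
  exact (cfl k).contDiff.comp hr

lemma cf_compact {r : E4 → V} (hc : HasCompactSupport r)
    (k : Module.Basis.ofVectorSpaceIndex ℝ V) : HasCompactSupport (cf r k) := by
  have h : cf r k = (cfl k) ∘ r := rfl
  rw [h]
  exact hc.comp_left (map_zero _)

lemma cf_ddv {r : E4 → V} (hr : ContDiff ℝ ∞ r) (k : Module.Basis.ofVectorSpaceIndex ℝ V) (v : E4) :
    cf (ddv r v) k = dd (cf r k) v := by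
  funext z
  have h1 : HasFDerivAt (cf r k) ((cfl k).comp (fderiv ℝ r z)) z :=
    (cfl k).hasFDerivAt.comp z ((hr.differentiable (by simp)) z).hasFDerivAt
  simp only [dd, h1.fderiv]
  rfl

lemma vec_expand (T : V →ₗ[ℝ] ℝ) (v : V) :
    T v = ∑ k, T (Module.Basis.ofVectorSpace ℝ V k) * (Module.Basis.ofVectorSpace ℝ V).repr v k := by
  conv_lhs => rw [← (Module.Basis.ofVectorSpace ℝ V).sum_repr v]
  rw [map_sum]
  refine Finset.sum_congr rfl fun k _ => ?_
  rw [map_smul, smul_eq_mul, mul_comm]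

variable {μ : Measure Ω} {p : Ω → E4} {T : Ω → V →ₗ[ℝ] ℝ}

lemma GG_integrable (hT : ∀ v, Integrable (fun t => T t v) μ) (hp : Measurable p) {r : E4 → V}
    (hr : Continuous r) (hc : HasCompactSupport r) (x : E4) :
    Integrable (fun t => T t (r (x - p t))) μ := by
  have h : (fun t => T t (r (x - p t))) = fun t =>
      ∑ k, T t (Module.Basis.ofVectorSpace ℝ V k) * cf r k (x - p t) := by
    funext t; exact vec_expand _ _
  rw [h]
  refine integrable_finsetSum _ fun k _ => ?_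
  exact SS_integrable (hT _) hp ((cfl k).continuous.comp hr) (cf_compact hc k) x

lemma GG_eq (hT : ∀ v, Integrable (fun t => T t v) μ) (hp : Measurable p) {r : E4 → V}
    (hr : Continuous r) (hc : HasCompactSupport r) :
    GG μ p T r = fun x => ∑ k, SS μ p (fun t => T t (Module.Basis.ofVectorSpace ℝ V k)) (cf r k) x := by
  funext x
  have h : (fun t => T t (r (x - p t))) = fun t =>
      ∑ k, T t (Module.Basis.ofVectorSpace ℝ V k) * cf r k (x - p t) := by
    funext t; exact vec_expand _ _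
  unfold GG
  rw [h, integral_finsetSum]
  · rfl
  · intro k _
    exact SS_integrable (hT _) hp ((cfl k).continuous.comp hr) (cf_compact hc k) x

theorem GG_contDiff (hT : ∀ v, Integrable (fun t => T t v) μ) (hp : Measurable p) {r : E4 → V}
    (hr : ContDiff ℝ ∞ r) (hc : HasCompactSupport r) : ContDiff ℝ ∞ (GG μ p T r) := by
  rw [GG_eq hT hp hr.continuous hc]
  exact ContDiff.sum fun k _ => SS_contDiff (hT _) hp (cf_contDiff hr k) (cf_compact hc k)

theorem GG_fderiv (hT : ∀ v, Integrable (fun t => T t v) μ) (hp : Measurable p) {r : E4 → V}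
    (hr : ContDiff ℝ ∞ r) (hc : HasCompactSupport r) (x v : E4) :
    fderiv ℝ (GG μ p T r) x v = GG μ p T (ddv r v) x := by
  rw [GG_eq hT hp hr.continuous hc, GG_eq hT hp (ddv_contDiff hr v).continuous (ddv_compact hc v)]
  have hd : ∀ k, DifferentiableAt ℝ
      (SS μ p (fun t => T t (Module.Basis.ofVectorSpace ℝ V k)) (cf r k)) x := fun k =>
    ((SS_contDiff (hT _) hp (cf_contDiff hr k) (cf_compact hc k)).differentiable (by simp)) x
  rw [fderiv_fun_sum fun k _ => hd k, ContinuousLinearMap.sum_apply]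
  refine Finset.sum_congr rfl fun k _ => ?_
  rw [SS_fderiv (hT _) hp (cf_contDiff hr k) (cf_compact hc k), cf_ddv hr]

/-! ### covectors from components -/

/-- coordinate covector -/
noncomputable def co (l : Fin 4) : E4 →L[ℝ] ℝ := EuclideanSpace.proj l

@[simp] lemma co_apply (l : Fin 4) (v : E4) : co l v = v l := rfl


/-- covector field from scalar components `f x w` (linear in `w`) -/
noncomputable def mkCov (f : E4 → E4 → ℝ) (x : E4) : E4 →L[ℝ] ℝ := ∑ l, f x (ee l) • co l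

lemma mkCov_apply {f : E4 → E4 → ℝ} {x : E4} (hadd : ∀ v w, f x (v + w) = f x v + f x w)
    (hsmul : ∀ (c : ℝ) v, f x (c • v) = c * f x v) (w : E4) : mkCov f x w = f x w := by
  conv_rhs => rw [sum_ee w]
  simp only [mkCov, Fin.sum_univ_four, hadd, hsmul]
  simp [mul_comm]

lemma mkCov_contDiff {f : E4 → E4 → ℝ} (hf : ∀ l, ContDiff ℝ ∞ fun x => f x (ee l)) :
    ContDiff ℝ ∞ (mkCov f) := by
  unfold mkCov
  exact ContDiff.sum fun l _ => (hf l).smul contDiff_const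

lemma fderiv_apply_comm {S : E4 → E4 →L[ℝ] ℝ} {x : E4} (hS : DifferentiableAt ℝ S x) (v w : E4) :
    fderiv ℝ S x v w = fderiv ℝ (fun z => S z w) x v := by
  have h1 : HasFDerivAt (fun z => S z w) _ x := hS.hasFDerivAt.clm_apply (hasFDerivAt_const w x)
  rw [h1.fderiv]; simp

end Crest.Agent.R240.Pot
end

-- ▼ part R240/PotW
section

/-!
Row 240 (S0371), Part P: weights `h(y) q_y(ζ,ζ)/g_y(ζ,ζ)^2` on `E4 × closedBall 0 ρ`,
integrability, Fubini.
-/

set_option autoImplicit false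
set_option maxSynthPendingDepth 3
open scoped ContDiff
open MeasureTheory Metric

namespace Crest.Agent.R240.Pot

/-! ### uniform ellipticity on balls -/

lemma exists_lower {g : E4 → Bil} (hg : Continuous g) (hp : ∀ y v, v ≠ 0 → 0 < g y v v)
    (c : E4) (R : ℝ) : ∃ lam : ℝ, 0 < lam ∧ ∀ y ∈ closedBall c R, ∀ v, lam * ‖v‖ ^ 2 ≤ g y v v := by
  by_cases hR : 0 ≤ R
  · have hK : IsCompact (closedBall c R ×ˢ sphere (0 : E4) 1) :=
      (isCompact_closedBall c R).prod (isCompact_sphere 0 1)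
    have hne : (closedBall c R ×ˢ sphere (0 : E4) 1).Nonempty :=
      ⟨(c, ee 0), mem_closedBall_self hR, by simp [ee]⟩
    have hcont : Continuous fun t : E4 × E4 => g t.1 t.2 t.2 :=
      ((hg.comp continuous_fst).clm_apply continuous_snd).clm_apply continuous_snd
    obtain ⟨t0, ht0, hmin⟩ := hK.exists_isMinOn hne hcont.continuousOn
    have ht0' : t0.2 ≠ 0 := by
      have h1 : ‖t0.2‖ = 1 := by simpa using ht0.2
      intro h; rw [h] at h1; simp at h1
    refine ⟨g t0.1 t0.2 t0.2, hp _ _ ht0', fun y hy v => ?_⟩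
    by_cases hv : v = 0
    · simp [hv]
    have hn : 0 < ‖v‖ := norm_pos_iff.2 hv
    have h1 : (y, ‖v‖⁻¹ • v) ∈ closedBall c R ×ˢ sphere (0 : E4) 1 := by
      refine ⟨hy, ?_⟩
      simp [norm_smul, hn.ne']
    have h2 : g t0.1 t0.2 t0.2 ≤ g y (‖v‖⁻¹ • v) (‖v‖⁻¹ • v) := hmin h1
    rw [map_smul, map_smul, smul_apply, smul_eq_mul, smul_eq_mul] at h2
    have h3 : ‖v‖⁻¹ * (‖v‖⁻¹ * g y v v) * ‖v‖ ^ 2 = g y v v := by
      field_simp
    calc g t0.1 t0.2 t0.2 * ‖v‖ ^ 2 ≤ ‖v‖⁻¹ * (‖v‖⁻¹ * g y v v) * ‖v‖ ^ 2 := by gcongr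
      _ = g y v v := h3
  · refine ⟨1, one_pos, fun y hy => ?_⟩
    exfalso
    rw [closedBall_eq_empty.2 (not_le.1 hR)] at hy
    exact hy

lemma exists_upper {V : Type*} [NormedAddCommGroup V] {g : E4 → V} (hg : Continuous g)
    (c : E4) (R : ℝ) : ∃ Lam : ℝ, 0 < Lam ∧ ∀ y ∈ closedBall c R, ‖g y‖ ≤ Lam := by
  obtain ⟨C, hC⟩ := (isCompact_closedBall c R).exists_bound_of_continuousOn hg.continuousOn
  exact ⟨max C 1, lt_max_of_lt_right one_pos, fun y hy => (hC y hy).trans (le_max_left _ _)⟩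

/-- the elementary kernel `m_{q,g}(ζ) = q(ζ,ζ)/g(ζ,ζ)^2` -/
noncomputable def kk (q g : Bil) (ζ : E4) : ℝ := q ζ ζ / (g ζ ζ) ^ 2

lemma kk_bd {q g : Bil} {lam Lam : ℝ} (hl : 0 < lam) (hg : ∀ v, lam * ‖v‖ ^ 2 ≤ g v v)
    (hq : ‖q‖ ≤ Lam) (ζ : E4) : |kk q g ζ| ≤ (Lam / lam ^ 2) * (1 / ‖ζ‖ ^ 2) := by
  by_cases hz : ζ = 0
  · simp [kk, hz]
  have hn : 0 < ‖ζ‖ := norm_pos_iff.2 hz
  have h1 : |q ζ ζ| ≤ Lam * ‖ζ‖ ^ 2 := by
    have := q.le_opNorm₂ ζ ζ
    rw [Real.norm_eq_abs] at this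
    calc |q ζ ζ| ≤ ‖q‖ * ‖ζ‖ * ‖ζ‖ := this
      _ ≤ Lam * ‖ζ‖ * ‖ζ‖ := by gcongr
      _ = _ := by ring
  have h2 : 0 < lam * ‖ζ‖ ^ 2 := by positivity
  have h3 : (lam * ‖ζ‖ ^ 2) ^ 2 ≤ (g ζ ζ) ^ 2 := by
    have := hg ζ
    gcongr
  unfold kk
  rw [abs_div, abs_of_nonneg (sq_nonneg (g ζ ζ))]
  have hL : 0 ≤ Lam := le_trans (norm_nonneg _) hq
  calc |q ζ ζ| / (g ζ ζ) ^ 2 ≤ (Lam * ‖ζ‖ ^ 2) / (lam * ‖ζ‖ ^ 2) ^ 2 := by
        gcongr
    _ = _ := by field_simp

lemma kk_of_smul (k : ℝ) (g : Bil) (ζ : E4) : kk (k • g) g ζ = k / g ζ ζ := by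
  unfold kk
  have h : (k • g) ζ ζ = k * g ζ ζ := rfl
  rw [h]
  by_cases h0 : g ζ ζ = 0
  · simp [h0]
  · field_simp

/-- the base measure -/
noncomputable def muP (s : Measure E4) (r : ℝ) : Measure (E4 × E4) :=
  s.prod (volume.restrict (closedBall (0 : E4) r))

/-- the base map -/
def pP (t : E4 × E4) : E4 := t.1 + t.2

lemma pP_meas : Measurable pP := measurable_fst.add measurable_snd

/-- weights -/
noncomputable def wq (g q : E4 → Bil) (h : E4 → ℝ) (t : E4 × E4) : ℝ :=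
  h t.1 * kk (q t.1) (g t.1) t.2

lemma kk_meas {g q : E4 → Bil} (hg : Continuous g) (hq : Continuous q) :
    Measurable fun t : E4 × E4 => kk (q t.1) (g t.1) t.2 := by
  have h1 : Continuous fun t : E4 × E4 => g t.1 t.2 t.2 :=
    ((hg.comp continuous_fst).clm_apply continuous_snd).clm_apply continuous_snd
  have h2 : Continuous fun t : E4 × E4 => q t.1 t.2 t.2 :=
    ((hq.comp continuous_fst).clm_apply continuous_snd).clm_apply continuous_snd
  exact h2.measurable.div (h1.measurable.pow_const 2)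

/-- local integrability of `|ζ|^{-2}` in `R^4` -/
theorem invSqInt (r : ℝ) : IntegrableOn (fun ζ : E4 => 1 / ‖ζ‖ ^ 2) (closedBall 0 r) volume := by
  have h := (Fr.locInt_inv_pow 2 (by norm_num)).integrableOn_isCompact (isCompact_closedBall (0 : E4) r)
  simpa [one_div] using h

variable {g q : E4 → Bil} {h : E4 → ℝ} {s : Measure E4} {c : E4} {R r : ℝ}

/-- integrability of the weights -/
theorem wq_int [IsFiniteMeasure s] (hg : Continuous g)
    (hp : ∀ y v, v ≠ 0 → 0 < g y v v)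
    (hq : Continuous q) (hq0 : ∀ y, y ∉ closedBall c R → q y = 0) (hh : Measurable h)
    {B : ℝ} (hB : ∀ y ∈ closedBall c R, |h y| ≤ B) : Integrable (wq g q h) (muP s r) := by
  obtain ⟨lam, hl, hlow⟩ := exists_lower hg hp c R
  obtain ⟨Lam, hL, hup⟩ := exists_upper hq c R
  have hmaj : Integrable (fun t : E4 × E4 => (max B 0 * (Lam / lam ^ 2)) * (1 / ‖t.2‖ ^ 2))
      (muP s r) := by
    have h1 : Integrable (fun _ : E4 => max B 0 * (Lam / lam ^ 2)) s := integrable_const _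
    exact h1.mul_prod (invSqInt r)
  refine hmaj.mono (((hh.comp measurable_fst).mul (kk_meas hg hq)).aestronglyMeasurable) ?_
  refine Filter.Eventually.of_forall fun t => ?_
  rw [Real.norm_eq_abs, Real.norm_eq_abs]
  have hnn : 0 ≤ (max B 0 * (Lam / lam ^ 2)) * (1 / ‖t.2‖ ^ 2) := by
    have : 0 ≤ max B 0 := le_max_right _ _
    positivity
  rw [abs_of_nonneg hnn]
  by_cases ht : t.1 ∈ closedBall c R
  · have h2 := kk_bd hl (hlow _ ht) (hup _ ht) t.2
    unfold wq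
    rw [abs_mul, mul_assoc]
    exact mul_le_mul ((hB _ ht).trans (le_max_left _ _)) h2 (abs_nonneg _) (le_max_right _ _)
  · unfold wq kk
    rw [hq0 _ ht]
    simpa using hnn

/-- Fubini for the weights -/
theorem wq_fub [IsFiniteMeasure s] (hg : Continuous g)
    (hp : ∀ y v, v ≠ 0 → 0 < g y v v)
    (hq : Continuous q) (hq0 : ∀ y, y ∉ closedBall c R → q y = 0) (hh : Measurable h)
    {B : ℝ} (hB : ∀ y ∈ closedBall c R, |h y| ≤ B) {σ : E4 → ℝ} (hσ : Continuous σ) {e : ℝ}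
    (hσ0 : ∀ z, e < ‖z‖ → σ z = 0) {x : E4} (hx : ∀ y ∈ closedBall c R, ‖x - y‖ + e ≤ r) :
    ∫ t, wq g q h t * σ (x - pP t) ∂(muP s r) =
      ∫ y, h y * (∫ ζ, σ (x - y - ζ) * kk (q y) (g y) ζ) ∂s := by
  have hc : HasCompactSupport σ := by
    refine HasCompactSupport.intro (isCompact_closedBall (0 : E4) e) fun z hz => hσ0 z ?_
    simpa using hz
  have hint : Integrable (fun t => wq g q h t * σ (x - pP t)) (muP s r) :=
    SS_integrable (wq_int hg hp hq hq0 hh hB) pP_meas hσ hc x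
  unfold muP at hint ⊢
  rw [integral_prod _ hint]
  refine integral_congr_ae (Filter.Eventually.of_forall fun y => ?_)
  simp only [wq, pP]
  by_cases hy : y ∈ closedBall c R
  · have h0 : h y * ∫ ζ, σ (x - y - ζ) * kk (q y) (g y) ζ =
        ∫ ζ, h y * (σ (x - y - ζ) * kk (q y) (g y) ζ) := (integral_const_mul _ _).symm
    rw [h0]
    have h1 : ∀ ζ, ζ ∉ closedBall (0 : E4) r → h y * (σ (x - y - ζ) * kk (q y) (g y) ζ) = 0 := by
      intro ζ hζ
      have h2 : e < ‖x - y - ζ‖ := by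
        have h3 : r < ‖ζ‖ := by simpa using hζ
        have h4 := hx y hy
        have h5 : ‖ζ‖ ≤ ‖x - y - ζ‖ + ‖x - y‖ := by
          calc ‖ζ‖ = ‖(x - y) - (x - y - ζ)‖ := by congr 1; abel
            _ ≤ ‖x - y‖ + ‖x - y - ζ‖ := norm_sub_le _ _
            _ = _ := by ring
        linarith
      rw [hσ0 _ h2]; ring
    have h3 : ∫ ζ in closedBall (0 : E4) r, h y * (σ (x - y - ζ) * kk (q y) (g y) ζ) =
        ∫ ζ, h y * (σ (x - y - ζ) * kk (q y) (g y) ζ) :=
      setIntegral_eq_integral_of_forall_compl_eq_zero h1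
    rw [← h3]
    refine integral_congr_ae (Filter.Eventually.of_forall fun ζ => ?_)
    simp only
    rw [show x - (y + ζ) = x - y - ζ by abel]
    ring
  · have h2 : ∀ ζ, kk (q y) (g y) ζ = 0 := by intro ζ; simp [kk, hq0 y hy]
    simp [h2]

end Crest.Agent.R240.Pot
end

-- ▼ part R240/PotId
section

/-!
Row 240 (S0371), Part P: the smoothed frozen identity.
-/

set_option autoImplicit false
set_option maxSynthPendingDepth 3
open scoped ContDiff
open MeasureTheory Metric Crest.Agent.R240.En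

namespace Crest.Agent.R240.Pot

/-! ### measurable functions bounded on the ball -/

/-- measurable and bounded on `closedBall c R` -/
def MB (c : E4) (R : ℝ) (f : E4 → ℝ) : Prop :=
  Measurable f ∧ ∃ B, 0 ≤ B ∧ ∀ y ∈ closedBall c R, |f y| ≤ B

namespace MB

variable {c : E4} {R : ℝ} {f f' : E4 → ℝ}

lemma of_cont (hf : Continuous f) : MB c R f := by
  obtain ⟨L, hL, h⟩ := exists_upper hf c R
  exact ⟨hf.measurable, L, hL.le, h⟩

lemma const (a : ℝ) : MB c R fun _ => a := of_cont continuous_const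

lemma add (h : MB c R f) (h' : MB c R f') : MB c R fun y => f y + f' y := by
  obtain ⟨hm, B, hB0, hB⟩ := h
  obtain ⟨hm', B', hB0', hB'⟩ := h'
  exact ⟨hm.add hm', B + B', add_nonneg hB0 hB0', fun y hy =>
    (abs_add_le _ _).trans (add_le_add (hB y hy) (hB' y hy))⟩

lemma mul (h : MB c R f) (h' : MB c R f') : MB c R fun y => f y * f' y := by
  obtain ⟨hm, B, hB0, hB⟩ := h
  obtain ⟨hm', B', hB0', hB'⟩ := h'
  refine ⟨hm.mul hm', B * B', mul_nonneg hB0 hB0', fun y hy => ?_⟩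
  rw [abs_mul]
  exact mul_le_mul (hB y hy) (hB' y hy) (abs_nonneg _) hB0

lemma neg (h : MB c R f) : MB c R fun y => - f y := by
  obtain ⟨hm, B, hB0, hB⟩ := h
  exact ⟨hm.neg, B, hB0, fun y hy => by rw [abs_neg]; exact hB y hy⟩

lemma sub (h : MB c R f) (h' : MB c R f') : MB c R fun y => f y - f' y := by
  simpa [sub_eq_add_neg] using h.add h'.neg

lemma sum {ι : Type*} (t : Finset ι) {f : ι → E4 → ℝ} (h : ∀ i, MB c R (f i)) :
    MB c R fun y => ∑ i ∈ t, f i y := by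
  classical
  induction t using Finset.induction_on with
  | empty => simpa using const (c := c) (R := R) 0
  | insert a t ha ih =>
    simp only [Finset.sum_insert ha]
    exact (h a).add ih

end MB

/-! ### the linear functionals -/

/-- bilinear form as function -/
noncomputable abbrev fb (A : Bil) : E4 → E4 → ℝ := fun a b => A a b

lemma wed3_add (ξ η : Cov) (A : Bil) (u v w : E4) :
    wed3 (ξ + η : Cov) (fb A) u v w = wed3 ξ (fb A) u v w + wed3 η (fb A) u v w := by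
  simp only [wed3, add_apply]; ring

lemma wed3_smul_cov (r : ℝ) (ξ : Cov) (A : Bil) (u v w : E4) :
    wed3 (r • ξ : Cov) (fb A) u v w = r * wed3 ξ (fb A) u v w := by
  simp only [wed3, smul_apply, smul_eq_mul]; ring

/-- `ξ ↦ -(tr) ξ(J w)` -/
noncomputable def th1 (tr : ℝ) (J : E4 →L[ℝ] E4) (w : E4) : Cov →ₗ[ℝ] ℝ where
  toFun ξ := -(tr * ξ (J w))
  map_add' ξ η := by simp; ring
  map_smul' r ξ := by simp; ring

/-- `ξ ↦ L(ξ ∧ A)(w)` -/
noncomputable def th2 (G : Fin 4 → Fin 4 → ℝ) (J : E4 →L[ℝ] E4) (A : Bil) (w : E4) :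
    Cov →ₗ[ℝ] ℝ where
  toFun ξ := Lop G J (wed3 ξ (fb A)) w
  map_add' ξ η := by
    simp only [Lop, wed3_add, mul_add, Finset.sum_add_distrib]
  map_smul' r ξ := by
    simp only [Lop, wed3_smul_cov, RingHom.id_apply, smul_eq_mul, Finset.mul_sum]
    refine Finset.sum_congr rfl fun i _ => Finset.sum_congr rfl fun j _ => ?_
    ring

/-- `H ↦ Σ G^{ij} (H(e_i) ∧ A)(e_j, v, w)` -/
noncomputable def th3 (G : Fin 4 → Fin 4 → ℝ) (A : Bil) (v w : E4) : Bil →ₗ[ℝ] ℝ where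
  toFun H := ctr G (fun i => wed3 (H (ee i)) (fb A)) v w
  map_add' H K := by
    simp only [ctr, add_apply, wed3_add, mul_add, Finset.sum_add_distrib]
  map_smul' r H := by
    simp only [ctr, smul_apply, wed3_smul_cov, RingHom.id_apply, smul_eq_mul, Finset.mul_sum]
    refine Finset.sum_congr rfl fun i _ => Finset.sum_congr rfl fun j _ => ?_
    ring

/-- `H ↦ (tr_G H) A(v,w)` -/
noncomputable def thP (G : Fin 4 → Fin 4 → ℝ) (A : Bil) (v w : E4) : Bil →ₗ[ℝ] ℝ where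
  toFun H := (∑ i, ∑ j, G i j * H (ee i) (ee j)) * A v w
  map_add' H K := by
    simp only [add_apply, mul_add, Finset.sum_add_distrib, add_mul]
  map_smul' r H := by
    simp only [smul_apply, RingHom.id_apply, smul_eq_mul]
    have h : ∑ i, ∑ j, G i j * (r * H (ee i) (ee j)) = r * ∑ i, ∑ j, G i j * H (ee i) (ee j) := by
      rw [Finset.mul_sum]
      refine Finset.sum_congr rfl fun i _ => ?_
      rw [Finset.mul_sum]
      refine Finset.sum_congr rfl fun j _ => ?_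
      ring
    rw [h]; ring

lemma Lop_add (G : Fin 4 → Fin 4 → ℝ) (J : E4 →L[ℝ] E4) (ξ : Cov) (A : Bil) (v w : E4) :
    Lop G J (wed3 ξ (fb A)) (v + w) = Lop G J (wed3 ξ (fb A)) v + Lop G J (wed3 ξ (fb A)) w := by
  simp only [Lop, wed3, map_add]
  simp only [Finset.mul_sum, ← Finset.sum_add_distrib]
  refine Finset.sum_congr rfl fun i _ => Finset.sum_congr rfl fun j _ => ?_
  ring

lemma Lop_smul (G : Fin 4 → Fin 4 → ℝ) (J : E4 →L[ℝ] E4) (ξ : Cov) (A : Bil) (r : ℝ) (w : E4) :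
    Lop G J (wed3 ξ (fb A)) (r • w) = r * Lop G J (wed3 ξ (fb A)) w := by
  simp only [Lop, wed3, map_smul, smul_eq_mul]
  simp only [Finset.mul_sum]
  refine Finset.sum_congr rfl fun i _ => Finset.sum_congr rfl fun j _ => ?_
  ring

/-- the frozen identity in terms of the functionals -/
theorem frozen_th {J : E4 →L[ℝ] E4} {F A : Bil} (hJ : ∀ v, J (J v) = -v) (hF : SPos J F)
    (hA : Pos J A) (H : Bil) (hH : ∀ v w, H v w = H w v) (v w : E4) :
    thP (gI (gm J F)) A v w H =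
      (th1 (trJ (gI (gm J F)) J (fb A)) J w (H v) - th1 (trJ (gI (gm J F)) J (fb A)) J v (H w))
      + (th2 (gI (gm J F)) J A w (H v) - th2 (gI (gm J F)) J A v (H w))
      + th3 (gI (gm J F)) A v w H := by
  have hs := gm_symm hJ hF
  have h := frozen (gI (gm J F)) (gI_symm hs) J (fun ξ => sharp_J hJ hF ξ) A hA.alt hA.inv H hH v w
  simp only [thP, th1, th2, th3, LinearMap.coe_mk, AddHom.coe_mk]
  rw [h]
  ring

/-! ### measurability and boundedness of the functionals -/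

section mb

variable {c : E4} {R : ℝ} {φ : E4 → Bil} {A : ℝ} {J : E4 → E4 →L[ℝ] E4}
  {G : E4 → Fin 4 → Fin 4 → ℝ}

lemma MB_phi (hm : Measurable φ) (hA : ∀ y, ‖φ y‖ ≤ A) (v w : E4) : MB c R fun y => φ y v w := by
  refine ⟨?_, A * ‖v‖ * ‖w‖, ?_, fun y _ => ?_⟩
  · have h1 : Measurable fun y => φ y v := (ContinuousLinearMap.measurable_apply v).comp hm
    exact (ContinuousLinearMap.measurable_apply w).comp h1
  · have : 0 ≤ A := (norm_nonneg _).trans (hA 0)
    positivity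
  · have h1 := (φ y).le_opNorm₂ v w
    rw [Real.norm_eq_abs] at h1
    refine h1.trans ?_
    have := hA y
    gcongr

lemma coord_cont {a : E4 → E4} (ha : Continuous a) (i : Fin 4) : Continuous fun y => (a y) i :=
  (EuclideanSpace.proj i : E4 →L[ℝ] ℝ).continuous.comp ha

lemma MB_phi' (hm : Measurable φ) (hA : ∀ y, ‖φ y‖ ≤ A) {a b : E4 → E4} (ha : Continuous a)
    (hb : Continuous b) : MB c R fun y => φ y (a y) (b y) := by
  have h : (fun y => φ y (a y) (b y)) = fun y =>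
      ∑ i, ∑ j, (a y) i * (b y) j * φ y (ee i) (ee j) := by
    funext y; exact bil_expand (φ y) (a y) (b y)
  rw [h]
  refine MB.sum _ fun i => MB.sum _ fun j => ?_
  exact ((MB.of_cont (coord_cont ha i)).mul (MB.of_cont (coord_cont hb j))).mul
    (MB_phi hm hA _ _)

lemma app_cont (hJ : Continuous J) (v : E4) : Continuous fun y => J y v :=
  hJ.clm_apply continuous_const

lemma MB_tr (hm : Measurable φ) (hA : ∀ y, ‖φ y‖ ≤ A) (hJ : Continuous J)
    (hG : ∀ i j, Continuous fun y => G y i j) :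
    MB c R fun y => trJ (G y) (J y) (fb (φ y)) := by
  unfold trJ
  refine (MB.const _).mul (MB.sum _ fun i => MB.sum _ fun j => ?_)
  exact (MB.of_cont (hG i j)).mul (MB_phi' hm hA continuous_const (app_cont hJ _))

lemma MB_th1 (hm : Measurable φ) (hA : ∀ y, ‖φ y‖ ≤ A) (hJ : Continuous J)
    (hG : ∀ i j, Continuous fun y => G y i j) (w : E4) (ξ : Cov) :
    MB c R fun y => th1 (trJ (G y) (J y) (fb (φ y))) (J y) w ξ := by
  simp only [th1, LinearMap.coe_mk, AddHom.coe_mk]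
  exact ((MB_tr hm hA hJ hG).mul (MB.of_cont (ξ.continuous.comp (app_cont hJ w)))).neg

lemma MB_th2 (hm : Measurable φ) (hA : ∀ y, ‖φ y‖ ≤ A) (hJ : Continuous J)
    (hG : ∀ i j, Continuous fun y => G y i j) (w : E4) (ξ : Cov) :
    MB c R fun y => th2 (G y) (J y) (φ y) w ξ := by
  simp only [th2, LinearMap.coe_mk, AddHom.coe_mk, Lop, wed3]
  refine (MB.const _).mul (MB.sum _ fun i => MB.sum _ fun j => ?_)
  refine (MB.of_cont (hG i j)).mul (((MB.const _).mul ?_).sub ?_ |>.add ?_)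
  · exact MB_phi' hm hA (app_cont hJ _) (app_cont hJ _)
  · exact (MB.of_cont (ξ.continuous.comp (app_cont hJ _))).mul
      (MB_phi' hm hA continuous_const (app_cont hJ _))
  · exact (MB.of_cont (ξ.continuous.comp (app_cont hJ _))).mul
      (MB_phi' hm hA continuous_const (app_cont hJ _))

lemma MB_th3 (hm : Measurable φ) (hA : ∀ y, ‖φ y‖ ≤ A)
    (hG : ∀ i j, Continuous fun y => G y i j) (v w : E4) (H : Bil) :
    MB c R fun y => th3 (G y) (φ y) v w H := by
  simp only [th3, LinearMap.coe_mk, AddHom.coe_mk, ctr, wed3]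
  refine MB.sum _ fun i => MB.sum _ fun j => ?_
  refine (MB.of_cont (hG i j)).mul (((MB.const _).mul ?_).sub ((MB.const _).mul ?_) |>.add
    ((MB.const _).mul ?_))
  · exact MB_phi hm hA _ _
  · exact MB_phi hm hA _ _
  · exact MB_phi hm hA _ _

lemma MB_thP (hm : Measurable φ) (hA : ∀ y, ‖φ y‖ ≤ A)
    (hG : ∀ i j, Continuous fun y => G y i j) (v w : E4) (H : Bil) :
    MB c R fun y => thP (G y) (φ y) v w H := by
  simp only [thP, LinearMap.coe_mk, AddHom.coe_mk]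
  refine MB.mul (MB.sum _ fun i => MB.sum _ fun j => ?_) (MB_phi hm hA _ _)
  exact (MB.of_cont (hG i j)).mul (MB.const _)

end mb

/-! ### families -/

section fam

variable {V : Type*} [NormedAddCommGroup V] [NormedSpace ℝ V] [FiniteDimensional ℝ V]

/-- weighted family of functionals -/
noncomputable def TT (g : E4 → Bil) (k : E4 → ℝ) (θ : E4 → V →ₗ[ℝ] ℝ) (t : E4 × E4) : V →ₗ[ℝ] ℝ :=
  kk (k t.1 • g t.1) (g t.1) t.2 • θ t.1

variable {g : E4 → Bil} {k : E4 → ℝ} {s : Measure E4} {c : E4} {R r : ℝ}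

lemma TT_int [IsFiniteMeasure s] (hg : Continuous g) (hp : ∀ y v, v ≠ 0 → 0 < g y v v)
    (hk : Continuous k) (hk0 : ∀ y, y ∉ closedBall c R → k y = 0) {θ : E4 → V →ₗ[ℝ] ℝ} {v : V}
    (hθ : MB c R fun y => θ y v) : Integrable (fun t => TT g k θ t v) (muP s r) := by
  obtain ⟨hm, B, _, hB⟩ := hθ
  have h := wq_int (g := g) (q := fun y => k y • g y) (h := fun y => θ y v) (s := s) (c := c)
    (R := R) (r := r) hg hp (hk.smul hg) (fun y hy => by simp [hk0 y hy]) hm hB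
  refine h.congr (Filter.Eventually.of_forall fun t => ?_)
  simp only [wq, TT, LinearMap.smul_apply, smul_eq_mul]
  ring

end fam

end Crest.Agent.R240.Pot
end

-- ▼ part R240/PotFam
section

/-!
Row 240 (S0371), Part P: the data structure `PD` and the smoothed frozen identity for it.
-/

set_option autoImplicit false
set_option maxSynthPendingDepth 3
open scoped ContDiff
open MeasureTheory Metric Crest.Agent.R240.En

namespace Crest.Agent.R240.Pot

lemma fd2_symm {σ : E4 → ℝ} (hσ : ContDiff ℝ ∞ σ) (z v w : E4) :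
    fderiv ℝ (fderiv ℝ σ) z v w = fderiv ℝ (fderiv ℝ σ) z w v := by
  have h : IsSymmSndFDerivAt ℝ σ z := by
    refine ContDiffAt.isSymmSndFDerivAt (n := 2) (hσ.contDiffAt.of_le ?_) (by simp)
    exact WithTop.coe_le_coe.2 le_top
  exact h.eq v w

lemma fd_contDiff {V : Type*} [NormedAddCommGroup V] [NormedSpace ℝ V] {σ : E4 → V}
    (hσ : ContDiff ℝ ∞ σ) : ContDiff ℝ ∞ (fderiv ℝ σ) := hσ.fderiv_right (m := ∞) le_rfl

lemma int5 {Ω : Type*} [MeasurableSpace Ω] {μ : Measure Ω} {a b c d e : Ω → ℝ}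
    (ha : Integrable (fun t => a t) μ) (hb : Integrable (fun t => b t) μ)
    (hc : Integrable (fun t => c t) μ)
    (hd : Integrable (fun t => d t) μ) (he : Integrable (fun t => e t) μ) :
    ∫ t, a t ∂μ - ∫ t, b t ∂μ + (∫ t, c t ∂μ - ∫ t, d t ∂μ) + ∫ t, e t ∂μ =
      ∫ t, (a t - b t + (c t - d t) + e t) ∂μ := by
  have h1 : Integrable (fun t => a t - b t) μ := ha.sub hb
  have h2 : Integrable (fun t => c t - d t) μ := hc.sub hd
  have h3 : Integrable (fun t => a t - b t + (c t - d t)) μ := h1.add h2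
  rw [integral_add h3 he, integral_add h1 h2, integral_sub ha hb, integral_sub hc hd]

/-- The data of Lemma P. -/
structure PD where
  J : E4 → E4 →L[ℝ] E4
  F : E4 → Bil
  smJ : ContDiff ℝ ∞ J
  smF : ContDiff ℝ ∞ F
  sq : ∀ y v, J y (J y v) = -v
  sp : ∀ y, SPos (J y) (F y)
  c : E4
  R : ℝ
  hR : 0 < R
  s : Measure E4
  fin : IsFiniteMeasure s
  φ : E4 → Bil
  mφ : Measurable φ
  A : ℝ
  bA : ∀ y, ‖φ y‖ ≤ A
  pos : ∀ y, Pos (J y) (φ y)
  k : E4 → ℝ
  smk : ContDiff ℝ ∞ k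
  hk : tsupport k ⊆ ball c R

namespace PD

variable (D : PD)

/-- the metric -/
noncomputable def g (y : E4) : Bil := gm (D.J y) (D.F y)
/-- the inverse metric -/
noncomputable def G (y : E4) : Fin 4 → Fin 4 → ℝ := gI (D.g y)
/-- the trace of `φ` -/
noncomputable def tr (y : E4) : ℝ := trJ (D.G y) (D.J y) (fb (D.φ y))

lemma smg : ContDiff ℝ ∞ D.g := gm_contDiff D.smJ D.smF
lemma gsymm (y v w : E4) : D.g y v w = D.g y w v := gm_symm (D.sq y) (D.sp y) v w
lemma gpos (y v : E4) (hv : v ≠ 0) : 0 < D.g y v v := gm_pos (D.sp y) hv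
lemma smG (i j : Fin 4) : ContDiff ℝ ∞ fun y => D.G y i j := gI_contDiff D.smg D.gsymm D.gpos i j
lemma k0 (y : E4) (hy : y ∉ closedBall D.c D.R) : D.k y = 0 := by
  by_contra h
  exact hy (ball_subset_closedBall (D.hk (subset_tsupport _ h)))

lemma MBtr : MB D.c D.R D.tr := MB_tr D.mφ D.bA D.smJ.continuous fun i j => (D.smG i j).continuous

section
variable {V : Type*} [NormedAddCommGroup V] [NormedSpace ℝ V] [FiniteDimensional ℝ V]

/-- smoothed family -/
noncomputable def GF (r : ℝ) (θ : E4 → V →ₗ[ℝ] ℝ) (f : E4 → V) (x : E4) : ℝ :=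
  GG (muP D.s r) pP (TT D.g D.k θ) f x

lemma TTint {r : ℝ} {θ : E4 → V →ₗ[ℝ] ℝ} (hθ : ∀ v, MB D.c D.R fun y => θ y v) (v : V) :
    Integrable (fun t => TT D.g D.k θ t v) (muP D.s r) := by
  have := D.fin
  exact TT_int D.smg.continuous D.gpos D.smk.continuous D.k0 (hθ v)

lemma GF_int {r : ℝ} {θ : E4 → V →ₗ[ℝ] ℝ} (hθ : ∀ v, MB D.c D.R fun y => θ y v) {f : E4 → V}
    (hf : Continuous f) (hc : HasCompactSupport f) (x : E4) :
    Integrable (fun t => TT D.g D.k θ t (f (x - pP t))) (muP D.s r) :=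
  GG_integrable (D.TTint hθ) pP_meas hf hc x

lemma GF_contDiff {r : ℝ} {θ : E4 → V →ₗ[ℝ] ℝ} (hθ : ∀ v, MB D.c D.R fun y => θ y v) {f : E4 → V}
    (hf : ContDiff ℝ ∞ f) (hc : HasCompactSupport f) : ContDiff ℝ ∞ (D.GF r θ f) :=
  GG_contDiff (D.TTint hθ) pP_meas hf hc

lemma GF_fderiv {r : ℝ} {θ : E4 → V →ₗ[ℝ] ℝ} (hθ : ∀ v, MB D.c D.R fun y => θ y v) {f : E4 → V}
    (hf : ContDiff ℝ ∞ f) (hc : HasCompactSupport f) (x v : E4) :
    fderiv ℝ (D.GF r θ f) x v = D.GF r θ (ddv f v) x :=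
  GG_fderiv (D.TTint hθ) pP_meas hf hc x v

end

/-- covector family from functionals linear in a parameter `w` -/
noncomputable def CV (r : ℝ) (θ : E4 → E4 → Cov →ₗ[ℝ] ℝ) (σ : E4 → ℝ) : E4 → Cov :=
  mkCov fun x w => D.GF r (fun y => θ y w) (fderiv ℝ σ) x

section cv

variable {r : ℝ} {θ : E4 → E4 → Cov →ₗ[ℝ] ℝ} {σ : E4 → ℝ}
  (hMB : ∀ w ξ, MB D.c D.R fun y => θ y w ξ)
  (hadd : ∀ y v w ξ, θ y (v + w) ξ = θ y v ξ + θ y w ξ)
  (hsmul : ∀ y (a : ℝ) w ξ, θ y (a • w) ξ = a * θ y w ξ)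
  (hσ : ContDiff ℝ ∞ σ) (hc : HasCompactSupport σ)

include hMB hadd hsmul hσ hc

lemma CV_apply (x w : E4) : D.CV r θ σ x w = D.GF r (fun y => θ y w) (fderiv ℝ σ) x := by
  have hcd : HasCompactSupport (fderiv ℝ σ) := hc.fderiv (𝕜 := ℝ)
  have hcont : Continuous (fderiv ℝ σ) := (fd_contDiff hσ).continuous
  refine mkCov_apply ?_ ?_ w
  · intro v w
    simp only [GF, GG]
    rw [← integral_add (D.GF_int (hMB v) hcont hcd x) (D.GF_int (hMB w) hcont hcd x)]
    refine integral_congr_ae (Filter.Eventually.of_forall fun t => ?_)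
    simp only [TT, LinearMap.smul_apply, hadd, smul_eq_mul]
    ring
  · intro a w
    simp only [GF, GG]
    rw [← integral_const_mul]
    refine integral_congr_ae (Filter.Eventually.of_forall fun t => ?_)
    simp only [TT, LinearMap.smul_apply, hsmul, smul_eq_mul]
    ring

omit hadd hsmul in
lemma CV_contDiff : ContDiff ℝ ∞ (D.CV r θ σ) :=
  mkCov_contDiff fun l => D.GF_contDiff (hMB (ee l)) (fd_contDiff hσ) (hc.fderiv (𝕜 := ℝ))

lemma CV_d1 (x v w : E4) : d1 (D.CV r θ σ) x v w =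
    D.GF r (fun y => θ y w) (ddv (fderiv ℝ σ) v) x
      - D.GF r (fun y => θ y v) (ddv (fderiv ℝ σ) w) x := by
  have hcd : HasCompactSupport (fderiv ℝ σ) := hc.fderiv (𝕜 := ℝ)
  have hd : DifferentiableAt ℝ (D.CV r θ σ) x :=
    ((D.CV_contDiff hMB hσ hc).differentiable (by simp)) x
  have h1 : ∀ w, (fun z => D.CV r θ σ z w) = D.GF r (fun y => θ y w) (fderiv ℝ σ) := fun w => by
    funext z; exact D.CV_apply hMB hadd hsmul hσ hc z w
  rw [d1_apply, fderiv_apply_comm hd, fderiv_apply_comm hd, h1, h1,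
    D.GF_fderiv (hMB w) (fd_contDiff hσ) hcd, D.GF_fderiv (hMB v) (fd_contDiff hσ) hcd]

end cv

/-- the functionals for `b1` -/
noncomputable def t1 (y w : E4) : Cov →ₗ[ℝ] ℝ := th1 (D.tr y) (D.J y) w
/-- the functionals for `b2` -/
noncomputable def t2 (y w : E4) : Cov →ₗ[ℝ] ℝ := th2 (D.G y) (D.J y) (D.φ y) w
/-- the functionals for `Ψ` -/
noncomputable def t3 (v w y : E4) : Bil →ₗ[ℝ] ℝ := th3 (D.G y) (D.φ y) v w
/-- the functionals for `Φ` -/
noncomputable def tP (v w y : E4) : Bil →ₗ[ℝ] ℝ := thP (D.G y) (D.φ y) v w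

lemma MB1 (w : E4) (ξ : Cov) : MB D.c D.R fun y => D.t1 y w ξ :=
  MB_th1 D.mφ D.bA D.smJ.continuous (fun i j => (D.smG i j).continuous) w ξ
lemma MB2 (w : E4) (ξ : Cov) : MB D.c D.R fun y => D.t2 y w ξ :=
  MB_th2 D.mφ D.bA D.smJ.continuous (fun i j => (D.smG i j).continuous) w ξ
lemma MB3 (v w : E4) (H : Bil) : MB D.c D.R fun y => D.t3 v w y H :=
  MB_th3 D.mφ D.bA (fun i j => (D.smG i j).continuous) v w H
lemma MBP (v w : E4) (H : Bil) : MB D.c D.R fun y => D.tP v w y H :=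
  MB_thP D.mφ D.bA (fun i j => (D.smG i j).continuous) v w H

lemma t1_add (y v w : E4) (ξ : Cov) : D.t1 y (v + w) ξ = D.t1 y v ξ + D.t1 y w ξ := by
  simp only [t1, th1, LinearMap.coe_mk, AddHom.coe_mk, map_add]; ring
lemma t1_smul (y : E4) (a : ℝ) (w : E4) (ξ : Cov) : D.t1 y (a • w) ξ = a * D.t1 y w ξ := by
  simp only [t1, th1, LinearMap.coe_mk, AddHom.coe_mk, map_smul, smul_eq_mul]; ring
lemma t2_add (y v w : E4) (ξ : Cov) : D.t2 y (v + w) ξ = D.t2 y v ξ + D.t2 y w ξ := by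
  simp only [t2, th2, LinearMap.coe_mk, AddHom.coe_mk]; exact Lop_add _ _ _ _ _ _
lemma t2_smul (y : E4) (a : ℝ) (w : E4) (ξ : Cov) : D.t2 y (a • w) ξ = a * D.t2 y w ξ := by
  simp only [t2, th2, LinearMap.coe_mk, AddHom.coe_mk]; exact Lop_smul _ _ _ _ _ _

/-- `b1` -/
noncomputable def b1 (r : ℝ) (σ : E4 → ℝ) : E4 → Cov := D.CV r D.t1 σ
/-- `b2` -/
noncomputable def b2 (r : ℝ) (σ : E4 → ℝ) : E4 → Cov := D.CV r D.t2 σ

/-- the smoothed frozen identity -/
theorem ident {r : ℝ} {σ : E4 → ℝ} (hσ : ContDiff ℝ ∞ σ) (hc : HasCompactSupport σ) (x v w : E4) :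
    D.GF r (D.tP v w) (fderiv ℝ (fderiv ℝ σ)) x =
      d1 (D.b1 r σ) x v w + d1 (D.b2 r σ) x v w
        + D.GF r (D.t3 v w) (fderiv ℝ (fderiv ℝ σ)) x := by
  have hcd : HasCompactSupport (fderiv ℝ σ) := hc.fderiv (𝕜 := ℝ)
  have hcd2 : HasCompactSupport (fderiv ℝ (fderiv ℝ σ)) := hcd.fderiv (𝕜 := ℝ)
  have hs1 := fd_contDiff hσ
  have hs2 := fd_contDiff hs1
  rw [b1, b2, D.CV_d1 D.MB1 D.t1_add D.t1_smul hσ hc, D.CV_d1 D.MB2 D.t2_add D.t2_smul hσ hc]
  have hi : ∀ (θ : E4 → E4 → Cov →ₗ[ℝ] ℝ), (∀ w ξ, MB D.c D.R fun y => θ y w ξ) → ∀ v w,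
      Integrable (fun t => TT D.g D.k (fun y => θ y w) t (ddv (fderiv ℝ σ) v (x - pP t)))
        (muP D.s r) := fun θ h v w =>
    D.GF_int (h w) (ddv_contDiff hs1 v).continuous (ddv_compact hcd v) x
  have i3 := D.GF_int (r := r) (D.MB3 v w) hs2.continuous hcd2 x
  have e1 : D.GF r (fun y => D.t1 y w) (ddv (fderiv ℝ σ) v) x
      - D.GF r (fun y => D.t1 y v) (ddv (fderiv ℝ σ) w) x
      + (D.GF r (fun y => D.t2 y w) (ddv (fderiv ℝ σ) v) x
      - D.GF r (fun y => D.t2 y v) (ddv (fderiv ℝ σ) w) x)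
      + D.GF r (D.t3 v w) (fderiv ℝ (fderiv ℝ σ)) x =
      ∫ t, (TT D.g D.k (fun y => D.t1 y w) t (ddv (fderiv ℝ σ) v (x - pP t))
        - TT D.g D.k (fun y => D.t1 y v) t (ddv (fderiv ℝ σ) w (x - pP t))
        + (TT D.g D.k (fun y => D.t2 y w) t (ddv (fderiv ℝ σ) v (x - pP t))
        - TT D.g D.k (fun y => D.t2 y v) t (ddv (fderiv ℝ σ) w (x - pP t)))
        + TT D.g D.k (D.t3 v w) t (fderiv ℝ (fderiv ℝ σ) (x - pP t))) ∂(muP D.s r) := by
    unfold GF GG
    exact int5 (hi _ D.MB1 v w) (hi _ D.MB1 w v) (hi _ D.MB2 v w) (hi _ D.MB2 w v) i3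
  rw [e1]
  unfold GF GG
  refine integral_congr_ae (Filter.Eventually.of_forall fun t => ?_)
  simp only [TT, LinearMap.smul_apply, smul_eq_mul, ddv]
  have h := frozen_th (D.sq t.1) (D.sp t.1) (D.pos t.1) (fderiv ℝ (fderiv ℝ σ) (x - pP t))
    (fun a b => fd2_symm hσ _ a b) v w
  have h' : D.tP v w t.1 (fderiv ℝ (fderiv ℝ σ) (x - pP t)) =
      (D.t1 t.1 w (fderiv ℝ (fderiv ℝ σ) (x - pP t) v)
        - D.t1 t.1 v (fderiv ℝ (fderiv ℝ σ) (x - pP t) w))
      + (D.t2 t.1 w (fderiv ℝ (fderiv ℝ σ) (x - pP t) v)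
        - D.t2 t.1 v (fderiv ℝ (fderiv ℝ σ) (x - pP t) w))
      + D.t3 v w t.1 (fderiv ℝ (fderiv ℝ σ) (x - pP t)) := h
  rw [h']
  ring

end PD

end Crest.Agent.R240.Pot
end

-- ▼ part R240/PotFub
section

/-!
Row 240 (S0371), Part P: Fubini for the smoothed families and the fundamental solution.
-/

set_option autoImplicit false
set_option maxSynthPendingDepth 3
open scoped ContDiff
open MeasureTheory Metric Crest.Agent.R240.En

namespace Crest.Agent.R240.Pot

lemma compact_of_zero {V : Type*} [NormedAddCommGroup V] {f : E4 → V} {e : ℝ}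
    (hf0 : ∀ z, e < ‖z‖ → f z = 0) : HasCompactSupport f := by
  refine HasCompactSupport.intro (isCompact_closedBall (0 : E4) e) fun z hz => hf0 z ?_
  simpa using hz

lemma fderiv_zero_of_zero {V : Type*} [NormedAddCommGroup V] [NormedSpace ℝ V] {f : E4 → V} {e : ℝ}
    (hf0 : ∀ z, e < ‖z‖ → f z = 0) : ∀ z, e < ‖z‖ → fderiv ℝ f z = 0 := by
  intro z hz
  have h1 : f =ᶠ[nhds z] fun _ => (0 : V) := by
    have h2 : {z : E4 | e < ‖z‖} ∈ nhds z :=
      (isOpen_lt continuous_const continuous_norm).mem_nhds hz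
    filter_upwards [h2] with z' hz'
    exact hf0 z' hz'
  rw [h1.fderiv_eq]
  simp

namespace PD

variable (D : PD)

section
variable {V : Type*} [NormedAddCommGroup V] [NormedSpace ℝ V] [FiniteDimensional ℝ V]

/-- the points `x` all of whose interactions are inside the ball of radius `r` -/
def Adm (r e : ℝ) (x : E4) : Prop := ∀ y ∈ closedBall D.c D.R, ‖x - y‖ + e ≤ r

theorem GF_fub {r e : ℝ} {θ : E4 → V →ₗ[ℝ] ℝ} (hθ : ∀ v, MB D.c D.R fun y => θ y v) {f : E4 → V}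
    (hf : Continuous f) (hf0 : ∀ z, e < ‖z‖ → f z = 0) {x : E4} (hx : D.Adm r e x) :
    D.GF r θ f x =
      ∫ y, (∫ ζ, kk (D.k y • D.g y) (D.g y) ζ * θ y (f (x - y - ζ))) ∂D.s := by
  have := D.fin
  have hint := D.GF_int (r := r) hθ hf (compact_of_zero hf0) x
  unfold GF GG
  unfold muP at hint ⊢
  rw [integral_prod _ hint]
  refine integral_congr_ae (Filter.Eventually.of_forall fun y => ?_)
  simp only [TT, pP, LinearMap.smul_apply, smul_eq_mul]
  by_cases hy : y ∈ closedBall D.c D.R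
  · have h1 : ∀ ζ, ζ ∉ closedBall (0 : E4) r →
        kk (D.k y • D.g y) (D.g y) ζ * θ y (f (x - y - ζ)) = 0 := by
      intro ζ hζ
      have h2 : e < ‖x - y - ζ‖ := by
        have h3 : r < ‖ζ‖ := by simpa using hζ
        have h4 := hx y hy
        have h5 : ‖ζ‖ ≤ ‖x - y - ζ‖ + ‖x - y‖ := by
          calc ‖ζ‖ = ‖(x - y) - (x - y - ζ)‖ := by congr 1; abel
            _ ≤ ‖x - y‖ + ‖x - y - ζ‖ := norm_sub_le _ _
            _ = _ := by ring
        linarith
      rw [hf0 _ h2, map_zero, mul_zero]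
    have h3 : ∫ ζ in closedBall (0 : E4) r, kk (D.k y • D.g y) (D.g y) ζ * θ y (f (x - y - ζ)) =
        ∫ ζ, kk (D.k y • D.g y) (D.g y) ζ * θ y (f (x - y - ζ)) :=
      setIntegral_eq_integral_of_forall_compl_eq_zero h1
    rw [← h3]
    refine integral_congr_ae (Filter.Eventually.of_forall fun ζ => ?_)
    simp only
    rw [show x - (y + ζ) = x - y - ζ by abel]
  · have h2 : ∀ ζ, kk (D.k y • D.g y) (D.g y) ζ = 0 := by intro ζ; simp [kk, D.k0 y hy]
    simp [h2]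

end

/-- the fundamental solution property, with constant `c0` -/
def FSc (c0 : ℝ) : Prop := ∀ (g : Bil) (_ : ∀ v w, g v w = g w v)
    (_ : ∀ v, v ≠ 0 → 0 < g v v) (G : Fin 4 → Fin 4 → ℝ)
    (_ : ∀ i k, ∑ j, G i j * g (ee j) (ee k) = if i = k then 1 else 0)
    (rho : E4 → ℝ), ContDiff ℝ ∞ rho → HasCompactSupport rho → ∀ z : E4,
    ∫ ζ, (∑ i, ∑ j, G i j * fderiv ℝ (fderiv ℝ rho) (z - ζ) (ee i) (ee j)) *
      (-(c0 * √ (Matrix.of fun i j => g (ee i) (ee j)).det) / g ζ ζ) = rho z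

theorem exists_FSc : ∃ c0 : ℝ, 0 < c0 ∧ FSc c0 := fund

/-- fundamental solution applied under the integral -/
theorem fsI {c0 : ℝ} (hF : FSc c0) {χ : E4 → ℝ} (hk : ∀ y, D.k y = -(χ y * kap c0 (D.g y)))
    {r e : ℝ} {σ : E4 → ℝ} (hσ : ContDiff ℝ ∞ σ) (hσ0 : ∀ z, e < ‖z‖ → σ z = 0) {x : E4}
    (hx : D.Adm r e x) (v w : E4) :
    D.GF r (D.tP v w) (fderiv ℝ (fderiv ℝ σ)) x = ∫ y, χ y * (D.φ y v w * σ (x - y)) ∂D.s := by
  have hs2 := fd_contDiff (fd_contDiff hσ)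
  rw [D.GF_fub (D.MBP v w) hs2.continuous (fderiv_zero_of_zero (fderiv_zero_of_zero hσ0)) hx]
  refine integral_congr_ae (Filter.Eventually.of_forall fun y => ?_)
  simp only
  have h := hF (D.g y) (D.gsymm y) (D.gpos y) (D.G y) (gI_mul (D.gsymm y) (D.gpos y)) σ hσ
    (compact_of_zero hσ0) (x - y)
  rw [← h, ← integral_const_mul, ← integral_const_mul]
  refine integral_congr_ae (Filter.Eventually.of_forall fun ζ => ?_)
  simp only [kk_of_smul, tP, thP, LinearMap.coe_mk, AddHom.coe_mk]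
  rw [hk y]
  unfold kap gM
  ring

/-- the cut-off mollified current -/
noncomputable def Th (χ σ : E4 → ℝ) (x : E4) : Bil := ∫ y, (χ y * σ (x - y)) • D.φ y ∂D.s

lemma phi_int {f : E4 → ℝ} (hf : Measurable f) {B : ℝ} (hB : ∀ y, |f y| ≤ B) :
    Integrable (fun y => f y • D.φ y) D.s := by
  have := D.fin
  have h1 : Integrable (fun _ : E4 => B * D.A) D.s := integrable_const _
  refine h1.mono ((hf.smul D.mφ).aestronglyMeasurable) ?_
  refine Filter.Eventually.of_forall fun y => ?_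
  rw [norm_smul, Real.norm_eq_abs]
  have h2 : |f y| * ‖D.φ y‖ ≤ B * D.A := by
    have := hB y
    have := D.bA y
    have hB0 : 0 ≤ B := (abs_nonneg _).trans (hB 0)
    gcongr
  exact h2.trans (le_abs_self _)

lemma Th_apply {χ σ : E4 → ℝ} (hχ : Continuous χ) (hχ1 : ∀ y, |χ y| ≤ 1) (hσ : Continuous σ)
    (hc : HasCompactSupport σ) (x v w : E4) :
    D.Th χ σ x v w = ∫ y, χ y * (D.φ y v w * σ (x - y)) ∂D.s := by
  obtain ⟨C, hC0, hC⟩ := exists_bd hσ hc
  have hint : Integrable (fun y => (χ y * σ (x - y)) • D.φ y) D.s := by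
    refine D.phi_int (B := 1 * C) ?_ fun y => ?_
    · exact hχ.measurable.mul (hσ.measurable.comp (measurable_const.sub measurable_id))
    · rw [abs_mul]
      have := hC (x - y)
      rw [Real.norm_eq_abs] at this
      exact mul_le_mul (hχ1 y) this (abs_nonneg _) zero_le_one
  unfold Th
  rw [ContinuousLinearMap.integral_apply hint]
  have h2 : Integrable (fun y => ((χ y * σ (x - y)) • D.φ y) v) D.s :=
    (ContinuousLinearMap.apply ℝ (E4 →L[ℝ] ℝ) v).integrable_comp hint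
  rw [ContinuousLinearMap.integral_apply h2]
  refine integral_congr_ae (Filter.Eventually.of_forall fun y => ?_)
  simp only [smul_apply, smul_eq_mul]
  ring

end PD

end Crest.Agent.R240.Pot
end

-- ▼ part R240/PotSt

/-!
Row 240 (S0371), Part P: statements of the four estimates used in `PotMain`.
-/

set_option autoImplicit false
set_option maxSynthPendingDepth 3
open scoped ContDiff
open MeasureTheory Metric Crest.Agent.R240.En

namespace Crest.Agent.R240.Pot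

/-- standard mollifier -/
structure Moll (ρ : E4 → ℝ) : Prop where
  sm : ContDiff ℝ ∞ ρ
  nn : ∀ z, 0 ≤ ρ z
  sup : ∀ z, 1 ≤ ‖z‖ → ρ z = 0
  one : ∫ z, ρ z = 1

namespace PD

variable (D : PD)

/-- the potential `u` -/
noncomputable def uu (σ : E4 → ℝ) : E4 → ℝ :=
  D.GF (3 * D.R) (fun y => D.tr y • (LinearMap.id : ℝ →ₗ[ℝ] ℝ)) σ

/-- cut-off data: `k = -χ κ(g)`, `0 ≤ χ ≤ 1`, `χ = 1` on the ball of radius `3R/4`. -/
structure Cut (c0 : ℝ) (χ : E4 → ℝ) : Prop where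
  sm : ContDiff ℝ ∞ χ
  nn : ∀ y, 0 ≤ χ y
  le : ∀ y, χ y ≤ 1
  one : ∀ y ∈ closedBall D.c (3 / 4 * D.R), χ y = 1
  kk : ∀ y, D.k y = -(χ y * kap c0 (D.g y))

/-- (U) bounds for `u` -/
def UBd (c0 : ℝ) (χ ρ : E4 → ℝ) : Prop :=
  0 < c0 → D.Cut c0 χ → Moll ρ → ∀ τ : ℝ, 0 < τ → (∀ y ∈ closedBall D.c D.R, τ ≤ D.tr y) →
  ∃ C : ℝ, 0 < C ∧ ∀ e : ℝ, 0 < e → e ≤ D.R / 8 → ∀ x ∈ ball D.c (5 / 8 * D.R),
    wE D.s D.c D.R e 2 x / C - C ≤ - D.uu (rhoE ρ e) x ∧
    - D.uu (rhoE ρ e) x ≤ C * wE D.s D.c D.R e 2 x ∧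
    ‖fderiv ℝ (D.uu (rhoE ρ e)) x‖ ≤ C * wE D.s D.c D.R e 3 x

/-- (A1) bound for `a1 = b1 - J^c du` -/
def A1Bd (ρ : E4 → ℝ) : Prop :=
  Moll ρ → ∃ C : ℝ, 0 < C ∧ ∀ e : ℝ, 0 < e → e ≤ D.R / 8 → ∀ x ∈ ball D.c (5 / 8 * D.R),
    ‖D.b1 (3 * D.R) (rhoE ρ e) x - Jc (D.J x) (fderiv ℝ (D.uu (rhoE ρ e)) x)‖ ≤
      C * wE D.s D.c D.R e 2 x

/-- closedness of the current -/
def ClosedCur : Prop :=
  ∀ S : E4 → Cov, ContDiff ℝ ∞ S → HasCompactSupport S → tsupport S ⊆ ball D.c D.R →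
      ∫ y, W (D.φ y) (d1 S y) ∂D.s = 0

/-- (B2) bound for `b2` -/
def B2Bd (ρ : E4 → ℝ) : Prop :=
  Moll ρ → D.ClosedCur →
  ∃ C : ℝ, 0 < C ∧ ∀ e : ℝ, 0 < e → e ≤ D.R / 8 → ∀ x ∈ ball D.c (5 / 8 * D.R),
    ‖D.b2 (3 * D.R) (rhoE ρ e) x‖ ≤ C * wE D.s D.c D.R e 2 x

/-- (PS) bound for `Ψ` -/
def PsiBd (ρ : E4 → ℝ) : Prop :=
  Moll ρ → D.ClosedCur →
  ∃ C : ℝ, 0 < C ∧ ∀ e : ℝ, 0 < e → e ≤ D.R / 8 → ∀ x ∈ ball D.c (5 / 8 * D.R),
    ∀ i j : Fin 4, |D.GF (3 * D.R) (D.t3 (ee i) (ee j)) (fderiv ℝ (fderiv ℝ (rhoE ρ e))) x| ≤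
      C * wE D.s D.c D.R e 3 x

end PD

end Crest.Agent.R240.Pot
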