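import Mathlib
import Crest.Agent.R240.Lin3
import Crest.Agent.R240.En1
import Crest.Agent.R240.PotAlg
import Crest.Agent.R240.PotGeo
import Crest.Agent.R240.PotDefs
import Crest.Agent.R216.ParamInt
import Crest.Agent.R240.Lin1
import Crest.Agent.R240.Kern
import Crest.Agent.R240.PotSt

-- ▼ part R240/PotTr
section

/-!
Row 240 (S0371), Part P (helper838 for helper657): trace identity, `d∘d = 0`, smoothness of `J du`,
Lipschitz bound for `J`, bounds for the rescaled mollifier.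
-/

set_option autoImplicit false
set_option maxSynthPendingDepth 3
open scoped ContDiff
open MeasureTheory Metric Crest.Agent.R240.En

namespace Crest.Agent.R240.Pot

/-! ### (TR) trace -/

/-- the inverse Gram matrix in terms of an orthonormal frame. -/
lemma gI_frame {g : Bil} {A : E4 ≃L[ℝ] E4}
    (h : ∀ k l, g (A (ee k)) (A (ee l)) = if k = l then 1 else 0) (i j : Fin 4) :
    gI g i j = ∑ k, (A (ee k)) i * (A (ee k)) j := by
  set a : Matrix (Fin 4) (Fin 4) ℝ := Matrix.of fun i k => (A (ee k)) i with ha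
  have h1 : a.transpose * gM g * a = 1 := by
    ext k l
    rw [Matrix.mul_apply, Matrix.one_apply, ← h k l, bil_sum]
    simp only [Matrix.mul_apply, Matrix.transpose_apply, ha, Matrix.of_apply, gM_apply,
      Finset.sum_mul]
    rw [Finset.sum_comm]
    refine Finset.sum_congr rfl fun i _ => Finset.sum_congr rfl fun j _ => ?_
    ring
  have h2 : a * (a.transpose * gM g) = 1 := mul_eq_one_comm.1 h1
  have h3 : (gM g)⁻¹ = a * a.transpose := by
    apply Matrix.inv_eq_left_inv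
    rw [Matrix.mul_assoc]
    exact h2
  unfold gI
  rw [h3, Matrix.mul_apply]
  rfl

/-- traces in terms of an orthonormal frame. -/
lemma tr_frame {g : Bil} {A : E4 ≃L[ℝ] E4}
    (h : ∀ k l, g (A (ee k)) (A (ee l)) = if k = l then 1 else 0) (B : Bil) :
    ∑ i, ∑ j, gI g i j * B (ee i) (ee j) = ∑ k, B (A (ee k)) (A (ee k)) := by
  simp only [gI_frame h, Finset.sum_mul]
  calc ∑ i, ∑ j, ∑ k, (A (ee k)) i * (A (ee k)) j * B (ee i) (ee j)
      = ∑ i, ∑ k, ∑ j, (A (ee k)) i * (A (ee k)) j * B (ee i) (ee j) := by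
        refine Finset.sum_congr rfl fun i _ => Finset.sum_comm
    _ = ∑ k, ∑ i, ∑ j, (A (ee k)) i * (A (ee k)) j * B (ee i) (ee j) := Finset.sum_comm
    _ = _ := by
        refine Finset.sum_congr rfl fun k _ => ?_
        rw [bil_sum B]

section trace

variable {J : E4 →L[ℝ] E4} {F P : Bil} {A : E4 ≃L[ℝ] E4}

lemma gm_frame (hA : IsFrame J F A) (k l : Fin 4) :
    gm J F (A (ee k)) (A (ee l)) = if k = l then 1 else 0 := by
  rw [gm_apply, hA.cplx, hA.form, om0_apply]
  fin_cases k <;> fin_cases l <;> simp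

/-- `tr P` in an adapted frame. -/
lemma trJ_frame (hA : IsFrame J F A) (hP : Alt P) :
    trJ (gI (gm J F)) J (fun a b => P a b)
      = ent (pull (A : E4 →L[ℝ] E4) P) 0 1 + ent (pull (A : E4 →L[ℝ] E4) P) 2 3 := by
  have h1 : trJ (gI (gm J F)) J (fun a b => P a b)
      = (1 / 2) * ∑ i, ∑ j, gI (gm J F) i j * ((P.flip.comp J).flip) (ee i) (ee j) := rfl
  rw [h1, tr_frame (gm_frame hA)]
  have h2 : ∀ v, ((P.flip.comp J).flip) v v = P v (J v) := fun v => rfl
  simp only [h2, hA.cplx, Fin.sum_univ_four, J0_ee0, J0_ee1, J0_ee2, J0_ee3, map_neg]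
  have h3 := hP.swap (A (ee 1)) (A (ee 0))
  have h4 := hP.swap (A (ee 3)) (A (ee 2))
  have h5 : ent (pull (A : E4 →L[ℝ] E4) P) 0 1 = P (A (ee 0)) (A (ee 1)) := by
    unfold ent; rw [pull_apply]; rfl
  have h6 : ent (pull (A : E4 →L[ℝ] E4) P) 2 3 = P (A (ee 2)) (A (ee 3)) := by
    unfold ent; rw [pull_apply]; rfl
  rw [h5, h6, h3, h4]
  ring

theorem W_ne_zero (hJ : ∀ v, J (J v) = -v) (hF : SPos J F) : W F F ≠ 0 := by
  obtain ⟨A, hA⟩ := exists_frame hJ hF
  exact hA.W_ne hF.alt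

lemma W_om0_right (β : Bil) : W β om0 = ent β 0 1 + ent β 2 3 := by
  have h : ∀ i j, ent om0 i j = om0 (ee i) (ee j) := fun i j => rfl
  unfold W
  simp only [h, om0_apply, ee_apply]
  simp

/-- **(TR)** -/
theorem tr_eq (hJ : ∀ v, J (J v) = -v) (hF : SPos J F) (hP : Alt P) :
    trJ (gI (gm J F)) J (fun a b => P a b) * W F F = 2 * W P F := by
  obtain ⟨A, hA⟩ := exists_frame hJ hF
  have hW := hA.W_ne hF.alt
  have h1 := hA.q_eq hF.alt hP hF.alt
  rw [hA.pull_form, W_om0_right, ← trJ_frame hA hP] at h1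
  unfold q at h1
  field_simp at h1
  linarith

/-- **(TRpos)** -/
theorem tr_nonneg (hJ : ∀ v, J (J v) = -v) (hF : SPos J F) (hP : Pos J P) :
    0 ≤ trJ (gI (gm J F)) J (fun a b => P a b) := by
  obtain ⟨A, hA⟩ := exists_frame hJ hF
  rw [trJ_frame hA hP.alt]
  have h1 := pos0_ent (P := pull (A : E4 →L[ℝ] E4) P) (hP.alt.pull _) (hA.pull_inv hP.inv) (by
    intro v
    rw [pull_apply]
    have := hP.nonneg (A v)
    rw [hA.cplx] at this
    exact this)
  exact add_nonneg h1.1 h1.2.1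

theorem tr_lower (hJ : ∀ v, J (J v) = -v) (hF : SPos J F) (hP : Pos J P) {τ0 : ℝ}
    (hτ : τ0 ≤ |W P F|) :
    2 * τ0 / |W F F| ≤ trJ (gI (gm J F)) J (fun a b => P a b) := by
  have hW := W_ne_zero hJ hF
  have h0 := tr_nonneg hJ hF hP
  have h1 := tr_eq hJ hF hP.alt
  have h2 : trJ (gI (gm J F)) J (fun a b => P a b) * |W F F| = 2 * |W P F| := by
    have := congrArg abs h1
    rwa [abs_mul, abs_mul, abs_of_nonneg h0, abs_of_pos (by norm_num : (0:ℝ) < 2)] at this
  rw [div_le_iff₀ (abs_pos.2 hW), h2]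
  linarith

end trace

/-! ### (D1) -/

lemma contDiff_d1 {b : E4 → Cov} (hb : ContDiff ℝ ∞ b) : ContDiff ℝ ∞ (d1 b) := by
  have h1 : ContDiff ℝ ∞ (fderiv ℝ b) := hb.fderiv_right (m := ∞) le_rfl
  exact h1.sub ((ContinuousLinearMap.flipₗᵢ ℝ E4 E4 ℝ).toContinuousLinearEquiv.contDiff.comp h1)

lemma fderiv_bil_apply {c : E4 → Bil} {x : E4} (hc : DifferentiableAt ℝ c x) (u v w : E4) :
    fderiv ℝ c x u v w = fderiv ℝ (fun z => c z v w) x u := by
  have h1 : HasFDerivAt (fun z => c z v w) ((ContinuousLinearMap.apply ℝ ℝ w).comp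
      ((ContinuousLinearMap.apply ℝ Cov v).comp (fderiv ℝ c x))) x :=
    (ContinuousLinearMap.apply ℝ ℝ w).hasFDerivAt.comp x
      ((ContinuousLinearMap.apply ℝ Cov v).hasFDerivAt.comp x hc.hasFDerivAt)
  rw [h1.fderiv]
  rfl

lemma Cl_d1 {b : E4 → Cov} (hb : ContDiff ℝ ∞ b) (x : E4) : Cl (d1 b) x := by
  have hd : DifferentiableAt ℝ (d1 b) x := (contDiff_d1 hb).differentiable (by simp) x
  have h1 : ContDiff ℝ ∞ (fderiv ℝ b) := hb.fderiv_right (m := ∞) le_rfl
  have hd1 : DifferentiableAt ℝ (fderiv ℝ b) x := h1.differentiable (by simp) x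
  have hsym : ∀ u v w : E4, fderiv ℝ (fderiv ℝ b) x u v w = fderiv ℝ (fderiv ℝ b) x v u w := by
    intro u v w
    have hs : IsSymmSndFDerivAt ℝ b x :=
      (hb.contDiffAt).isSymmSndFDerivAt (by
        rw [minSmoothness_of_isRCLikeNormedField]
        exact WithTop.coe_le_coe.2 le_top)
    rw [hs.eq u v]
  have key : ∀ u v w : E4, fderiv ℝ (d1 b) x u v w
      = fderiv ℝ (fderiv ℝ b) x u v w - fderiv ℝ (fderiv ℝ b) x u w v := by
    intro u v w
    rw [fderiv_bil_apply hd]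
    have e1 : (fun z => d1 b z v w) = fun z => fderiv ℝ b z v w - fderiv ℝ b z w v := by
      funext z; exact d1_apply b z v w
    have e2 : ∀ v w : E4, HasFDerivAt (fun z => fderiv ℝ b z v w)
        ((ContinuousLinearMap.apply ℝ ℝ w).comp
          ((ContinuousLinearMap.apply ℝ Cov v).comp (fderiv ℝ (fderiv ℝ b) x))) x := fun v w =>
      (ContinuousLinearMap.apply ℝ ℝ w).hasFDerivAt.comp x
        ((ContinuousLinearMap.apply ℝ Cov v).hasFDerivAt.comp x hd1.hasFDerivAt)
    rw [e1, ((e2 v w).fun_sub (e2 w v)).fderiv]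
    rfl
  intro u v w
  rw [key, key, key, hsym u v w, hsym u w v, hsym v w u]
  ring


lemma Cl_sub {b c : E4 → Bil} {x : E4} (hb : DifferentiableAt ℝ b x)
    (hc : DifferentiableAt ℝ c x) (h1 : Cl b x) (h2 : Cl c x) : Cl (fun z => b z - c z) x := by
  intro u v w
  have e : fderiv ℝ (fun z => b z - c z) x = fderiv ℝ b x - fderiv ℝ c x := fderiv_fun_sub hb hc
  rw [e]
  have := h1 u v w
  have := h2 u v w
  simp only [sub_apply]
  linarith

lemma d1_add {b c : E4 → Cov} {x : E4} (hb : DifferentiableAt ℝ b x)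
    (hc : DifferentiableAt ℝ c x) : d1 (fun z => b z + c z) x = d1 b x + d1 c x := by
  ext v w
  have e : fderiv ℝ (fun z => b z + c z) x = fderiv ℝ b x + fderiv ℝ c x := fderiv_fun_add hb hc
  simp only [d1_apply, e, add_apply]
  ring

lemma d1_sub {b c : E4 → Cov} {x : E4} (hb : DifferentiableAt ℝ b x)
    (hc : DifferentiableAt ℝ c x) : d1 (fun z => b z - c z) x = d1 b x - d1 c x := by
  ext v w
  have e : fderiv ℝ (fun z => b z - c z) x = fderiv ℝ b x - fderiv ℝ c x := fderiv_fun_sub hb hc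
  simp only [d1_apply, e, sub_apply]
  ring

/-! ### (JC) -/

lemma contDiff_Jc {J : E4 → E4 →L[ℝ] E4} (hJ : ContDiff ℝ ∞ J) {u : E4 → ℝ}
    (hu : ContDiff ℝ ∞ u) : ContDiff ℝ ∞ fun z => Jc (J z) (fderiv ℝ u z) := by
  have h1 : ContDiff ℝ ∞ (fderiv ℝ u) := hu.fderiv_right (m := ∞) le_rfl
  exact (h1.clm_comp hJ).neg

/-! ### (LIP) -/


/-! ### (MOL) the rescaled mollifier -/

section mol

variable {ρ : E4 → ℝ}

lemma rhoE_contDiff (hρ : ContDiff ℝ ∞ ρ) (e : ℝ) : ContDiff ℝ ∞ (rhoE ρ e) :=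
  contDiff_const.mul (hρ.comp (contDiff_const_smul e⁻¹))


lemma rhoE_zero (h1 : ∀ z, 1 ≤ ‖z‖ → ρ z = 0) {e : ℝ} (he : 0 < e) {z : E4} (hz : e ≤ ‖z‖) :
    rhoE ρ e z = 0 := by
  unfold rhoE
  rw [h1, mul_zero]
  rw [norm_smul, norm_inv, Real.norm_of_nonneg he.le, ← div_eq_inv_mul, le_div_iff₀ he, one_mul]
  exact hz

lemma rhoE_hasCompactSupport (h1 : ∀ z, 1 ≤ ‖z‖ → ρ z = 0) {e : ℝ} (he : 0 < e) :
    HasCompactSupport (rhoE ρ e) := by
  refine HasCompactSupport.intro (isCompact_closedBall (0 : E4) e) fun z hz => ?_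
  refine rhoE_zero h1 he ?_
  rw [mem_closedBall, dist_zero_right, not_le] at hz
  exact hz.le








end mol

end Crest.Agent.R240.Pot
end

-- ▼ part R240/PotPoinc
section

/-!
Row 240 (S0371), helper838: averaged Poincaré homotopy for closed two-forms on balls of `ℝ⁴`
with the kernel bound `|α(x)| ≤ C ∫ |x - z|⁻³ |Ψ(z)| dz`.
-/

set_option autoImplicit false
set_option maxSynthPendingDepth 3

open MeasureTheory Set Filter Topology Metric
open scoped ContDiff ENNReal Convolution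

namespace Crest.Agent.R240.PotPoinc

noncomputable section

/-! ### parametric integrals over compact sets -/

section Param

variable {P : Type*} [NormedAddCommGroup P] [NormedSpace ℝ P] [ProperSpace P]
  {F : Type*} [NormedAddCommGroup F] [NormedSpace ℝ F]
  {G : Type*} [TopologicalSpace G] [MeasurableSpace G] [OpensMeasurableSpace G]
  [SecondCountableTopologyEither G F] [SecondCountableTopologyEither G (P →L[ℝ] F)]

theorem hasFDerivAt_param {μ : Measure G} {k : Set G} (hk : IsCompact k) (hkm : MeasurableSet k)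
    (hμ : μ k < ⊤) {h : P → G → F} {D : P → G → P →L[ℝ] F}
    (hh : Continuous (Function.uncurry h)) (hD : Continuous (Function.uncurry D))
    (hd : ∀ x t, HasFDerivAt (fun x => h x t) (D x t) x) (x₀ : P) :
    HasFDerivAt (fun x => ∫ t in k, h x t ∂μ) (∫ t in k, D x₀ t ∂μ) x₀ := by
  have : IsFiniteMeasure (μ.restrict k) := ⟨by simpa using hμ⟩
  have hK : IsCompact ((closedBall x₀ 1) ×ˢ k) := (isCompact_closedBall x₀ 1).prod hk
  obtain ⟨C, hC⟩ := hK.exists_bound_of_continuousOn (f := Function.uncurry D) hD.continuousOn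
  have hK0 : IsCompact (({x₀} : Set P) ×ˢ k) := isCompact_singleton.prod hk
  obtain ⟨C0, hC0⟩ := hK0.exists_bound_of_continuousOn (f := Function.uncurry h) hh.continuousOn
  have hhx : ∀ x, Continuous (h x) := fun x => hh.comp (by fun_prop : Continuous fun t => (x, t))
  have hDx : ∀ x, Continuous (D x) := fun x => hD.comp (by fun_prop : Continuous fun t => (x, t))
  refine hasFDerivAt_integral_of_dominated_of_fderiv_le (F' := D) (bound := fun _ => C)
    (s := closedBall x₀ 1) (closedBall_mem_nhds x₀ one_pos) ?_ ?_ ?_ ?_ ?_ ?_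
  · exact Eventually.of_forall fun x => (hhx x).aestronglyMeasurable
  · refine Integrable.mono' (g := fun _ => C0) (integrable_const _) (hhx x₀).aestronglyMeasurable ?_
    filter_upwards [ae_restrict_mem hkm] with t ht
    exact hC0 (x₀, t) ⟨rfl, ht⟩
  · exact (hDx x₀).aestronglyMeasurable
  · filter_upwards [ae_restrict_mem hkm] with t ht x hx
    exact hC (x, t) ⟨hx, ht⟩
  · exact integrable_const _
  · exact Eventually.of_forall fun t x _ => hd x t

end Param

/-! ### the homotopy -/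

section Hom

variable {E : Type*} [NormedAddCommGroup E] [NormedSpace ℝ E]

/-- the integrand of the homotopy with centre `a`. -/
def hin (Ψ : E → E →L[ℝ] E →L[ℝ] ℝ) (a x : E) (t : ℝ) : E →L[ℝ] ℝ :=
  t • Ψ (a + t • (x - a)) (x - a)

/-- the homotopy with centre `a`. -/
def hom (Ψ : E → E →L[ℝ] E →L[ℝ] ℝ) (a x : E) : E →L[ℝ] ℝ :=
  ∫ t in (0:ℝ)..1, hin Ψ a x t

/-- derivative of the integrand. -/
def hinD (Ψ : E → E →L[ℝ] E →L[ℝ] ℝ) (a x : E) (t : ℝ) : E →L[ℝ] E →L[ℝ] ℝ :=
  t • (t • (fderiv ℝ Ψ (a + t • (x - a))).flip (x - a) + Ψ (a + t • (x - a)))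

lemma contDiff_hin {Ψ : E → E →L[ℝ] E →L[ℝ] ℝ} (hΨ : ContDiff ℝ ∞ Ψ) :
    ContDiff ℝ ∞ (Function.uncurry fun (p : E × E) (t : ℝ) => hin Ψ p.1 p.2 t) := by
  unfold hin Function.uncurry
  have h1 : ContDiff ℝ ∞ (fun q : (E × E) × ℝ => q.1.1 + q.2 • (q.1.2 - q.1.1)) := by fun_prop
  have h2 : ContDiff ℝ ∞ (fun q : (E × E) × ℝ => (q.1.2 - q.1.1)) := by fun_prop
  exact contDiff_snd.smul ((hΨ.comp h1).clm_apply h2)

lemma contDiff_hom {Ψ : E → E →L[ℝ] E →L[ℝ] ℝ} (hΨ : ContDiff ℝ ∞ Ψ) :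
    ContDiff ℝ ∞ (fun p : E × E => hom Ψ p.1 p.2) :=
  Crest.Agent.R216.contDiff_param_integral 0 1 (contDiff_hin hΨ)

lemma continuous_hinD {Ψ : E → E →L[ℝ] E →L[ℝ] ℝ} (hΨ : ContDiff ℝ ∞ Ψ) :
    Continuous (fun q : (E × E) × ℝ => hinD Ψ q.1.1 q.1.2 q.2) := by
  unfold hinD
  have h1 : Continuous (fun q : (E × E) × ℝ => q.1.1 + q.2 • (q.1.2 - q.1.1)) := by fun_prop
  have h2 : Continuous (fun q : (E × E) × ℝ => (q.1.2 - q.1.1)) := by fun_prop
  have h3 : Continuous (fderiv ℝ Ψ) := hΨ.continuous_fderiv (by norm_num)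
  have h4 : Continuous (fun q : (E × E) × ℝ =>
      (fderiv ℝ Ψ (q.1.1 + q.2 • (q.1.2 - q.1.1))).flip (q.1.2 - q.1.1)) := by
    have h5 : Continuous (fun q : (E × E) × ℝ =>
      (fderiv ℝ Ψ (q.1.1 + q.2 • (q.1.2 - q.1.1))).flip) :=
      (ContinuousLinearMap.flipₗᵢ ℝ E E (E →L[ℝ] ℝ)).continuous.comp (h3.comp h1)
    exact h5.clm_apply h2
  exact continuous_snd.smul ((continuous_snd.smul h4).add (hΨ.continuous.comp h1))

lemma hasFDerivAt_hin {Ψ : E → E →L[ℝ] E →L[ℝ] ℝ} (hΨ : ContDiff ℝ ∞ Ψ) (a x : E) (t : ℝ) :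
    HasFDerivAt (fun x => hin Ψ a x t) (hinD Ψ a x t) x := by
  have h1 : HasFDerivAt (fun x : E => a + t • (x - a)) (t • ContinuousLinearMap.id ℝ E) x := by
    have e1 : HasFDerivAt (fun x : E => x - a) (ContinuousLinearMap.id ℝ E) x :=
      (hasFDerivAt_id x).sub_const a
    exact (e1.const_smul t).const_add a
  have h2 : HasFDerivAt (fun x : E => x - a) (ContinuousLinearMap.id ℝ E) x :=
    (hasFDerivAt_id x).sub_const a
  have h3 : HasFDerivAt Ψ (fderiv ℝ Ψ (a + t • (x - a))) (a + t • (x - a)) :=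
    (hΨ.differentiable (by norm_num) _).hasFDerivAt
  have h4 := (h3.comp x h1).clm_apply h2
  have h5 := h4.const_smul t
  refine h5.congr_fderiv ?_
  ext u v
  simp [hinD]
  ring

lemma integrand_identity {Ψ : E → E →L[ℝ] E →L[ℝ] ℝ} {U : Set E} (hU : IsOpen U)
    (hΨ : ContDiff ℝ ∞ Ψ) (halt : ∀ y ∈ U, ∀ u v, Ψ y u v = - Ψ y v u)
    (hcl : ∀ y ∈ U, ∀ u v w, fderiv ℝ Ψ y u v w + fderiv ℝ Ψ y v w u + fderiv ℝ Ψ y w u v = 0)
    (a x : E) (t : ℝ) (hy : a + t • (x - a) ∈ U) (u v : E) :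
    hinD Ψ a x t u v - hinD Ψ a x t v u
      = t ^ 2 * fderiv ℝ Ψ (a + t • (x - a)) (x - a) u v + 2 * t * Ψ (a + t • (x - a)) u v := by
  set y := a + t • (x - a) with hy'
  have hd : ∀ p q w : E, fderiv ℝ Ψ y w p q = - fderiv ℝ Ψ y w q p := by
    intro p q w
    have hdiff : DifferentiableAt ℝ Ψ y := hΨ.differentiable (by norm_num) y
    have e1 : HasFDerivAt (fun z => Ψ z p q) ((ContinuousLinearMap.apply ℝ ℝ q).comp
        ((ContinuousLinearMap.apply ℝ (E →L[ℝ] ℝ) p).comp (fderiv ℝ Ψ y))) y :=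
      (ContinuousLinearMap.apply ℝ ℝ q).hasFDerivAt.comp y
        ((ContinuousLinearMap.apply ℝ (E →L[ℝ] ℝ) p).hasFDerivAt.comp y hdiff.hasFDerivAt)
    have e2 : HasFDerivAt (fun z => - Ψ z q p) (-((ContinuousLinearMap.apply ℝ ℝ p).comp
        ((ContinuousLinearMap.apply ℝ (E →L[ℝ] ℝ) q).comp (fderiv ℝ Ψ y)))) y :=
      ((ContinuousLinearMap.apply ℝ ℝ p).hasFDerivAt.comp y
        ((ContinuousLinearMap.apply ℝ (E →L[ℝ] ℝ) q).hasFDerivAt.comp y hdiff.hasFDerivAt)).neg
    have e3 : (fun z => Ψ z p q) =ᶠ[𝓝 y] (fun z => - Ψ z q p) := by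
      filter_upwards [hU.mem_nhds hy] with z hz
      exact halt z hz p q
    have e4 := (e2.congr_of_eventuallyEq e3).unique e1
    have := congrArg (fun L : E →L[ℝ] ℝ => L w) e4
    simp at this
    linarith
  have h1 := hcl y hy u v (x - a)
  have h2 := hd v (x - a) u
  have h3 := halt y hy u v
  simp only [hinD, smul_apply, add_apply, smul_eq_mul,
    ← hy', ContinuousLinearMap.flip_apply]
  have h4 := hd (x - a) v u
  have h5 : fderiv ℝ Ψ y u (x - a) v - fderiv ℝ Ψ y v (x - a) u = fderiv ℝ Ψ y (x - a) u v := by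
    linarith
  have h6 : Ψ y v u = - Ψ y u v := by linarith
  rw [h6]
  linear_combination t ^ 2 * h5

lemma hom_eq (Ψ : E → E →L[ℝ] E →L[ℝ] ℝ) (a x : E) :
    hom Ψ a x = ∫ t in Icc (0:ℝ) 1, hin Ψ a x t := by
  rw [hom, intervalIntegral.integral_of_le zero_le_one, integral_Icc_eq_integral_Ioc]

/-- derivative of the homotopy with centre `a`. -/
def homD (Ψ : E → E →L[ℝ] E →L[ℝ] ℝ) (a x : E) : E →L[ℝ] E →L[ℝ] ℝ :=
  ∫ t in Icc (0:ℝ) 1, hinD Ψ a x t

lemma hasFDerivAt_hom [FiniteDimensional ℝ E] {Ψ : E → E →L[ℝ] E →L[ℝ] ℝ} (hΨ : ContDiff ℝ ∞ Ψ)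
    (a x : E) : HasFDerivAt (fun x => hom Ψ a x) (homD Ψ a x) x := by
  have : ProperSpace E := FiniteDimensional.proper ℝ E
  simp_rw [hom_eq]
  refine hasFDerivAt_param (h := fun x t => hin Ψ a x t) (D := fun x t => hinD Ψ a x t)
    isCompact_Icc measurableSet_Icc (by simp) ?_ ?_ (fun x t => hasFDerivAt_hin hΨ a x t) x
  · exact (contDiff_hin hΨ).continuous.comp
      (by fun_prop : Continuous fun q : E × ℝ => (((a, q.1), q.2) : (E × E) × ℝ))
  · exact (continuous_hinD hΨ).comp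
      (by fun_prop : Continuous fun q : E × ℝ => (((a, q.1), q.2) : (E × E) × ℝ))

lemma homD_antisymm {Ψ : E → E →L[ℝ] E →L[ℝ] ℝ} {U : Set E} (hU : IsOpen U)
    (hUc : Convex ℝ U)
    (hΨ : ContDiff ℝ ∞ Ψ) (halt : ∀ y ∈ U, ∀ u v, Ψ y u v = - Ψ y v u)
    (hcl : ∀ y ∈ U, ∀ u v w, fderiv ℝ Ψ y u v w + fderiv ℝ Ψ y v w u + fderiv ℝ Ψ y w u v = 0)
    {a x : E} (ha : a ∈ U) (hx : x ∈ U) (u v : E) :
    homD Ψ a x u v - homD Ψ a x v u = Ψ x u v := by
  have hc : Continuous (fun t : ℝ => hinD Ψ a x t) :=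
    (continuous_hinD hΨ).comp (by fun_prop : Continuous fun t : ℝ => (((a, x), t) : (E × E) × ℝ))
  have hi : IntegrableOn (fun t : ℝ => hinD Ψ a x t) (Icc 0 1) :=
    hc.continuousOn.integrableOn_Icc
  have e : ∀ u v : E, homD Ψ a x u v = ∫ t in Icc (0:ℝ) 1, hinD Ψ a x t u v := by
    intro u v
    have e1 : homD Ψ a x u = ∫ t in Icc (0:ℝ) 1, hinD Ψ a x t u := by
      rw [homD]
      exact (ContinuousLinearMap.integral_apply hi u)
    rw [e1]
    refine ContinuousLinearMap.integral_apply ?_ v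
    exact (hc.clm_apply continuous_const).continuousOn.integrableOn_Icc
  have hcuv : ∀ u v : E, Continuous (fun t : ℝ => hinD Ψ a x t u v) := fun u v =>
    (hc.clm_apply continuous_const).clm_apply continuous_const
  rw [e u v, e v u, ← integral_sub (hcuv u v).continuousOn.integrableOn_Icc
    (hcuv v u).continuousOn.integrableOn_Icc]
  have hmem : ∀ t ∈ Icc (0:ℝ) 1, a + t • (x - a) ∈ U := by
    intro t ht
    exact hUc.add_smul_sub_mem ha hx ht
  have e2 : ∀ t ∈ Icc (0:ℝ) 1, hinD Ψ a x t u v - hinD Ψ a x t v u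
      = t ^ 2 * fderiv ℝ Ψ (a + t • (x - a)) (x - a) u v + 2 * t * Ψ (a + t • (x - a)) u v :=
    fun t ht => integrand_identity hU hΨ halt hcl a x t (hmem t ht) u v
  rw [setIntegral_congr_fun measurableSet_Icc e2, integral_Icc_eq_integral_Ioc,
    ← intervalIntegral.integral_of_le zero_le_one]
  have hder : ∀ t : ℝ, HasDerivAt (fun t : ℝ => t ^ 2 * Ψ (a + t • (x - a)) u v)
      (t ^ 2 * fderiv ℝ Ψ (a + t • (x - a)) (x - a) u v + 2 * t * Ψ (a + t • (x - a)) u v) t := by
    intro t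
    have h1 : HasDerivAt (fun t : ℝ => a + t • (x - a)) (x - a) t := by
      have := ((hasDerivAt_id t).smul_const (x - a)).const_add a
      simpa using this
    have h3 : HasFDerivAt Ψ (fderiv ℝ Ψ (a + t • (x - a))) (a + t • (x - a)) :=
      (hΨ.differentiable (by norm_num) _).hasFDerivAt
    have h4 : HasDerivAt (fun t : ℝ => Ψ (a + t • (x - a)))
        (fderiv ℝ Ψ (a + t • (x - a)) (x - a)) t := h3.comp_hasDerivAt t h1
    have h5 : HasDerivAt (fun t : ℝ => Ψ (a + t • (x - a)) u)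
        (fderiv ℝ Ψ (a + t • (x - a)) (x - a) u) t := by
      have := h4.clm_apply (hasDerivAt_const t u)
      simpa using this
    have h6 : HasDerivAt (fun t : ℝ => Ψ (a + t • (x - a)) u v)
        (fderiv ℝ Ψ (a + t • (x - a)) (x - a) u v) t := by
      have := h5.clm_apply (hasDerivAt_const t v)
      simpa using this
    have h7 := (hasDerivAt_pow 2 t).mul h6
    refine h7.congr_deriv ?_
    simp
    ring
  rw [intervalIntegral.integral_eq_sub_of_hasDerivAt (fun t _ => hder t)]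
  · simp
  · refine Continuous.intervalIntegrable ?_ _ _
    have h1 : Continuous (fun t : ℝ => a + t • (x - a)) := by fun_prop
    have h3 : Continuous (fderiv ℝ Ψ) := hΨ.continuous_fderiv (by norm_num)
    have h4 : Continuous fun t : ℝ => fderiv ℝ Ψ (a + t • (x - a)) (x - a) u v :=
      (((h3.comp h1).clm_apply continuous_const).clm_apply continuous_const).clm_apply
        continuous_const
    have h5 : Continuous fun t : ℝ => Ψ (a + t • (x - a)) u v :=
      ((hΨ.continuous.comp h1).clm_apply continuous_const).clm_apply continuous_const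
    fun_prop

end Hom

/-! ### averaging over the centres -/

section AvgGen

variable {P : Type*} [NormedAddCommGroup P] [NormedSpace ℝ P] [FiniteDimensional ℝ P]
  {F : Type*} [NormedAddCommGroup F] [NormedSpace ℝ F]
  {G : Type*} [NormedAddCommGroup G] [NormedSpace ℝ G] [FiniteDimensional ℝ G]
  [MeasurableSpace G] [BorelSpace G]

omit [FiniteDimensional ℝ P] in
lemma contDiff_avgGen {μ : Measure G} [IsFiniteMeasureOnCompacts μ] {φ : G → ℝ}
    (hφ : ContDiff ℝ ∞ φ) (hs : HasCompactSupport φ)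
    {h : G → P → F} (hh : ContDiff ℝ ∞ (Function.uncurry h)) :
    ContDiff ℝ ∞ (fun x => ∫ a, φ a • h a x ∂μ) := by
  have : ProperSpace G := FiniteDimensional.proper ℝ G
  have : IsLocallyFiniteMeasure μ := isLocallyFiniteMeasure_of_isFiniteMeasureOnCompacts
  have key' : (fun x => ∫ a, φ a • h a x ∂μ) = fun x =>
      (((fun _ : G => (1:ℝ)) ⋆[ContinuousLinearMap.lsmul ℝ ℝ, μ]
      (fun s => φ (-s) • h (-s) x)) (0:G)) := by
    funext x
    rw [convolution_def]
    refine integral_congr_ae (Filter.Eventually.of_forall fun t => ?_)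
    simp
  rw [key', ← contDiffOn_univ]
  obtain ⟨R, hR⟩ := hs.isCompact.isBounded.subset_closedBall (0:G)
  refine contDiffOn_convolution_right_with_param_comp (ContinuousLinearMap.lsmul ℝ ℝ)
    (v := fun _ => (0:G)) contDiffOn_const isOpen_univ
    (k := Metric.closedBall (0:G) R) (isCompact_closedBall _ _) ?_ (locallyIntegrable_const _) ?_
  · intro p t _ ht
    have : φ (-t) = 0 := by
      by_contra h
      have h1 : -t ∈ tsupport φ := subset_tsupport _ h
      have h2 := hR h1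
      apply ht
      simpa using h2
    simp [this]
  · refine ContDiff.contDiffOn ?_
    have h1 : ContDiff ℝ ∞ (fun q : P × G => φ (-q.2)) := hφ.comp contDiff_snd.neg
    have h2 : ContDiff ℝ ∞ (fun q : P × G => h (-q.2) q.1) :=
      hh.comp (contDiff_snd.neg.prodMk contDiff_fst)
    exact h1.smul h2

omit [FiniteDimensional ℝ P] [FiniteDimensional ℝ G] [MeasurableSpace G] [BorelSpace G] in
lemma continuous_derivGen {h : G → P → F} (hh : ContDiff ℝ ∞ (Function.uncurry h))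
    {D : G → P → P →L[ℝ] F} (hD : ∀ a x, HasFDerivAt (h a) (D a x) x) :
    Continuous (fun q : P × G => D q.2 q.1) := by
  have h1 : ∀ q : P × G, D q.2 q.1 = (fderiv ℝ (Function.uncurry h)
      (q.2, q.1)).comp (ContinuousLinearMap.inr ℝ G P) := by
    intro q
    have h2 := hD q.2 q.1
    have h3 : HasFDerivAt (Function.uncurry h) (fderiv ℝ (Function.uncurry h) (q.2, q.1))
        (q.2, q.1) := (hh.differentiable (by norm_num) _).hasFDerivAt
    have h4 := h3.comp q.1 (hasFDerivAt_prodMk_right q.2 q.1)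
    exact h2.unique h4
  simp_rw [h1]
  have h5 : Continuous (fderiv ℝ (Function.uncurry h)) := hh.continuous_fderiv (by norm_num)
  have h6 : Continuous (fun q : P × G => fderiv ℝ (Function.uncurry h) (q.2, q.1)) :=
    h5.comp (by fun_prop)
  exact h6.clm_comp continuous_const

lemma hasFDerivAt_avgGen {μ : Measure G} [IsFiniteMeasureOnCompacts μ] {φ : G → ℝ}
    (hφ : ContDiff ℝ ∞ φ) (hs : HasCompactSupport φ)
    {h : G → P → F} (hh : ContDiff ℝ ∞ (Function.uncurry h))
    {D : G → P → P →L[ℝ] F} (hD : ∀ a x, HasFDerivAt (h a) (D a x) x) (x : P) :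
    HasFDerivAt (fun x => ∫ a, φ a • h a x ∂μ) (∫ a in tsupport φ, φ a • D a x ∂μ) x := by
  have : ProperSpace P := FiniteDimensional.proper ℝ P
  have : ProperSpace G := FiniteDimensional.proper ℝ G
  have key : (fun x => ∫ a, φ a • h a x ∂μ) = fun x => ∫ a in tsupport φ, φ a • h a x ∂μ := by
    funext x
    symm
    refine setIntegral_eq_integral_of_forall_compl_eq_zero fun a ha => ?_
    rw [image_eq_zero_of_notMem_tsupport ha, zero_smul]
  rw [key]
  refine hasFDerivAt_param (h := fun x a => φ a • h a x) (D := fun x a => φ a • D a x)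
    hs.isCompact hs.isCompact.measurableSet hs.isCompact.measure_lt_top ?_ ?_ ?_ x
  · have h2 : Continuous (fun q : P × G => h q.2 q.1) :=
      hh.continuous.comp (by fun_prop : Continuous fun q : P × G => (q.2, q.1))
    exact (hφ.continuous.comp continuous_snd).smul h2
  · exact (hφ.continuous.comp continuous_snd).smul (continuous_derivGen hh hD)
  · intro x a
    exact (hD a x).const_smul (φ a)

omit [FiniteDimensional ℝ P] [FiniteDimensional ℝ G] [NormedSpace ℝ G] in
lemma integral_applyGen {μ : Measure G} [IsFiniteMeasureOnCompacts μ] {k : Set G}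
    (hk : IsCompact k) {φ : G → ℝ} (hφ : Continuous φ) {D : G → P →L[ℝ] F} (hD : Continuous D)
    (u : P) :
    (∫ a in k, φ a • D a ∂μ) u = ∫ a in k, φ a • D a u ∂μ :=
  ContinuousLinearMap.integral_apply ((hφ.smul hD).continuousOn.integrableOn_compact hk) u

end AvgGen

section Avg

variable {E : Type*} [NormedAddCommGroup E] [NormedSpace ℝ E] [FiniteDimensional ℝ E]
  [MeasurableSpace E] [BorelSpace E]

/-- average of the homotopies over the centres. -/
def avg (μ : Measure E) (φ : E → ℝ) (Ψ : E → E →L[ℝ] E →L[ℝ] ℝ) (x : E) : E →L[ℝ] ℝ :=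
  ∫ a, φ a • hom Ψ a x ∂μ

lemma contDiff_avg {μ : Measure E} [IsFiniteMeasureOnCompacts μ] {φ : E → ℝ}
    (hφ : ContDiff ℝ ∞ φ) (hs : HasCompactSupport φ)
    {Ψ : E → E →L[ℝ] E →L[ℝ] ℝ} (hΨ : ContDiff ℝ ∞ Ψ) : ContDiff ℝ ∞ (avg μ φ Ψ) :=
  contDiff_avgGen (P := E) (G := E) (F := E →L[ℝ] ℝ) (h := fun a x => hom Ψ a x) hφ hs
    (contDiff_hom hΨ)

omit [MeasurableSpace E] [BorelSpace E] in
lemma continuous_homD {Ψ : E → E →L[ℝ] E →L[ℝ] ℝ} (hΨ : ContDiff ℝ ∞ Ψ) :
    Continuous (fun q : E × E => homD Ψ q.2 q.1) :=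
  continuous_derivGen (P := E) (G := E) (F := E →L[ℝ] ℝ) (h := fun a x => hom Ψ a x)
    (D := homD Ψ) (contDiff_hom hΨ) (fun a x => hasFDerivAt_hom hΨ a x)

lemma hasFDerivAt_avg {μ : Measure E} [IsFiniteMeasureOnCompacts μ] {φ : E → ℝ}
    (hφ : ContDiff ℝ ∞ φ) (hs : HasCompactSupport φ)
    {Ψ : E → E →L[ℝ] E →L[ℝ] ℝ} (hΨ : ContDiff ℝ ∞ Ψ) (x : E) :
    HasFDerivAt (avg μ φ Ψ) (∫ a in tsupport φ, φ a • homD Ψ a x ∂μ) x :=
  hasFDerivAt_avgGen (P := E) (G := E) (F := E →L[ℝ] ℝ) (h := fun a x => hom Ψ a x)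
    (D := homD Ψ) hφ hs (contDiff_hom hΨ) (fun a x => hasFDerivAt_hom hΨ a x) x

lemma avg_antisymm {μ : Measure E} [IsFiniteMeasureOnCompacts μ] {φ : E → ℝ}
    (hφ : ContDiff ℝ ∞ φ) (hs : HasCompactSupport φ) (hφ1 : ∫ a, φ a ∂μ = 1)
    {Ψ : E → E →L[ℝ] E →L[ℝ] ℝ} {U : Set E} (hU : IsOpen U)
    (hUc : Convex ℝ U) (hsU : tsupport φ ⊆ U)
    (hΨ : ContDiff ℝ ∞ Ψ) (halt : ∀ y ∈ U, ∀ u v, Ψ y u v = - Ψ y v u)
    (hcl : ∀ y ∈ U, ∀ u v w, fderiv ℝ Ψ y u v w + fderiv ℝ Ψ y v w u + fderiv ℝ Ψ y w u v = 0)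
    {x : E} (hx : x ∈ U) (u v : E) :
    fderiv ℝ (avg μ φ Ψ) x u v - fderiv ℝ (avg μ φ Ψ) x v u = Ψ x u v := by
  rw [(hasFDerivAt_avg hφ hs hΨ x).fderiv]
  have hc00 : Continuous (fun a : E => (x, a)) := by fun_prop
  have hc0 : Continuous (fun a : E => homD Ψ a x) :=
    Continuous.comp (g := fun q : E × E => homD Ψ q.2 q.1) (f := fun a : E => (x, a))
      (continuous_homD hΨ) hc00
  have hcu : ∀ u : E, Continuous (fun a : E => homD Ψ a x u) := fun u =>
    hc0.clm_apply continuous_const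
  have hcuv : ∀ u v : E, Continuous (fun a : E => φ a * homD Ψ a x u v) := fun u v =>
    hφ.continuous.mul ((hc0.clm_apply continuous_const).clm_apply continuous_const)
  have e : ∀ u v : E, (∫ a in tsupport φ, φ a • homD Ψ a x ∂μ) u v
      = ∫ a in tsupport φ, φ a * homD Ψ a x u v ∂μ := by
    intro u v
    have e1 : (∫ a in tsupport φ, φ a • homD Ψ a x ∂μ) u
        = ∫ a in tsupport φ, φ a • homD Ψ a x u ∂μ :=
      integral_applyGen (P := E) (G := E) (F := E →L[ℝ] ℝ) hs.isCompact hφ.continuous hc0 u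
    have e2 : (∫ a in tsupport φ, φ a • homD Ψ a x u ∂μ) v
        = ∫ a in tsupport φ, φ a * homD Ψ a x u v ∂μ :=
      integral_applyGen (P := E) (G := E) (F := ℝ) hs.isCompact hφ.continuous (hcu u) v
    rw [e1, e2]
  rw [e u v, e v u, ← integral_sub ((hcuv u v).continuousOn.integrableOn_compact hs.isCompact)
    ((hcuv v u).continuousOn.integrableOn_compact hs.isCompact)]
  have e2 : ∀ a ∈ tsupport φ, φ a * homD Ψ a x u v - φ a * homD Ψ a x v u = φ a * Ψ x u v := by
    intro a ha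
    rw [← mul_sub, homD_antisymm hU hUc hΨ halt hcl (hsU ha) hx u v]
  rw [setIntegral_congr_fun hs.isCompact.measurableSet e2, integral_mul_const]
  have e3 : ∫ a in tsupport φ, φ a ∂μ = 1 := by
    rw [← hφ1]
    exact setIntegral_eq_integral_of_forall_compl_eq_zero fun a ha =>
      image_eq_zero_of_notMem_tsupport ha
  rw [e3, one_mul]

end Avg

end

end Crest.Agent.R240.PotPoinc
end

-- ▼ part R240/PotPoinc2
section

/-!
Row 240 (S0371), helper838: averaged Poincaré homotopy, kernel bound in `ℝ⁴`.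
-/

set_option autoImplicit false
set_option maxSynthPendingDepth 3

open MeasureTheory Set Filter Topology Metric
open scoped ContDiff ENNReal

namespace Crest.Agent.R240.PotPoinc

noncomputable section

lemma enorm_hom_le {E : Type*} [NormedAddCommGroup E] [NormedSpace ℝ E]
    (Ψ : E → E →L[ℝ] E →L[ℝ] ℝ) (a x : E) :
    ‖hom Ψ a x‖ₑ ≤ ‖x - a‖ₑ * ∫⁻ t in Ioo (0:ℝ) 1, ‖Ψ (a + t • (x - a))‖ₑ := by
  rw [hom, intervalIntegral.integral_of_le zero_le_one, integral_Ioc_eq_integral_Ioo]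
  refine (enorm_integral_le_lintegral_enorm _).trans ?_
  rw [← lintegral_const_mul' _ _ enorm_ne_top]
  refine lintegral_mono_ae ?_
  filter_upwards [ae_restrict_mem measurableSet_Ioo] with t ht
  rw [hin, enorm_smul]
  have h1 : ‖t‖ₑ ≤ 1 := by
    rw [Real.enorm_eq_ofReal ht.1.le]
    exact ENNReal.ofReal_le_one.2 ht.2.le
  have h2 : ‖(Ψ (a + t • (x - a))) (x - a)‖ₑ ≤ ‖Ψ (a + t • (x - a))‖ₑ * ‖x - a‖ₑ :=
    ContinuousLinearMap.le_opENorm _ _
  calc ‖t‖ₑ * ‖(Ψ (a + t • (x - a))) (x - a)‖ₑ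
      ≤ 1 * (‖Ψ (a + t • (x - a))‖ₑ * ‖x - a‖ₑ) := mul_le_mul' h1 h2
    _ = ‖x - a‖ₑ * ‖Ψ (a + t • (x - a))‖ₑ := by rw [one_mul, mul_comm]

lemma lintegral_affine (g : E4 → ℝ≥0∞) (hg : Measurable g) (x : E4) {s : ℝ} (hs : 0 < s) :
    ∫⁻ a, g (s • a + (1 - s) • x) = ENNReal.ofReal (s⁻¹ ^ 4) * ∫⁻ z, g z := by
  have h1 : ∫⁻ a, g (s • a + (1 - s) • x)
      = ∫⁻ z, g (z + (1 - s) • x) ∂(Measure.map (s • ·) (volume : Measure E4)) := by
    rw [lintegral_map]
    · exact hg.comp (measurable_id.add_const _)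
    · exact measurable_const_smul s
  rw [h1, Measure.map_addHaar_smul volume hs.ne', lintegral_smul_measure,
    lintegral_add_right_eq_self (fun z => g z)]
  rw [abs_of_nonneg (by positivity), finrank_euclideanSpace_fin, inv_pow]
  rfl

lemma inner_time {ρ R : ℝ} (hρ : 0 < ρ) (hR : 0 < R) :
    ∫⁻ t in Ioo (0:ℝ) 1, ENNReal.ofReal ((1 - t)⁻¹ ^ 4) *
      (if ρ < R * (1 - t) then 1 else 0) ≤ ENNReal.ofReal (R ^ 3 / (3 * ρ ^ 3)) := by
  by_cases hT : 1 - ρ / R ≤ 0
  · refine le_trans (le_of_eq ?_) zero_le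
    rw [lintegral_eq_zero_iff']
    · filter_upwards [ae_restrict_mem measurableSet_Ioo] with t ht
      have : ¬ ρ < R * (1 - t) := by
        have h1 : R ≤ ρ := by
          have : 1 ≤ ρ / R := by linarith
          exact (one_le_div hR).1 this
        have h2 : R * (1 - t) ≤ R := by nlinarith [ht.1]
        linarith
      simp [this]
    · refine AEMeasurable.mul ?_ ?_
      · fun_prop
      · refine Measurable.aemeasurable (Measurable.ite ?_ measurable_const measurable_const)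
        exact measurableSet_lt measurable_const (by fun_prop)
  · push Not at hT
    set T := 1 - ρ / R with hTdef
    have hT1 : T < 1 := by
      have : 0 < ρ / R := div_pos hρ hR
      linarith
    have h1 : ∫⁻ t in Ioo (0:ℝ) 1, ENNReal.ofReal ((1 - t)⁻¹ ^ 4) *
        (if ρ < R * (1 - t) then 1 else 0) ≤ ∫⁻ t in Ioc (0:ℝ) T, ENNReal.ofReal ((1 - t)⁻¹ ^ 4) := by
      rw [← lintegral_indicator measurableSet_Ioo, ← lintegral_indicator measurableSet_Ioc]
      refine lintegral_mono fun t => ?_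
      by_cases ht : t ∈ Ioo (0:ℝ) 1
      · rw [indicator_of_mem ht]
        by_cases hl : ρ < R * (1 - t)
        · have : t ∈ Ioc 0 T := by
            refine ⟨ht.1, ?_⟩
            have : ρ / R < 1 - t := by rw [div_lt_iff₀ hR]; linarith
            linarith
          rw [indicator_of_mem this]
          simp [hl]
        · simp [hl]
      · rw [indicator_of_notMem ht]
        exact zero_le
    refine h1.trans ?_
    have hcont : ContinuousOn (fun t : ℝ => (1 - t)⁻¹ ^ 4) (Icc 0 T) := by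
      refine ContinuousOn.pow (ContinuousOn.inv₀ (by fun_prop) ?_) 4
      intro t ht
      have : t < 1 := lt_of_le_of_lt ht.2 hT1
      linarith
    have hint : IntegrableOn (fun t : ℝ => (1 - t)⁻¹ ^ 4) (Ioc 0 T) :=
      (hcont.integrableOn_Icc).mono_set Ioc_subset_Icc_self
    rw [← ofReal_integral_eq_lintegral_ofReal hint (Eventually.of_forall fun t => by positivity)]
    refine ENNReal.ofReal_le_ofReal ?_
    rw [← intervalIntegral.integral_of_le hT.le]
    have hder : ∀ t ∈ uIcc (0:ℝ) T, HasDerivAt (fun t : ℝ => (1 - t)⁻¹ ^ 3 / 3)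
        ((1 - t)⁻¹ ^ 4) t := by
      intro t ht
      rw [uIcc_of_le hT.le] at ht
      have hne : (1 - t) ≠ 0 := by
        have : t < 1 := lt_of_le_of_lt ht.2 hT1
        linarith
      have h2 : HasDerivAt (fun t : ℝ => 1 - t) (-1) t := by
        simpa using (hasDerivAt_id t).const_sub 1
      have h3 := ((h2.inv hne).pow 3).div_const 3
      refine h3.congr_deriv ?_
      have e5 : ((fun t : ℝ => 1 - t)⁻¹ t) = (1 - t)⁻¹ := rfl
      have e6 : ((1 - t) ^ 2) * ((1 - t) ^ 2)⁻¹ = 1 := mul_inv_cancel₀ (pow_ne_zero 2 hne)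
      rw [e5]
      norm_num
      field_simp
      try linear_combination 3 * e6
    rw [intervalIntegral.integral_eq_sub_of_hasDerivAt hder]
    · have h4 : (1 - T) = ρ / R := by rw [hTdef]; ring
      rw [h4]
      have h5 : (ρ / R)⁻¹ ^ 3 / 3 = R ^ 3 / (3 * ρ ^ 3) := by
        field_simp
      rw [h5]
      norm_num
    · rw [intervalIntegrable_iff_integrableOn_Ioc_of_le hT.le]
      exact hint

/-- auxiliary function for the change of variables. -/
def GG (g : E4 → ℝ≥0∞) (c : E4) (r : ℝ) (x : E4) (t : ℝ) (z : E4) : ℝ≥0∞ :=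
  (ball c r).indicator (fun z => (if ‖x - z‖ < (2 * r) * (1 - t) then 1 else 0) * g z) z

lemma GG_mem {g : E4 → ℝ≥0∞} {c : E4} {r : ℝ} {x : E4} {t : ℝ} {z : E4} (hz : z ∈ ball c r) :
    GG g c r x t z = (if ‖x - z‖ < (2 * r) * (1 - t) then 1 else 0) * g z := by
  rw [GG, indicator_of_mem hz]

lemma GG_not_mem {g : E4 → ℝ≥0∞} {c : E4} {r : ℝ} {x : E4} {t : ℝ} {z : E4}
    (hz : z ∉ ball c r) : GG g c r x t z = 0 := by
  rw [GG, indicator_of_notMem hz]

lemma GG_meas {g : E4 → ℝ≥0∞} (hg : Measurable g) (c : E4) (r : ℝ) (x : E4) :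
    Measurable (Function.uncurry (GG g c r x)) := by
  have e : Function.uncurry (GG g c r x) = (Prod.snd ⁻¹' ball c r).indicator
      (fun q : ℝ × E4 => (if ‖x - q.2‖ < (2 * r) * (1 - q.1) then 1 else 0) * g q.2) := by
    funext q
    by_cases hq : q.2 ∈ ball c r
    · rw [indicator_of_mem (show q ∈ Prod.snd ⁻¹' ball c r from hq)]
      exact GG_mem hq
    · rw [indicator_of_notMem (show q ∉ Prod.snd ⁻¹' ball c r from hq)]
      exact GG_not_mem hq
  rw [e]
  refine Measurable.indicator ?_ (measurable_snd measurableSet_ball)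
  refine Measurable.mul ?_ (hg.comp measurable_snd)
  refine Measurable.ite ?_ measurable_const measurable_const
  exact measurableSet_lt (by fun_prop) (by fun_prop)

lemma kernel_step {g : E4 → ℝ≥0∞} (hg : Measurable g) (c : E4) {r : ℝ}
    {x : E4} (hx : x ∈ ball c r) {t : ℝ} (ht : t ∈ Ioo (0:ℝ) 1) :
    ∫⁻ a in ball c r, g (a + t • (x - a))
      ≤ ∫⁻ z, ENNReal.ofReal ((1 - t)⁻¹ ^ 4) * GG g c r x t z := by
  have hGt : Measurable (GG g c r x t) := (GG_meas hg c r x).of_uncurry_left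
  rw [lintegral_const_mul _ hGt,
    ← lintegral_affine (GG g c r x t) hGt x (by linarith [ht.2] : 0 < 1 - t),
    ← lintegral_indicator measurableSet_ball]
  refine lintegral_mono fun a => ?_
  by_cases ha : a ∈ ball c r
  · rw [indicator_of_mem ha]
    have e1 : (1 - t) • a + (1 - (1 - t)) • x = a + t • (x - a) := by
      module
    have hy : a + t • (x - a) ∈ ball c r :=
      (convex_ball c r).add_smul_sub_mem ha hx ⟨ht.1.le, ht.2.le⟩
    have hn : ‖x - (a + t • (x - a))‖ < (2 * r) * (1 - t) := by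
      have e2 : x - (a + t • (x - a)) = (1 - t) • (x - a) := by module
      rw [e2, norm_smul, Real.norm_eq_abs, abs_of_pos (by linarith [ht.2]), mul_comm]
      refine mul_lt_mul_of_pos_right ?_ (by linarith [ht.2])
      rw [← dist_eq_norm]
      have h3 := dist_triangle_right x a c
      have h4 : dist x c < r := hx
      have h5 : dist a c < r := ha
      linarith
    rw [e1, GG_mem hy, if_pos hn, one_mul]
  · rw [indicator_of_notMem ha]
    exact zero_le

lemma kernel_inner {g : E4 → ℝ≥0∞} (c : E4) {r : ℝ} (hr : 0 < r)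
    (x z : E4) :
    ∫⁻ t in Ioo (0:ℝ) 1, ENNReal.ofReal ((1 - t)⁻¹ ^ 4) * GG g c r x t z
      ≤ (ball c r).indicator (fun z => ENNReal.ofReal (8 / 3 * r ^ 3) *
          ((‖x - z‖ₑ ^ 3)⁻¹ * g z)) z := by
  by_cases hz : z ∈ ball c r
  · rw [indicator_of_mem hz]
    have e1 : ∀ t : ℝ, ENNReal.ofReal ((1 - t)⁻¹ ^ 4) * GG g c r x t z
        = (ENNReal.ofReal ((1 - t)⁻¹ ^ 4) *
          (if ‖x - z‖ < (2 * r) * (1 - t) then 1 else 0)) * g z := by
      intro t
      rw [GG_mem hz]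
      exact (mul_assoc _ _ _).symm
    simp_rw [e1]
    rw [lintegral_mul_const'' _ ?_]
    · rw [← mul_assoc]
      refine mul_le_mul' ?_ le_rfl
      by_cases hxz : x = z
      · have : (‖x - z‖ₑ ^ 3)⁻¹ = ⊤ := by simp [hxz]
        rw [this, ENNReal.mul_top]
        · exact le_top
        · have : 0 < 8 / 3 * r ^ 3 := by positivity
          simpa using this
      · have hρ : 0 < ‖x - z‖ := norm_pos_iff.2 (sub_ne_zero.2 hxz)
        refine (inner_time hρ (by positivity : 0 < 2 * r)).trans (le_of_eq ?_)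
        have e2 : (‖x - z‖ₑ ^ 3)⁻¹ = ENNReal.ofReal ((‖x - z‖ ^ 3)⁻¹) := by
          rw [ENNReal.ofReal_inv_of_pos (by positivity), ENNReal.ofReal_pow (norm_nonneg _),
            ofReal_norm]
        rw [e2, ← ENNReal.ofReal_mul (by positivity)]
        congr 1
        field_simp
        norm_num
    · refine AEMeasurable.mul ?_ ?_
      · fun_prop
      · refine Measurable.aemeasurable (Measurable.ite ?_ measurable_const measurable_const)
        exact measurableSet_lt measurable_const (by fun_prop)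
  · rw [indicator_of_notMem hz]
    have : ∀ t, GG g c r x t z = 0 := fun t => GG_not_mem hz
    simp [this]

theorem kernel_bound {g : E4 → ℝ≥0∞} (hg : Measurable g) (c : E4) {r : ℝ} (hr : 0 < r)
    {x : E4} (hx : x ∈ ball c r) :
    ∫⁻ a in ball c r, ∫⁻ t in Ioo (0:ℝ) 1, g (a + t • (x - a))
      ≤ ENNReal.ofReal (8 / 3 * r ^ 3) * ∫⁻ z in ball c r, (‖x - z‖ₑ ^ 3)⁻¹ * g z := by
  have hmeas : Measurable (Function.uncurry fun (a : E4) (t : ℝ) => g (a + t • (x - a))) := by
    refine hg.comp ?_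
    fun_prop
  rw [lintegral_lintegral_swap hmeas.aemeasurable]
  calc ∫⁻ t in Ioo (0:ℝ) 1, ∫⁻ a in ball c r, g (a + t • (x - a))
      ≤ ∫⁻ t in Ioo (0:ℝ) 1, ∫⁻ z, ENNReal.ofReal ((1 - t)⁻¹ ^ 4) * GG g c r x t z :=
        setLIntegral_mono' measurableSet_Ioo fun t ht => kernel_step hg c hx ht
    _ = ∫⁻ z, ∫⁻ t in Ioo (0:ℝ) 1, ENNReal.ofReal ((1 - t)⁻¹ ^ 4) * GG g c r x t z := by
        rw [lintegral_lintegral_swap]
        refine Measurable.aemeasurable ?_
        refine Measurable.mul ?_ (GG_meas hg c r x)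
        fun_prop
    _ ≤ ∫⁻ z, (ball c r).indicator (fun z => ENNReal.ofReal (8 / 3 * r ^ 3) *
          ((‖x - z‖ₑ ^ 3)⁻¹ * g z)) z := lintegral_mono fun z => kernel_inner c hr x z
    _ = ENNReal.ofReal (8 / 3 * r ^ 3) * ∫⁻ z in ball c r, (‖x - z‖ₑ ^ 3)⁻¹ * g z := by
        rw [lintegral_indicator measurableSet_ball, lintegral_const_mul']
        exact ENNReal.ofReal_ne_top

end

end Crest.Agent.R240.PotPoinc
end

-- ▼ part R240/PotPoinc3
section

/-!
Row 240 (S0371), helper838: Poincaré lemma for closed two-forms on balls of `ℝ⁴` with kernel bound.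

* `poinc` : smooth closed `Ψ`, `d1 α = Ψ` on the ball, `|α(x)| ≤ C ∫ |x-z|⁻³ |Ψ(z)| dz`;
* `poinc_on` : the same for `Ψ` smooth on a larger ball;
* `poinc_we`, `poinc_we_on` : `|Ψ(z)| ≤ K (∫ (|z-y|+ε)⁻³ ds(y) + 1)` implies
  `|α(x)| ≤ C K (∫ (|x-y|+ε)⁻² ds(y) + 1)`.
-/

set_option autoImplicit false
set_option maxSynthPendingDepth 3

open MeasureTheory Set Filter Topology Metric
open scoped ContDiff ENNReal NNReal
open Crest.Agent.R240.En Crest.Agent.R240.Kern

namespace Crest.Agent.R240.PotPoinc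

noncomputable section

lemma enorm_avg_le {φ : E4 → ℝ} {Ψ : E4 → Bil} (hΨ : Continuous Ψ) {c : E4} {r : ℝ} (hr : 0 < r)
    (hsupp : ∀ a, a ∉ ball c r → φ a = 0) {B : ℝ≥0∞} (hB : B ≠ ⊤) (hφB : ∀ a, ‖φ a‖ₑ ≤ B)
    {x : E4} (hx : x ∈ ball c r) :
    ‖avg volume φ Ψ x‖ₑ ≤ B * ENNReal.ofReal (16 / 3 * r ^ 4) *
      ∫⁻ z in ball c r, ker 3 (dist x z) * ‖Ψ z‖ₑ := by
  have hg : Measurable (fun z => ‖Ψ z‖ₑ) := hΨ.enorm.measurable
  calc ‖avg volume φ Ψ x‖ₑ ≤ ∫⁻ a, ‖φ a • hom Ψ a x‖ₑ := enorm_integral_le_lintegral_enorm _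
    _ ≤ ∫⁻ a in ball c r, B * (ENNReal.ofReal (2 * r) *
          ∫⁻ t in Ioo (0:ℝ) 1, ‖Ψ (a + t • (x - a))‖ₑ) := by
        rw [← lintegral_indicator measurableSet_ball]
        refine lintegral_mono fun a => ?_
        by_cases ha : a ∈ ball c r
        · rw [indicator_of_mem ha, enorm_smul]
          refine mul_le_mul' (hφB a) ((enorm_hom_le Ψ a x).trans (mul_le_mul' ?_ le_rfl))
          rw [← ofReal_norm]
          refine ENNReal.ofReal_le_ofReal ?_
          rw [← dist_eq_norm]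
          have h3 := dist_triangle_right x a c
          have h4 : dist x c < r := hx
          have h5 : dist a c < r := ha
          linarith
        · rw [indicator_of_notMem ha, hsupp a ha]
          simp
    _ = B * (ENNReal.ofReal (2 * r) * ∫⁻ a in ball c r,
          ∫⁻ t in Ioo (0:ℝ) 1, ‖Ψ (a + t • (x - a))‖ₑ) := by
        rw [lintegral_const_mul' _ _ hB, lintegral_const_mul' _ _ ENNReal.ofReal_ne_top]
    _ ≤ B * (ENNReal.ofReal (2 * r) * (ENNReal.ofReal (8 / 3 * r ^ 3) *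
          ∫⁻ z in ball c r, (‖x - z‖ₑ ^ 3)⁻¹ * ‖Ψ z‖ₑ)) := by
        gcongr
        exact kernel_bound hg c hr hx
    _ = B * ENNReal.ofReal (16 / 3 * r ^ 4) *
      ∫⁻ z in ball c r, ker 3 (dist x z) * ‖Ψ z‖ₑ := by
        have e1 : ENNReal.ofReal (16 / 3 * r ^ 4)
            = ENNReal.ofReal (2 * r) * ENNReal.ofReal (8 / 3 * r ^ 3) := by
          rw [← ENNReal.ofReal_mul (by positivity)]
          congr 1
          ring
        have e2 : ∀ z, ker 3 (dist x z) = (‖x - z‖ₑ ^ 3)⁻¹ := by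
          intro z
          rw [Kern.ker, dist_eq_norm, ofReal_norm]
        simp_rw [e2]
        rw [e1]
        ring

/-- universal constant. -/
def CP : ℝ≥0 := (4096 / 3 / (volume : Measure E4).real (closedBall 0 1)).toNNReal

theorem poinc (c : E4) {r : ℝ} (hr : 0 < r) {Ψ : E4 → Bil} (hΨ : ContDiff ℝ ∞ Ψ)
    (halt : ∀ y ∈ ball c r, Alt (Ψ y)) (hcl : ∀ y ∈ ball c r, Cl Ψ y) :
    ∃ α : E4 → Cov, ContDiff ℝ ∞ α ∧ (∀ x ∈ ball c r, d1 α x = Ψ x) ∧
      ∀ x ∈ ball c r, ‖α x‖ₑ ≤ (CP : ℝ≥0∞) * ∫⁻ z in ball c r, ker 3 (dist x z) * ‖Ψ z‖ₑ := by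
  let f : ContDiffBump c := ⟨r / 4, r / 2, by positivity, by linarith⟩
  have hsupp : tsupport (f.normed volume) = closedBall c (r / 2) := f.tsupport_normed_eq
  have halt' : ∀ y ∈ ball c r, ∀ u v, Ψ y u v = - Ψ y v u := by
    intro y hy u v
    have h1 := halt y hy (u + v)
    have h2 := halt y hy u
    have h3 := halt y hy v
    simp only [map_add, add_apply, h2, h3] at h1
    linarith
  refine ⟨avg volume (f.normed volume) Ψ, ?_, ?_, ?_⟩
  · exact contDiff_avg f.contDiff_normed f.hasCompactSupport_normed hΨ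
  · intro x hx
    ext u v
    rw [d1_apply]
    refine avg_antisymm f.contDiff_normed f.hasCompactSupport_normed f.integral_normed
      isOpen_ball (convex_ball c r) ?_ hΨ halt' hcl hx u v
    rw [hsupp]
    exact closedBall_subset_ball (by linarith)
  · intro x hx
    have hV : 0 < (volume : Measure E4).real (closedBall 0 1) :=
      ENNReal.toReal_pos (measure_closedBall_pos _ _ one_pos).ne' measure_closedBall_lt_top.ne
    have hB : ∀ a, ‖f.normed volume a‖ₑ
        ≤ ENNReal.ofReal (256 / (r ^ 4 * (volume : Measure E4).real (closedBall 0 1))) := by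
      intro a
      rw [Real.enorm_eq_ofReal (f.nonneg_normed a)]
      refine ENNReal.ofReal_le_ofReal ((f.normed_le_div_measure_closedBall_rIn volume a).trans ?_)
      have e1 : (volume : Measure E4).real (closedBall c (r / 4))
          = (r / 4) ^ 4 * (volume : Measure E4).real (closedBall 0 1) := by
        rw [Measure.addHaar_real_closedBall' volume c (by positivity : 0 ≤ r / 4),
          finrank_euclideanSpace_fin]
      change 1 / (volume : Measure E4).real (closedBall c (r / 4)) ≤ _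
      rw [e1]
      apply le_of_eq
      field_simp
      norm_num
    have h1 := enorm_avg_le hΨ.continuous hr (φ := f.normed volume) (c := c) (fun a ha => by
      have : a ∉ tsupport (f.normed volume) := by
        rw [hsupp]
        intro h
        exact ha (closedBall_subset_ball (by linarith) h)
      exact image_eq_zero_of_notMem_tsupport this) ENNReal.ofReal_ne_top hB hx
    refine h1.trans (le_of_eq ?_)
    congr 1
    rw [← ENNReal.ofReal_mul (by positivity), CP, ENNReal.ofNNReal_toNNReal]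
    congr 1
    field_simp
    norm_num

lemma Cl_congr {Ψ Ψ' : E4 → Bil} {x : E4} (h : Ψ =ᶠ[𝓝 x] Ψ') (hcl : Cl Ψ x) : Cl Ψ' x := by
  intro u v w
  have := hcl u v w
  rw [h.fderiv_eq] at this
  exact this

/-- smooth extension of a form by a cut-off. -/
lemma exists_smooth_ext (c : E4) {r R : ℝ} (hr : 0 < r) (hR : r < R) {V : Type*}
    [NormedAddCommGroup V] [NormedSpace ℝ V] {Ψ : E4 → V}
    (hΨ : ContDiffOn ℝ ∞ Ψ (ball c R)) :
    ∃ Ψ' : E4 → V, ContDiff ℝ ∞ Ψ' ∧ ∀ x ∈ ball c r, Ψ' x = Ψ x := by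
  let f : ContDiffBump c := ⟨r, (r + R) / 2, hr, by linarith⟩
  refine ⟨fun x => f x • Ψ x, ?_, ?_⟩
  · rw [contDiff_iff_contDiffAt]
    intro x
    by_cases hx : x ∈ ball c R
    · exact (f.contDiff.contDiffAt).smul (hΨ.contDiffAt (isOpen_ball.mem_nhds hx))
    · have h1 : x ∉ tsupport f := by
        rw [f.tsupport_eq]
        intro h
        apply hx
        have h2 : dist x c ≤ (r + R) / 2 := h
        have : dist x c < R := by linarith
        exact this
      have h2 : (fun x => f x • Ψ x) =ᶠ[𝓝 x] fun _ => (0 : V) := by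
        have := (isClosed_tsupport f).isOpen_compl.mem_nhds h1
        filter_upwards [this] with y hy
        rw [image_eq_zero_of_notMem_tsupport hy, zero_smul]
      exact contDiffAt_const.congr_of_eventuallyEq h2
  · intro x hx
    have : f x = 1 := f.one_of_mem_closedBall (ball_subset_closedBall hx)
    simp [this]

theorem poinc_on (c : E4) {r R : ℝ} (hr : 0 < r) (hR : r < R) {Ψ : E4 → Bil}
    (hΨ : ContDiffOn ℝ ∞ Ψ (ball c R))
    (halt : ∀ y ∈ ball c r, Alt (Ψ y)) (hcl : ∀ y ∈ ball c r, Cl Ψ y) :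
    ∃ α : E4 → Cov, ContDiff ℝ ∞ α ∧ (∀ x ∈ ball c r, d1 α x = Ψ x) ∧
      ∀ x ∈ ball c r, ‖α x‖ₑ ≤ (CP : ℝ≥0∞) * ∫⁻ z in ball c r, ker 3 (dist x z) * ‖Ψ z‖ₑ := by
  obtain ⟨Ψ', h1, h2⟩ := exists_smooth_ext c hr hR hΨ
  have h3 : ∀ x ∈ ball c r, Ψ =ᶠ[𝓝 x] Ψ' := by
    intro x hx
    filter_upwards [isOpen_ball.mem_nhds hx] with y hy
    exact (h2 y hy).symm
  obtain ⟨α, ha, hb, hc⟩ := poinc c hr h1 (fun y hy => by rw [h2 y hy]; exact halt y hy)
    (fun y hy => Cl_congr (h3 y hy) (hcl y hy))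
  refine ⟨α, ha, fun x hx => (hb x hx).trans (h2 x hx), fun x hx => (hc x hx).trans (le_of_eq ?_)⟩
  congr 1
  refine setLIntegral_congr_fun measurableSet_ball fun z hz => ?_
  simp only [h2 z hz]

/-- volume growth constant. -/
def AV : ℝ := (volume : Measure E4).real (ball 0 1)

lemma AV_pos : 0 < AV :=
  ENNReal.toReal_pos (measure_ball_pos _ _ one_pos).ne' measure_ball_lt_top.ne

lemma volume_ball_le (x : E4) (r : ℝ) (hr : 0 < r) :
    (volume : Measure E4) (ball x r) ≤ ENNReal.ofReal (AV * r ^ 4) := by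
  rw [Measure.addHaar_ball volume x hr.le, finrank_euclideanSpace_fin, mul_comm AV,
    ENNReal.ofReal_mul (by positivity), AV, measureReal_def,
    ENNReal.ofReal_toReal measure_ball_lt_top.ne]





end

end Crest.Agent.R240.PotPoinc
end

-- ▼ part R240/PotPoinc4
section

/-!
Row 240 (S0371), helper838: Poincaré lemma with the bounds of `P4` (real-valued version with `wE`).
-/

set_option autoImplicit false
set_option maxSynthPendingDepth 3

open MeasureTheory Set Filter Topology Metric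
open scoped ContDiff ENNReal NNReal
open Crest.Agent.R240.En Crest.Agent.R240.Kern Crest.Agent.R240.Pot

namespace Crest.Agent.R240.PotPoinc

noncomputable section

/-- real and extended forms of the truncated potentials. -/
lemma wE_ofReal (s : Measure E4) [IsFiniteMeasure s] (c : E4) (R : ℝ) {e : ℝ} (he : 0 < e) (k : ℕ)
    (x : E4) :
    ∫⁻ y, ker k (dist x y + e) ∂(s.restrict (closedBall c R))
      = ENNReal.ofReal (wE s c R e k x) := by
  have h0 : ∀ y, 0 < ‖x - y‖ + e := fun y => by positivity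
  have hm : Measurable fun y => 1 / (‖x - y‖ + e) ^ k := by fun_prop
  rw [wE, ofReal_integral_eq_lintegral_ofReal]
  · refine lintegral_congr fun y => ?_
    rw [dist_eq_norm, ker_of_pos k (h0 y), one_div]
  · refine Integrable.of_bound hm.aestronglyMeasurable ((e ^ k)⁻¹) ?_
    refine ae_of_all _ fun y => ?_
    rw [Real.norm_of_nonneg (by positivity), one_div]
    apply inv_anti₀ (by positivity)
    exact pow_le_pow_left₀ he.le (by linarith [norm_nonneg (x - y)]) k
  · exact ae_of_all _ fun y => by positivity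

lemma wE_nonneg (s : Measure E4) (c : E4) (R : ℝ) {e : ℝ} (he : 0 < e) (k : ℕ) (x : E4) :
    0 ≤ wE s c R e k x := by
  refine integral_nonneg fun y => ?_
  positivity

/-- constant of the Poincaré lemma on a ball of radius `r`. -/
def CR (r : ℝ) : ℝ := CP * (2 ^ 22 * AV) + CP * (32 * AV * r)

lemma CR_nonneg {r : ℝ} (hr : 0 ≤ r) : 0 ≤ CR r := by
  have := AV_pos
  unfold CR
  positivity

lemma kernel_we' (c : E4) {r : ℝ} (hr : 0 < r) (s : Measure E4) [SFinite s]
    {ε : ℝ} (hε : 0 ≤ ε) (K : ℝ≥0∞) {g : E4 → ℝ≥0∞}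
    (hg : ∀ z ∈ ball c r, g z ≤ K * (∫⁻ y, ker 3 (dist z y + ε) ∂s + 1))
    {x : E4} (hx : x ∈ ball c r) :
    (CP : ℝ≥0∞) * ∫⁻ z in ball c r, ker 3 (dist x z) * g z
      ≤ ENNReal.ofReal (CR r) * K * (we s ε x + 1) := by
  have hm1 : Measurable (fun z => ker 3 (dist x z)) := (measurable_ker 3).comp (by fun_prop)
  have hm2 : Measurable (Function.uncurry fun z y : E4 => ker 3 (dist z y + ε)) :=
    (measurable_ker 3).comp (by fun_prop)
  have hm3 : Measurable (Function.uncurry fun z y : E4 => ker 3 (dist x z) *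
      ker 3 (dist z y + ε)) := (hm1.comp measurable_fst).mul hm2
  have e1 : ∫⁻ z in ball c r, ker 3 (dist x z) * g z
      ≤ K * ((∫⁻ z, ∫⁻ y, ker 3 (dist x z) * ker 3 (dist z y + ε) ∂s)
        + ∫⁻ z in ball x (2 * r), ker 3 (dist x z)) := by
    calc ∫⁻ z in ball c r, ker 3 (dist x z) * g z
        ≤ ∫⁻ z in ball c r, K * ((∫⁻ y, ker 3 (dist x z) * ker 3 (dist z y + ε) ∂s)
            + ker 3 (dist x z)) := by
          refine setLIntegral_mono' measurableSet_ball fun z hz => ?_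
          refine (mul_le_mul' le_rfl (hg z hz)).trans (le_of_eq ?_)
          rw [lintegral_const_mul _ hm2.of_uncurry_left]
          ring
      _ ≤ ∫⁻ z in ball x (2 * r), K * ((∫⁻ y, ker 3 (dist x z) * ker 3 (dist z y + ε) ∂s)
            + ker 3 (dist x z)) := by
          refine lintegral_mono_set ?_
          intro z hz
          have h3 := dist_triangle_right z x c
          have h4 : dist x c < r := hx
          have h5 : dist z c < r := hz
          have : dist z x < 2 * r := by linarith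
          exact this
      _ = K * ((∫⁻ z in ball x (2 * r), ∫⁻ y, ker 3 (dist x z) * ker 3 (dist z y + ε) ∂s)
            + ∫⁻ z in ball x (2 * r), ker 3 (dist x z)) := by
          rw [← lintegral_add_right _ hm1, ← lintegral_const_mul]
          exact (hm3.lintegral_prod_right').add hm1
      _ ≤ _ := by
          gcongr
          exact Measure.restrict_le_self
  have e2 : ∫⁻ z, ∫⁻ y, ker 3 (dist x z) * ker 3 (dist z y + ε) ∂s
      ≤ ENNReal.ofReal (2 ^ 22 * AV) * we s ε x := by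
    rw [lintegral_lintegral_swap hm3.aemeasurable, we, ← lintegral_const_mul]
    · exact lintegral_mono fun y => comp_ker_three volume AV_pos volume_ball_le x y hε
    · exact (measurable_ker 2).comp (by fun_prop)
  have e3 : ∫⁻ z in ball x (2 * r), ker 3 (dist x z) ≤ ENNReal.ofReal (32 * AV * r) := by
    refine (setLIntegral_ker volume x (b := 3) (c := 1) le_rfl
      (fun ρ hρ => volume_ball_le x ρ hρ) AV_pos.le (by positivity : 0 < 2 * r)).trans ?_
    refine ENNReal.ofReal_le_ofReal (le_of_eq ?_)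
    ring
  have hA := AV_pos
  have hC : ENNReal.ofReal (CR r) = CP * ENNReal.ofReal (2 ^ 22 * AV)
      + CP * ENNReal.ofReal (32 * AV * r) := by
    rw [CR, ENNReal.ofReal_add (by positivity) (by positivity),
      ENNReal.ofReal_mul (p := (CP : ℝ)) (by positivity),
      ENNReal.ofReal_mul (p := (CP : ℝ)) (by positivity), ENNReal.ofReal_coe_nnreal]
  calc (CP : ℝ≥0∞) * ∫⁻ z in ball c r, ker 3 (dist x z) * g z
      ≤ CP * (K * (ENNReal.ofReal (2 ^ 22 * AV) * we s ε x + ENNReal.ofReal (32 * AV * r))) := by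
        refine mul_le_mul' le_rfl (e1.trans ?_)
        gcongr
    _ = K * ((CP * ENNReal.ofReal (2 ^ 22 * AV)) * we s ε x
          + CP * ENNReal.ofReal (32 * AV * r)) := by
        ring
    _ ≤ K * (ENNReal.ofReal (CR r) * we s ε x + ENNReal.ofReal (CR r)) := by
        have h1 : (CP : ℝ≥0∞) * ENNReal.ofReal (2 ^ 22 * AV) ≤ ENNReal.ofReal (CR r) := by
          rw [hC]
          exact le_self_add
        have h2 : (CP : ℝ≥0∞) * ENNReal.ofReal (32 * AV * r) ≤ ENNReal.ofReal (CR r) := by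
          rw [hC]
          exact le_add_self
        gcongr
    _ = ENNReal.ofReal (CR r) * K * (we s ε x + 1) := by ring

/-- Poincaré lemma with the bounds of `P4`. -/
theorem poinc_wE (c : E4) {r R' : ℝ} (hr : 0 < r) (hR : r < R') {Ψ : E4 → Bil}
    (hΨ : ContDiffOn ℝ ∞ Ψ (ball c R'))
    (halt : ∀ y ∈ ball c r, Alt (Ψ y)) (hcl : ∀ y ∈ ball c r, Cl Ψ y)
    (s : Measure E4) [IsFiniteMeasure s] (c0 : E4) (R : ℝ) {e : ℝ} (he : 0 < e) {K : ℝ}
    (hK0 : 0 ≤ K) (hK : ∀ z ∈ ball c r, ‖Ψ z‖ ≤ K * (wE s c0 R e 3 z + 1)) :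
    ∃ α : E4 → Cov, ContDiff ℝ ∞ α ∧ (∀ x ∈ ball c r, d1 α x = Ψ x) ∧
      ∀ x ∈ ball c r, ‖α x‖ ≤ CR r * K * (wE s c0 R e 2 x + 1) := by
  obtain ⟨α, ha, hb, hc⟩ := poinc_on c hr hR hΨ halt hcl
  refine ⟨α, ha, hb, fun x hx => ?_⟩
  have h1 := (hc x hx).trans (kernel_we' c hr (s.restrict (closedBall c0 R)) he.le
    (ENNReal.ofReal K) (fun z hz => by
      rw [wE_ofReal s c0 R he 3 z, ← ENNReal.ofReal_one, ← ENNReal.ofReal_add (wE_nonneg s c0 R he 3 z)
        zero_le_one, ← ENNReal.ofReal_mul hK0, ← ofReal_norm]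
      exact ENNReal.ofReal_le_ofReal (hK z hz)) hx)
  rw [we, wE_ofReal s c0 R he 2 x, ← ENNReal.ofReal_one,
    ← ENNReal.ofReal_add (wE_nonneg s c0 R he 2 x) zero_le_one,
    ← ENNReal.ofReal_mul (CR_nonneg hr.le),
    ← ENNReal.ofReal_mul (mul_nonneg (CR_nonneg hr.le) hK0), ← ofReal_norm] at h1
  refine (ENNReal.ofReal_le_ofReal_iff ?_).1 h1
  exact mul_nonneg (mul_nonneg (CR_nonneg hr.le) hK0)
    (by have := wE_nonneg s c0 R he 2 x; linarith)

end

end Crest.Agent.R240.PotPoinc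
end

-- ▼ part R240/PotMain

/-!
Row 240 (S0371), Part P: assembly of Lemma P (`P4`) from the estimates.
-/

set_option autoImplicit false
set_option maxSynthPendingDepth 3
open scoped ContDiff
open MeasureTheory Metric Crest.Agent.R240.En Crest.Agent.R240.PotPoinc

namespace Crest.Agent.R240.Pot

lemma bil_norm_le (B : Bil) : ‖B‖ ≤ ∑ i, ∑ j, |B (ee i) (ee j)| := by
  have h0 : 0 ≤ ∑ i, ∑ j, |B (ee i) (ee j)| :=
    Finset.sum_nonneg fun i _ => Finset.sum_nonneg fun j _ => abs_nonneg _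
  refine B.opNorm_le_bound₂ h0 fun u v => ?_
  rw [bil_expand B u v, Real.norm_eq_abs]
  have hc : ∀ (w : E4) (i : Fin 4), |w i| ≤ ‖w‖ := fun w i => by
    have := EuclideanSpace.norm_eq w
    have h2 := PiLp.norm_apply_le w i
    simpa using h2
  calc |∑ i, ∑ j, u i * v j * ent B i j| ≤ ∑ i, |∑ j, u i * v j * ent B i j| :=
        Finset.abs_sum_le_sum_abs _ _
    _ ≤ ∑ i, ∑ j, |u i * v j * ent B i j| :=
        Finset.sum_le_sum fun i _ => Finset.abs_sum_le_sum_abs _ _
    _ ≤ ∑ i, ∑ j, ‖u‖ * ‖v‖ * |B (ee i) (ee j)| := by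
        refine Finset.sum_le_sum fun i _ => Finset.sum_le_sum fun j _ => ?_
        rw [abs_mul, abs_mul]
        have h1 := hc u i
        have h2 := hc v j
        unfold ent
        gcongr
    _ = (∑ i, ∑ j, |B (ee i) (ee j)|) * ‖u‖ * ‖v‖ := by
        rw [Finset.sum_mul, Finset.sum_mul]
        refine Finset.sum_congr rfl fun i _ => ?_
        rw [Finset.sum_mul, Finset.sum_mul]
        refine Finset.sum_congr rfl fun j _ => ?_
        ring

/-- facts about the mollified current, to be supplied by `PotIBP` -/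
def MolFacts : Prop :=
  ∀ (s : Measure E4), IsFiniteMeasure s → ∀ (φ : E4 → Bil), Measurable φ → ∀ A : ℝ,
    (∀ y, ‖φ y‖ ≤ A) → (∀ y, Alt (φ y)) → ∀ U : Set E4,
    (∀ S : E4 → Cov, ContDiff ℝ ∞ S → HasCompactSupport S → tsupport S ⊆ U →
      ∫ y, W (φ y) (d1 S y) ∂s = 0) →
    ∀ ρ : E4 → ℝ, Moll ρ → ∀ e : ℝ, 0 < e →
      ContDiff ℝ ∞ (mol ρ e s φ) ∧ (∀ x, Alt (mol ρ e s φ x)) ∧
        ∀ x, closedBall x e ⊆ U → Cl (mol ρ e s φ) x

theorem p4_of (hU : ∀ (D : PD) (c0 : ℝ) (χ ρ : E4 → ℝ), D.UBd c0 χ ρ)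
    (hA1 : ∀ (D : PD) (ρ : E4 → ℝ), D.A1Bd ρ) (hB2 : ∀ (D : PD) (ρ : E4 → ℝ), D.B2Bd ρ)
    (hPs : ∀ (D : PD) (ρ : E4 → ℝ), D.PsiBd ρ) (hM : MolFacts) : P4 := by
  intro J F smJ smF sq sp c R hR s fin φ mφ A τ0 bA hτ0 pos hτ hcl ρ smρ nnρ supρ oneρ
  obtain ⟨c0, hc0, hF⟩ := PD.exists_FSc
  -- cut-off
  let χb : ContDiffBump c := ⟨3 / 4 * R, 7 / 8 * R, by positivity, by linarith⟩
  have hχsm : ContDiff ℝ ∞ (χb : E4 → ℝ) := χb.contDiff
  have hgsm : ContDiff ℝ ∞ fun y => gm (J y) (F y) := gm_contDiff smJ smF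
  have hgs : ∀ y v w, gm (J y) (F y) v w = gm (J y) (F y) w v := fun y v w => gm_symm (sq y) (sp y) v w
  have hgp : ∀ y v, v ≠ 0 → 0 < gm (J y) (F y) v v := fun y v hv => gm_pos (sp y) hv
  have hksm : ContDiff ℝ ∞ fun y => kap c0 (gm (J y) (F y)) := kap_contDiff c0 hgsm hgs hgp
  have hts : tsupport (fun y => -((χb y) * kap c0 (gm (J y) (F y)))) ⊆ ball c R := by
    have h1 : tsupport (fun y => -((χb y) * kap c0 (gm (J y) (F y)))) ⊆ tsupport (χb : E4 → ℝ) := by
      refine closure_mono fun y hy => ?_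
      simp only [Function.mem_support, ne_eq, neg_eq_zero, mul_eq_zero, not_or] at hy ⊢
      exact hy.1
    refine h1.trans ?_
    rw [χb.tsupport_eq]
    exact closedBall_subset_ball (by show 7 / 8 * R < R; linarith)
  let D : PD :=
    { J := J, F := F, smJ := smJ, smF := smF, sq := sq, sp := sp, c := c, R := R, hR := hR, s := s,
      fin := fin, φ := φ, mφ := mφ, A := A, bA := bA, pos := pos,
      k := fun y => -((χb y) * kap c0 (gm (J y) (F y))),
      smk := (hχsm.mul hksm).neg, hk := hts }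
  have hCut : D.Cut c0 (χb : E4 → ℝ) :=
    { sm := hχsm
      nn := fun y => χb.nonneg
      le := fun y => χb.le_one
      one := fun y hy => χb.one_of_mem_closedBall hy
      kk := fun y => rfl }
  have hMoll : Moll ρ := ⟨smρ, nnρ, supρ, oneρ⟩
  have halt : ∀ y, Alt (φ y) := fun y => (pos y).alt
  -- trace lower bound
  have hWc : Continuous fun y => W (F y) (F y) := by
    have he : ∀ i j, Continuous fun y => ent (F y) i j := fun i j =>
      (entry_contDiff smF _ _).continuous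
    unfold W
    exact ((((((he 0 1).mul (he 2 3)).sub ((he 0 2).mul (he 1 3))).add
      ((he 0 3).mul (he 1 2))).add ((he 1 2).mul (he 0 3))).sub ((he 1 3).mul (he 0 2))).add
      ((he 2 3).mul (he 0 1))
  obtain ⟨M, hM0, hMb⟩ := exists_upper hWc c R
  have htr : ∀ y ∈ closedBall D.c D.R, 2 * τ0 / M ≤ D.tr y := by
    intro y hy
    have h1 := tr_lower (sq y) (sp y) (pos y) (hτ y)
    have h2 := hMb y hy
    rw [Real.norm_eq_abs] at h2
    have h3 : 0 < |W (F y) (F y)| := abs_pos.2 (W_ne_zero (sq y) (sp y))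
    refine le_trans ?_ h1
    gcongr
  obtain ⟨CU, hCU, hUb⟩ := hU D c0 χb ρ hc0 hCut hMoll (2 * τ0 / M) (by positivity) htr
  obtain ⟨CA, hCA, hAb⟩ := hA1 D ρ hMoll
  have hcur : D.ClosedCur := hcl
  obtain ⟨CB, hCB, hBb⟩ := hB2 D ρ hMoll hcur
  obtain ⟨CP, hCP, hPb⟩ := hPs D ρ hMoll hcur
  set K : ℝ := 16 * CP with hK
  refine ⟨CU + CA + CB + CR (R / 2) * K + 1, R / 8, ?_, by positivity, ?_⟩
  · have := CR_nonneg (r := R / 2) (by positivity)
    positivity
  intro e he heR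
  set σ := rhoE ρ e with hσdef
  have hσsm : ContDiff ℝ ∞ σ := rhoE_contDiff smρ e
  have hσ0 : ∀ z, e < ‖z‖ → σ z = 0 := fun z hz => rhoE_zero supρ he hz.le
  have hσc : HasCompactSupport σ := compact_of_zero hσ0
  have hb1 : ContDiff ℝ ∞ (D.b1 (3 * R) σ) := D.CV_contDiff D.MB1 hσsm hσc
  have hb2 : ContDiff ℝ ∞ (D.b2 (3 * R) σ) := D.CV_contDiff D.MB2 hσsm hσc
  have hu : ContDiff ℝ ∞ (D.uu σ) := by
    refine D.GF_contDiff (fun v => ?_) hσsm hσc
    simp only [LinearMap.smul_apply, LinearMap.id_apply, smul_eq_mul]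
    exact D.MBtr.mul (MB.const v)
  have hJu : ContDiff ℝ ∞ fun z => Jc (D.J z) (fderiv ℝ (D.uu σ) z) := contDiff_Jc smJ hu
  obtain ⟨hmsm, hmalt, hmcl⟩ := hM s fin φ mφ A bA halt (ball c R) hcl ρ hMoll e he
  -- the closed remainder
  set Ψ : E4 → Bil := fun x => mol ρ e s φ x - d1 (D.b1 (3 * R) σ) x - d1 (D.b2 (3 * R) σ) x with hΨ
  have hΨsm : ContDiff ℝ ∞ Ψ := (hmsm.sub (contDiff_d1 hb1)).sub (contDiff_d1 hb2)
  have hadm : ∀ x ∈ ball c R, D.Adm (3 * R) e x := by
    intro x hx y hy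
    have h1 : ‖x - y‖ ≤ 2 * R := by
      rw [← dist_eq_norm]
      have h2 : dist x c < R := hx
      have h3 : dist y c ≤ R := hy
      calc dist x y ≤ dist x c + dist c y := dist_triangle _ _ _
        _ ≤ R + R := by rw [dist_comm c y]; linarith
        _ = 2 * R := by ring
    linarith
  have hmolTh : ∀ x ∈ ball c (5 / 8 * R), ∀ v w, mol ρ e s φ x v w =
      ∫ y, χb y * (φ y v w * σ (x - y)) ∂s := by
    intro x hx v w
    have h1 : mol ρ e s φ x = D.Th χb σ x := by
      unfold mol PD.Th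
      refine integral_congr_ae (Filter.Eventually.of_forall fun y => ?_)
      simp only
      by_cases hy : e < ‖x - y‖
      · rw [hσ0 _ hy]
        have : rhoE ρ e (x - y) = 0 := hσ0 _ hy
        rw [this]; simp
      · have h2 : y ∈ closedBall c (3 / 4 * R) := by
          have h3 : dist x c < 5 / 8 * R := hx
          have h4 : dist y x ≤ e := by
            rw [dist_comm, dist_eq_norm]; exact not_lt.1 hy
          show dist y c ≤ 3 / 4 * R
          calc dist y c ≤ dist y x + dist x c := dist_triangle _ _ _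
            _ ≤ 3 / 4 * R := by linarith
        have h5 : χb y = 1 := hCut.one y h2
        rw [h5, one_mul]
    rw [h1]
    exact D.Th_apply hχsm.continuous (fun y => by
      rw [abs_of_nonneg χb.nonneg]; exact χb.le_one) hσsm.continuous hσc x v w
  have hΨeq : ∀ x ∈ ball c (5 / 8 * R), ∀ v w, Ψ x v w =
      D.GF (3 * R) (D.t3 v w) (fderiv ℝ (fderiv ℝ σ)) x := by
    intro x hx v w
    have hx' : x ∈ ball c R := ball_subset_ball (by linarith) hx
    have h1 := D.ident (r := 3 * R) hσsm hσc x v w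
    have h2 := D.fsI hF (χ := χb) (fun y => rfl) hσsm hσ0 (hadm x hx') v w
    have h3 := hmolTh x hx v w
    simp only [hΨ, sub_apply]
    rw [h3]
    linarith [h1, h2]
  obtain ⟨a3, ha3sm, ha3, ha3b⟩ := poinc_wE c (r := R / 2) (R' := 5 / 8 * R) (by positivity)
    (by linarith) (Ψ := Ψ) hΨsm.contDiffOn
    (fun y _ => by
      intro v
      simp only [hΨ, sub_apply]
      rw [hmalt y v, alt_d1 _ y v, alt_d1 _ y v]; ring)
    (fun y hy => by
      have hy' : closedBall y e ⊆ ball c R := by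
        intro z hz
        have h1 : dist y c < R / 2 := hy
        have h2 : dist z y ≤ e := hz
        show dist z c < R
        calc dist z c ≤ dist z y + dist y c := dist_triangle _ _ _
          _ < R := by linarith
      have d1' : DifferentiableAt ℝ (mol ρ e s φ) y := (hmsm.differentiable (by simp)) y
      have d2' : DifferentiableAt ℝ (d1 (D.b1 (3 * R) σ)) y :=
        ((contDiff_d1 hb1).differentiable (by simp)) y
      have d3' : DifferentiableAt ℝ (d1 (D.b2 (3 * R) σ)) y :=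
        ((contDiff_d1 hb2).differentiable (by simp)) y
      exact Cl_sub (d1'.sub d2') d3' (Cl_sub d1' d2' (hmcl y hy') (Cl_d1 hb1 y)) (Cl_d1 hb2 y))
    s c R he (K := K) (by positivity)
    (fun z hz => by
      have hz' : z ∈ ball c (5 / 8 * R) := ball_subset_ball (by linarith) hz
      refine (bil_norm_le _).trans ?_
      have h1 : ∀ i j, |Ψ z (ee i) (ee j)| ≤ CP * wE s c R e 3 z := by
        intro i j
        rw [hΨeq z hz']
        exact hPb e he heR z hz' i j
      have h2 : ∑ i : Fin 4, ∑ j : Fin 4, |Ψ z (ee i) (ee j)| ≤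
          ∑ i : Fin 4, ∑ j : Fin 4, CP * wE s c R e 3 z :=
        Finset.sum_le_sum fun i _ => Finset.sum_le_sum fun j _ => h1 i j
      refine h2.trans ?_
      simp only [Finset.sum_const, Finset.card_univ, Fintype.card_fin, nsmul_eq_mul]
      push_cast
      rw [hK]
      nlinarith [hCP.le])
  refine ⟨D.uu σ, fun x => (D.b1 (3 * R) σ x - Jc (D.J x) (fderiv ℝ (D.uu σ) x))
    + D.b2 (3 * R) σ x + a3 x, hu, ((hb1.sub hJu).add hb2).add ha3sm, ?_⟩
  intro x hx
  have hx5 : x ∈ ball c (5 / 8 * R) := ball_subset_ball (by linarith) hx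
  obtain ⟨u1, u2, u3⟩ := hUb e he heR x hx5
  have a1b := hAb e he heR x hx5
  have b2b := hBb e he heR x hx5
  have a3b := ha3b x hx
  have w2 : 0 ≤ wE s c R e 2 x := wE_nonneg s c R he 2 x
  have w3 : 0 ≤ wE s c R e 3 x := wE_nonneg s c R he 3 x
  have hCR : 0 ≤ CR (R / 2) * K := mul_nonneg (CR_nonneg (by positivity)) (by positivity)
  set Ct : ℝ := CU + CA + CB + CR (R / 2) * K + 1 with hCt
  have hCt1 : CU ≤ Ct := by linarith
  have hCt0 : 0 < Ct := by linarith
  refine ⟨?_, ?_, ?_, ?_, ?_⟩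
  · -- the identity
    have e1 : d1 a3 x = Ψ x := ha3 x hx
    have hdb1 : DifferentiableAt ℝ (D.b1 (3 * R) σ) x := (hb1.differentiable (by simp)) x
    have hdb2 : DifferentiableAt ℝ (D.b2 (3 * R) σ) x := (hb2.differentiable (by simp)) x
    have hdJ : DifferentiableAt ℝ (fun z => Jc (D.J z) (fderiv ℝ (D.uu σ) z)) x :=
      (hJu.differentiable (by simp)) x
    have hda3 : DifferentiableAt ℝ a3 x := (ha3sm.differentiable (by simp)) x
    have e2 : d1 (fun x => (D.b1 (3 * R) σ x - Jc (D.J x) (fderiv ℝ (D.uu σ) x))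
        + D.b2 (3 * R) σ x + a3 x) x = (d1 (D.b1 (3 * R) σ) x
        - d1 (fun z => Jc (D.J z) (fderiv ℝ (D.uu σ) z)) x) + d1 (D.b2 (3 * R) σ) x + d1 a3 x := by
      have hdf : DifferentiableAt ℝ (fun x => D.b1 (3 * R) σ x -
          Jc (D.J x) (fderiv ℝ (D.uu σ) x)) x := hdb1.sub hdJ
      have hdg : DifferentiableAt ℝ (fun x => (D.b1 (3 * R) σ x -
          Jc (D.J x) (fderiv ℝ (D.uu σ) x)) + D.b2 (3 * R) σ x) x := hdf.add hdb2
      have q1 := d1_add hdg hda3
      have q2 := d1_add hdf hdb2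
      have q3 : d1 (fun x => D.b1 (3 * R) σ x - Jc (D.J x) (fderiv ℝ (D.uu σ) x)) x =
        d1 (D.b1 (3 * R) σ) x - d1 (fun z => Jc (D.J z) (fderiv ℝ (D.uu σ) z)) x :=
        d1_sub hdb1 hdJ
      rw [q1, q2, q3]
    rw [e2, e1]
    simp only [hΨ]
    show mol ρ e s φ x = d1 (fun z => Jc (J z) (fderiv ℝ (D.uu σ) z)) x + _
    abel
  · -- lower bound
    refine le_trans ?_ u1
    have h1 : wE s c R e 2 x / Ct ≤ wE s c R e 2 x / CU := by gcongr
    show wE s c R e 2 x / Ct - Ct ≤ wE s c R e 2 x / CU - CU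
    linarith
  · refine u2.trans ?_
    show CU * wE s c R e 2 x ≤ Ct * (1 + wE s c R e 2 x)
    nlinarith
  · have h1 : ‖(D.b1 (3 * R) σ x - Jc (D.J x) (fderiv ℝ (D.uu σ) x)) + D.b2 (3 * R) σ x + a3 x‖ ≤
        CA * wE s c R e 2 x + CB * wE s c R e 2 x + CR (R / 2) * K * (wE s c R e 2 x + 1) :=
      (norm_add_le _ _).trans (add_le_add ((norm_add_le _ _).trans (add_le_add a1b b2b)) a3b)
    refine h1.trans ?_
    rw [hCt]
    nlinarith [mul_nonneg hCU.le w2]
  · refine u3.trans ?_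
    show CU * wE s c R e 3 x ≤ Ct * wE s c R e 3 x
    gcongr

end Crest.Agent.R240.Pot
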