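import Mathlib
import Crest.Agent.R240.Lin1
import Crest.Agent.R240.En1
import Crest.Agent.R240.PotAlg
import Crest.Agent.R240.PotS
import Crest.Agent.R240.PotMain
import Crest.Agent.R240.Kern
import Crest.Agent.R240.PotSt
import Crest.Agent.R240.En2
import Crest.Agent.R240.Lin5
import Crest.Agent.R240.Loc5C
import Crest.Agent.R240.Loc5Q

-- ▼ part R240/PotIBP
section

/-!
Row 240 (S0371), Part P (helper365): integration by parts against a closed measure-valued 2-form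
on an open subset of `R^4`, and closedness of its mollification.
-/

set_option autoImplicit false
set_option maxSynthPendingDepth 3
open scoped ContDiff
open MeasureTheory

namespace Crest.Agent.R240.Pot

/-- the covector `x ↦ det (u, v, w, x)` -/
noncomputable def cov3 (u v w : E4) : En.Cov :=
  (-(u 1 * (v 2 * w 3 - v 3 * w 2) - u 2 * (v 1 * w 3 - v 3 * w 1)
      + u 3 * (v 1 * w 2 - v 2 * w 1))) • (EuclideanSpace.proj 0 : E4 →L[ℝ] ℝ)
  + (u 0 * (v 2 * w 3 - v 3 * w 2) - u 2 * (v 0 * w 3 - v 3 * w 0)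
      + u 3 * (v 0 * w 2 - v 2 * w 0)) • (EuclideanSpace.proj 1 : E4 →L[ℝ] ℝ)
  + (-(u 0 * (v 1 * w 3 - v 3 * w 1) - u 1 * (v 0 * w 3 - v 3 * w 0)
      + u 3 * (v 0 * w 1 - v 1 * w 0))) • (EuclideanSpace.proj 2 : E4 →L[ℝ] ℝ)
  + (u 0 * (v 1 * w 2 - v 2 * w 1) - u 1 * (v 0 * w 2 - v 2 * w 0)
      + u 2 * (v 0 * w 1 - v 1 * w 0)) • (EuclideanSpace.proj 3 : E4 →L[ℝ] ℝ)

theorem cov_expand (ξ : En.Cov) (u : E4) : ξ u = u 0 * ξ (ee 0) + u 1 * ξ (ee 1)
    + u 2 * ξ (ee 2) + u 3 * ξ (ee 3) := by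
  conv_lhs => rw [sum_ee u]
  simp only [map_add, map_smul, smul_eq_mul]

/-- every component of `ξ ∧ A` is a wedge of `A` with `ξ ∧ η` for a constant covector `η` -/
theorem wed3_eq_W {A : Bil} (hA : Alt A) (ξ : En.Cov) (u v w : E4) :
    wed3 ξ (fun a b => A a b) u v w = W A (wed ξ (cov3 u v w)) := by
  have h0 : wed3 ξ (fun a b => A a b) u v w = ξ u * A v w - ξ v * A u w + ξ w * A u v := rfl
  rw [h0]
  unfold W
  rw [alt_expand hA v w, alt_expand hA u w, alt_expand hA u v, cov_expand ξ u, cov_expand ξ v,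
    cov_expand ξ w]
  simp only [ent, wed_apply, cov3]
  simp [ee]
  ring

variable {s : Measure E4} [IsFiniteMeasure s] {phi : E4 → Bil} {A : ℝ} {U : Set E4}

lemma phi_apply_measurable (hm : Measurable phi) (a b : E4) : Measurable fun y => phi y a b := by
  have h1 : Measurable fun y => phi y a := by
    exact (ContinuousLinearMap.measurable_apply a).comp hm
  exact (ContinuousLinearMap.measurable_apply b).comp h1

lemma phi_apply_bound (hA : ∀ y, ‖phi y‖ ≤ A) (a b : E4) (y : E4) :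
    ‖phi y a b‖ ≤ A * ‖a‖ * ‖b‖ := by
  refine ((phi y).le_opNorm₂ a b).trans ?_
  gcongr
  exact hA y

lemma phi_apply_integrable (hm : Measurable phi) (hA : ∀ y, ‖phi y‖ ≤ A) (a b : E4) :
    Integrable (fun y => phi y a b) s :=
  Integrable.of_bound (phi_apply_measurable hm a b).aestronglyMeasurable (A * ‖a‖ * ‖b‖)
    (Filter.Eventually.of_forall fun y => phi_apply_bound hA a b y)

/-- `g * (phi a b)` is integrable for `g` continuous with compact support -/
lemma mul_phi_integrable (hm : Measurable phi) (hA : ∀ y, ‖phi y‖ ≤ A) {g : E4 → ℝ}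
    (hg : Continuous g) (hc : HasCompactSupport g) (a b : E4) :
    Integrable (fun y => g y * phi y a b) s := by
  obtain ⟨C, hC0, hC⟩ := exists_bd hg hc
  exact (phi_apply_integrable hm hA a b).bdd_mul hg.aestronglyMeasurable
    (Filter.Eventually.of_forall fun y => hC y)

/-- `wed3 (X y) (phi y) u v w` is integrable if `X` is a continuous compactly supported covector
field -/
lemma wed3_integrable (hm : Measurable phi) (hA : ∀ y, ‖phi y‖ ≤ A) {X : E4 → En.Cov}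
    (hX : Continuous X) (hc : HasCompactSupport X) (u v w : E4) :
    Integrable (fun y => wed3 (X y) (fun a b => phi y a b) u v w) s := by
  have h : ∀ a : E4, Continuous (fun y => X y a) ∧ HasCompactSupport (fun y => X y a) := by
    intro a
    refine ⟨hX.clm_apply continuous_const, ?_⟩
    exact hc.comp_left (g := fun T : En.Cov => T a) (by simp)
  unfold wed3
  exact ((mul_phi_integrable hm hA (h u).1 (h u).2 v w).sub
    (mul_phi_integrable hm hA (h v).1 (h v).2 u w)).add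
    (mul_phi_integrable hm hA (h w).1 (h w).2 u v)

omit [IsFiniteMeasure s] in
/-- (I1), (I1') -/
theorem wed3_zero (halt : ∀ y, Alt (phi y))
    (hcl : ∀ ψ : E4 → En.Cov, ContDiff ℝ ∞ ψ → HasCompactSupport ψ → tsupport ψ ⊆ U →
      ∫ y, W (phi y) (En.d1 ψ y) ∂s = 0)
    {h : E4 → ℝ} (hh : ContDiff ℝ ∞ h) (hc : HasCompactSupport h) (hU : tsupport h ⊆ U)
    (u v w : E4) :
    ∫ y, wed3 (fderiv ℝ h y) (fun a b => phi y a b) u v w ∂s = 0 := by
  have hψ : ContDiff ℝ ∞ (fun y => h y • cov3 u v w) := hh.smul contDiff_const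
  have hψc : HasCompactSupport (fun y => h y • cov3 u v w) := hc.smul_right
  have hψU : tsupport (fun y => h y • cov3 u v w) ⊆ U :=
    (closure_mono (Function.support_smul_subset_left h fun _ => cov3 u v w)).trans hU
  rw [← hcl _ hψ hψc hψU]
  refine integral_congr_ae (Filter.Eventually.of_forall fun y => ?_)
  simp only
  rw [wed3_eq_W (halt y)]
  congr 1
  rw [En.d1_smul (hh.differentiable (by simp) y) (differentiableAt_const _)]
  have : En.d1 (fun _ : E4 => cov3 u v w) y = 0 := by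
    ext a b
    simp [En.d1]
  rw [this]
  simp

lemma fderiv_sub_left (σ : E4 → ℝ) (hσ : Differentiable ℝ σ) (x y : E4) :
    fderiv ℝ (fun y => σ (x - y)) y = - fderiv ℝ σ (x - y) := by
  have h1 : HasFDerivAt (fun y : E4 => x - y) (-(ContinuousLinearMap.id ℝ E4)) y := by
    simpa using (hasFDerivAt_id (𝕜 := ℝ) y).const_sub x
  have h2 : HasFDerivAt σ (fderiv ℝ σ (x - y)) (x - y) := (hσ _).hasFDerivAt
  have h3 : HasFDerivAt (fun y => σ (x - y))
      ((fderiv ℝ σ (x - y)).comp (-(ContinuousLinearMap.id ℝ E4))) y := h2.comp y h1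
  rw [h3.fderiv]
  ext a
  simp

lemma fderiv_mul_kernel {f σ : E4 → ℝ} (hf : Differentiable ℝ f) (hσ : Differentiable ℝ σ)
    (x y : E4) : fderiv ℝ (fun y => f y * σ (x - y)) y
      = σ (x - y) • fderiv ℝ f y - f y • fderiv ℝ σ (x - y) := by
  have h0 : DifferentiableAt ℝ (fun y => σ (x - y)) y :=
    (hσ (x - y)).comp y ((differentiableAt_const x).sub differentiableAt_id)
  have h1 := fderiv_fun_mul (hf y) h0
  rw [h1, fderiv_sub_left σ hσ, smul_neg, neg_add_eq_sub]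

lemma w3_smul (c : ℝ) (ξ : En.Cov) (A : E4 → E4 → ℝ) (u v w : E4) :
    wed3 (⇑(c • ξ)) A u v w = c * wed3 ξ A u v w := by
  have h : ∀ a, (c • ξ) a = c * ξ a := fun a => rfl
  simp only [wed3, h]
  ring

lemma w3_sub (ξ η : En.Cov) (A : E4 → E4 → ℝ) (u v w : E4) :
    wed3 (⇑(ξ - η)) A u v w = wed3 ξ A u v w - wed3 η A u v w := by
  have h : ∀ a, (ξ - η) a = ξ a - η a := fun a => rfl
  simp only [wed3, h]
  ring

/-- (I2) -/
theorem ibp (hm : Measurable phi) (hA : ∀ y, ‖phi y‖ ≤ A) (halt : ∀ y, Alt (phi y))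
    (hcl : ∀ ψ : E4 → En.Cov, ContDiff ℝ ∞ ψ → HasCompactSupport ψ → tsupport ψ ⊆ U →
      ∫ y, W (phi y) (En.d1 ψ y) ∂s = 0)
    {f σ : E4 → ℝ} (hf : ContDiff ℝ ∞ f) (hσ : ContDiff ℝ ∞ σ) (hc : HasCompactSupport f)
    (hU : tsupport f ⊆ U) (x u v w : E4) :
    ∫ y, f y * wed3 (fderiv ℝ σ (x - y)) (fun a b => phi y a b) u v w ∂s
      = ∫ y, σ (x - y) * wed3 (fderiv ℝ f y) (fun a b => phi y a b) u v w ∂s := by
  have hτ : ContDiff ℝ ∞ (fun y => σ (x - y)) := hσ.comp (contDiff_const.sub contDiff_id)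
  have hh : ContDiff ℝ ∞ (fun y => f y * σ (x - y)) := hf.mul hτ
  have hhc : HasCompactSupport (fun y => f y * σ (x - y)) := hc.mul_right
  have hhU : tsupport (fun y => f y * σ (x - y)) ⊆ U :=
    (closure_mono (Function.support_mul_subset_left f fun y => σ (x - y))).trans hU
  have h0 := wed3_zero halt hcl hh hhc hhU u v w
  have hX1c : Continuous (fun y => σ (x - y) • fderiv ℝ f y) :=
    hτ.continuous.smul (hf.continuous_fderiv (by simp))
  have hX1s : HasCompactSupport (fun y => σ (x - y) • fderiv ℝ f y) :=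
    HasCompactSupport.smul_left (f := fun y => σ (x - y)) (hc.fderiv (𝕜 := ℝ))
  have hX2c' : Continuous (fun y => fderiv ℝ σ (x - y)) :=
    (hσ.continuous_fderiv (by simp)).comp (continuous_const.sub continuous_id)
  have hX2c : Continuous (fun y => f y • fderiv ℝ σ (x - y)) := hf.continuous.smul hX2c'
  have hX2s : HasCompactSupport (fun y => f y • fderiv ℝ σ (x - y)) := by
    refine hc.mono fun y hy => ?_
    intro h
    exact hy (by simp only [h, zero_smul])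
  have i1 := wed3_integrable (s := s) hm hA hX1c hX1s u v w
  have i2 := wed3_integrable (s := s) hm hA hX2c hX2s u v w
  have h2 := integral_sub i1 i2
  have h3 : ∫ y, wed3 (fderiv ℝ (fun y => f y * σ (x - y)) y) (fun a b => phi y a b) u v w ∂s
      = ∫ y, (wed3 (⇑(σ (x - y) • fderiv ℝ f y)) (fun a b => phi y a b) u v w
        - wed3 (⇑(f y • fderiv ℝ σ (x - y))) (fun a b => phi y a b) u v w) ∂s := by
    refine integral_congr_ae (Filter.Eventually.of_forall fun y => ?_)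
    simp only
    rw [fderiv_mul_kernel (hf.differentiable (by simp)) (hσ.differentiable (by simp)), w3_sub]
  rw [h0] at h3
  rw [← h3] at h2
  simp only [w3_smul] at h2
  linarith

/-- mollification of the measure-valued 2-form `phi s` -/
noncomputable def moll (s : Measure E4) (phi : E4 → Bil) (σ : E4 → ℝ) (x : E4) : Bil :=
  ∫ y, σ (x - y) • phi y ∂s

section moll

variable {σ : E4 → ℝ}

lemma moll_integrable (hm : Measurable phi) (hA : ∀ y, ‖phi y‖ ≤ A) (hσ : Continuous σ)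
    (hc : HasCompactSupport σ) (x : E4) : Integrable (fun y => σ (x - y) • phi y) s := by
  obtain ⟨C, hC0, hC⟩ := exists_bd hσ hc
  refine Integrable.of_bound (C := C * A) ?_ ?_
  · exact ((hσ.comp (continuous_const.sub continuous_id)).measurable.smul hm).aestronglyMeasurable
  · refine Filter.Eventually.of_forall fun y => ?_
    rw [norm_smul]
    exact mul_le_mul (hC _) (hA y) (norm_nonneg _) hC0

lemma moll_apply (hm : Measurable phi) (hA : ∀ y, ‖phi y‖ ≤ A) (hσ : Continuous σ)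
    (hc : HasCompactSupport σ) (x a b : E4) :
    moll s phi σ x a b = ∫ y, σ (x - y) * phi y a b ∂s := by
  have h := moll_integrable (s := s) hm hA hσ hc x
  unfold moll
  rw [ContinuousLinearMap.integral_apply h, ContinuousLinearMap.integral_apply
    (h.apply_continuousLinearMap a)]
  rfl

lemma moll_eq_SS (hm : Measurable phi) (hA : ∀ y, ‖phi y‖ ≤ A) (hσ : Continuous σ)
    (hc : HasCompactSupport σ) (a b : E4) :
    (fun x => moll s phi σ x a b) = SS s id (fun y => phi y a b) σ := by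
  funext x
  rw [moll_apply hm hA hσ hc]
  unfold SS
  refine integral_congr_ae (Filter.Eventually.of_forall fun y => ?_)
  simp only [id]
  ring

theorem moll_contDiff (hm : Measurable phi) (hA : ∀ y, ‖phi y‖ ≤ A) (hσ : ContDiff ℝ ∞ σ)
    (hc : HasCompactSupport σ) : ContDiff ℝ ∞ (moll s phi σ) := by
  rw [contDiff_clm_apply_iff]
  intro a
  rw [contDiff_clm_apply_iff]
  intro b
  rw [moll_eq_SS hm hA hσ.continuous hc]
  exact SS_contDiff (phi_apply_integrable hm hA a b) measurable_id hσ hc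

theorem moll_alt (hm : Measurable phi) (hA : ∀ y, ‖phi y‖ ≤ A) (halt : ∀ y, Alt (phi y))
    (hσ : Continuous σ) (hc : HasCompactSupport σ) (x : E4) : Alt (moll s phi σ x) := by
  intro v
  rw [moll_apply hm hA hσ hc]
  have : ∀ y, σ (x - y) * phi y v v = 0 := fun y => by rw [halt y v, mul_zero]
  simp [this]

/-- derivative of the mollification -/
theorem moll_fderiv (hm : Measurable phi) (hA : ∀ y, ‖phi y‖ ≤ A) (hσ : ContDiff ℝ ∞ σ)
    (hc : HasCompactSupport σ) (x u a b : E4) :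
    fderiv ℝ (moll s phi σ) x u a b = ∫ y, fderiv ℝ σ (x - y) u * phi y a b ∂s := by
  have hd : DifferentiableAt ℝ (moll s phi σ) x :=
    (moll_contDiff hm hA hσ hc).differentiable (by simp) x
  have h1 : fderiv ℝ (moll s phi σ) x u a b
      = fderiv ℝ (fun x => moll s phi σ x a b) x u := by
    have e1 : HasFDerivAt (fun x => moll s phi σ x a)
        ((ContinuousLinearMap.apply ℝ (E4 →L[ℝ] ℝ) a).comp (fderiv ℝ (moll s phi σ) x)) x :=
      (ContinuousLinearMap.apply ℝ (E4 →L[ℝ] ℝ) a).hasFDerivAt.comp x hd.hasFDerivAt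
    have e2 : HasFDerivAt (fun x => moll s phi σ x a b)
        ((ContinuousLinearMap.apply ℝ ℝ b).comp
          ((ContinuousLinearMap.apply ℝ (E4 →L[ℝ] ℝ) a).comp (fderiv ℝ (moll s phi σ) x))) x :=
      (ContinuousLinearMap.apply ℝ ℝ b).hasFDerivAt.comp x e1
    rw [e2.fderiv]
    rfl
  rw [h1, moll_eq_SS hm hA hσ.continuous hc,
    SS_fderiv (phi_apply_integrable hm hA a b) measurable_id hσ hc]
  unfold SS dd
  refine integral_congr_ae (Filter.Eventually.of_forall fun y => ?_)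
  simp only [id]
  ring

/-- (I3): closedness of the mollification, general form -/
theorem moll_closed (hm : Measurable phi) (hA : ∀ y, ‖phi y‖ ≤ A) (halt : ∀ y, Alt (phi y))
    (hcl : ∀ ψ : E4 → En.Cov, ContDiff ℝ ∞ ψ → HasCompactSupport ψ → tsupport ψ ⊆ U →
      ∫ y, W (phi y) (En.d1 ψ y) ∂s = 0)
    (hσ : ContDiff ℝ ∞ σ) (hc : HasCompactSupport σ) {x : E4}
    (hx : tsupport (fun y => σ (x - y)) ⊆ U) : En.Cl (moll s phi σ) x := by
  intro u v w
  have hτ : ContDiff ℝ ∞ (fun y => σ (x - y)) := hσ.comp (contDiff_const.sub contDiff_id)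
  have hτc : HasCompactSupport (fun y => σ (x - y)) := by
    have := hc.comp_homeomorph (Homeomorph.subLeft x)
    exact this
  have h0 := wed3_zero halt hcl hτ hτc hx u v w
  rw [moll_fderiv hm hA hσ hc, moll_fderiv hm hA hσ hc, moll_fderiv hm hA hσ hc]
  have hdc : ∀ a : E4, Continuous (fun y => fderiv ℝ σ (x - y) a) ∧
      HasCompactSupport (fun y => fderiv ℝ σ (x - y) a) := by
    intro a
    refine ⟨((hσ.continuous_fderiv (by simp)).comp
      (continuous_const.sub continuous_id)).clm_apply continuous_const, ?_⟩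
    have h1 : HasCompactSupport (fun z => fderiv ℝ σ z a) := hc.fderiv_apply (𝕜 := ℝ) a
    have := h1.comp_homeomorph (Homeomorph.subLeft x)
    exact this
  have i1 := mul_phi_integrable (s := s) hm hA (hdc u).1 (hdc u).2 v w
  have i2 := mul_phi_integrable (s := s) hm hA (hdc v).1 (hdc v).2 w u
  have i3 := mul_phi_integrable (s := s) hm hA (hdc w).1 (hdc w).2 u v
  have e12 : ∫ y, (fderiv ℝ σ (x - y) u * phi y v w + fderiv ℝ σ (x - y) v * phi y w u) ∂s
      = ∫ y, fderiv ℝ σ (x - y) u * phi y v w ∂s + ∫ y, fderiv ℝ σ (x - y) v * phi y w u ∂s :=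
    integral_add i1 i2
  have e123 : ∫ y, ((fderiv ℝ σ (x - y) u * phi y v w + fderiv ℝ σ (x - y) v * phi y w u)
      + fderiv ℝ σ (x - y) w * phi y u v) ∂s
      = ∫ y, (fderiv ℝ σ (x - y) u * phi y v w + fderiv ℝ σ (x - y) v * phi y w u) ∂s
        + ∫ y, fderiv ℝ σ (x - y) w * phi y u v ∂s :=
    integral_add (i1.add i2) i3
  rw [← e12, ← e123]
  rw [← neg_eq_zero, ← integral_neg, ← h0]
  refine integral_congr_ae (Filter.Eventually.of_forall fun y => ?_)
  simp only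
  rw [fderiv_sub_left σ (hσ.differentiable (by simp)), (halt y).swap w u]
  simp only [wed3, neg_apply]
  ring

/-- (I3) for kernels supported in a ball -/
theorem moll_closed_ball (hm : Measurable phi) (hA : ∀ y, ‖phi y‖ ≤ A)
    (halt : ∀ y, Alt (phi y))
    (hcl : ∀ ψ : E4 → En.Cov, ContDiff ℝ ∞ ψ → HasCompactSupport ψ → tsupport ψ ⊆ U →
      ∫ y, W (phi y) (En.d1 ψ y) ∂s = 0)
    (hσ : ContDiff ℝ ∞ σ) {e : ℝ} (hs : ∀ z, e < ‖z‖ → σ z = 0) {x : E4}
    (hx : Metric.closedBall x e ⊆ U) : En.Cl (moll s phi σ) x := by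
  have hc : HasCompactSupport σ := by
    refine HasCompactSupport.of_support_subset_isCompact (isCompact_closedBall (0 : E4) e) ?_
    intro z hz
    rw [mem_closedBall_zero_iff]
    by_contra h
    exact hz (hs z (not_le.1 h))
  refine moll_closed hm hA halt hcl hσ hc (subset_trans ?_ hx)
  refine closure_minimal ?_ Metric.isClosed_closedBall
  intro y hy
  rw [mem_closedBall_iff_norm']
  by_contra h
  exact hy (hs _ (not_le.1 h))

end moll

end Crest.Agent.R240.Pot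
end

-- ▼ part R240/PotMol
section

/-!
Row 240 (S0371), Part P: the facts about the mollified current used in `PotMain`.
-/

set_option autoImplicit false
set_option maxSynthPendingDepth 3
open scoped ContDiff
open MeasureTheory Metric Crest.Agent.R240.En

namespace Crest.Agent.R240.Pot

theorem molFacts : MolFacts := by
  intro s hs φ hm A hA halt U hcl ρ hρ e he
  have hsm : ContDiff ℝ ∞ (rhoE ρ e) := rhoE_contDiff hρ.sm e
  have h0 : ∀ z, e < ‖z‖ → rhoE ρ e z = 0 := fun z hz => rhoE_zero hρ.sup he hz.le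
  have hc : HasCompactSupport (rhoE ρ e) := rhoE_hasCompactSupport hρ.sup he
  have hmol : mol ρ e s φ = moll s φ (rhoE ρ e) := rfl
  rw [hmol]
  refine ⟨moll_contDiff hm hA hsm hc, fun x => moll_alt hm hA halt hsm.continuous hc x, ?_⟩
  intro x hx
  exact moll_closed_ball hm hA halt hcl hsm h0 hx


end Crest.Agent.R240.Pot
end

-- ▼ part R240/PotBd
section

/-!
# Row 240, Part P (for helper657): kernel bounds of Lemma P (helper369)

* `invSq`, `invSq_integral_le`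
* `kerbd`  : mollified kernels of order `-2` and their derivatives
* `mkbd`   : `m ζ = q ζ ζ / (g ζ ζ)²` satisfies the hypotheses of `kerbd`
* `kerlow` : lower bound for mollified `1/g ζ ζ`
-/

set_option autoImplicit false
set_option maxSynthPendingDepth 3

open MeasureTheory Metric Set
open Crest.Agent.R240.Kern (ker setLIntegral_ker_off volume_ball_le ker_of_pos)

namespace Crest.Agent.R240.Pot

/-- `∫_{ball z r} ‖ζ‖^{-2} dζ ≤ C r⁴ / (‖z‖ + r)²` as a lower integral. -/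
theorem lint_invSq (z : E4) {r : ℝ} (hr : 0 < r) :
    ∫⁻ ζ in ball z r, ENNReal.ofReal (1 / ‖ζ‖ ^ 2) ≤
      ENNReal.ofReal (38880 * r ^ 4 / (‖z‖ + r) ^ 2) := by
  have h := setLIntegral_ker_off (volume : Measure E4) (a := 4) (b := 2) (by norm_num)
    (A := 5) (by norm_num) (fun x r hr => volume_ball_le x hr) z 0 hr
  have hz : 0 < dist z 0 + r := by have := dist_nonneg (x := z) (y := (0 : E4)); linarith
  rw [ker_of_pos 2 hz, ← ENNReal.ofReal_mul (by positivity)] at h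
  refine le_trans ?_ (h.trans (ENNReal.ofReal_le_ofReal ?_))
  · apply lintegral_mono
    intro ζ
    show ENNReal.ofReal (1 / ‖ζ‖ ^ 2) ≤ ker 2 (dist ζ 0)
    rw [dist_zero_right, one_div]
    exact Crest.Agent.R240.Kern.ofReal_le_ker 2 (norm_nonneg _)
  · rw [dist_zero_right]
    apply le_of_eq
    norm_num
    field_simp

theorem measurable_invSq : Measurable fun ζ : E4 => 1 / ‖ζ‖ ^ 2 := by fun_prop

theorem invSq_ball (z : E4) {r : ℝ} (hr : 0 < r) :
    IntegrableOn (fun ζ : E4 => 1 / ‖ζ‖ ^ 2) (ball z r) := by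
  refine ⟨measurable_invSq.aestronglyMeasurable, ?_⟩
  rw [hasFiniteIntegral_iff_norm]
  refine lt_of_le_of_lt ?_ (ENNReal.ofReal_lt_top (r := 38880 * r ^ 4 / (‖z‖ + r) ^ 2))
  refine le_trans (le_of_eq ?_) (lint_invSq z hr)
  apply lintegral_congr
  intro ζ
  rw [Real.norm_of_nonneg (by positivity)]

theorem invSq_ball_integral_le (z : E4) {r : ℝ} (hr : 0 < r) :
    ∫ ζ in ball z r, 1 / ‖ζ‖ ^ 2 ≤ 38880 * r ^ 4 / (‖z‖ + r) ^ 2 := by
  rw [integral_eq_lintegral_of_nonneg_ae (ae_of_all _ fun ζ => by positivity)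
    measurable_invSq.aestronglyMeasurable]
  have h := lint_invSq z hr
  have h2 := ENNReal.toReal_mono ENNReal.ofReal_ne_top h
  rwa [ENNReal.toReal_ofReal (by positivity)] at h2

/-- (INT) -/
theorem invSq : ∀ r : ℝ, IntegrableOn (fun ζ : E4 => 1 / ‖ζ‖ ^ 2) (closedBall 0 r) volume := by
  intro r
  have h := invSq_ball (0 : E4) (r := |r| + 1) (by positivity)
  refine h.mono_set ?_
  intro x hx
  rw [mem_closedBall] at hx
  rw [mem_ball]
  have := le_abs_self r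
  linarith

theorem invSq_closedBall (z : E4) (r : ℝ) :
    IntegrableOn (fun ζ : E4 => 1 / ‖ζ‖ ^ 2) (closedBall z r) volume := by
  refine (invSq (r + ‖z‖)).mono_set ?_
  intro x hx
  rw [mem_closedBall, dist_zero_right]
  rw [mem_closedBall, dist_eq_norm] at hx
  have := norm_add_le (x - z) z
  rw [sub_add_cancel] at this
  linarith


section kerbd

variable {m : E4 → ℝ} {A : ℝ}

/-- a kernel of order `-2` is integrable on balls. -/
theorem intOn_ker (hm : Measurable m) (hb : ∀ ζ, ζ ≠ 0 → |m ζ| ≤ A / ‖ζ‖ ^ 2) (z : E4) (r : ℝ) :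
    IntegrableOn m (closedBall z r) := by
  have h := (invSq_closedBall z r).const_mul A
  refine Integrable.mono' h hm.aestronglyMeasurable ?_
  have h0 : ∀ᵐ ζ : E4, ζ ≠ 0 := by
    have := (measure_singleton (μ := (volume : Measure E4)) (0 : E4))
    rw [ae_iff]; simp
  filter_upwards [ae_restrict_of_ae h0] with ζ hζ
  rw [Real.norm_eq_abs]
  refine (hb ζ hζ).trans (le_of_eq ?_)
  ring

/-- integrability of the mollified integrand. -/
theorem int_conv {σ : E4 → ℝ} {e : ℝ} (hσ : Continuous σ) (hs : ∀ z, e < ‖z‖ → σ z = 0) (z : E4)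
    (hm : ∀ z r, IntegrableOn m (closedBall z r)) :
    Integrable fun ζ => σ (z - ζ) * m ζ := by
  have hz : ∀ ζ, ζ ∉ closedBall z e → σ (z - ζ) * m ζ = 0 := by
    intro ζ hζ
    rw [mem_closedBall, not_le, dist_comm, dist_eq_norm] at hζ
    rw [hs _ hζ, zero_mul]
  have h1 : IntegrableOn (fun ζ => σ (z - ζ) * m ζ) (closedBall z e) := by
    apply IntegrableOn.continuousOn_mul
    · exact (hσ.comp (by fun_prop)).continuousOn
    · exact hm z e
    · exact isCompact_closedBall z e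
  rw [integrableOn_iff_integrable_of_support_subset] at h1
  · exact h1
  · intro ζ hζ
    by_contra h
    exact hζ (hz ζ h)

theorem abs_conv_le (hm : Measurable m) (hA : 0 ≤ A) (hb : ∀ ζ, ζ ≠ 0 → |m ζ| ≤ A / ‖ζ‖ ^ 2)
    {σ : E4 → ℝ} {e D : ℝ} (he : 0 < e) (hD : 0 ≤ D) (hσ : Continuous σ)
    (hs : ∀ z, e < ‖z‖ → σ z = 0) (hbd : ∀ z, |σ z| ≤ D) (z : E4) :
    |∫ ζ, σ (z - ζ) * m ζ| ≤ 622080 * A * D * e ^ 4 / (‖z‖ + e) ^ 2 := by
  have h0 : ∀ᵐ ζ : E4, ζ ≠ 0 := by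
    have := (measure_singleton (μ := (volume : Measure E4)) (0 : E4))
    rw [ae_iff]; simp
  have hz : ∀ ζ, ζ ∉ ball z (2 * e) → σ (z - ζ) * m ζ = 0 := by
    intro ζ hζ
    rw [mem_ball, not_lt, dist_comm, dist_eq_norm] at hζ
    rw [hs _ (by linarith), zero_mul]
  rw [← setIntegral_eq_integral_of_forall_compl_eq_zero hz]
  calc |∫ ζ in ball z (2 * e), σ (z - ζ) * m ζ|
      ≤ ∫ ζ in ball z (2 * e), |σ (z - ζ) * m ζ| := abs_integral_le_integral_abs
    _ ≤ ∫ ζ in ball z (2 * e), D * A * (1 / ‖ζ‖ ^ 2) := by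
        apply integral_mono_ae
        · exact ((int_conv hσ hs z (intOn_ker hm hb)).integrableOn).abs
        · exact (invSq_ball z (by positivity)).const_mul _
        · filter_upwards [ae_restrict_of_ae h0] with ζ hζ
          rw [abs_mul]
          calc |σ (z - ζ)| * |m ζ| ≤ D * (A / ‖ζ‖ ^ 2) :=
                mul_le_mul (hbd _) (hb ζ hζ) (abs_nonneg _) hD
            _ = _ := by ring
    _ = D * A * ∫ ζ in ball z (2 * e), 1 / ‖ζ‖ ^ 2 := integral_const_mul _ _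
    _ ≤ D * A * (38880 * (2 * e) ^ 4 / (‖z‖ + 2 * e) ^ 2) := by
        apply mul_le_mul_of_nonneg_left (invSq_ball_integral_le z (by positivity)) (by positivity)
    _ ≤ D * A * (38880 * (2 * e) ^ 4 / (‖z‖ + e) ^ 2) := by
        have hn : 0 < ‖z‖ + e := by positivity
        gcongr
        linarith
    _ = _ := by ring

theorem kerbd : ∃ C : ℝ, 0 < C ∧ ∀ (m : E4 → ℝ) (A : ℝ), Measurable m → 0 ≤ A →
    (∀ ζ, ζ ≠ 0 → |m ζ| ≤ A / ‖ζ‖ ^ 2) →
    (∀ z ζ : E4, z ≠ 0 → ‖ζ - z‖ ≤ ‖z‖ / 2 → |m ζ - m z| ≤ A * ‖ζ - z‖ / ‖z‖ ^ 3) →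
    ∀ (e B : ℝ) (σ : E4 → ℝ), 0 < e → 0 ≤ B → Continuous σ → (∀ z, e < ‖z‖ → σ z = 0) →
    ((∀ z, |σ z| ≤ B / e ^ 4) → ∀ z, |∫ ζ, σ (z - ζ) * m ζ| ≤ C * A * B / (‖z‖ + e) ^ 2) ∧
    ((∀ z, |σ z| ≤ B / e ^ 5) → ∫ z, σ z = 0 →
      ∀ z, |∫ ζ, σ (z - ζ) * m ζ| ≤ C * A * B / (‖z‖ + e) ^ 3) := by
  refine ⟨3 * 622080, by norm_num, ?_⟩
  intro m A hm hA hb hd e B σ he hB hσ hs
  constructor
  · intro hbd z
    refine (abs_conv_le hm hA hb he (by positivity) hσ hs hbd z).trans ?_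
    have hn : 0 < ‖z‖ + e := by positivity
    rw [div_le_div_iff_of_pos_right (by positivity)]
    have : 622080 * A * (B / e ^ 4) * e ^ 4 = 622080 * A * B := by field_simp
    rw [this]
    have : 0 ≤ A * B := by positivity
    nlinarith
  · intro hbd h0 z
    have hn : 0 < ‖z‖ + e := by positivity
    rcases le_or_gt ‖z‖ (2 * e) with hz | hz
    · refine (abs_conv_le hm hA hb he (by positivity) hσ hs hbd z).trans ?_
      rw [div_le_div_iff₀ (by positivity) (by positivity)]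
      have e1 : 622080 * A * (B / e ^ 5) * e ^ 4 * (‖z‖ + e) ^ 3 =
          622080 * (A * B) * (‖z‖ + e) ^ 2 * ((‖z‖ + e) / e) := by field_simp
      rw [e1]
      have e2 : (‖z‖ + e) / e ≤ 3 := by rw [div_le_iff₀ he]; linarith
      calc 622080 * (A * B) * (‖z‖ + e) ^ 2 * ((‖z‖ + e) / e)
          ≤ 622080 * (A * B) * (‖z‖ + e) ^ 2 * 3 :=
            mul_le_mul_of_nonneg_left e2 (by positivity)
        _ = _ := by ring
    · have hz0 : z ≠ 0 := by
        intro h; rw [h, norm_zero] at hz; linarith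
      have hzn : 0 < ‖z‖ := norm_pos_iff.mpr hz0
      have hint1 : Integrable fun ζ => σ (z - ζ) * m ζ := int_conv hσ hs z (intOn_ker hm hb)
      have hint2 : Integrable fun ζ => σ (z - ζ) * m z := by
        have := int_conv (m := fun _ => m z) hσ hs z
          (fun z r => integrableOn_const (by exact measure_closedBall_lt_top.ne))
        exact this
      have hz2 : ∫ ζ, σ (z - ζ) * m z = 0 := by
        rw [integral_mul_const, integral_sub_left_eq_self (fun ζ => σ ζ) volume z, h0, zero_mul]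
      have hsub : ∫ ζ, σ (z - ζ) * m ζ = ∫ ζ, σ (z - ζ) * (m ζ - m z) := by
        have h1 : ∫ ζ, (σ (z - ζ) * m ζ - σ (z - ζ) * m z) =
            (∫ ζ, σ (z - ζ) * m ζ) - ∫ ζ, σ (z - ζ) * m z := integral_sub hint1 hint2
        rw [hz2, sub_zero] at h1
        rw [← h1]
        congr 1
        funext ζ
        ring
      rw [hsub]
      have hzero : ∀ ζ, ζ ∉ ball z (2 * e) → σ (z - ζ) * (m ζ - m z) = 0 := by
        intro ζ hζ
        rw [mem_ball, not_lt, dist_comm, dist_eq_norm] at hζ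
        rw [hs _ (by linarith), zero_mul]
      rw [← setIntegral_eq_integral_of_forall_compl_eq_zero hzero]
      have hpt : ∀ ζ ∈ ball z (2 * e), ‖σ (z - ζ) * (m ζ - m z)‖ ≤
          B / e ^ 5 * (A * e / ‖z‖ ^ 3) := by
        intro ζ _
        rw [norm_mul, Real.norm_eq_abs, Real.norm_eq_abs]
        by_cases hζ : ‖z - ζ‖ ≤ e
        · have h1 : ‖ζ - z‖ ≤ e := by rw [norm_sub_rev]; exact hζ
          have h2 := hd z ζ hz0 (by linarith)
          have h3 : A * ‖ζ - z‖ / ‖z‖ ^ 3 ≤ A * e / ‖z‖ ^ 3 := by gcongr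
          exact mul_le_mul (hbd _) (h2.trans h3) (abs_nonneg _) (by positivity)
        · rw [hs _ (not_le.mp hζ), abs_zero, zero_mul]
          positivity
      have hv : (volume : Measure E4).real (ball z (2 * e)) ≤ 5 * (2 * e) ^ 4 := by
        have := volume_ball_le z (r := 2 * e) (by positivity)
        have h2 := ENNReal.toReal_mono ENNReal.ofReal_ne_top this
        rwa [ENNReal.toReal_ofReal (by positivity)] at h2
      have h1 := norm_setIntegral_le_of_norm_le_const (measure_ball_lt_top (x := z) (r := 2 * e)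
        (μ := (volume : Measure E4))) hpt
      rw [Real.norm_eq_abs] at h1
      refine h1.trans ?_
      calc B / e ^ 5 * (A * e / ‖z‖ ^ 3) * (volume : Measure E4).real (ball z (2 * e))
          ≤ B / e ^ 5 * (A * e / ‖z‖ ^ 3) * (5 * (2 * e) ^ 4) := by gcongr
        _ = 80 * A * B / ‖z‖ ^ 3 := by field_simp; ring
        _ ≤ 3 * 622080 * A * B / (‖z‖ + e) ^ 3 := by
            rw [div_le_div_iff₀ (by positivity) (by positivity)]
            have h3 : (‖z‖ + e) ^ 3 ≤ (2 * ‖z‖) ^ 3 := by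
              apply pow_le_pow_left₀ hn.le
              linarith
            have hAB : 0 ≤ A * B := by positivity
            calc 80 * A * B * (‖z‖ + e) ^ 3 ≤ 80 * A * B * (2 * ‖z‖) ^ 3 := by gcongr
              _ = 640 * (A * B * ‖z‖ ^ 3) := by ring
              _ ≤ 3 * 622080 * (A * B * ‖z‖ ^ 3) := by
                  have : 0 ≤ A * B * ‖z‖ ^ 3 := by positivity
                  nlinarith
              _ = _ := by ring

end kerbd

section mk

/-- quadratic estimate. -/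
theorem quad_le (q : Bil) {L : ℝ} (hq : ‖q‖ ≤ L) (ζ : E4) : |q ζ ζ| ≤ L * ‖ζ‖ ^ 2 := by
  have h1 : ‖q ζ ζ‖ ≤ ‖q‖ * ‖ζ‖ * ‖ζ‖ := q.le_opNorm₂ ζ ζ
  rw [Real.norm_eq_abs] at h1
  refine h1.trans ?_
  have : ‖q‖ * ‖ζ‖ * ‖ζ‖ = ‖q‖ * ‖ζ‖ ^ 2 := by ring
  rw [this]
  gcongr

theorem quad_sub_le (q : Bil) {L : ℝ} (hq : ‖q‖ ≤ L) (z ζ : E4) (h : ‖ζ - z‖ ≤ ‖z‖ / 2) :
    |q ζ ζ - q z z| ≤ L * (5 / 2) * ‖ζ - z‖ * ‖z‖ := by
  have hL : 0 ≤ L := (norm_nonneg _).trans hq
  have e1 : q ζ ζ - q z z = q (ζ - z) ζ + q z (ζ - z) := by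
    simp only [map_sub, sub_apply]; ring
  have h1 : |q (ζ - z) ζ| ≤ L * ‖ζ - z‖ * ‖ζ‖ := by
    have := q.le_opNorm₂ (ζ - z) ζ
    rw [Real.norm_eq_abs] at this
    refine this.trans ?_
    gcongr
  have h2 : |q z (ζ - z)| ≤ L * ‖z‖ * ‖ζ - z‖ := by
    have := q.le_opNorm₂ z (ζ - z)
    rw [Real.norm_eq_abs] at this
    refine this.trans ?_
    gcongr
  have h3 : ‖ζ‖ ≤ (3 / 2) * ‖z‖ := by
    have := norm_add_le (ζ - z) z
    rw [sub_add_cancel] at this
    linarith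
  rw [e1]
  calc |q (ζ - z) ζ + q z (ζ - z)| ≤ |q (ζ - z) ζ| + |q z (ζ - z)| := abs_add_le _ _
    _ ≤ L * ‖ζ - z‖ * ‖ζ‖ + L * ‖z‖ * ‖ζ - z‖ := add_le_add h1 h2
    _ ≤ L * ‖ζ - z‖ * ((3 / 2) * ‖z‖) + L * ‖z‖ * ‖ζ - z‖ := by gcongr
    _ = _ := by ring

theorem continuous_quad (q : Bil) : Continuous fun ζ : E4 => q ζ ζ := by fun_prop

theorem mkbd {lam Lam : ℝ} (hlam : 0 < lam) : ∃ A : ℝ, 0 ≤ A ∧ ∀ q g : Bil,
    (∀ v, lam * ‖v‖ ^ 2 ≤ g v v) → ‖g‖ ≤ Lam → ‖q‖ ≤ Lam →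
    Measurable (fun ζ : E4 => q ζ ζ / (g ζ ζ) ^ 2) ∧
    (∀ ζ, ζ ≠ 0 → |q ζ ζ / (g ζ ζ) ^ 2| ≤ A / ‖ζ‖ ^ 2) ∧
    (∀ z ζ : E4, z ≠ 0 → ‖ζ - z‖ ≤ ‖z‖ / 2 →
      |q ζ ζ / (g ζ ζ) ^ 2 - q z z / (g z z) ^ 2| ≤ A * ‖ζ - z‖ / ‖z‖ ^ 3) := by
  set L := max Lam 0 with hL
  have hL0 : 0 ≤ L := le_max_right _ _
  refine ⟨L / lam ^ 2 + 40 * L / lam ^ 2 + 130 * L ^ 3 / lam ^ 4, by positivity, ?_⟩
  intro q g hg hgL hqL
  have hgL' : ‖g‖ ≤ L := hgL.trans (le_max_left _ _)
  have hqL' : ‖q‖ ≤ L := hqL.trans (le_max_left _ _)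
  refine ⟨(continuous_quad q).measurable.div ((continuous_quad g).measurable.pow_const 2), ?_, ?_⟩
  · intro ζ hζ
    have hn : 0 < ‖ζ‖ := norm_pos_iff.mpr hζ
    have h1 := quad_le q hqL' ζ
    have h2 := hg ζ
    have h3 : 0 < g ζ ζ := lt_of_lt_of_le (by positivity) h2
    rw [abs_div, abs_of_pos (show 0 < (g ζ ζ) ^ 2 by positivity)]
    have h4 : (lam * ‖ζ‖ ^ 2) ^ 2 ≤ (g ζ ζ) ^ 2 := pow_le_pow_left₀ (by positivity) h2 2
    calc |q ζ ζ| / (g ζ ζ) ^ 2 ≤ (L * ‖ζ‖ ^ 2) / (lam * ‖ζ‖ ^ 2) ^ 2 := by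
          gcongr
      _ = L / lam ^ 2 / ‖ζ‖ ^ 2 := by field_simp
      _ ≤ _ := by
          gcongr
          have : 0 ≤ 40 * L / lam ^ 2 := by positivity
          have : 0 ≤ 130 * L ^ 3 / lam ^ 4 := by positivity
          linarith
  · intro z ζ hz hzζ
    have hn : 0 < ‖z‖ := norm_pos_iff.mpr hz
    have hd1 := quad_sub_le q hqL' z ζ hzζ
    have hd2 := quad_sub_le g hgL' z ζ hzζ
    have hζn : ‖z‖ / 2 ≤ ‖ζ‖ := by
      have h5 := norm_add_le ζ (z - ζ)
      rw [add_sub_cancel] at h5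
      rw [norm_sub_rev] at hzζ
      linarith
    have hζn2 : ‖ζ‖ ≤ (3 / 2) * ‖z‖ := by
      have := norm_add_le (ζ - z) z
      rw [sub_add_cancel] at this
      linarith
    have hgz := hg z
    have hgz0 : 0 < g z z := lt_of_lt_of_le (by positivity) hgz
    have hgζ : lam * ‖z‖ ^ 2 / 4 ≤ g ζ ζ := by
      refine le_trans ?_ (hg ζ)
      have : (‖z‖ / 2) ^ 2 ≤ ‖ζ‖ ^ 2 := pow_le_pow_left₀ (by positivity) hζn 2
      have h6 : lam * (‖z‖ / 2) ^ 2 ≤ lam * ‖ζ‖ ^ 2 := by gcongr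
      calc lam * ‖z‖ ^ 2 / 4 = lam * (‖z‖ / 2) ^ 2 := by ring
        _ ≤ _ := h6
    have hgζ0 : 0 < g ζ ζ := lt_of_lt_of_le (by positivity) hgζ
    have hqz := quad_le q hqL' z
    have hgz2 := quad_le g hgL' z
    have hgζ2 := quad_le g hgL' ζ
    have hsplit : q ζ ζ / (g ζ ζ) ^ 2 - q z z / (g z z) ^ 2 =
        (q ζ ζ - q z z) / (g ζ ζ) ^ 2 -
          q z z * ((g ζ ζ - g z z) * (g ζ ζ + g z z)) / ((g ζ ζ) ^ 2 * (g z z) ^ 2) := by
      field_simp
      ring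
    have hd := norm_nonneg (ζ - z)
    have t1 : |(q ζ ζ - q z z) / (g ζ ζ) ^ 2| ≤ 40 * L / lam ^ 2 * ‖ζ - z‖ / ‖z‖ ^ 3 := by
      rw [abs_div, abs_of_pos (show 0 < (g ζ ζ) ^ 2 by positivity)]
      have h4 : (lam * ‖z‖ ^ 2 / 4) ^ 2 ≤ (g ζ ζ) ^ 2 := pow_le_pow_left₀ (by positivity) hgζ 2
      calc |q ζ ζ - q z z| / (g ζ ζ) ^ 2
          ≤ (L * (5 / 2) * ‖ζ - z‖ * ‖z‖) / (lam * ‖z‖ ^ 2 / 4) ^ 2 := by gcongr
        _ = _ := by field_simp; ring
    have hsum : |g ζ ζ + g z z| ≤ L * (13 / 4) * ‖z‖ ^ 2 := by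
      have h7 : ‖ζ‖ ^ 2 ≤ ((3 / 2) * ‖z‖) ^ 2 := pow_le_pow_left₀ (norm_nonneg _) hζn2 2
      have h8 : L * ‖ζ‖ ^ 2 ≤ L * ((3 / 2) * ‖z‖) ^ 2 := by gcongr
      calc |g ζ ζ + g z z| ≤ |g ζ ζ| + |g z z| := abs_add_le _ _
        _ ≤ L * ((3 / 2) * ‖z‖) ^ 2 + L * ‖z‖ ^ 2 := by linarith
        _ = _ := by ring
    have t2 : |q z z * ((g ζ ζ - g z z) * (g ζ ζ + g z z)) / ((g ζ ζ) ^ 2 * (g z z) ^ 2)| ≤
        130 * L ^ 3 / lam ^ 4 * ‖ζ - z‖ / ‖z‖ ^ 3 := by
      rw [abs_div, abs_of_pos (show 0 < (g ζ ζ) ^ 2 * (g z z) ^ 2 by positivity), abs_mul, abs_mul]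
      have h4 : (lam * ‖z‖ ^ 2 / 4) ^ 2 ≤ (g ζ ζ) ^ 2 := pow_le_pow_left₀ (by positivity) hgζ 2
      have h5 : (lam * ‖z‖ ^ 2) ^ 2 ≤ (g z z) ^ 2 := pow_le_pow_left₀ (by positivity) hgz 2
      calc |q z z| * (|g ζ ζ - g z z| * |g ζ ζ + g z z|) / ((g ζ ζ) ^ 2 * (g z z) ^ 2)
          ≤ (L * ‖z‖ ^ 2) * ((L * (5 / 2) * ‖ζ - z‖ * ‖z‖) * (L * (13 / 4) * ‖z‖ ^ 2)) /
            ((lam * ‖z‖ ^ 2 / 4) ^ 2 * (lam * ‖z‖ ^ 2) ^ 2) := by gcongr
        _ = _ := by field_simp; ring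
    rw [hsplit]
    calc |(q ζ ζ - q z z) / (g ζ ζ) ^ 2 -
          q z z * ((g ζ ζ - g z z) * (g ζ ζ + g z z)) / ((g ζ ζ) ^ 2 * (g z z) ^ 2)|
        ≤ |(q ζ ζ - q z z) / (g ζ ζ) ^ 2| +
          |q z z * ((g ζ ζ - g z z) * (g ζ ζ + g z z)) / ((g ζ ζ) ^ 2 * (g z z) ^ 2)| := abs_sub _ _
      _ ≤ 40 * L / lam ^ 2 * ‖ζ - z‖ / ‖z‖ ^ 3 + 130 * L ^ 3 / lam ^ 4 * ‖ζ - z‖ / ‖z‖ ^ 3 :=
          add_le_add t1 t2
      _ ≤ _ := by
          have : 0 ≤ L / lam ^ 2 * ‖ζ - z‖ / ‖z‖ ^ 3 := by positivity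
          have e2 : (L / lam ^ 2 + 40 * L / lam ^ 2 + 130 * L ^ 3 / lam ^ 4) * ‖ζ - z‖ / ‖z‖ ^ 3 =
            L / lam ^ 2 * ‖ζ - z‖ / ‖z‖ ^ 3 + (40 * L / lam ^ 2 * ‖ζ - z‖ / ‖z‖ ^ 3 +
              130 * L ^ 3 / lam ^ 4 * ‖ζ - z‖ / ‖z‖ ^ 3) := by ring
          rw [e2]
          linarith

/-- (LB) lower bound of the mollified `1/g`. -/
theorem kerlow {lam Lam : ℝ} (hlam : 0 < lam) : ∃ c : ℝ, 0 < c ∧ ∀ g : Bil,
    (∀ v, lam * ‖v‖ ^ 2 ≤ g v v) → ‖g‖ ≤ Lam → ∀ (e : ℝ) (σ : E4 → ℝ), 0 < e →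
    Continuous σ → (∀ z, 0 ≤ σ z) → (∀ z, e < ‖z‖ → σ z = 0) → ∫ z, σ z = 1 →
    ∀ z, c / (‖z‖ + e) ^ 2 ≤ ∫ ζ, σ (z - ζ) / g ζ ζ := by
  set L := max Lam 1 with hL
  have hL0 : 0 < L := lt_of_lt_of_le one_pos (le_max_right _ _)
  refine ⟨1 / L, by positivity, ?_⟩
  intro g hg hgL e σ he hσ hσ0 hs h1 z
  have hgL' : ‖g‖ ≤ L := hgL.trans (le_max_left _ _)
  have h0 : ∀ᵐ ζ : E4, ζ ≠ 0 := by
    have := (measure_singleton (μ := (volume : Measure E4)) (0 : E4))
    rw [ae_iff]; simp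
  have hmeas : Measurable fun ζ : E4 => 1 / g ζ ζ :=
    measurable_const.div (continuous_quad g).measurable
  have hb : ∀ ζ : E4, ζ ≠ 0 → |1 / g ζ ζ| ≤ (1 / lam) / ‖ζ‖ ^ 2 := by
    intro ζ hζ
    have hn : 0 < ‖ζ‖ := norm_pos_iff.mpr hζ
    have h3 : 0 < g ζ ζ := lt_of_lt_of_le (by positivity) (hg ζ)
    rw [abs_of_pos (by positivity), div_div]
    exact one_div_le_one_div_of_le (by positivity) (hg ζ)
  have hint1 : Integrable fun ζ => σ (z - ζ) * (1 / g ζ ζ) :=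
    int_conv hσ hs z (intOn_ker hmeas hb)
  have hn : 0 < ‖z‖ + e := by positivity
  have hint2 : Integrable fun ζ => σ (z - ζ) * (1 / L / (‖z‖ + e) ^ 2) :=
    int_conv (m := fun _ => 1 / L / (‖z‖ + e) ^ 2) hσ hs z
      (fun z r => integrableOn_const (by exact measure_closedBall_lt_top.ne))
  have hi : ∫ ζ, σ (z - ζ) * (1 / L / (‖z‖ + e) ^ 2) = 1 / L / (‖z‖ + e) ^ 2 := by
    rw [integral_mul_const, integral_sub_left_eq_self (fun ζ => σ ζ) volume z, h1, one_mul]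
  have he2 : ∫ ζ, σ (z - ζ) / g ζ ζ = ∫ ζ, σ (z - ζ) * (1 / g ζ ζ) := by
    congr 1; funext ζ; rw [mul_one_div]
  rw [he2]
  rw [← hi]
  apply integral_mono_ae hint2 hint1
  filter_upwards [h0] with ζ hζ
  have hζn : 0 < ‖ζ‖ := norm_pos_iff.mpr hζ
  by_cases hle : ‖z - ζ‖ ≤ e
  · apply mul_le_mul_of_nonneg_left _ (hσ0 _)
    have h3 : 0 < g ζ ζ := lt_of_lt_of_le (by positivity) (hg ζ)
    rw [div_div]
    apply one_div_le_one_div_of_le h3
    have h4 := quad_le g hgL' ζ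
    rw [abs_of_pos h3] at h4
    refine h4.trans ?_
    have h5 : ‖ζ‖ ≤ ‖z‖ + e := by
      have := norm_sub_le z (z - ζ)
      rw [sub_sub_cancel] at this
      linarith
    gcongr
  · show σ (z - ζ) * _ ≤ σ (z - ζ) * _
    rw [hs _ (not_le.mp hle), zero_mul, zero_mul]

end mk

end Crest.Agent.R240.Pot
end

-- ▼ part R240/PotU
section

/-!
# Row 240, Part P: bounds of the potential `u` (for helper657; helper369)
-/

set_option autoImplicit false
set_option maxSynthPendingDepth 3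
open scoped ContDiff
open MeasureTheory Metric Crest.Agent.R240.En

namespace Crest.Agent.R240.Pot

/-! ### the rescaled mollifier -/

section rho

variable {ρ : E4 → ℝ} {e : ℝ}

lemma rhoU_contDiff (h : ContDiff ℝ ∞ ρ) (e : ℝ) : ContDiff ℝ ∞ (rhoE ρ e) := by
  unfold rhoE
  exact contDiff_const.mul (h.comp (contDiff_const_smul _))

lemma rhoU_nonneg (h : ∀ z, 0 ≤ ρ z) (he : 0 < e) (z : E4) : 0 ≤ rhoE ρ e z := by
  unfold rhoE
  exact mul_nonneg (by positivity) (h _)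

lemma rhoU_zero (h : ∀ z, 1 ≤ ‖z‖ → ρ z = 0) (he : 0 < e) : ∀ z, e < ‖z‖ → rhoE ρ e z = 0 := by
  intro z hz
  unfold rhoE
  rw [h, mul_zero]
  rw [norm_smul, norm_inv, Real.norm_of_nonneg he.le, inv_mul_eq_div, one_le_div he]
  exact hz.le

lemma rhoU_integral (h1 : ∫ z, ρ z = 1) (he : 0 < e) : ∫ z, rhoE ρ e z = 1 := by
  unfold rhoE
  rw [integral_const_mul, Measure.integral_comp_inv_smul, h1]
  have : Module.finrank ℝ E4 = 4 := by simp
  rw [this, abs_of_pos (by positivity), smul_eq_mul, mul_one, inv_mul_cancel₀ (by positivity)]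

lemma rho_compact (h : ∀ z, 1 ≤ ‖z‖ → ρ z = 0) : HasCompactSupport ρ := by
  refine HasCompactSupport.intro (isCompact_closedBall (0 : E4) 1) fun z hz => h z ?_
  rw [mem_closedBall, dist_zero_right, not_le] at hz
  exact hz.le

/-- the derivative of the rescaled mollifier. -/
lemma rhoU_fderiv (h : ContDiff ℝ ∞ ρ) (he : 0 < e) (z : E4) :
    fderiv ℝ (rhoE ρ e) z = (e ^ 5)⁻¹ • fderiv ℝ ρ (e⁻¹ • z) := by
  have h1 : HasFDerivAt ρ (fderiv ℝ ρ (e⁻¹ • z)) (e⁻¹ • z) :=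
    ((h.differentiable (by simp)) _).hasFDerivAt
  have h2 : HasFDerivAt (fun z : E4 => e⁻¹ • z) (e⁻¹ • ContinuousLinearMap.id ℝ E4) z :=
    (hasFDerivAt_id z).const_smul e⁻¹
  have h3 := (h1.comp z h2).const_mul ((e ^ 4)⁻¹)
  have h4 : HasFDerivAt (rhoE ρ e) ((e ^ 4)⁻¹ • (fderiv ℝ ρ (e⁻¹ • z)).comp
      (e⁻¹ • ContinuousLinearMap.id ℝ E4)) z := h3
  rw [h4.fderiv]
  ext v
  simp only [smul_apply, ContinuousLinearMap.comp_apply, ContinuousLinearMap.id_apply,
    smul_eq_mul, map_smul]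
  field_simp

/-- bounds of the mollifier and of its derivative. -/
lemma exists_rho_bd (h : ContDiff ℝ ∞ ρ) (h0 : ∀ z, 1 ≤ ‖z‖ → ρ z = 0) :
    ∃ B : ℝ, 0 < B ∧ (∀ z, |ρ z| ≤ B) ∧ ∀ z, ‖fderiv ℝ ρ z‖ ≤ B := by
  have hc := rho_compact h0
  obtain ⟨B1, hB1⟩ := hc.exists_bound_of_continuous h.continuous
  obtain ⟨B2, hB2⟩ := (hc.fderiv (𝕜 := ℝ)).exists_bound_of_continuous
    (fd_contDiff h).continuous
  refine ⟨max (max B1 B2) 1, by positivity, fun z => ?_, fun z => ?_⟩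
  · exact (hB1 z).trans ((le_max_left _ _).trans (le_max_left _ _))
  · exact (hB2 z).trans ((le_max_right _ _).trans (le_max_left _ _))

lemma rhoE_bd {B : ℝ} (hB : ∀ z, |ρ z| ≤ B) (he : 0 < e) (z : E4) : |rhoE ρ e z| ≤ B / e ^ 4 := by
  unfold rhoE
  rw [abs_mul, abs_of_pos (by positivity), div_eq_inv_mul]
  exact mul_le_mul_of_nonneg_left (hB _) (by positivity)

lemma ddv_rhoE_bd {B : ℝ} (h : ContDiff ℝ ∞ ρ) (hB : ∀ z, ‖fderiv ℝ ρ z‖ ≤ B) (he : 0 < e)
    (v z : E4) : |ddv (rhoE ρ e) v z| ≤ B * ‖v‖ / e ^ 5 := by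
  unfold ddv
  rw [rhoU_fderiv h he, smul_apply, smul_eq_mul, abs_mul, abs_of_pos (by positivity),
    div_eq_inv_mul]
  apply mul_le_mul_of_nonneg_left _ (by positivity)
  have h1 := (fderiv ℝ ρ (e⁻¹ • z)).le_opNorm v
  rw [Real.norm_eq_abs] at h1
  exact h1.trans (mul_le_mul_of_nonneg_right (hB _) (norm_nonneg _))

lemma ddv_integral {σ : E4 → ℝ} (hσ : ContDiff ℝ ∞ σ) (hc : HasCompactSupport σ) (v : E4) :
    ∫ z, ddv σ v z = 0 := by
  unfold ddv
  exact integral_fderiv_zero (hσ.of_le (by exact_mod_cast le_top)) hc v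

end rho

namespace PD

variable (D : PD)

section
variable {V : Type*} [NormedAddCommGroup V] [NormedSpace ℝ V] [FiniteDimensional ℝ V]

/-- the inner integrals are integrable in `y`. -/
theorem GF_fub_integrable {r e : ℝ} {θ : E4 → V →ₗ[ℝ] ℝ} (hθ : ∀ v, MB D.c D.R fun y => θ y v)
    {f : E4 → V} (hf : Continuous f) (hf0 : ∀ z, e < ‖z‖ → f z = 0) {x : E4}
    (hx : D.Adm r e x) :
    Integrable (fun y => ∫ ζ, kk (D.k y • D.g y) (D.g y) ζ * θ y (f (x - y - ζ))) D.s := by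
  have := D.fin
  have hint := D.GF_int (r := r) hθ hf (compact_of_zero hf0) x
  unfold muP at hint
  have h0 := hint.integral_prod_left
  refine h0.congr (Filter.Eventually.of_forall fun y => ?_)
  simp only [TT, pP, LinearMap.smul_apply, smul_eq_mul]
  by_cases hy : y ∈ closedBall D.c D.R
  · have h1 : ∀ ζ, ζ ∉ closedBall (0 : E4) r →
        kk (D.k y • D.g y) (D.g y) ζ * θ y (f (x - y - ζ)) = 0 := by
      intro ζ hζ
      have h2 : e < ‖x - y - ζ‖ := by
        have h3 : r < ‖ζ‖ := by simpa using hζ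
        have h4 := hx y hy
        have h5 : ‖ζ‖ ≤ ‖x - y - ζ‖ + ‖x - y‖ := by
          calc ‖ζ‖ = ‖(x - y) - (x - y - ζ)‖ := by congr 1; abel
            _ ≤ ‖x - y‖ + ‖x - y - ζ‖ := norm_sub_le _ _
            _ = _ := by ring
        linarith
      rw [hf0 _ h2, map_zero, mul_zero]
    have h3 : ∫ ζ in closedBall (0 : E4) r, kk (D.k y • D.g y) (D.g y) ζ * θ y (f (x - y - ζ)) =
        ∫ ζ, kk (D.k y • D.g y) (D.g y) ζ * θ y (f (x - y - ζ)) :=
      setIntegral_eq_integral_of_forall_compl_eq_zero h1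
    rw [← h3]
    refine integral_congr_ae (Filter.Eventually.of_forall fun ζ => ?_)
    simp only
    rw [show x - (y + ζ) = x - y - ζ by abel]
  · have h2 : ∀ ζ, kk (D.k y • D.g y) (D.g y) ζ = 0 := by intro ζ; simp [kk, D.k0 y hy]
    simp [h2]

end

lemma adm {e : ℝ} (he : e ≤ D.R / 8) {x : E4} (hx : x ∈ ball D.c (5 / 8 * D.R)) :
    D.Adm (3 * D.R) e x := by
  intro y hy
  have hR := D.hR
  rw [mem_ball, dist_eq_norm] at hx
  rw [mem_closedBall, dist_eq_norm] at hy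
  have h : ‖x - y‖ ≤ ‖x - D.c‖ + ‖y - D.c‖ := by
    calc ‖x - y‖ = ‖(x - D.c) - (y - D.c)‖ := by congr 1; abel
      _ ≤ _ := norm_sub_le _ _
  linarith

/-- the kernel constant: uniform bounds for the kernels `kk (k y • g y) (g y)`. -/
lemma exists_ker_const : ∃ A1 : ℝ, 0 < A1 ∧
    ∀ y ∈ closedBall D.c D.R, ∀ (e B : ℝ) (σ : E4 → ℝ), 0 < e → 0 ≤ B → Continuous σ →
      (∀ z, e < ‖z‖ → σ z = 0) →
      ((∀ z, |σ z| ≤ B / e ^ 4) → ∀ z,
        |∫ ζ, σ (z - ζ) * kk (D.k y • D.g y) (D.g y) ζ| ≤ A1 * B / (‖z‖ + e) ^ 2) ∧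
      ((∀ z, |σ z| ≤ B / e ^ 5) → ∫ z, σ z = 0 → ∀ z,
        |∫ ζ, σ (z - ζ) * kk (D.k y • D.g y) (D.g y) ζ| ≤ A1 * B / (‖z‖ + e) ^ 3) := by
  obtain ⟨lam, hl, hlow⟩ := exists_lower D.smg.continuous D.gpos D.c D.R
  obtain ⟨L1, hL1, hup1⟩ := exists_upper D.smg.continuous D.c D.R
  obtain ⟨L2, hL2, hup2⟩ := exists_upper (D.smk.continuous.smul D.smg.continuous) D.c D.R
  obtain ⟨C, hC, hCb⟩ := kerbd
  obtain ⟨A, hA, hAb⟩ := mkbd (lam := lam) (Lam := max L1 L2) hl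
  refine ⟨C * A + 1, by positivity, ?_⟩
  intro y hy e B σ he hB hσ hs
  obtain ⟨h1, h2, h3⟩ := hAb (D.k y • D.g y) (D.g y) (hlow y hy)
    ((hup1 y hy).trans (le_max_left _ _)) ((hup2 y hy).trans (le_max_right _ _))
  obtain ⟨h4, h5⟩ := hCb _ A h1 hA h2 h3 e B σ he hB hσ hs
  constructor
  · intro hb z
    refine (h4 hb z).trans ?_
    have hn : 0 < ‖z‖ + e := by positivity
    gcongr
    linarith
  · intro hb hi z
    refine (h5 hb hi z).trans ?_
    have hn : 0 < ‖z‖ + e := by positivity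
    gcongr
    linarith

lemma wE_integrable (k : ℕ) {e : ℝ} (he : 0 < e) (x : E4) :
    Integrable (fun y => 1 / (‖x - y‖ + e) ^ k) D.s := by
  have := D.fin
  have hm : Measurable fun y : E4 => 1 / (‖x - y‖ + e) ^ k := by fun_prop
  refine Integrable.of_bound hm.aestronglyMeasurable ((e ^ k)⁻¹) ?_
  refine ae_of_all _ fun y => ?_
  have h0 : 0 < ‖x - y‖ + e := by positivity
  rw [Real.norm_of_nonneg (by positivity), one_div]
  apply inv_anti₀ (by positivity)
  have : e ≤ ‖x - y‖ + e := by have := norm_nonneg (x - y); linarith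
  exact pow_le_pow_left₀ he.le this k

lemma wE_nn (k : ℕ) {e : ℝ} (he : 0 < e) (x : E4) : 0 ≤ wE D.s D.c D.R e k x := by
  unfold wE
  apply integral_nonneg
  intro y
  show 0 ≤ 1 / (‖x - y‖ + e) ^ k
  positivity

/-- from a pointwise bound of the inner integrals to `wE`. -/
lemma int_le_wE {F : E4 → ℝ} {k : ℕ} {e C : ℝ} (he : 0 < e) (x : E4)
    (h0 : ∀ y, y ∉ closedBall D.c D.R → F y = 0)
    (h : ∀ y ∈ closedBall D.c D.R, |F y| ≤ C / (‖x - y‖ + e) ^ k) :
    |∫ y, F y ∂D.s| ≤ C * wE D.s D.c D.R e k x := by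
  rw [← setIntegral_eq_integral_of_forall_compl_eq_zero (s := closedBall D.c D.R) h0]
  unfold wE
  rw [← integral_const_mul]
  have h1 : Integrable (fun y => C * (1 / (‖x - y‖ + e) ^ k)) (D.s.restrict (closedBall D.c D.R)) :=
    ((D.wE_integrable k he x).const_mul C).integrableOn
  have := norm_integral_le_of_norm_le h1 (f := F) ?_
  · rwa [Real.norm_eq_abs] at this
  · filter_upwards [ae_restrict_mem measurableSet_closedBall] with y hy
    rw [Real.norm_eq_abs]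
    refine (h y hy).trans (le_of_eq ?_)
    ring

/-- **(U)** bounds for the potential. -/
theorem uBd (c0 : ℝ) (χ ρ : E4 → ℝ) : D.UBd c0 χ ρ := by
  intro hc0 hχ hρ τ hτ htr
  have hfin := D.fin
  have hR := D.hR
  obtain ⟨A1, hA1, hker⟩ := D.exists_ker_const
  obtain ⟨B, hB, hB1, hB2⟩ := exists_rho_bd hρ.sm hρ.sup
  obtain ⟨hmtr, T, hT0, hT⟩ := D.MBtr
  -- lower bound data
  obtain ⟨lam, hl, hlow⟩ := exists_lower D.smg.continuous D.gpos D.c D.R
  obtain ⟨L1, hL1, hup1⟩ := exists_upper D.smg.continuous D.c D.R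
  obtain ⟨c1, hc1, hkl⟩ := kerlow (lam := lam) (Lam := L1) hl
  obtain ⟨κ, hκ, hκl⟩ : ∃ κ : ℝ, 0 < κ ∧ ∀ y ∈ closedBall D.c D.R, κ ≤ kap c0 (D.g y) := by
    have hcont : Continuous fun y => kap c0 (D.g y) :=
      (kap_contDiff c0 D.smg D.gsymm D.gpos).continuous
    obtain ⟨y0, _, hy0⟩ := (isCompact_closedBall D.c D.R).exists_isMinOn
      ⟨D.c, mem_closedBall_self hR.le⟩ hcont.continuousOn
    exact ⟨kap c0 (D.g y0), kap_pos hc0 (D.gsymm y0) (D.gpos y0), fun y hy => hy0 hy⟩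
  have hθ : ∀ v : ℝ, MB D.c D.R fun y => (D.tr y • (LinearMap.id : ℝ →ₗ[ℝ] ℝ)) v := by
    intro v
    have := D.MBtr.mul (MB.const (c := D.c) (R := D.R) v)
    simpa [LinearMap.smul_apply] using this
  -- the constant
  set C1 : ℝ := T * (A1 * B) with hC1
  have hC1n : 0 ≤ C1 := by positivity
  set c2 : ℝ := τ * κ * c1 with hc2
  have hc2p : 0 < c2 := by positivity
  set M : ℝ := c2 * (64 / D.R ^ 2 * D.s.real Set.univ) with hM
  have hMn : 0 ≤ M := by positivity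
  refine ⟨C1 + 1 / c2 + M + 1, by positivity, ?_⟩
  intro e he he8 x hx
  have hadm := D.adm he8 hx
  have hσs := rhoU_contDiff hρ.sm e
  have hσ0 := rhoU_zero hρ.sup he
  have hσc := compact_of_zero hσ0
  have hw2 := D.wE_nn 2 he x
  have hw3 := D.wE_nn 3 he x
  -- formula for `u`
  have hu : D.uu (rhoE ρ e) x =
      ∫ y, (∫ ζ, kk (D.k y • D.g y) (D.g y) ζ * (D.tr y * rhoE ρ e (x - y - ζ))) ∂D.s := by
    unfold uu
    rw [D.GF_fub hθ hσs.continuous hσ0 hadm]
    simp only [LinearMap.smul_apply, LinearMap.id_apply, smul_eq_mul]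
  have hui : Integrable (fun y => ∫ ζ, kk (D.k y • D.g y) (D.g y) ζ *
      (D.tr y * rhoE ρ e (x - y - ζ))) D.s := by
    have := D.GF_fub_integrable hθ hσs.continuous hσ0 hadm
    simpa only [LinearMap.smul_apply, LinearMap.id_apply, smul_eq_mul] using this
  have hinner : ∀ (σ : E4 → ℝ) (y : E4), ∫ ζ, kk (D.k y • D.g y) (D.g y) ζ *
      (D.tr y * σ (x - y - ζ)) =
      D.tr y * ∫ ζ, σ (x - y - ζ) * kk (D.k y • D.g y) (D.g y) ζ := by
    intro σ y
    rw [← integral_const_mul]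
    refine integral_congr_ae (Filter.Eventually.of_forall fun ζ => ?_)
    simp only
    ring
  have hkk0 : ∀ (σ : E4 → ℝ) (y : E4), y ∉ closedBall D.c D.R →
      ∫ ζ, kk (D.k y • D.g y) (D.g y) ζ * (D.tr y * σ (x - y - ζ)) = 0 := by
    intro σ y hy
    have h2 : ∀ ζ, kk (D.k y • D.g y) (D.g y) ζ = 0 := by intro ζ; simp [kk, D.k0 y hy]
    simp [h2]
  -- upper bound
  have hupper : |D.uu (rhoE ρ e) x| ≤ C1 * wE D.s D.c D.R e 2 x := by
    rw [hu]
    refine D.int_le_wE he x (hkk0 _) fun y hy => ?_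
    rw [hinner, abs_mul]
    have h1 := (hker y hy e B (rhoE ρ e) he hB.le hσs.continuous hσ0).1
      (fun z => rhoE_bd hB1 he z) (x - y)
    calc |D.tr y| * |∫ ζ, rhoE ρ e (x - y - ζ) * kk (D.k y • D.g y) (D.g y) ζ|
        ≤ T * (A1 * B / (‖x - y‖ + e) ^ 2) :=
          mul_le_mul (hT y hy) h1 (abs_nonneg _) hT0
      _ = _ := by rw [hC1]; ring
  refine ⟨?_, ?_, ?_⟩
  · -- lower bound
    have hsplit : wE D.s D.c D.R e 2 x ≤
        (∫ y in closedBall D.c (3 / 4 * D.R), 1 / (‖x - y‖ + e) ^ 2 ∂D.s) +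
          64 / D.R ^ 2 * D.s.real Set.univ := by
      unfold wE
      have hsub : closedBall D.c (3 / 4 * D.R) ⊆ closedBall D.c D.R :=
        closedBall_subset_closedBall (by linarith)
      have hun : closedBall D.c D.R =
          closedBall D.c (3 / 4 * D.R) ∪ (closedBall D.c D.R \ closedBall D.c (3 / 4 * D.R)) :=
        (Set.union_sdiff_cancel hsub).symm
      have hi := D.wE_integrable 2 he x
      rw [hun, setIntegral_union Set.disjoint_sdiff_right
        (measurableSet_closedBall.diff measurableSet_closedBall) hi.integrableOn hi.integrableOn]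
      gcongr
      have hb : ∀ y ∈ closedBall D.c D.R \ closedBall D.c (3 / 4 * D.R),
          ‖1 / (‖x - y‖ + e) ^ 2‖ ≤ 64 / D.R ^ 2 := by
        intro y hy
        have hy2 : 3 / 4 * D.R < ‖y - D.c‖ := by
          have := hy.2
          rw [mem_closedBall, dist_eq_norm, not_le] at this
          exact this
        have hx2 : ‖x - D.c‖ < 5 / 8 * D.R := by
          rw [mem_ball, dist_eq_norm] at hx; exact hx
        have h3 : D.R / 8 ≤ ‖x - y‖ := by
          have h4 : ‖y - D.c‖ ≤ ‖x - D.c‖ + ‖x - y‖ := by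
            calc ‖y - D.c‖ = ‖(x - D.c) - (x - y)‖ := by congr 1; abel
              _ ≤ _ := norm_sub_le _ _
          linarith
        rw [Real.norm_of_nonneg (by positivity)]
        have h5 : (D.R / 8) ^ 2 ≤ (‖x - y‖ + e) ^ 2 :=
          pow_le_pow_left₀ (by positivity) (by linarith) 2
        calc 1 / (‖x - y‖ + e) ^ 2 ≤ 1 / (D.R / 8) ^ 2 :=
              one_div_le_one_div_of_le (by positivity) h5
          _ = 64 / D.R ^ 2 := by field_simp; norm_num
      have h6 := norm_setIntegral_le_of_norm_le_const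
        (measure_lt_top D.s (closedBall D.c D.R \ closedBall D.c (3 / 4 * D.R))) hb
      rw [Real.norm_eq_abs] at h6
      have h7 : D.s.real (closedBall D.c D.R \ closedBall D.c (3 / 4 * D.R)) ≤
          D.s.real Set.univ := measureReal_mono (Set.subset_univ _) (measure_ne_top _ _)
      exact (le_abs_self _).trans (h6.trans (mul_le_mul_of_nonneg_left h7 (by positivity)))
    have hlowb : c2 * (∫ y in closedBall D.c (3 / 4 * D.R), 1 / (‖x - y‖ + e) ^ 2 ∂D.s) ≤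
        - D.uu (rhoE ρ e) x := by
      rw [hu, ← integral_neg, ← integral_const_mul, ← integral_indicator measurableSet_closedBall]
      have hnn : ∀ y ∈ closedBall D.c D.R, ∀ z : E4,
          c1 / (‖z‖ + e) ^ 2 ≤ ∫ ζ, rhoE ρ e (z - ζ) / D.g y ζ ζ := fun y hy z =>
        hkl (D.g y) (hlow y hy) (hup1 y hy) e (rhoE ρ e) he hσs.continuous
          (fun z => rhoU_nonneg hρ.nn he z) hσ0 (rhoU_integral hρ.one he) z
      have hform : ∀ y ∈ closedBall D.c D.R,
          -(∫ ζ, kk (D.k y • D.g y) (D.g y) ζ * (D.tr y * rhoE ρ e (x - y - ζ))) =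
          D.tr y * (χ y * kap c0 (D.g y)) * ∫ ζ, rhoE ρ e (x - y - ζ) / D.g y ζ ζ := by
        intro y hy
        rw [← integral_neg, ← integral_const_mul]
        refine integral_congr_ae (Filter.Eventually.of_forall fun ζ => ?_)
        simp only [kk_of_smul]
        rw [hχ.kk y]
        ring
      apply integral_mono_of_nonneg
      · refine Filter.Eventually.of_forall fun y => ?_
        apply Set.indicator_nonneg
        intro z _
        positivity
      · exact hui.neg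
      · refine Filter.Eventually.of_forall fun y => ?_
        show (closedBall D.c (3 / 4 * D.R)).indicator
            (fun y => c2 * (1 / (‖x - y‖ + e) ^ 2)) y ≤
          -(∫ ζ, kk (D.k y • D.g y) (D.g y) ζ * (D.tr y * rhoE ρ e (x - y - ζ)))
        by_cases hy : y ∈ closedBall D.c D.R
        · rw [hform y hy]
          have h7 := hnn y hy (x - y)
          have h8 : 0 < c1 / (‖x - y‖ + e) ^ 2 := by positivity
          have hκy := hκl y hy
          have hty := htr y hy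
          by_cases hy2 : y ∈ closedBall D.c (3 / 4 * D.R)
          · rw [Set.indicator_of_mem hy2, hχ.one y hy2, one_mul]
            calc c2 * (1 / (‖x - y‖ + e) ^ 2) = τ * κ * (c1 / (‖x - y‖ + e) ^ 2) := by
                  rw [hc2]; ring
              _ ≤ D.tr y * kap c0 (D.g y) * ∫ ζ, rhoE ρ e (x - y - ζ) / D.g y ζ ζ := by
                  apply mul_le_mul _ h7 h8.le
                  · have : 0 < kap c0 (D.g y) := hκ.trans_le hκy
                    have : 0 < D.tr y := hτ.trans_le hty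
                    positivity
                  · exact mul_le_mul hty hκy hκ.le (hτ.le.trans hty)
          · rw [Set.indicator_of_notMem hy2]
            have h9 : 0 < kap c0 (D.g y) := hκ.trans_le hκy
            have h10 : 0 < D.tr y := hτ.trans_le hty
            have h11 := hχ.nn y
            have h12 : 0 ≤ ∫ ζ, rhoE ρ e (x - y - ζ) / D.g y ζ ζ := h8.le.trans h7
            positivity
        · rw [hkk0 _ y hy, neg_zero]
          rw [Set.indicator_of_notMem]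
          intro h
          exact hy (closedBall_subset_closedBall (by linarith) h)
    have hfinal : c2 * wE D.s D.c D.R e 2 x - M ≤ - D.uu (rhoE ρ e) x := by
      have := mul_le_mul_of_nonneg_left hsplit hc2p.le
      rw [mul_add] at this
      rw [hM]
      linarith
    refine le_trans ?_ hfinal
    have hCpos : 0 < C1 + 1 / c2 + M + 1 := by positivity
    have h13 : wE D.s D.c D.R e 2 x / (C1 + 1 / c2 + M + 1) ≤ c2 * wE D.s D.c D.R e 2 x := by
      rw [div_le_iff₀ hCpos]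
      have h14 : 1 ≤ c2 * (C1 + 1 / c2 + M + 1) := by
        have h15 : c2 * (C1 + 1 / c2 + M + 1) = 1 + c2 * (C1 + M + 1) := by
          field_simp
          ring
        rw [h15]
        have : 0 ≤ c2 * (C1 + M + 1) := by positivity
        linarith
      calc wE D.s D.c D.R e 2 x = 1 * wE D.s D.c D.R e 2 x := (one_mul _).symm
        _ ≤ (c2 * (C1 + 1 / c2 + M + 1)) * wE D.s D.c D.R e 2 x :=
            mul_le_mul_of_nonneg_right h14 hw2
        _ = _ := by ring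
    have h16 : 0 < 1 / c2 := by positivity
    linarith
  · refine (neg_le_abs _).trans (hupper.trans ?_)
    apply mul_le_mul_of_nonneg_right _ hw2
    have : 0 < 1 / c2 := by positivity
    linarith
  · -- gradient
    have hCpos : 0 ≤ C1 + 1 / c2 + M + 1 := by positivity
    refine ContinuousLinearMap.opNorm_le_bound _ (by positivity) fun v => ?_
    have hfd : fderiv ℝ (D.uu (rhoE ρ e)) x v =
        ∫ y, (∫ ζ, kk (D.k y • D.g y) (D.g y) ζ * (D.tr y * ddv (rhoE ρ e) v (x - y - ζ))) ∂D.s := by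
      unfold uu
      rw [D.GF_fderiv hθ hσs hσc]
      have hz : ∀ z, e < ‖z‖ → ddv (rhoE ρ e) v z = 0 := by
        intro z hz
        unfold ddv
        rw [fderiv_zero_of_zero hσ0 z hz]
        rfl
      rw [D.GF_fub hθ (ddv_contDiff hσs v).continuous hz hadm]
      simp only [LinearMap.smul_apply, LinearMap.id_apply, smul_eq_mul]
    have hz : ∀ z, e < ‖z‖ → ddv (rhoE ρ e) v z = 0 := by
      intro z hz
      unfold ddv
      rw [fderiv_zero_of_zero hσ0 z hz]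
      rfl
    rw [hfd, Real.norm_eq_abs]
    have h1 : |∫ y, (∫ ζ, kk (D.k y • D.g y) (D.g y) ζ *
        (D.tr y * ddv (rhoE ρ e) v (x - y - ζ))) ∂D.s| ≤
        (C1 * ‖v‖) * wE D.s D.c D.R e 3 x := by
      refine D.int_le_wE he x (hkk0 _) fun y hy => ?_
      rw [hinner, abs_mul]
      have h2 := (hker y hy e (B * ‖v‖) (ddv (rhoE ρ e) v) he (by positivity)
        (ddv_contDiff hσs v).continuous hz).2
        (fun z => ddv_rhoE_bd hρ.sm hB2 he v z) (ddv_integral hσs hσc v) (x - y)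
      calc |D.tr y| * |∫ ζ, ddv (rhoE ρ e) v (x - y - ζ) * kk (D.k y • D.g y) (D.g y) ζ|
          ≤ T * (A1 * (B * ‖v‖) / (‖x - y‖ + e) ^ 3) :=
            mul_le_mul (hT y hy) h2 (abs_nonneg _) hT0
        _ = _ := by rw [hC1]; ring
    refine h1.trans ?_
    have h3 : C1 ≤ C1 + 1 / c2 + M + 1 := by
      have : 0 < 1 / c2 := by positivity
      linarith
    calc C1 * ‖v‖ * wE D.s D.c D.R e 3 x ≤
        (C1 + 1 / c2 + M + 1) * ‖v‖ * wE D.s D.c D.R e 3 x := by gcongr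
      _ = _ := by ring

end PD

end Crest.Agent.R240.Pot
end

-- ▼ part R240/PotA1
section

/-!
# Row 240, Part P: bound of `a1 = b1 - J^c du` (helper369)
-/

set_option autoImplicit false
set_option maxSynthPendingDepth 3
open scoped ContDiff
open MeasureTheory Metric Crest.Agent.R240.En

namespace Crest.Agent.R240.Pot.PD

variable (D : PD)

/-- Lipschitz bound of `J` on a ball. -/
lemma exists_lip_J : ∃ L : ℝ, 0 < L ∧ ∀ x ∈ closedBall D.c D.R, ∀ y ∈ closedBall D.c D.R,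
    ‖D.J x - D.J y‖ ≤ L * ‖x - y‖ := by
  obtain ⟨L, hL, hLb⟩ := exists_upper (fd_contDiff D.smJ).continuous D.c D.R
  refine ⟨L, hL, fun x hx y hy => ?_⟩
  have := (convex_closedBall D.c D.R).norm_image_sub_le_of_norm_fderiv_le (𝕜 := ℝ) (f := D.J)
    (fun z _ => (D.smJ.differentiable (by simp)) z) (fun z hz => hLb z hz) hy hx
  exact this

/-- **(A1)** -/
theorem a1Bd (ρ : E4 → ℝ) : D.A1Bd ρ := by
  intro hρ
  have hfin := D.fin
  have hR := D.hR
  obtain ⟨A1, hA1, hker⟩ := D.exists_ker_const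
  obtain ⟨B, hB, hB1, hB2⟩ := exists_rho_bd hρ.sm hρ.sup
  obtain ⟨hmtr, T, hT0, hT⟩ := D.MBtr
  obtain ⟨L, hL, hLb⟩ := D.exists_lip_J
  have hθ : ∀ v : ℝ, MB D.c D.R fun y => (D.tr y • (LinearMap.id : ℝ →ₗ[ℝ] ℝ)) v := by
    intro v
    have := D.MBtr.mul (MB.const (c := D.c) (R := D.R) v)
    simpa [LinearMap.smul_apply] using this
  refine ⟨T * (A1 * B) * L + 1, by positivity, ?_⟩
  intro e he he8 x hx
  have hadm := D.adm he8 hx
  have hσs := rhoU_contDiff hρ.sm e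
  have hσ0 := rhoU_zero hρ.sup he
  have hσc := compact_of_zero hσ0
  have hw2 := D.wE_nn 2 he x
  have hxR : x ∈ closedBall D.c D.R := by
    rw [mem_ball] at hx; rw [mem_closedBall]; linarith
  have hfd0 : ∀ z, e < ‖z‖ → fderiv ℝ (rhoE ρ e) z = 0 := fderiv_zero_of_zero hσ0
  have hfds := fd_contDiff hσs
  refine ContinuousLinearMap.opNorm_le_bound _ (by positivity) fun w => ?_
  have hz : ∀ v z, e < ‖z‖ → ddv (rhoE ρ e) v z = 0 := by
    intro v z hz
    unfold ddv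
    rw [hfd0 z hz]
    rfl
  -- first term
  have e1 : D.b1 (3 * D.R) (rhoE ρ e) x w =
      ∫ y, (∫ ζ, kk (D.k y • D.g y) (D.g y) ζ *
        (D.t1 y w (fderiv ℝ (rhoE ρ e) (x - y - ζ)))) ∂D.s := by
    rw [b1, D.CV_apply D.MB1 D.t1_add D.t1_smul hσs hσc,
      D.GF_fub (D.MB1 w) hfds.continuous hfd0 hadm]
  have i1 := D.GF_fub_integrable (D.MB1 w) hfds.continuous hfd0 hadm
  -- second term
  have e2 : fderiv ℝ (D.uu (rhoE ρ e)) x (D.J x w) =
      ∫ y, (∫ ζ, kk (D.k y • D.g y) (D.g y) ζ *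
        (D.tr y * ddv (rhoE ρ e) (D.J x w) (x - y - ζ))) ∂D.s := by
    unfold uu
    rw [D.GF_fderiv hθ hσs hσc, D.GF_fub hθ (ddv_contDiff hσs _).continuous (hz _) hadm]
    simp only [LinearMap.smul_apply, LinearMap.id_apply, smul_eq_mul]
  have i2 : Integrable (fun y => ∫ ζ, kk (D.k y • D.g y) (D.g y) ζ *
      (D.tr y * ddv (rhoE ρ e) (D.J x w) (x - y - ζ))) D.s := by
    have := D.GF_fub_integrable hθ (ddv_contDiff hσs (D.J x w)).continuous (hz _) hadm
    simpa only [LinearMap.smul_apply, LinearMap.id_apply, smul_eq_mul] using this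
  have hkk0 : ∀ (f : E4 → E4 → ℝ) (y : E4), y ∉ closedBall D.c D.R →
      ∫ ζ, kk (D.k y • D.g y) (D.g y) ζ * f y ζ = 0 := by
    intro σ y hy
    have h2 : ∀ ζ, kk (D.k y • D.g y) (D.g y) ζ = 0 := by intro ζ; simp [kk, D.k0 y hy]
    simp [h2]
  -- integrability of the kernels against continuous functions vanishing far away
  have hki : ∀ y ∈ closedBall D.c D.R, ∀ (σ : E4 → ℝ), Continuous σ →
      (∀ z, e < ‖z‖ → σ z = 0) → ∀ z,
      Integrable fun ζ => σ (z - ζ) * kk (D.k y • D.g y) (D.g y) ζ := by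
    intro y hy σ hσ hs z
    obtain ⟨lam, hl, hlow⟩ := exists_lower D.smg.continuous D.gpos D.c D.R
    have hm : Measurable (kk (D.k y • D.g y) (D.g y)) :=
      (continuous_quad _).measurable.div ((continuous_quad _).measurable.pow_const 2)
    have hb : ∀ ζ, ζ ≠ 0 → |kk (D.k y • D.g y) (D.g y) ζ| ≤
        (‖D.k y • D.g y‖ / lam ^ 2) / ‖ζ‖ ^ 2 := by
      intro ζ _
      have := kk_bd hl (hlow y hy) (le_refl ‖D.k y • D.g y‖) ζ
      refine this.trans (le_of_eq ?_)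
      ring
    exact int_conv hσ hs z (intOn_ker hm hb)
  have hinner : ∀ y ∈ closedBall D.c D.R,
      (∫ ζ, kk (D.k y • D.g y) (D.g y) ζ * (D.t1 y w (fderiv ℝ (rhoE ρ e) (x - y - ζ)))) +
      (∫ ζ, kk (D.k y • D.g y) (D.g y) ζ *
        (D.tr y * ddv (rhoE ρ e) (D.J x w) (x - y - ζ))) =
      D.tr y * ∫ ζ, ddv (rhoE ρ e) ((D.J x - D.J y) w) (x - y - ζ) *
        kk (D.k y • D.g y) (D.g y) ζ := by
    intro y hy
    have j1 : Integrable fun ζ => kk (D.k y • D.g y) (D.g y) ζ *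
        (D.t1 y w (fderiv ℝ (rhoE ρ e) (x - y - ζ))) := by
      have := (hki y hy _ (ddv_contDiff hσs (D.J y w)).continuous (hz _) (x - y)).const_mul
        (-D.tr y)
      refine this.congr (Filter.Eventually.of_forall fun ζ => ?_)
      simp only [t1, th1, LinearMap.coe_mk, AddHom.coe_mk, ddv]
      ring
    have j2 : Integrable fun ζ => kk (D.k y • D.g y) (D.g y) ζ *
        (D.tr y * ddv (rhoE ρ e) (D.J x w) (x - y - ζ)) := by
      have := (hki y hy _ (ddv_contDiff hσs (D.J x w)).continuous (hz _) (x - y)).const_mul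
        (D.tr y)
      refine this.congr (Filter.Eventually.of_forall fun ζ => ?_)
      simp only
      ring
    rw [← integral_add j1 j2, ← integral_const_mul]
    refine integral_congr_ae (Filter.Eventually.of_forall fun ζ => ?_)
    simp only [t1, th1, LinearMap.coe_mk, AddHom.coe_mk, ddv, sub_apply, map_sub]
    ring
  have hval : (D.b1 (3 * D.R) (rhoE ρ e) x -
      Jc (D.J x) (fderiv ℝ (D.uu (rhoE ρ e)) x)) w =
      ∫ y, ((∫ ζ, kk (D.k y • D.g y) (D.g y) ζ *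
        (D.t1 y w (fderiv ℝ (rhoE ρ e) (x - y - ζ)))) +
      (∫ ζ, kk (D.k y • D.g y) (D.g y) ζ *
        (D.tr y * ddv (rhoE ρ e) (D.J x w) (x - y - ζ)))) ∂D.s := by
    rw [integral_add i1 i2, ← e1, ← e2]
    rw [sub_apply]
    have : Jc (D.J x) (fderiv ℝ (D.uu (rhoE ρ e)) x) w =
        - fderiv ℝ (D.uu (rhoE ρ e)) x (D.J x w) := by simp
    rw [this, sub_neg_eq_add]
  rw [hval, Real.norm_eq_abs]
  have h1 := D.int_le_wE (k := 2) (C := T * (A1 * B) * L * ‖w‖) he x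
    (F := fun y => (∫ ζ, kk (D.k y • D.g y) (D.g y) ζ *
        (D.t1 y w (fderiv ℝ (rhoE ρ e) (x - y - ζ)))) +
      (∫ ζ, kk (D.k y • D.g y) (D.g y) ζ *
        (D.tr y * ddv (rhoE ρ e) (D.J x w) (x - y - ζ))))
    (fun y hy => by
      rw [hkk0 (fun y ζ => D.t1 y w (fderiv ℝ (rhoE ρ e) (x - y - ζ))) y hy,
        hkk0 (fun y ζ => D.tr y * ddv (rhoE ρ e) (D.J x w) (x - y - ζ)) y hy, add_zero])
    (fun y hy => ?_)
  · refine h1.trans ?_
    calc T * (A1 * B) * L * ‖w‖ * wE D.s D.c D.R e 2 x ≤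
        (T * (A1 * B) * L + 1) * ‖w‖ * wE D.s D.c D.R e 2 x := by
          gcongr; linarith
      _ = _ := by ring
  · rw [hinner y hy, abs_mul]
    set v := (D.J x - D.J y) w with hv
    have hvn : ‖v‖ ≤ L * ‖x - y‖ * ‖w‖ :=
      ((D.J x - D.J y).le_opNorm w).trans
        (mul_le_mul_of_nonneg_right (hLb x hxR y hy) (norm_nonneg _))
    have h2 := (hker y hy e (B * ‖v‖) (ddv (rhoE ρ e) v) he (by positivity)
      (ddv_contDiff hσs v).continuous (hz _)).2
      (fun z => ddv_rhoE_bd hρ.sm hB2 he v z) (ddv_integral hσs hσc v) (x - y)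
    have hn : 0 < ‖x - y‖ + e := by positivity
    calc |D.tr y| * |∫ ζ, ddv (rhoE ρ e) v (x - y - ζ) * kk (D.k y • D.g y) (D.g y) ζ|
        ≤ T * (A1 * (B * ‖v‖) / (‖x - y‖ + e) ^ 3) :=
          mul_le_mul (hT y hy) h2 (abs_nonneg _) hT0
      _ ≤ T * (A1 * (B * (L * ‖x - y‖ * ‖w‖)) / (‖x - y‖ + e) ^ 3) := by gcongr
      _ ≤ T * (A1 * (B * (L * (‖x - y‖ + e) * ‖w‖)) / (‖x - y‖ + e) ^ 3) := by
          gcongr; linarith
      _ = T * (A1 * B) * L * ‖w‖ / (‖x - y‖ + e) ^ 2 := by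
          field_simp

end Crest.Agent.R240.Pot.PD
end

-- ▼ part R240/PotB2
section

/-!
Row 240 (S0371), Part P (helper365): the estimates (B2) and (PS), i.e. `PD.b2Bd` and `PD.psiBd`:
integration by parts in `y` against the closed current, with the frozen kernels.
-/

set_option autoImplicit false
set_option maxSynthPendingDepth 3
open scoped ContDiff
open MeasureTheory Metric Crest.Agent.R240.En

namespace Crest.Agent.R240.Pot

/-! ### derivative of the quotient -/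

/-- numerator of the derivative of `b / g` in the direction `v` -/
noncomputable def qd (b : E4 → ℝ) (g : E4 → Bil) (v y : E4) : Bil :=
  (fderiv ℝ b y v) • g y - b y • (fderiv ℝ g y v)

lemma qd_cont {b : E4 → ℝ} {g : E4 → Bil} (hb : ContDiff ℝ ∞ b) (hg : ContDiff ℝ ∞ g) (v : E4) :
    Continuous (qd b g v) := by
  have h1 : Continuous fun y => fderiv ℝ b y v := (dd_contDiff hb v).continuous
  have h2 : Continuous fun y => fderiv ℝ g y v :=
    ((hg.fderiv_right (m := ∞) le_rfl).clm_apply contDiff_const).continuous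
  exact (h1.smul hg.continuous).sub (hb.continuous.smul h2)

lemma qd_zero {b : E4 → ℝ} {g : E4 → Bil} {v y : E4} (hy : y ∉ tsupport b) : qd b g v y = 0 := by
  have h1 : b y = 0 := image_eq_zero_of_notMem_tsupport hy
  have h2 : fderiv ℝ b y = 0 := by
    have : y ∉ tsupport (fderiv ℝ b) := fun h => hy (tsupport_fderiv_subset ℝ h)
    exact image_eq_zero_of_notMem_tsupport this
  unfold qd
  rw [h1, h2]
  simp

lemma quot_fderiv {b G : E4 → ℝ} {b' G' : Cov} {y : E4} (hb : HasFDerivAt b b' y)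
    (hG : HasFDerivAt G G' y) (h0 : G y ≠ 0) (v : E4) :
    fderiv ℝ (fun y => b y / G y) y v = (b' v * G y - b y * G' v) / (G y) ^ 2 := by
  have h1 : HasFDerivAt (fun y => (G y)⁻¹) ((-((G y) ^ 2)⁻¹) • G') y :=
    (hasDerivAt_inv h0).comp_hasFDerivAt y hG
  have h2 : HasFDerivAt (fun y => b y * (G y)⁻¹) (b y • ((-((G y) ^ 2)⁻¹) • G') + (G y)⁻¹ • b') y :=
    hb.mul h1
  have h3 : (fun y => b y / G y) = fun y => b y * (G y)⁻¹ := by
    funext y; exact div_eq_mul_inv _ _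
  rw [h3, h2.fderiv]
  simp only [add_apply, smul_apply, smul_eq_mul]
  field_simp
  ring

lemma quad_hasFDerivAt {g : E4 → Bil} (hg : ContDiff ℝ ∞ g) (y ζ : E4) :
    HasFDerivAt (fun y => g y ζ ζ) ((ContinuousLinearMap.apply ℝ ℝ ζ).comp
      ((ContinuousLinearMap.apply ℝ (E4 →L[ℝ] ℝ) ζ).comp (fderiv ℝ g y))) y := by
  have e1 : HasFDerivAt (fun x => g x ζ)
      ((ContinuousLinearMap.apply ℝ (E4 →L[ℝ] ℝ) ζ).comp (fderiv ℝ g y)) y :=
    (ContinuousLinearMap.apply ℝ (E4 →L[ℝ] ℝ) ζ).hasFDerivAt.comp y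
      ((hg.differentiable (by simp)) y).hasFDerivAt
  exact (ContinuousLinearMap.apply ℝ ℝ ζ).hasFDerivAt.comp y e1

lemma kk_fderiv {b : E4 → ℝ} {g : E4 → Bil} (hb : ContDiff ℝ ∞ b) (hg : ContDiff ℝ ∞ g)
    {y ζ : E4} (h0 : g y ζ ζ ≠ 0) (v : E4) :
    fderiv ℝ (fun y => b y / g y ζ ζ) y v = kk (qd b g v y) (g y) ζ := by
  rw [quot_fderiv ((hb.differentiable (by simp)) y).hasFDerivAt (quad_hasFDerivAt hg y ζ) h0]
  rfl

lemma kk_zero_right (q g : Bil) : kk q g 0 = 0 := by simp [kk]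

/-! ### the kernel predicate -/

/-- bound of order `p` for the mollification with `σ` of kernels of size `|ζ|^{-2}` -/
def KB (p : ℕ) (e B : ℝ) (σ : E4 → ℝ) : Prop :=
  ∀ (m : E4 → ℝ) (A : ℝ), Measurable m → 0 ≤ A → (∀ ζ, ζ ≠ 0 → |m ζ| ≤ A / ‖ζ‖ ^ 2) →
    (∀ z ζ : E4, z ≠ 0 → ‖ζ - z‖ ≤ ‖z‖ / 2 → |m ζ - m z| ≤ A * ‖ζ - z‖ / ‖z‖ ^ 3) →
    ∀ z, |∫ ζ, σ (z - ζ) * m ζ| ≤ B * A / (‖z‖ + e) ^ p

namespace PD

variable (D : PD)

/-- left hand side -/
noncomputable def L3 (r : ℝ) (a σ : E4 → ℝ) (u v w x : E4) : ℝ :=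
  ∫ t, kk (D.k t.1 • D.g t.1) (D.g t.1) t.2 *
    (a t.1 * wed3 (fderiv ℝ σ (x - pP t)) (fb (D.φ t.1)) u v w) ∂(muP D.s r)

/-- right hand side -/
noncomputable def R3 (r : ℝ) (a σ : E4 → ℝ) (u v w x : E4) : ℝ :=
  ∫ t, σ (x - pP t) * wed3 (fun z => kk (qd (fun y => D.k y * a y) D.g z t.1) (D.g t.1) t.2)
    (fb (D.φ t.1)) u v w ∂(muP D.s r)

section

variable {D}
variable {a : E4 → ℝ} (ha : ContDiff ℝ ∞ a)

include ha in
lemma smb : ContDiff ℝ ∞ fun y => D.k y * a y := D.smk.mul ha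

lemma tsb : tsupport (fun y => D.k y * a y) ⊆ ball D.c D.R :=
  (closure_mono (Function.support_mul_subset_left D.k a)).trans D.hk

lemma b0 {y : E4} (hy : y ∉ closedBall D.c D.R) : (fun y => D.k y * a y) y = 0 := by
  simp only [D.k0 y hy, zero_mul]

lemma q0 (v : E4) {y : E4} (hy : y ∉ closedBall D.c D.R) :
    qd (fun y => D.k y * a y) D.g v y = 0 :=
  qd_zero fun h => hy (ball_subset_closedBall (tsb h))

lemma kk_b (y ζ : E4) : kk ((D.k y * a y) • D.g y) (D.g y) ζ =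
    a y * kk (D.k y • D.g y) (D.g y) ζ := by
  rw [kk_of_smul, kk_of_smul]; ring

/-- integrability of one term -/
lemma term_int {q : E4 → Bil} (hq : Continuous q) (hq0 : ∀ y, y ∉ closedBall D.c D.R → q y = 0)
    {h : E4 → ℝ} (hh : MB D.c D.R h) {σ : E4 → ℝ} (hσ : Continuous σ) (hc : HasCompactSupport σ)
    (r : ℝ) (x : E4) : Integrable (fun t => wq D.g q h t * σ (x - pP t)) (muP D.s r) := by
  have := D.fin
  obtain ⟨hm, B, _, hB⟩ := hh
  exact SS_integrable (wq_int D.smg.continuous D.gpos hq hq0 hm hB) pP_meas hσ hc x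

include ha in
lemma L3_int {σ : E4 → ℝ} (hσ : ContDiff ℝ ∞ σ) (hc : HasCompactSupport σ) (r : ℝ)
    (u v w x : E4) : Integrable (fun t => kk (D.k t.1 • D.g t.1) (D.g t.1) t.2 *
    (a t.1 * wed3 (fderiv ℝ σ (x - pP t)) (fb (D.φ t.1)) u v w)) (muP D.s r) := by
  have hq : Continuous fun y => (D.k y * a y) • D.g y := (smb ha).continuous.smul D.smg.continuous
  have hq0 : ∀ y, y ∉ closedBall D.c D.R → (D.k y * a y) • D.g y = 0 := fun y hy => by
    rw [D.k0 y hy, zero_mul, zero_smul]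
  have T : ∀ (v w u : E4), Integrable (fun t => wq D.g (fun y => (D.k y * a y) • D.g y)
      (fun y => D.φ y v w) t * dd σ u (x - pP t)) (muP D.s r) := fun v w u =>
    term_int hq hq0 (MB_phi D.mφ D.bA v w) (dd_contDiff hσ u).continuous (dd_compact hc u) r x
  refine (((T v w u).sub (T u w v)).add (T u v w)).congr (Filter.Eventually.of_forall fun t => ?_)
  simp only [Pi.add_apply, Pi.sub_apply, wq, kk_b, dd, wed3]
  ring

include ha in
lemma R3_int {σ : E4 → ℝ} (hσ : Continuous σ) (hc : HasCompactSupport σ) (r : ℝ)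
    (u v w x : E4) : Integrable (fun t => σ (x - pP t) *
      wed3 (fun z => kk (qd (fun y => D.k y * a y) D.g z t.1) (D.g t.1) t.2)
        (fb (D.φ t.1)) u v w) (muP D.s r) := by
  have T : ∀ (v w u : E4), Integrable (fun t => wq D.g (qd (fun y => D.k y * a y) D.g u)
      (fun y => D.φ y v w) t * σ (x - pP t)) (muP D.s r) := fun v w u =>
    term_int (qd_cont (smb ha) D.smg u) (fun y hy => q0 u hy) (MB_phi D.mφ D.bA v w) hσ hc r x
  refine (((T v w u).sub (T u w v)).add (T u v w)).congr (Filter.Eventually.of_forall fun t => ?_)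
  simp only [Pi.add_apply, Pi.sub_apply, wq, wed3]
  ring

include ha in
/-- integration by parts -/
theorem L3_eq_R3 (hcl : D.ClosedCur) {σ : E4 → ℝ} (hσ : ContDiff ℝ ∞ σ)
    (hc : HasCompactSupport σ) (r : ℝ) (u v w x : E4) :
    D.L3 r a σ u v w x = D.R3 r a σ u v w x := by
  have := D.fin
  have i1 := L3_int (D := D) ha hσ hc r u v w x
  have i2 := R3_int (D := D) ha hσ.continuous hc r u v w x
  unfold L3 R3
  unfold muP at i1 i2 ⊢
  rw [integral_prod_symm _ i1, integral_prod_symm _ i2]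
  refine integral_congr_ae (Filter.Eventually.of_forall fun ζ => ?_)
  simp only [pP]
  by_cases hζ : ζ = 0
  · subst hζ
    simp only [kk_zero_right, wed3]
    simp
  have hf : ContDiff ℝ ∞ fun y => (D.k y * a y) / D.g y ζ ζ :=
    (smb ha).div (entry_contDiff D.smg ζ ζ) fun y => (D.gpos y ζ hζ).ne'
  have hts : tsupport (fun y => (D.k y * a y) / D.g y ζ ζ) ⊆ ball D.c D.R := by
    refine (closure_mono ?_).trans (tsb (D := D) (a := a))
    intro y hy
    simp only [Function.mem_support, ne_eq] at hy ⊢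
    intro h
    exact hy (by rw [h, zero_div])
  have hfc : HasCompactSupport fun y => (D.k y * a y) / D.g y ζ ζ := by
    refine HasCompactSupport.of_support_subset_isCompact (isCompact_closedBall D.c D.R) ?_
    exact (subset_tsupport _).trans (hts.trans ball_subset_closedBall)
  have h := ibp (s := D.s) D.mφ D.bA (fun y => (D.pos y).alt) hcl hf hσ hfc hts (x - ζ) u v w
  have e1 : ∀ y, kk (D.k y • D.g y) (D.g y) ζ *
      (a y * wed3 (fderiv ℝ σ (x - (y + ζ))) (fb (D.φ y)) u v w) =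
      (D.k y * a y) / D.g y ζ ζ *
        wed3 (fderiv ℝ σ (x - ζ - y)) (fun a b => D.φ y a b) u v w := by
    intro y
    rw [kk_of_smul, show x - (y + ζ) = x - ζ - y by abel]
    ring
  have e2 : ∀ y, σ (x - (y + ζ)) * wed3 (fun z => kk (qd (fun y => D.k y * a y) D.g z y) (D.g y) ζ)
        (fb (D.φ y)) u v w = σ (x - ζ - y) *
        wed3 (fderiv ℝ (fun y => (D.k y * a y) / D.g y ζ ζ) y) (fun a b => D.φ y a b) u v w := by
    intro y
    rw [show x - (y + ζ) = x - ζ - y by abel]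
    simp only [wed3]
    rw [kk_fderiv (smb ha) D.smg (D.gpos y ζ hζ).ne', kk_fderiv (smb ha) D.smg (D.gpos y ζ hζ).ne',
      kk_fderiv (smb ha) D.smg (D.gpos y ζ hζ).ne']
  simp only [e1, e2]
  exact h

end

/-! ### bounds -/

lemma wE_nonneg {e : ℝ} (he : 0 < e) (p : ℕ) (x : E4) : 0 ≤ wE D.s D.c D.R e p x := by
  unfold wE
  refine integral_nonneg fun y => ?_
  have : 0 < ‖x - y‖ + e := by positivity
  positivity

/-- bound of one term -/
theorem term_bd {q : E4 → Bil} (hq : Continuous q) (hq0 : ∀ y, y ∉ closedBall D.c D.R → q y = 0)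
    {h : E4 → ℝ} (hh : MB D.c D.R h) :
    ∃ C : ℝ, 0 ≤ C ∧ ∀ (p : ℕ) (e B r : ℝ) (σ : E4 → ℝ) (x : E4), 0 < e → 0 ≤ B → Continuous σ →
      (∀ z, e < ‖z‖ → σ z = 0) → KB p e B σ → D.Adm r e x →
      |∫ t, wq D.g q h t * σ (x - pP t) ∂(muP D.s r)| ≤ C * B * wE D.s D.c D.R e p x := by
  have := D.fin
  obtain ⟨lam, hlam, hlow⟩ := exists_lower D.smg.continuous D.gpos D.c D.R
  obtain ⟨Lg, _, hLg⟩ := exists_upper D.smg.continuous D.c D.R
  obtain ⟨Lq, _, hLq⟩ := exists_upper hq D.c D.R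
  obtain ⟨A, hA0, hA⟩ := mkbd (lam := lam) (Lam := max Lg Lq) hlam
  obtain ⟨hm, Bh, hBh0, hBh⟩ := hh
  refine ⟨Bh * A, mul_nonneg hBh0 hA0, ?_⟩
  intro p e B r σ x he hB hσ hσ0 hKB hx
  rw [wq_fub D.smg.continuous D.gpos hq hq0 hm hBh hσ hσ0 hx]
  set f : E4 → ℝ := fun y => (Bh * A * B) * (1 / (‖x - y‖ + e) ^ p) with hf
  have hfm : Measurable f := by
    rw [hf]
    fun_prop
  have hfi : Integrable f D.s := by
    refine Integrable.of_bound (C := Bh * A * B * (1 / e ^ p)) hfm.aestronglyMeasurable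
      (Filter.Eventually.of_forall fun y => ?_)
    rw [Real.norm_eq_abs, abs_of_nonneg (by positivity)]
    have h1 : e ^ p ≤ (‖x - y‖ + e) ^ p := by
      have := norm_nonneg (x - y)
      gcongr
      linarith
    rw [hf]
    simp only
    gcongr
  have h1 : ∀ y, ‖h y * ∫ ζ, σ (x - y - ζ) * kk (q y) (D.g y) ζ‖ ≤
      (closedBall D.c D.R).indicator f y := by
    intro y
    by_cases hy : y ∈ closedBall D.c D.R
    · rw [Set.indicator_of_mem hy, Real.norm_eq_abs, abs_mul]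
      obtain ⟨k1, k2, k3⟩ := hA (q y) (D.g y) (hlow y hy) ((hLg y hy).trans (le_max_left _ _))
        ((hLq y hy).trans (le_max_right _ _))
      have h2 := hKB _ A k1 hA0 k2 k3 (x - y)
      have h3 : |∫ ζ, σ (x - y - ζ) * kk (q y) (D.g y) ζ| ≤ B * A / (‖x - y‖ + e) ^ p := h2
      calc |h y| * |∫ ζ, σ (x - y - ζ) * kk (q y) (D.g y) ζ| ≤
          Bh * (B * A / (‖x - y‖ + e) ^ p) := mul_le_mul (hBh y hy) h3 (abs_nonneg _) hBh0
        _ = f y := by rw [hf]; ring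
    · rw [Set.indicator_of_notMem hy]
      have h2 : ∀ ζ, kk (q y) (D.g y) ζ = 0 := by intro ζ; simp [kk, hq0 y hy]
      simp [h2]
  have h2 := norm_integral_le_of_norm_le (hfi.indicator measurableSet_closedBall)
    (Filter.Eventually.of_forall h1)
  rw [Real.norm_eq_abs] at h2
  refine h2.trans (le_of_eq ?_)
  rw [integral_indicator measurableSet_closedBall, hf, integral_const_mul]
  rfl

/-- bound of the right hand side -/
theorem R3_bd {a : E4 → ℝ} (ha : ContDiff ℝ ∞ a) (u v w : E4) :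
    ∃ C : ℝ, 0 ≤ C ∧ ∀ (p : ℕ) (e B r : ℝ) (σ : E4 → ℝ) (x : E4), 0 < e → 0 ≤ B → Continuous σ →
      (∀ z, e < ‖z‖ → σ z = 0) → KB p e B σ → D.Adm r e x →
      |D.R3 r a σ u v w x| ≤ C * B * wE D.s D.c D.R e p x := by
  have T : ∀ (v w u : E4), ∃ C : ℝ, 0 ≤ C ∧ ∀ (p : ℕ) (e B r : ℝ) (σ : E4 → ℝ) (x : E4), 0 < e →
      0 ≤ B → Continuous σ → (∀ z, e < ‖z‖ → σ z = 0) → KB p e B σ → D.Adm r e x →
      |∫ t, wq D.g (qd (fun y => D.k y * a y) D.g u) (fun y => D.φ y v w) t * σ (x - pP t)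
        ∂(muP D.s r)| ≤ C * B * wE D.s D.c D.R e p x := fun v w u =>
    D.term_bd (qd_cont (smb ha) D.smg u) (fun y hy => q0 u hy) (MB_phi D.mφ D.bA v w)
  obtain ⟨C1, hC1, h1⟩ := T v w u
  obtain ⟨C2, hC2, h2⟩ := T u w v
  obtain ⟨C3, hC3, h3⟩ := T u v w
  refine ⟨C1 + C2 + C3, by positivity, ?_⟩
  intro p e B r σ x he hB hσ hσ0 hKB hx
  have hc : HasCompactSupport σ := compact_of_zero hσ0
  have I : ∀ (v w u : E4), Integrable (fun t => wq D.g (qd (fun y => D.k y * a y) D.g u)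
      (fun y => D.φ y v w) t * σ (x - pP t)) (muP D.s r) := fun v w u =>
    term_int (qd_cont (smb ha) D.smg u) (fun y hy => q0 u hy) (MB_phi D.mφ D.bA v w) hσ hc r x
  have e1 : D.R3 r a σ u v w x =
      (∫ t, wq D.g (qd (fun y => D.k y * a y) D.g u) (fun y => D.φ y v w) t * σ (x - pP t)
        ∂(muP D.s r)
      - ∫ t, wq D.g (qd (fun y => D.k y * a y) D.g v) (fun y => D.φ y u w) t * σ (x - pP t)
        ∂(muP D.s r))
      + ∫ t, wq D.g (qd (fun y => D.k y * a y) D.g w) (fun y => D.φ y u v) t * σ (x - pP t)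
        ∂(muP D.s r) := by
    rw [← integral_sub (I v w u) (I u w v)]
    have I12 : Integrable (fun t => wq D.g (qd (fun y => D.k y * a y) D.g u) (fun y => D.φ y v w) t
        * σ (x - pP t) - wq D.g (qd (fun y => D.k y * a y) D.g v) (fun y => D.φ y u w) t
        * σ (x - pP t)) (muP D.s r) := (I v w u).sub (I u w v)
    rw [← integral_add I12 (I u v w)]
    unfold R3
    refine integral_congr_ae (Filter.Eventually.of_forall fun t => ?_)
    simp only [wq, wed3]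
    ring
  rw [e1]
  have k1 := h1 p e B r σ x he hB hσ hσ0 hKB hx
  have k2 := h2 p e B r σ x he hB hσ hσ0 hKB hx
  have k3 := h3 p e B r σ x he hB hσ hσ0 hKB hx
  refine (abs_add_le _ _).trans ?_
  have k4 := abs_sub
    (∫ t, wq D.g (qd (fun y => D.k y * a y) D.g u) (fun y => D.φ y v w) t * σ (x - pP t)
        ∂(muP D.s r))
    (∫ t, wq D.g (qd (fun y => D.k y * a y) D.g v) (fun y => D.φ y u w) t * σ (x - pP t)
        ∂(muP D.s r))
  linarith

/-! ### the mollifiers -/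

section moll

variable {ρ : E4 → ℝ}

lemma rhoE_contDiff (hρ : Moll ρ) (e : ℝ) : ContDiff ℝ ∞ (rhoE ρ e) := by
  unfold rhoE
  exact contDiff_const.mul (hρ.sm.comp (contDiff_id.const_smul e⁻¹))

lemma rhoE_zero (hρ : Moll ρ) {e : ℝ} (he : 0 < e) (z : E4) (hz : e < ‖z‖) : rhoE ρ e z = 0 := by
  unfold rhoE
  rw [hρ.sup, mul_zero]
  rw [norm_smul, norm_inv, Real.norm_eq_abs, abs_of_pos he, inv_mul_eq_div, one_le_div he]
  exact hz.le

lemma moll_compact (hρ : Moll ρ) : HasCompactSupport ρ := by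
  refine HasCompactSupport.intro (isCompact_closedBall (0 : E4) 1) fun z hz => hρ.sup z ?_
  rw [mem_closedBall_zero_iff, not_le] at hz
  exact hz.le

lemma rhoE_dd (hρ : Moll ρ) (e : ℝ) (v z : E4) :
    dd (rhoE ρ e) v z = (e ^ 4)⁻¹ * (e⁻¹ * dd ρ v (e⁻¹ • z)) := by
  unfold dd rhoE
  have h1 : HasFDerivAt (fun z : E4 => e⁻¹ • z) (e⁻¹ • ContinuousLinearMap.id ℝ E4) z :=
    (hasFDerivAt_id z).const_smul e⁻¹
  have h2 : HasFDerivAt (fun z => ρ (e⁻¹ • z))
      ((fderiv ℝ ρ (e⁻¹ • z)).comp (e⁻¹ • ContinuousLinearMap.id ℝ E4)) z :=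
    ((hρ.sm.differentiable (by simp)) _).hasFDerivAt.comp z h1
  rw [(h2.const_mul ((e ^ 4)⁻¹)).fderiv]
  simp [smul_apply]

/-- (a) -/
theorem KB_rho (hρ : Moll ρ) : ∃ B : ℝ, 0 ≤ B ∧ ∀ e : ℝ, 0 < e → KB 2 e B (rhoE ρ e) := by
  obtain ⟨C, hC, h⟩ := kerbd
  obtain ⟨B, hB0, hB⟩ := exists_bd hρ.sm.continuous (moll_compact hρ)
  refine ⟨C * B, by positivity, fun e he m A hm hA hb hd z => ?_⟩
  have h1 := (h m A hm hA hb hd e B (rhoE ρ e) he hB0 (rhoE_contDiff hρ e).continuous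
    (rhoE_zero hρ he)).1 ?_ z
  · refine h1.trans (le_of_eq ?_)
    ring
  · intro z
    unfold rhoE
    rw [abs_mul, abs_of_pos (by positivity)]
    have := hB (e⁻¹ • z)
    rw [Real.norm_eq_abs] at this
    rw [div_eq_inv_mul]
    gcongr

/-- (b) -/
theorem KB_drho (hρ : Moll ρ) (v : E4) :
    ∃ B : ℝ, 0 ≤ B ∧ ∀ e : ℝ, 0 < e → KB 3 e B (dd (rhoE ρ e) v) := by
  obtain ⟨C, hC, h⟩ := kerbd
  obtain ⟨B, hB0, hB⟩ := exists_bd (dd_contDiff hρ.sm v).continuous
    (dd_compact (moll_compact hρ) v)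
  refine ⟨C * B, by positivity, fun e he m A hm hA hb hd z => ?_⟩
  have hz : ∀ z, e < ‖z‖ → dd (rhoE ρ e) v z = 0 := fun z hz => by
    unfold dd
    rw [fderiv_zero_of_zero (rhoE_zero hρ he) z hz]
    rfl
  have h1 := (h m A hm hA hb hd e B (dd (rhoE ρ e) v) he hB0
    (dd_contDiff (rhoE_contDiff hρ e) v).continuous hz).2 ?_ ?_ z
  · refine h1.trans (le_of_eq ?_)
    ring
  · intro z
    rw [rhoE_dd hρ, abs_mul, abs_mul, abs_of_pos (by positivity : (0 : ℝ) < (e ^ 4)⁻¹),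
      abs_of_pos (by positivity : (0 : ℝ) < e⁻¹)]
    have := hB (e⁻¹ • z)
    rw [Real.norm_eq_abs] at this
    calc (e ^ 4)⁻¹ * (e⁻¹ * |dd ρ v (e⁻¹ • z)|) ≤ (e ^ 4)⁻¹ * (e⁻¹ * B) := by gcongr
      _ = B / e ^ 5 := by field_simp
  · exact integral_fderiv_zero ((rhoE_contDiff hρ e).of_le (by simp))
      (compact_of_zero (rhoE_zero hρ he)) v

end moll

/-! ### assembly -/

lemma adm_of {e : ℝ} (he : e ≤ D.R / 8) {x : E4} (hx : x ∈ ball D.c (5 / 8 * D.R)) :
    D.Adm (3 * D.R) e x := by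
  intro y hy
  have h1 : dist x D.c < 5 / 8 * D.R := hx
  have h2 : dist y D.c ≤ D.R := hy
  have h3 : dist x y ≤ dist x D.c + dist y D.c := dist_triangle_right x y D.c
  rw [dist_eq_norm] at h3
  have := D.hR
  linarith

lemma wed3_expand (ξ : E4 →L[ℝ] ℝ) (A : Bil) (u v w : E4) :
    wed3 ξ (fb A) u v w = ∑ k, ∑ l, v k * w l * wed3 ξ (fb A) u (ee k) (ee l) := by
  have h1 : A v w = ∑ k, ∑ l, v k * w l * A (ee k) (ee l) := bil_expand A v w
  have h2 : ξ v = ∑ k, v k * ξ (ee k) := by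
    conv_lhs => rw [sum_ee v]
    simp only [Fin.sum_univ_four, map_add, map_smul, smul_eq_mul]
  have h3 : ξ w = ∑ l, w l * ξ (ee l) := by
    conv_lhs => rw [sum_ee w]
    simp only [Fin.sum_univ_four, map_add, map_smul, smul_eq_mul]
  have h4 : A u w = ∑ l, w l * A u (ee l) := by
    conv_lhs => rw [sum_ee w]
    simp only [Fin.sum_univ_four, map_add, map_smul, smul_eq_mul]
  have h5 : A u v = ∑ k, v k * A u (ee k) := by
    conv_lhs => rw [sum_ee v]
    simp only [Fin.sum_univ_four, map_add, map_smul, smul_eq_mul]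
  have h0 : wed3 ξ (fb A) u v w = ξ u * A v w - ξ v * A u w + ξ w * A u v := rfl
  have h0' : ∀ k l, wed3 ξ (fb A) u (ee k) (ee l) =
      ξ u * A (ee k) (ee l) - ξ (ee k) * A u (ee l) + ξ (ee l) * A u (ee k) := fun _ _ => rfl
  simp only [h0, h0']
  rw [h1, h2, h3, h4, h5, Finset.mul_sum, Finset.sum_mul_sum, Finset.sum_mul_sum]
  rw [Finset.sum_comm (f := fun i j => w i * ξ (ee i) * (v j * A u (ee j)))]
  rw [← Finset.sum_sub_distrib, ← Finset.sum_add_distrib]
  refine Finset.sum_congr rfl fun k _ => ?_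
  rw [Finset.mul_sum, ← Finset.sum_sub_distrib, ← Finset.sum_add_distrib]
  refine Finset.sum_congr rfl fun l _ => ?_
  ring

/-- coefficients of `t2` -/
noncomputable def aC (w : E4) (i k l : Fin 4) (y : E4) : ℝ :=
  (1 / 2) * ∑ j, D.G y i j * (D.J y (ee j)) k * (D.J y w) l

lemma coord_contDiff {f : E4 → E4} (hf : ContDiff ℝ ∞ f) (i : Fin 4) :
    ContDiff ℝ ∞ fun y => (f y) i :=
  (EuclideanSpace.proj i : E4 →L[ℝ] ℝ).contDiff.comp hf

lemma aC_contDiff (w : E4) (i k l : Fin 4) : ContDiff ℝ ∞ (D.aC w i k l) := by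
  unfold aC
  have hJ : ∀ v : E4, ContDiff ℝ ∞ fun y => D.J y v := fun v => D.smJ.clm_apply contDiff_const
  refine contDiff_const.mul (ContDiff.sum fun j _ => ?_)
  exact ((D.smG i j).mul (coord_contDiff (hJ _) k)).mul (coord_contDiff (hJ _) l)

lemma t2_expand (y w : E4) (ξ : Cov) : D.t2 y w ξ =
    ∑ i, ∑ k, ∑ l, D.aC w i k l y * wed3 ξ (fb (D.φ y)) (ee i) (ee k) (ee l) := by
  have h0 : D.t2 y w ξ = (1 / 2) * ∑ i, ∑ j, D.G y i j *
      wed3 ξ (fb (D.φ y)) (ee i) (D.J y (ee j)) (D.J y w) := rfl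
  rw [h0, Finset.mul_sum]
  refine Finset.sum_congr rfl fun i _ => ?_
  simp only [wed3_expand ξ (D.φ y) (ee i) (D.J y (ee _)) (D.J y w)]
  simp only [aC, Finset.mul_sum, Finset.sum_mul]
  rw [Finset.sum_comm]
  refine Finset.sum_congr rfl fun k _ => ?_
  rw [Finset.sum_comm]
  refine Finset.sum_congr rfl fun l _ => Finset.sum_congr rfl fun j _ => ?_
  ring

lemma GF_t2 {σ : E4 → ℝ} (hσ : ContDiff ℝ ∞ σ) (hc : HasCompactSupport σ) (r : ℝ) (w x : E4) :
    D.GF r (fun y => D.t2 y w) (fderiv ℝ σ) x =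
      ∑ i, ∑ k, ∑ l, D.L3 r (D.aC w i k l) σ (ee i) (ee k) (ee l) x := by
  have I := fun i k l => L3_int (D := D) (D.aC_contDiff w i k l) hσ hc r (ee i) (ee k) (ee l) x
  unfold GF GG L3
  have h3 : ∀ i k, (∑ l, ∫ t, kk (D.k t.1 • D.g t.1) (D.g t.1) t.2 *
      (D.aC w i k l t.1 * wed3 (fderiv ℝ σ (x - pP t)) (fb (D.φ t.1)) (ee i) (ee k) (ee l))
        ∂(muP D.s r)) = ∫ t, ∑ l, kk (D.k t.1 • D.g t.1) (D.g t.1) t.2 *
      (D.aC w i k l t.1 * wed3 (fderiv ℝ σ (x - pP t)) (fb (D.φ t.1)) (ee i) (ee k) (ee l))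
        ∂(muP D.s r) := fun i k => (integral_finsetSum _ fun l _ => I i k l).symm
  have h2 : ∀ i, (∑ k, ∫ t, ∑ l, kk (D.k t.1 • D.g t.1) (D.g t.1) t.2 *
      (D.aC w i k l t.1 * wed3 (fderiv ℝ σ (x - pP t)) (fb (D.φ t.1)) (ee i) (ee k) (ee l))
        ∂(muP D.s r)) = ∫ t, ∑ k, ∑ l, kk (D.k t.1 • D.g t.1) (D.g t.1) t.2 *
      (D.aC w i k l t.1 * wed3 (fderiv ℝ σ (x - pP t)) (fb (D.φ t.1)) (ee i) (ee k) (ee l))
        ∂(muP D.s r) := fun i =>
    (integral_finsetSum _ fun k _ => integrable_finsetSum _ fun l _ => I i k l).symm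
  simp only [h3, h2]
  rw [← integral_finsetSum _ fun i _ => integrable_finsetSum _ fun k _ =>
    integrable_finsetSum _ fun l _ => I i k l]
  refine integral_congr_ae (Filter.Eventually.of_forall fun t => ?_)
  simp only [TT, LinearMap.smul_apply, smul_eq_mul, t2_expand, Finset.mul_sum]

lemma t3_expand (v w y : E4) (H : Bil) : D.t3 v w y H =
    ∑ i, ∑ j, D.G y i j * wed3 (H (ee i)) (fb (D.φ y)) (ee j) v w := rfl

lemma fd_dd {σ : E4 → ℝ} (hσ : ContDiff ℝ ∞ σ) (z v : E4) :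
    fderiv ℝ (fderiv ℝ σ) z v = fderiv ℝ (dd σ v) z := by
  ext a
  have h1 : fderiv ℝ (dd σ v) z a = fderiv ℝ (fderiv ℝ σ) z a v :=
    (fderiv_apply_comm (((fd_contDiff hσ).differentiable (by simp)) z) a v).symm
  rw [h1, fd2_symm hσ]

lemma GF_t3 {σ : E4 → ℝ} (hσ : ContDiff ℝ ∞ σ) (hc : HasCompactSupport σ) (r : ℝ) (v w x : E4) :
    D.GF r (D.t3 v w) (fderiv ℝ (fderiv ℝ σ)) x =
      ∑ i, ∑ j, D.L3 r (fun y => D.G y i j) (dd σ (ee i)) (ee j) v w x := by
  have I := fun i j => L3_int (D := D) (D.smG i j) (dd_contDiff hσ (ee i)) (dd_compact hc (ee i))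
    r (ee j) v w x
  unfold GF GG L3
  have h2 : ∀ i, (∑ j, ∫ t, kk (D.k t.1 • D.g t.1) (D.g t.1) t.2 *
      (D.G t.1 i j * wed3 (fderiv ℝ (dd σ (ee i)) (x - pP t)) (fb (D.φ t.1)) (ee j) v w)
        ∂(muP D.s r)) = ∫ t, ∑ j, kk (D.k t.1 • D.g t.1) (D.g t.1) t.2 *
      (D.G t.1 i j * wed3 (fderiv ℝ (dd σ (ee i)) (x - pP t)) (fb (D.φ t.1)) (ee j) v w)
        ∂(muP D.s r) := fun i => (integral_finsetSum _ fun j _ => I i j).symm
  simp only [h2]
  rw [← integral_finsetSum _ fun i _ => integrable_finsetSum _ fun j _ => I i j]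
  refine integral_congr_ae (Filter.Eventually.of_forall fun t => ?_)
  simp only [TT, LinearMap.smul_apply, smul_eq_mul, t3_expand, Finset.mul_sum, fd_dd hσ]

/-- bound for `L3` -/
theorem L3_bd (hcl : D.ClosedCur) {a : E4 → ℝ} (ha : ContDiff ℝ ∞ a) (u v w : E4) :
    ∃ C : ℝ, 0 ≤ C ∧ ∀ (p : ℕ) (e B r : ℝ) (σ : E4 → ℝ) (x : E4), 0 < e → 0 ≤ B →
      ContDiff ℝ ∞ σ → (∀ z, e < ‖z‖ → σ z = 0) → KB p e B σ → D.Adm r e x →
      |D.L3 r a σ u v w x| ≤ C * B * wE D.s D.c D.R e p x := by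
  obtain ⟨C, hC, h⟩ := D.R3_bd ha u v w
  refine ⟨C, hC, fun p e B r σ x he hB hσ hσ0 hKB hx => ?_⟩
  rw [L3_eq_R3 ha hcl hσ (compact_of_zero hσ0)]
  exact h p e B r σ x he hB hσ.continuous hσ0 hKB hx

lemma sum_abs_le {ι : Type*} [Fintype ι] {f g : ι → ℝ} (h : ∀ i, |f i| ≤ g i) :
    |∑ i, f i| ≤ ∑ i, g i :=
  (Finset.abs_sum_le_sum_abs _ _).trans (Finset.sum_le_sum fun i _ => h i)


lemma cov_norm_le (ξ : Cov) : ‖ξ‖ ≤ ∑ l, |ξ (ee l)| := by
  refine ContinuousLinearMap.opNorm_le_bound _ (Finset.sum_nonneg fun l _ => abs_nonneg _)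
    fun v => ?_
  rw [cov_expand]
  have h : ∀ i, |v i| ≤ ‖v‖ := fun i => by
    have := EuclideanSpace.norm_eq v
    have h2 := PiLp.norm_apply_le v i
    rwa [Real.norm_eq_abs] at h2
  rw [Real.norm_eq_abs, Fin.sum_univ_four]
  have hb : ∀ i, |v i * ξ (ee i)| ≤ |ξ (ee i)| * ‖v‖ := fun i => by
    rw [abs_mul, mul_comm]
    exact mul_le_mul_of_nonneg_left (h i) (abs_nonneg _)
  have a1 := abs_add_le (v 0 * ξ (ee 0) + v 1 * ξ (ee 1) + v 2 * ξ (ee 2)) (v 3 * ξ (ee 3))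
  have a2 := abs_add_le (v 0 * ξ (ee 0) + v 1 * ξ (ee 1)) (v 2 * ξ (ee 2))
  have a3 := abs_add_le (v 0 * ξ (ee 0)) (v 1 * ξ (ee 1))
  have b0 := hb 0
  have b1 := hb 1
  have b2 := hb 2
  have b3 := hb 3
  linarith

/-- (B2) -/
theorem b2Bd (ρ : E4 → ℝ) : D.B2Bd ρ := by
  intro hρ hcl
  obtain ⟨B, hB0, hB⟩ := KB_rho hρ
  choose C hC h using fun (w i k l : Fin 4) =>
    D.L3_bd hcl (D.aC_contDiff (ee w) i k l) (ee i) (ee k) (ee l)
  refine ⟨(∑ w, ∑ i, ∑ k, ∑ l, C w i k l * B) + 1, ?_, ?_⟩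
  · have : 0 ≤ ∑ w, ∑ i, ∑ k, ∑ l, C w i k l * B :=
      Finset.sum_nonneg fun w _ => Finset.sum_nonneg fun i _ => Finset.sum_nonneg fun k _ =>
        Finset.sum_nonneg fun l _ => mul_nonneg (hC w i k l) hB0
    linarith
  intro e he hle x hx
  have hw := D.wE_nonneg he 2 x
  have hσ := rhoE_contDiff hρ e
  have hσ0 := rhoE_zero hρ he
  have hc := compact_of_zero hσ0
  refine (cov_norm_le _).trans ?_
  have h1 : ∀ w, |D.b2 (3 * D.R) (rhoE ρ e) x (ee w)| ≤
      ∑ i, ∑ k, ∑ l, C w i k l * B * wE D.s D.c D.R e 2 x := by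
    intro w
    unfold b2
    rw [D.CV_apply D.MB2 D.t2_add D.t2_smul hσ hc, D.GF_t2 hσ hc]
    exact sum_abs_le fun i => sum_abs_le fun k => sum_abs_le fun l =>
      h w i k l 2 e B (3 * D.R) (rhoE ρ e) x he hB0 hσ hσ0 (hB e he) (D.adm_of hle hx)
  refine (Finset.sum_le_sum fun w _ => h1 w).trans ?_
  rw [add_mul, one_mul]
  simp only [Finset.sum_mul]
  linarith

/-- (PS) -/
theorem psiBd (ρ : E4 → ℝ) : D.PsiBd ρ := by
  intro hρ hcl
  choose B hB0 hB using fun i : Fin 4 => KB_drho hρ (ee i)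
  choose C hC h using fun (v w i j : Fin 4) =>
    D.L3_bd hcl (D.smG i j) (ee j) (ee v) (ee w)
  have hnn : ∀ v w i j, 0 ≤ C v w i j * B i := fun v w i j => mul_nonneg (hC v w i j) (hB0 i)
  refine ⟨(∑ v, ∑ w, ∑ i, ∑ j, C v w i j * B i) + 1, ?_, ?_⟩
  · have : 0 ≤ ∑ v, ∑ w, ∑ i, ∑ j, C v w i j * B i :=
      Finset.sum_nonneg fun v _ => Finset.sum_nonneg fun w _ => Finset.sum_nonneg fun i _ =>
        Finset.sum_nonneg fun j _ => hnn v w i j
    linarith
  intro e he hle x hx v w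
  have hw := D.wE_nonneg he 3 x
  have hσ := rhoE_contDiff hρ e
  have hσ0 := rhoE_zero hρ he
  have hc := compact_of_zero hσ0
  have hd0 : ∀ i z, e < ‖z‖ → dd (rhoE ρ e) (ee i) z = 0 := fun i z hz => by
    unfold dd
    rw [fderiv_zero_of_zero hσ0 z hz]
    rfl
  rw [D.GF_t3 hσ hc]
  have h1 : |∑ i, ∑ j, D.L3 (3 * D.R) (fun y => D.G y i j) (dd (rhoE ρ e) (ee i)) (ee j) (ee v)
      (ee w) x| ≤ ∑ i, ∑ j, C v w i j * B i * wE D.s D.c D.R e 3 x :=
    sum_abs_le fun i => sum_abs_le fun j =>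
      h v w i j 3 e (B i) (3 * D.R) (dd (rhoE ρ e) (ee i)) x he (hB0 i)
        (dd_contDiff hσ (ee i)) (hd0 i) (hB i e he) (D.adm_of hle hx)
  refine h1.trans ?_
  have h2 : ∑ i, ∑ j, C v w i j * B i ≤ ∑ v, ∑ w, ∑ i, ∑ j, C v w i j * B i := by
    have k1 : ∑ i, ∑ j, C v w i j * B i ≤ ∑ w, ∑ i, ∑ j, C v w i j * B i :=
      Finset.single_le_sum (f := fun w => ∑ i, ∑ j, C v w i j * B i)
        (fun w _ => Finset.sum_nonneg fun i _ => Finset.sum_nonneg fun j _ => hnn v w i j)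
        (Finset.mem_univ w)
    have k2 : ∑ w, ∑ i, ∑ j, C v w i j * B i ≤ ∑ v, ∑ w, ∑ i, ∑ j, C v w i j * B i :=
      Finset.single_le_sum (f := fun v => ∑ w, ∑ i, ∑ j, C v w i j * B i)
        (fun v _ => Finset.sum_nonneg fun w _ => Finset.sum_nonneg fun i _ =>
          Finset.sum_nonneg fun j _ => hnn v w i j) (Finset.mem_univ v)
    exact k1.trans k2
  have h3 := mul_le_mul_of_nonneg_right h2 hw
  have h4 : ∑ i, ∑ j, C v w i j * B i * wE D.s D.c D.R e 3 x =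
      (∑ i, ∑ j, C v w i j * B i) * wE D.s D.c D.R e 3 x := by
    simp only [Finset.sum_mul]
  rw [h4, add_mul, one_mul]
  linarith

end PD

end Crest.Agent.R240.Pot
end

-- ▼ part R240/PotP4
section

/-!
Row 240 (S0371), Part P: Lemma P.
-/

set_option autoImplicit false

namespace Crest.Agent.R240.Pot

theorem p4 : P4 :=
  p4_of (fun D c0 χ ρ => D.uBd c0 χ ρ) (fun D ρ => D.a1Bd ρ) (fun D ρ => D.b2Bd ρ)
    (fun D ρ => D.psiBd ρ) molFacts

end Crest.Agent.R240.Pot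
end

-- ▼ part R240/En3
section

/-!
Row 240 (S0371), BLOCK C (helper822): `|∫ g_K(-u) Φ ∧ dS| ≤ C / √(log K)`.
-/

set_option autoImplicit false
set_option maxSynthPendingDepth 3
open scoped ContDiff
open MeasureTheory Crest.Agent.R240.CutFun

namespace Crest.Agent.R240.En

lemma contDiff_cutS {F : ℝ → ℝ} (hF : ∀ t, 0 ≤ t → ContDiffAt ℝ 1 F t) {S : E4 → Cov}
    {u : E4 → ℝ} (hS : ContDiff ℝ 1 S) (hu : ContDiff ℝ 2 u) (hs : ∀ x ∈ tsupport S, 1 ≤ - u x) :
    ContDiff ℝ 1 (fun x => F (- u x) • S x) := by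
  rw [contDiff_iff_contDiffAt]
  intro x
  by_cases hx : x ∈ tsupport S
  · have h1 := hF (- u x) (by linarith [hs x hx])
    have h2 : ContDiffAt ℝ 1 (fun x => F (- u x)) x :=
      h1.comp x ((hu.of_le (by norm_num)).contDiffAt.neg)
    exact h2.smul hS.contDiffAt
  · have h1 : (fun x => F (- u x) • S x) =ᶠ[nhds x] fun _ => 0 := by
      have := notMem_tsupport_iff_eventuallyEq.mp hx
      filter_upwards [this] with y hy
      simp [hy]
    exact contDiffAt_const.congr_of_eventuallyEq h1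

lemma d1_zero_of_notMem {S : E4 → Cov} {x : E4} (hx : x ∉ tsupport S) : d1 S x = 0 := by
  have h1 : S =ᶠ[nhds x] fun _ => 0 := notMem_tsupport_iff_eventuallyEq.mp hx
  have h2 : fderiv ℝ S x = 0 := by
    rw [h1.fderiv_eq]; simp
  ext v w
  simp [h2]

lemma W_zero_right (b : Bil) : W b 0 = 0 := by simp [W, ent]

section pt

variable {A e σ : ℝ} {j : E4 →L[ℝ] E4} {P : Bil} {du a : Cov} {pp t : ℝ}

/-- pointwise bound for the cut-off term -/
lemma Pt.cut (hA : 1 ≤ A) (he : 0 < e) (he1 : e ≤ 1) (hσ : |σ| = 1)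
    (h : Pt A e σ j P du a pp t) {K : ℝ} (hK0 : 0 < K) (hK : 1 ≤ Real.log K)
    {Ψ : ℝ} {S : Cov} (hS : ‖S‖ ≤ Ψ) :
    |dgf K t * W P (wed du S)| ≤
      (1 / 2) * √(Real.log K) * Cτ ^ 2 * (Df K t * qq A e σ j P pp du)
        + ((1 / 2) * (A ^ 2 + A) * A ^ 2 * Ψ ^ 2 + 4 * A ^ 3 * Ψ * Cτ) * pp / √(Real.log K) := by
  have hp := h.p_nonneg
  have ht := h.t_ge
  have ht0 : 0 ≤ t := by linarith
  have hΨ : 0 ≤ Ψ := (norm_nonneg _).trans hS
  have hL : 0 < Real.log K := by linarith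
  set L := Real.log K with hLdef
  set D := Df K t with hDdef
  have hD : 0 < D := Df_pos hK0 hK ht0
  have hr : 0 < √L := Real.sqrt_pos.mpr hL
  have hrr : √L * √L = L := Real.mul_self_sqrt hL.le
  have hCτ : 0 < Cτ := Cτ_pos
  set η : Cov := - Jc j S with hη
  have hJη : Jc j η = S := by
    rw [hη, Jc_neg, Jc_Jc h.J_sq, neg_neg]
  have hηn : ‖η‖ ≤ A * Ψ := by
    rw [hη, norm_neg]
    calc ‖Jc j S‖ ≤ ‖S‖ * ‖j‖ := norm_Jc_le j S
      _ ≤ Ψ * A := mul_le_mul hS h.J_bd (norm_nonneg _) hΨ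
      _ = A * Ψ := by ring
  set q2 := qq A e σ j P pp du with hq2
  set q3 := qq A e σ j P pp η with hq3
  have hq2n : 0 ≤ q2 := h.q_nonneg _
  have hq3n : 0 ≤ q3 := h.q_nonneg _
  have hq3le : q3 ≤ (A ^ 2 + A) * pp * (A * Ψ) ^ 2 := by
    refine (h.q_le hA he he1 hσ η).trans ?_
    exact mul_le_mul_of_nonneg_left (pow_le_pow_left₀ (norm_nonneg _) hηn 2) (by positivity)
  set g := dgf K t with hg
  have hg2 : g ^ 2 ≤ Cτ ^ 2 * D := dgf_sq_le hK0 hK ht0
  have hDL : D ≤ 2 / L := by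
    have := Df_mul_le hK0 hK ht0
    have h0 : 1 ≤ (1 + t) ^ 2 := by nlinarith
    have h1 : D ≤ D * (1 + t) ^ 2 := le_mul_of_one_le_right hD.le h0
    exact h1.trans this
  have hgabs : |g| ≤ 2 * Cτ / √L := by
    rw [le_div_iff₀ hr]
    have h1 : (|g| * √L) ^ 2 ≤ (2 * Cτ) ^ 2 := by
      rw [mul_pow, sq_abs]
      have h2 : √L ^ 2 = L := by rw [pow_two]; exact hrr
      rw [h2]
      have h3 : g ^ 2 * L ≤ (Cτ ^ 2 * (2 / L)) * L :=
        mul_le_mul_of_nonneg_right (hg2.trans (mul_le_mul_of_nonneg_left hDL (by positivity))) hL.le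
      have h4 : (Cτ ^ 2 * (2 / L)) * L = 2 * Cτ ^ 2 := by field_simp
      nlinarith
    exact (sq_le_sq₀ (by positivity) (by positivity)).mp h1
  rcases eq_or_ne g 0 with h0 | h0
  · rw [h0, zero_mul, abs_zero]
    positivity
  have hga : 0 < |g| := abs_pos.mpr h0
  have hs : 0 < (√L * |g|)⁻¹ := by positivity
  have hc := h.cs hA he he1 hσ du η hs
  rw [hJη, inv_inv] at hc
  rw [abs_mul]
  have h1 : |g| * |W P (wed du S)| ≤ |g| * ((√L * |g| * q2 + (√L * |g|)⁻¹ * q3) / 2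
      + 2 * A * e * pp * ‖du‖ * ‖η‖) := mul_le_mul_of_nonneg_left hc hga.le
  have h2 : |g| * ((√L * |g| * q2 + (√L * |g|)⁻¹ * q3) / 2 + 2 * A * e * pp * ‖du‖ * ‖η‖)
      = (1 / 2) * √L * (|g| ^ 2 * q2) + (1 / 2) * q3 / √L
        + (2 * A * pp) * (|g| * ((e * ‖du‖) * ‖η‖)) := by
    field_simp
  have h3 : (1 / 2) * √L * (|g| ^ 2 * q2) ≤ (1 / 2) * √L * Cτ ^ 2 * (D * q2) := by
    rw [sq_abs]
    have : g ^ 2 * q2 ≤ (Cτ ^ 2 * D) * q2 := mul_le_mul_of_nonneg_right hg2 hq2n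
    calc (1 / 2) * √L * (g ^ 2 * q2) ≤ (1 / 2) * √L * ((Cτ ^ 2 * D) * q2) :=
          mul_le_mul_of_nonneg_left this (by positivity)
      _ = _ := by ring
  have h4 : (1 / 2) * q3 / √L ≤ (1 / 2) * (A ^ 2 + A) * A ^ 2 * Ψ ^ 2 * pp / √L := by
    apply div_le_div_of_nonneg_right _ hr.le
    nlinarith
  have h5 : (2 * A * pp) * (|g| * ((e * ‖du‖) * ‖η‖)) ≤ 4 * A ^ 3 * Ψ * Cτ * pp / √L := by
    calc (2 * A * pp) * (|g| * ((e * ‖du‖) * ‖η‖)) ≤
          (2 * A * pp) * ((2 * Cτ / √L) * (A * (A * Ψ))) := by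
          apply mul_le_mul_of_nonneg_left _ (by positivity)
          apply mul_le_mul hgabs _ (by positivity) (by positivity)
          exact mul_le_mul h.du_e hηn (norm_nonneg _) (by positivity)
      _ = _ := by ring
  have h6 : ((1 / 2) * (A ^ 2 + A) * A ^ 2 * Ψ ^ 2 + 4 * A ^ 3 * Ψ * Cτ) * pp / √L
      = (1 / 2) * (A ^ 2 + A) * A ^ 2 * Ψ ^ 2 * pp / √L + 4 * A ^ 3 * Ψ * Cτ * pp / √L := by ring
  rw [h6]
  linarith

end pt

/-- the constant of the cut-off estimate -/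
noncomputable def CC (A Z Ψ : ℝ) : ℝ :=
  Cτ ^ 2 * CE A Z * A + ((1 / 2) * (A ^ 2 + A) * A ^ 2 * Ψ ^ 2 + 4 * A ^ 3 * Ψ * Cτ) * A

section integrated

variable {A e σ : ℝ} {K0 : Set E4} {J : E4 → E4 →L[ℝ] E4} {Φ : E4 → Bil} {u : E4 → ℝ}
  {a : E4 → Cov} {p : E4 → ℝ}

theorem cutoff (h : Dat A e σ K0 J Φ u a p) {K : ℝ} (hK0 : 0 < K) (hK : 1 ≤ Real.log K)
    {ζ : E4 → ℝ} {Z : ℝ} (hζ : ContDiff ℝ 1 ζ) (hζs : tsupport ζ ⊆ K0)
    (hζ0 : ∀ x, 0 ≤ ζ x) (hζ1 : ∀ x, ζ x ≤ 1) (hZ : ∀ x, ‖fderiv ℝ ζ x‖ ≤ Z)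
    {S : E4 → Cov} {Ψ : ℝ} (hS : ContDiff ℝ 1 S) (hSs : tsupport S ⊆ K0)
    (hone : ∀ x ∈ tsupport S, ζ x = 1) (hSb : ∀ x, ‖S x‖ ≤ Ψ) :
    |∫ x, gf K (- u x) * W (Φ x) (d1 S x)| ≤ CC A Z Ψ / √(Real.log K) := by
  have hL : 0 < Real.log K := by linarith
  have hr : 0 < √(Real.log K) := Real.sqrt_pos.mpr hL
  have hA0 : 0 ≤ A := by linarith [h.hA]
  have hΨ : 0 ≤ Ψ := (norm_nonneg _).trans (hSb 0)
  have hCτ : 0 < Cτ := Cτ_pos
  have hSc : HasCompactSupport S := h.K0c.of_isClosed_subset (isClosed_tsupport _) hSs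
  -- the test form
  set S3 : E4 → Cov := fun x => gf K (- u x) • S x with hS3
  have hS3sm : ContDiff ℝ 1 S3 :=
    contDiff_cutS (fun t ht => contDiffAt_gf (n := 1) hK0 hK ht) hS h.u_sm
      (fun x hx => (h.pt x (hSs hx)).t_ge)
  have hS3t : tsupport S3 ⊆ tsupport S := by
    apply closure_mono
    intro x hx hx'
    apply hx
    simp [hS3, hx']
  have hS3c : HasCompactSupport S3 :=
    h.K0c.of_isClosed_subset (isClosed_tsupport _) (hS3t.trans hSs)
  have hst := stokes h.Φ_sm h.Φ_alt hS3sm hS3c (fun x hx => h.Φ_cl x (hSs (hS3t hx)))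
  have hform : ∀ x, gf K (- u x) * W (Φ x) (d1 S x) =
      W (Φ x) (d1 S3 x) + dgf K (- u x) * W (Φ x) (wed (fderiv ℝ u x) (S x)) := by
    intro x
    by_cases hx : x ∈ tsupport S
    · have ht := (h.pt x (hSs hx)).t_ge
      have h3 : HasFDerivAt u (fderiv ℝ u x) x :=
        ((h.u_sm.differentiable (by norm_num)) x).hasFDerivAt
      have h4 : HasFDerivAt (fun y => gf K (- u y)) (dgf K (- u x) • (- fderiv ℝ u x)) x :=
        (hasDerivAt_gf hK0 hK (by linarith)).comp_hasFDerivAt x h3.neg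
      have h1 : d1 S3 x = wed (fderiv ℝ (fun y => gf K (- u y)) x) (S x)
          + gf K (- u x) • d1 S x :=
        d1_smul h4.differentiableAt ((hS.differentiable one_ne_zero) x)
      rw [h1, h4.fderiv, wed_smul_left, wed_neg_left, W_add_right, W_smul_right, W_smul_right]
      have : W (Φ x) (- wed (fderiv ℝ u x) (S x)) = - W (Φ x) (wed (fderiv ℝ u x) (S x)) := by
        have := W_smul_right (-1) (Φ x) (wed (fderiv ℝ u x) (S x))
        rw [neg_one_smul] at this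
        rw [this]; ring
      rw [this]
      ring
    · have h0 : S x = 0 := image_eq_zero_of_notMem_tsupport hx
      have h5 : wed (fderiv ℝ u x) (0 : Cov) = 0 := by
        ext v w; simp
      rw [d1_zero_of_notMem hx, d1_zero_of_notMem (fun h' => hx (hS3t h')), h0, h5, W_zero_right]
      ring
  have hdu : Continuous (fderiv ℝ u) := h.u_sm.continuous_fderiv (by norm_num)
  -- integrability
  have hI1 : Integrable (fun x => W (Φ x) (d1 S3 x)) := by
    have hc : Continuous fun x => W (Φ x) (d1 S3 x) :=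
      continuous_W h.Φ_sm.continuous (continuous_d1 hS3sm)
    refine hc.integrable_of_hasCompactSupport ?_
    refine hS3c.mono' ?_
    intro x hx
    by_contra hx'
    exact hx (by simp [d1_zero_of_notMem hx', W_zero_right])
  have hgc : ∀ x ∈ K0, ContinuousAt (fun y => gf K (- u y)) x := by
    intro x hx
    have ht := (h.pt x hx).t_ge
    have h1 : ContinuousAt (gf K) (- u x) :=
      (contDiffAt_gf (n := 1) hK0 hK (by linarith)).continuousAt
    exact ContinuousAt.comp (f := fun y => - u y) (g := gf K) h1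
      (h.u_sm.continuous.neg).continuousAt
  have hI0 : Integrable (fun x => gf K (- u x) * W (Φ x) (d1 S x)) := by
    have hc : Continuous fun x => W (Φ x) (d1 S x) :=
      continuous_W h.Φ_sm.continuous (continuous_d1 hS)
    have h1 : IntegrableOn (fun x => gf K (- u x) * W (Φ x) (d1 S x)) K0 := by
      refine ContinuousOn.integrableOn_compact h.K0c ?_
      exact ContinuousOn.mul (fun x hx => (hgc x hx).continuousWithinAt) hc.continuousOn
    rw [← integrableOn_univ]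
    refine h1.of_forall_sdiff_eq_zero MeasurableSet.univ ?_
    intro x hx
    have hx' : x ∉ tsupport S := fun h' => hx.2 (hSs h')
    simp [d1_zero_of_notMem hx', W_zero_right]
  have hI2 : Integrable (fun x => dgf K (- u x) * W (Φ x) (wed (fderiv ℝ u x) (S x))) := by
    have := hI0.sub hI1
    refine this.congr ?_
    refine Filter.Eventually.of_forall fun x => ?_
    simp only [Pi.sub_apply]
    rw [hform x]; ring
  have hval : ∫ x, gf K (- u x) * W (Φ x) (d1 S x) =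
      ∫ x in K0, dgf K (- u x) * W (Φ x) (wed (fderiv ℝ u x) (S x)) := by
    simp_rw [hform]
    rw [integral_add hI1 hI2, hst, zero_add]
    symm
    apply setIntegral_eq_integral_of_forall_compl_eq_zero
    intro x hx
    have h0 : S x = 0 := image_eq_zero_of_notMem_tsupport (fun h' => hx (hSs h'))
    have h5 : wed (fderiv ℝ u x) (0 : Cov) = 0 := by
      ext v w; simp
    rw [h0, h5, W_zero_right, mul_zero]
  rw [hval]
  -- the dominating function
  have hwcont : ContinuousOn (fun x => ζ x ^ 2 * Df K (- u x)) K0 := by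
    intro x hx
    have ht := (h.pt x hx).t_ge
    have h1 : ContinuousAt (Df K) (- u x) :=
      (contDiffAt_Df (n := 1) hK0 hK (by linarith)).continuousAt
    have h2 : ContinuousAt (fun y => - u y) x := (h.u_sm.continuous.neg).continuousAt
    exact (((hζ.continuous.pow 2).continuousAt).mul
      (ContinuousAt.comp (f := fun y => - u y) (g := Df K) h1 h2)).continuousWithinAt
  have hG := h.integrable hwcont
  set c1 : ℝ := (1 / 2) * √(Real.log K) * Cτ ^ 2 with hc1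
  set c2 : ℝ := ((1 / 2) * (A ^ 2 + A) * A ^ 2 * Ψ ^ 2 + 4 * A ^ 3 * Ψ * Cτ) with hc2
  have hc2n : 0 ≤ c2 := by positivity
  have hP : IntegrableOn (fun x => c2 / √(Real.log K) * p x) K0 :=
    h.p_int.const_mul (c2 / √(Real.log K))
  have hdom : ∀ x ∈ K0, ‖dgf K (- u x) * W (Φ x) (wed (fderiv ℝ u x) (S x))‖ ≤
      c1 * (ζ x ^ 2 * Df K (- u x) * qq A e σ (J x) (Φ x) (p x) (fderiv ℝ u x))
        + c2 / √(Real.log K) * p x := by
    intro x hx
    have hpt := h.pt x hx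
    have hq := hpt.q_nonneg (fderiv ℝ u x)
    have hD := (Df_pos hK0 hK (show (0:ℝ) ≤ - u x by linarith [hpt.t_ge])).le
    rw [Real.norm_eq_abs]
    by_cases hx' : x ∈ tsupport S
    · have := hpt.cut h.hA h.he h.he1 h.hσ hK0 hK (hSb x)
      rw [hone x hx']
      refine this.trans (le_of_eq ?_)
      simp only [hc1, hc2]
      ring
    · have h0 : S x = 0 := image_eq_zero_of_notMem_tsupport hx'
      have h5 : wed (fderiv ℝ u x) (0 : Cov) = 0 := by
        ext v w; simp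
      rw [h0, h5, W_zero_right, mul_zero, abs_zero]
      have := hpt.p_nonneg
      positivity
  have hbound : ‖∫ x in K0, dgf K (- u x) * W (Φ x) (wed (fderiv ℝ u x) (S x))‖ ≤
      ∫ x in K0, (c1 * (ζ x ^ 2 * Df K (- u x) * qq A e σ (J x) (Φ x) (p x) (fderiv ℝ u x))
        + c2 / √(Real.log K) * p x) := by
    apply norm_integral_le_of_norm_le ((hG.const_mul c1).add hP)
    rw [ae_restrict_iff' h.K0c.measurableSet]
    exact Filter.Eventually.of_forall hdom
  rw [Real.norm_eq_abs] at hbound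
  refine hbound.trans ?_
  rw [integral_add (hG.const_mul c1) hP, integral_const_mul, integral_const_mul]
  have hE := energy h hK0 hK hζ hζs hζ0 hζ1 hZ
  have h1 : c1 * (∫ x in K0, ζ x ^ 2 * Df K (- u x) *
      qq A e σ (J x) (Φ x) (p x) (fderiv ℝ u x)) ≤ c1 * (2 * CE A Z * A / Real.log K) :=
    mul_le_mul_of_nonneg_left hE (by positivity)
  have h2 : c2 / √(Real.log K) * ∫ x in K0, p x ≤ c2 / √(Real.log K) * A :=
    mul_le_mul_of_nonneg_left h.p_mass (by positivity)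
  refine (add_le_add h1 h2).trans (le_of_eq ?_)
  have hrr : √(Real.log K) * √(Real.log K) = Real.log K := Real.mul_self_sqrt hL.le
  have h3 : c1 * (2 * CE A Z * A / Real.log K) = Cτ ^ 2 * CE A Z * A / √(Real.log K) := by
    rw [hc1]
    have h4 : (1 / 2) * √(Real.log K) * Cτ ^ 2 * (2 * CE A Z * A / Real.log K) =
        (1 / 2) * √(Real.log K) * Cτ ^ 2 * (2 * CE A Z * A / (√(Real.log K) * √(Real.log K))) := by
      rw [hrr]
    rw [h4]
    field_simp
  rw [h3]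
  unfold CC
  rw [← hc2]
  ring

end integrated

end Crest.Agent.R240.En
end

-- ▼ part R240/En3b
section

/-!
Row 240 (S0371), BLOCK C (helper822): `En3main`, the fixed-`e` estimate of Step 5 in the form used by
Loc5 (873).
-/

set_option autoImplicit false
set_option maxSynthPendingDepth 3
open scoped ContDiff Manifold
open MeasureTheory Crest.Agent.R240.CutFun

namespace Crest.Agent.R240.En

/-- `d² = 0` -/
lemma Cl_d1 {γ : E4 → Cov} (hγ : ContDiff ℝ 2 γ) (x : E4) : Cl (d1 γ) x := by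
  have h1 : ContDiff ℝ 1 (fderiv ℝ γ) := hγ.fderiv_right (by norm_num)
  have h2 : HasFDerivAt (fderiv ℝ γ) (fderiv ℝ (fderiv ℝ γ) x) x :=
    ((h1.differentiable one_ne_zero) x).hasFDerivAt
  have hsymm : ∀ v w, fderiv ℝ (fderiv ℝ γ) x v w = fderiv ℝ (fderiv ℝ γ) x w v :=
    (hγ.contDiffAt (x := x)).isSymmSndFDerivAt (by simp)
  set L : (E4 →L[ℝ] Cov) →L[ℝ] (E4 →L[ℝ] Cov) :=
    (ContinuousLinearMap.flipₗᵢ ℝ E4 E4 ℝ).toContinuousLinearEquiv.toContinuousLinearMap with hL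
  have hLa : ∀ (b : Bil) (v w : E4), L b v w = b w v := by
    intro b v w; rfl
  have h3 : HasFDerivAt (fun y => fderiv ℝ γ y - L (fderiv ℝ γ y))
      (fderiv ℝ (fderiv ℝ γ) x - L.comp (fderiv ℝ (fderiv ℝ γ) x)) x :=
    h2.sub (L.hasFDerivAt.comp x h2)
  have h4 : fderiv ℝ (d1 γ) x = fderiv ℝ (fderiv ℝ γ) x - L.comp (fderiv ℝ (fderiv ℝ γ) x) :=
    h3.fderiv
  intro u v w
  rw [h4]
  have key : ∀ u v w : E4, (fderiv ℝ (fderiv ℝ γ) x - L.comp (fderiv ℝ (fderiv ℝ γ) x)) u v w =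
      fderiv ℝ (fderiv ℝ γ) x u v w - fderiv ℝ (fderiv ℝ γ) x u w v := by
    intro u v w
    rfl
  rw [key, key, key, hsymm v u, hsymm w u, hsymm w v]
  ring

lemma Cl_congr {b c : E4 → Bil} {x : E4} (h : b =ᶠ[nhds x] c) (hc : Cl c x) : Cl b x := by
  intro u v w
  rw [h.fderiv_eq]
  exact hc u v w

lemma abs_W_le (b c : Bil) : |W b c| ≤ 6 * (‖b‖ * ‖c‖) := by
  have h : ∀ i j k l : Fin 4, |ent b i j * ent c k l| ≤ ‖b‖ * ‖c‖ := by
    intro i j k l
    rw [abs_mul]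
    exact mul_le_mul (abs_ent_le b i j) (abs_ent_le c k l) (abs_nonneg _) (norm_nonneg _)
  unfold W
  have h1 := h 0 1 2 3
  have h2 := h 0 2 1 3
  have h3 := h 0 3 1 2
  have h4 := h 1 2 0 3
  have h5 := h 1 3 0 2
  have h6 := h 2 3 0 1
  rw [abs_le] at *
  constructor <;> linarith [h1.1, h1.2, h2.1, h2.2, h3.1, h3.2, h4.1, h4.2, h5.1, h5.2, h6.1, h6.2]

/-- the auxiliary strictly positive form of a complex structure -/
noncomputable def auxF (j : E4 →L[ℝ] E4) : Bil :=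
  (1 / 2 : ℝ) • (wed ((pr 0).comp j) (pr 0) + wed ((pr 1).comp j) (pr 1)
    + wed ((pr 2).comp j) (pr 2) + wed ((pr 3).comp j) (pr 3))

lemma auxF_apply (j : E4 →L[ℝ] E4) (u v : E4) :
    auxF j u v = (((j u) 0 * v 0 - u 0 * (j v) 0) + ((j u) 1 * v 1 - u 1 * (j v) 1)
      + ((j u) 2 * v 2 - u 2 * (j v) 2) + ((j u) 3 * v 3 - u 3 * (j v) 3)) / 2 := by
  have h : auxF j u v = (1 / 2 : ℝ) * (wed ((pr 0).comp j) (pr 0) u v
    + wed ((pr 1).comp j) (pr 1) u v + wed ((pr 2).comp j) (pr 2) u v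
    + wed ((pr 3).comp j) (pr 3) u v) := rfl
  rw [h]
  simp only [wed_apply, ContinuousLinearMap.comp_apply, pr_apply]
  ring

lemma auxF_Bd {j : E4 →L[ℝ] E4} (hj : ∀ v, j (j v) = -v) :
    Bd j (auxF j) (1 / 2) ((‖j‖ ^ 2 + 1) / 2) := by
  have hneg : ∀ (v : E4) (i : Fin 4), (-v) i = - v i := fun _ _ => rfl
  have hval : ∀ v, auxF j v (j v) = (‖j v‖ ^ 2 + ‖v‖ ^ 2) / 2 := by
    intro v
    rw [auxF_apply, hj, norm_sq_E4, norm_sq_E4]
    simp only [hneg]
    ring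
  refine ⟨hj, ⟨?_, ?_, ?_⟩, by norm_num, ?_, ?_⟩
  · intro v; rw [auxF_apply]; ring
  · intro u v
    rw [auxF_apply, auxF_apply, hj, hj]
    simp only [hneg]
    ring
  · intro v hv
    rw [hval]
    have := norm_pos_iff.mpr hv
    positivity
  · intro v
    rw [hval]
    nlinarith [sq_nonneg ‖j v‖]
  · intro v
    rw [hval]
    have h1 : ‖j v‖ ≤ ‖j‖ * ‖v‖ := j.le_opNorm v
    have h2 : ‖j v‖ ^ 2 ≤ (‖j‖ * ‖v‖) ^ 2 := pow_le_pow_left₀ (norm_nonneg _) h1 2
    nlinarith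

/-- symmetry of `(ξ, η) ↦ W(P, ξ ∧ Jη)` up to the anti-invariant part -/
lemma W_wedJ_diff {j : E4 →L[ℝ] E4} (hj : ∀ v, j (j v) = -v) {P : Bil} (hP : Alt P)
    (ξ η : Cov) :
    |W P (wed ξ (Jc j η)) - W P (wed η (Jc j ξ))| ≤ 24 * ‖antip j P‖ * ‖j‖ * (‖ξ‖ * ‖η‖) := by
  have hBd := auxF_Bd hj
  have hq := hBd.q_wedJ_symm (hP.invp j) (invp_inv hj P) ξ η
  have hW : W (invp j P) (wed ξ (Jc j η)) = W (invp j P) (wed η (Jc j ξ)) := by
    unfold q at hq
    exact (div_left_inj' hBd.W_ne).mp hq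
  have hsplit : ∀ c : Bil, W P c = W (invp j P) c + W (antip j P) c := by
    intro c
    rw [← W_add_left, invp_add_antip]
  rw [hsplit, hsplit, hW]
  have hle : ∀ a b : Cov, |W (antip j P) (wed a (Jc j b))| ≤ 12 * ‖antip j P‖ * ‖j‖ * (‖a‖ * ‖b‖) := by
    intro a b
    refine (abs_W_le _ _).trans ?_
    have h1 : ‖wed a (Jc j b)‖ ≤ 2 * ‖a‖ * (‖b‖ * ‖j‖) := by
      refine (norm_wed_le _ _).trans ?_
      exact mul_le_mul_of_nonneg_left (norm_Jc_le j b) (by positivity)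
    calc 6 * (‖antip j P‖ * ‖wed a (Jc j b)‖) ≤ 6 * (‖antip j P‖ * (2 * ‖a‖ * (‖b‖ * ‖j‖))) := by
          gcongr
      _ = _ := by ring
  have h1 := hle ξ η
  have h2 := hle η ξ
  have e1 : W (invp j P) (wed η (Jc j ξ)) + W (antip j P) (wed ξ (Jc j η)) -
      (W (invp j P) (wed η (Jc j ξ)) + W (antip j P) (wed η (Jc j ξ))) =
      W (antip j P) (wed ξ (Jc j η)) - W (antip j P) (wed η (Jc j ξ)) := by ring
  rw [e1]
  have h3 := abs_sub (W (antip j P) (wed ξ (Jc j η))) (W (antip j P) (wed η (Jc j ξ)))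
  have h4 : 12 * ‖antip j P‖ * ‖j‖ * (‖η‖ * ‖ξ‖) = 12 * ‖antip j P‖ * ‖j‖ * (‖ξ‖ * ‖η‖) := by ring
  linarith

theorem En3main (J : E4 → E4 →L[ℝ] E4) (hJ : ContDiff ℝ ∞ J) (hsq : ∀ x v, J x (J x v) = -v)
    (ζ : E4 → ℝ) (hζ : ContDiff ℝ ∞ ζ) (hζc : HasCompactSupport ζ)
    (S : E4 → Cov) (hS : ContDiff ℝ ∞ S) (hSζ : ∀ x ∈ tsupport S, ζ x = 1) (A : ℝ) :
    ∃ C, ∀ (e K : ℝ) (Φ : E4 → Bil) (u : E4 → ℝ) (a : E4 → Cov) (p : E4 → ℝ) (σ : ℝ),
      0 < e → e ≤ 1 → 0 < K → 1 ≤ Real.log K → (σ = 1 ∨ σ = -1) →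
      ContDiff ℝ ∞ Φ → (∀ x, Alt (Φ x)) → ContDiff ℝ ∞ u → ContDiff ℝ ∞ a → Continuous p →
      (∀ x, 0 ≤ p x) →
      (∃ U : Set E4, IsOpen U ∧ tsupport ζ ⊆ U ∧ ∀ x ∈ U,
        Φ x = d1 (fun z => Jc (J z) (fderiv ℝ u z)) x + d1 a x) →
      (∀ x ∈ tsupport ζ, ‖Φ x‖ ≤ p x) →
      (∀ x ∈ tsupport ζ, ∀ ξ : Cov,
        0 ≤ σ * W (Φ x) (wed ξ (Jc (J x) ξ)) + A * e ^ 2 * p x * ‖ξ‖ ^ 2) →
      (∀ x ∈ tsupport ζ, ‖antip (J x) (Φ x)‖ ≤ A * e * p x) →
      (∀ x ∈ tsupport ζ, -(A * e ^ 2 * p x ^ 2) ≤ σ * W (Φ x) (Φ x)) →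
      (∀ x ∈ tsupport ζ, e ^ 2 * p x ≤ A) →
      (∀ x ∈ tsupport ζ, e * ‖fderiv ℝ u x‖ ≤ A) →
      (∫ x in tsupport ζ, p x ≤ A) →
      (∀ x ∈ tsupport ζ, 1 ≤ - u x) →
      (∀ x ∈ tsupport ζ, ‖a x‖ ≤ A * (- u x)) →
      |∫ x, gf K (- u x) * W (Φ x) (d1 S x)| ≤ C / √(Real.log K) := by
  -- constants
  have hK0c : IsCompact (tsupport ζ) := hζc
  have hSsupp : tsupport S ⊆ Function.support ζ := fun x hx => by
    simp only [Function.mem_support]
    rw [hSζ x hx]; norm_num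
  have hSK : tsupport S ⊆ tsupport ζ := hSsupp.trans subset_closure
  have hSc : HasCompactSupport S := hK0c.of_isClosed_subset (isClosed_tsupport _) hSK
  obtain ⟨Ψ, hΨ⟩ := hS.continuous.bounded_above_of_compact_support hSc
  obtain ⟨B, hB⟩ := hK0c.exists_bound_of_continuousOn hJ.continuous.continuousOn
  -- a cut-off with values in [0,1]
  have hop : IsOpen (Function.support ζ) := hζ.continuous.isOpen_support
  obtain ⟨f, hf0, hf1, hf01⟩ := exists_contMDiffMap_zero_one_of_isClosed (n := ⊤) 𝓘(ℝ, E4)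
    (s := (Function.support ζ)ᶜ) (t := tsupport S) hop.isClosed_compl (isClosed_tsupport _)
    (by rw [Set.disjoint_left]; intro x hx hx'; exact hx (hSsupp hx'))
  set θ : E4 → ℝ := fun x => f x with hθ
  have hθsm : ContDiff ℝ ∞ θ := contMDiff_iff_contDiff.mp f.contMDiff
  have hθ0 : ∀ x, x ∉ Function.support ζ → θ x = 0 := fun x hx => hf0 hx
  have hθ1 : ∀ x ∈ tsupport S, θ x = 1 := fun x hx => hf1 hx
  have hθt : tsupport θ ⊆ tsupport ζ := by
    apply closure_mono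
    intro x hx
    by_contra h'
    exact hx (hθ0 x h')
  have hθc : HasCompactSupport θ := hK0c.of_isClosed_subset (isClosed_tsupport _) hθt
  have hθ1' : ContDiff ℝ 1 θ := hθsm.of_le (by exact_mod_cast le_top)
  obtain ⟨Z, hZ⟩ := (hθ1'.continuous_fderiv one_ne_zero).bounded_above_of_compact_support
    (hθc.fderiv ℝ)
  set A' : ℝ := 24 * (|A| + 1) * (|B| + 1) with hA'
  have hA'1 : 1 ≤ A' := by
    rw [hA']; nlinarith [abs_nonneg A, abs_nonneg B, mul_nonneg (abs_nonneg A) (abs_nonneg B)]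
  have hA'A : A ≤ A' := by
    rw [hA']
    nlinarith [abs_nonneg A, abs_nonneg B, mul_nonneg (abs_nonneg A) (abs_nonneg B), le_abs_self A]
  have hA'B : |B| ≤ A' := by
    rw [hA']; nlinarith [abs_nonneg A, abs_nonneg B, mul_nonneg (abs_nonneg A) (abs_nonneg B)]
  have hA'12 : 12 ≤ A' := by
    rw [hA']; nlinarith [abs_nonneg A, abs_nonneg B, mul_nonneg (abs_nonneg A) (abs_nonneg B)]
  have hA'AB : 24 * (|A| * |B|) ≤ A' := by
    rw [hA']; nlinarith [abs_nonneg A, abs_nonneg B, mul_nonneg (abs_nonneg A) (abs_nonneg B)]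
  refine ⟨CC A' Z Ψ, ?_⟩
  intro e K Φ u a p σ he he1 hK0 hK hσ hΦ hΦalt hu ha hp hp0 hU hΦn hpos hanti hsqW hpe hdu hmass
    hun habd
  obtain ⟨U, hUo, hUs, hUid⟩ := hU
  have hσ1 : |σ| = 1 := by
    rcases hσ with h | h <;> rw [h] <;> simp
  have hdu1 : ContDiff ℝ ∞ (fderiv ℝ u) := hu.fderiv_right (by simp)
  have hγ1 : ContDiff ℝ ∞ (fun z => Jc (J z) (fderiv ℝ u z)) := by
    unfold Jc
    exact (hdu1.clm_comp hJ).neg
  have hγ : ContDiff ℝ ∞ (fun z => Jc (J z) (fderiv ℝ u z) + a z) := hγ1.add ha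
  have hid : ∀ x ∈ U, Φ x = d1 (fun z => Jc (J z) (fderiv ℝ u z) + a z) x := by
    intro x hx
    rw [hUid x hx]
    have h1 : DifferentiableAt ℝ (fun z => Jc (J z) (fderiv ℝ u z)) x :=
      (hγ1.differentiable (by simp)) x
    have h2 : DifferentiableAt ℝ a x := (ha.differentiable (by simp)) x
    have h3 : fderiv ℝ (fun z => Jc (J z) (fderiv ℝ u z) + a z) x =
        fderiv ℝ (fun z => Jc (J z) (fderiv ℝ u z)) x + fderiv ℝ a x := fderiv_fun_add h1 h2
    ext v w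
    have h4 : ∀ b c : Bil, (b + c) v w = b v w + c v w := fun _ _ => rfl
    rw [h4]
    simp only [d1_apply, h3]
    have h5 : ∀ (b c : E4 →L[ℝ] Cov) (v w : E4), (b + c) v w = b v w + c v w := fun _ _ _ _ => rfl
    rw [h5, h5]
    ring
  have hD : Dat A' e σ (tsupport ζ) J Φ u a p := by
    refine ⟨hA'1, he, he1, hσ1, hK0c, hJ.of_le (by exact_mod_cast le_top),
      hΦ.of_le (by exact_mod_cast le_top), hΦalt, ?_, by exact_mod_cast contDiff_infty.mp hu 2,
      ha.of_le (by exact_mod_cast le_top), fun x hx => hid x (hUs hx), ?_, hmass.trans hA'A, ?_⟩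
    · intro x hx
      have h1 : Φ =ᶠ[nhds x] d1 (fun z => Jc (J z) (fderiv ℝ u z) + a z) := by
        filter_upwards [hUo.mem_nhds (hUs hx)] with y hy
        exact hid y hy
      exact Cl_congr h1 (Cl_d1 (by exact_mod_cast contDiff_infty.mp hγ 2) x)
    · exact hp.continuousOn.integrableOn_compact hK0c
    · intro x hx
      have hpx := hp0 x
      have hJB : ‖J x‖ ≤ |B| := (hB x hx).trans (le_abs_self B)
      refine ⟨hsq x, hJB.trans hA'B, hpx, ?_, ?_, ?_, ?_, (hpe x hx).trans hA'A,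
        (hdu x hx).trans hA'A, hun x hx, ?_⟩
      · intro ξ
        refine (hpos x hx ξ).trans ?_
        have : A * e ^ 2 * p x * ‖ξ‖ ^ 2 ≤ A' * e ^ 2 * p x * ‖ξ‖ ^ 2 := by gcongr
        linarith
      · intro ξ η
        refine (W_wedJ_diff (hsq x) (hΦalt x) ξ η).trans ?_
        have hAn : ‖antip (J x) (Φ x)‖ ≤ |A| * e * p x := by
          refine (hanti x hx).trans ?_
          have := le_abs_self A
          gcongr
        calc 24 * ‖antip (J x) (Φ x)‖ * ‖J x‖ * (‖ξ‖ * ‖η‖)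
            ≤ 24 * (|A| * e * p x) * |B| * (‖ξ‖ * ‖η‖) := by gcongr
          _ = (24 * (|A| * |B|)) * (e * p x * (‖ξ‖ * ‖η‖)) := by ring
          _ ≤ A' * (e * p x * (‖ξ‖ * ‖η‖)) := by gcongr
          _ = _ := by ring
      · intro ξ η
        refine (abs_W_le _ _).trans ?_
        calc 6 * (‖Φ x‖ * ‖wed ξ η‖) ≤ 6 * (p x * (2 * ‖ξ‖ * ‖η‖)) := by
              have h1 := hΦn x hx
              have h2 := norm_wed_le ξ η
              gcongr
          _ = 12 * (p x * ‖ξ‖ * ‖η‖) := by ring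
          _ ≤ A' * (p x * ‖ξ‖ * ‖η‖) := by gcongr
          _ = _ := by ring
      · refine le_trans ?_ (hsqW x hx)
        have : A * e ^ 2 * p x ^ 2 ≤ A' * e ^ 2 * p x ^ 2 := by gcongr
        linarith
      · refine (habd x hx).trans ?_
        have h1 : 0 ≤ - u x := by linarith [hun x hx]
        gcongr
  exact cutoff hD hK0 hK hθ1' hθt (fun x => (hf01 x).1) (fun x => (hf01 x).2) hZ
    (hS.of_le (by exact_mod_cast le_top)) hSK hθ1 hΨ

end Crest.Agent.R240.En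
end

-- ▼ part R240/Loc5D
section

/-!
Row 240 (S0371), LOC5 (helper873): assembly of the LOCAL POLES THEOREM from Lemma P (`Pot.P4`),
the energy estimate (`En.En3main`), (Q) for the mollified current and the limit lemma.
-/

set_option autoImplicit false
set_option maxSynthPendingDepth 3

open MeasureTheory Metric Set Filter Topology
open scoped ContDiff ENNReal

namespace Crest.Agent.R240.Loc5

open Crest.Agent.R240.En

noncomputable section

/-- (Q) for the mollified current (proved in `Loc5Q`). -/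
def QM : Prop :=
  ∀ (J : E4 → E4 →L[ℝ] E4) (F : E4 → Bil) (m M L LJ w0 σ : ℝ), (∀ y, Bd (J y) (F y) m M) →
    (∀ x y, ‖J x - J y‖ ≤ L * ‖x - y‖) → (∀ y, ‖J y‖ ≤ LJ) → (σ = 1 ∨ σ = -1) →
    (∀ y, 0 < σ * W (F y) (F y)) → (∀ y, σ * W (F y) (F y) ≤ w0) →
    ∃ A : ℝ, 0 ≤ A ∧ ∀ (s : Measure E4), IsFiniteMeasure s → ∀ (φ : E4 → Bil) (B : ℝ),
      Measurable φ → (∀ y, ‖φ y‖ ≤ B) → (∀ y, Pos (J y) (φ y)) →
      ∀ (e : ℝ) (k : E4 → ℝ), 0 < e → e ≤ 1 → Ker e k → ∀ x : E4,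
      ‖Ph s φ k x‖ ≤ B * ∫ y, k (x - y) ∂s ∧
      ‖antip (J x) (Ph s φ k x)‖ ≤ A * e * (B * ∫ y, k (x - y) ∂s) ∧
      (∀ ξ : E4 →L[ℝ] ℝ, 0 ≤ σ * W (Ph s φ k x) (wed ξ (Jc (J x) ξ)) +
        A * e ^ 2 * (B * ∫ y, k (x - y) ∂s) * ‖ξ‖ ^ 2) ∧
      -(A * e ^ 2 * (B * ∫ y, k (x - y) ∂s) ^ 2) ≤ σ * W (Ph s φ k x) (Ph s φ k x)

theorem contDiff_d1 {S : E4 → Cov} (hS : ContDiff ℝ ∞ S) : ContDiff ℝ ∞ (d1 S) := by
  have h1 : ContDiff ℝ ∞ (fderiv ℝ S) := hS.fderiv_right (m := ∞) le_rfl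
  have h2 : ContDiff ℝ ∞ fun x => (fderiv ℝ S x).flip :=
    (ContinuousLinearMap.flipₗᵢ ℝ E4 E4 ℝ).contDiff.comp h1
  exact h1.sub h2

theorem contDiff_Jc' {J : E4 → E4 →L[ℝ] E4} (hJ : ContDiff ℝ ∞ J) {ξ : E4 → Cov}
    (hξ : ContDiff ℝ ∞ ξ) : ContDiff ℝ ∞ (fun x => Jc (J x) (ξ x)) := by
  unfold Jc
  exact (hξ.clm_comp hJ).neg

theorem d1_zero_off {S : E4 → Cov} {x : E4} (hx : x ∉ tsupport S) : d1 S x = 0 := by
  have h1 : S =ᶠ[𝓝 x] fun _ => 0 := notMem_tsupport_iff_eventuallyEq.mp hx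
  have h2 : fderiv ℝ S x = 0 := by
    rw [h1.fderiv_eq]; simp
  ext v w
  simp [h2]

theorem tsupport_d1 (S : E4 → Cov) : tsupport (d1 S) ⊆ tsupport S := by
  refine closure_minimal ?_ (isClosed_tsupport S)
  intro x hx
  by_contra h
  exact hx (d1_zero_off h)

theorem exists_cut {x0 : E4} {R : ℝ} (hR : 0 < R) {K : Set E4} (hK : IsClosed K)
    (hKR : K ⊆ ball x0 R) : ∃ ζ : E4 → ℝ, ContDiff ℝ ∞ ζ ∧ HasCompactSupport ζ ∧
      tsupport ζ ⊆ ball x0 R ∧ ∀ x ∈ K, ζ x = 1 := by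
  obtain ⟨r1, hr1, hK1⟩ := exists_lt_subset_ball hK hKR
  set r2 := max r1 (R / 2) with hr2
  have h1 : 0 < r2 := lt_of_lt_of_le (by positivity) (le_max_right _ _)
  have h2 : r2 < R := max_lt hr1 (by linarith)
  let f : ContDiffBump x0 := ⟨r2, (r2 + R) / 2, h1, by linarith⟩
  refine ⟨f, f.contDiff, f.hasCompactSupport, ?_, fun x hx => ?_⟩
  · rw [f.tsupport_eq]
    apply closedBall_subset_ball
    change (r2 + R) / 2 < R
    linarith
  · apply f.one_of_mem_closedBall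
    exact ball_subset_closedBall (ball_subset_ball (le_max_left _ _) (hK1 hx))

/-! ### the normalised density `φ₁ = φ / |W(F,F)|` -/

/-- `φ₁`. -/
def ph1 (σ : ℝ) (F φ : E4 → Bil) (y : E4) : Bil := (σ * W (F y) (F y))⁻¹ • φ y

section ph1

variable {J : E4 → E4 →L[ℝ] E4} {F : E4 → Bil} {φ : E4 → Bil} {m M L LJ w0 c0 σ : ℝ}

theorem sigma_inv (hσ : σ = 1 ∨ σ = -1) : σ⁻¹ = σ := by
  rcases hσ with h | h <;> rw [h] <;> norm_num

theorem sigma_sq (hσ : σ = 1 ∨ σ = -1) : σ * σ = 1 := by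
  rcases hσ with h | h <;> rw [h] <;> norm_num

theorem W_ph1 (hσ : σ = 1 ∨ σ = -1) (y : E4) (c : Bil) :
    W (ph1 σ F φ y) c = σ * q (F y) (φ y) c := by
  unfold ph1 q
  rw [W_smul_left, mul_inv, sigma_inv hσ]
  ring

theorem ph1_pos (hC : Cst J F m M L LJ w0 c0 σ) (hd : Dens J F φ) (y : E4) :
    Pos (J y) (ph1 σ F φ y) := by
  have hpos : 0 ≤ (σ * W (F y) (F y))⁻¹ := inv_nonneg.2 (hC.c0pos.le.trans (hC.lo y))
  have hp := hd.pos y
  refine ⟨?_, ?_, ?_⟩
  · intro v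
    unfold ph1
    rw [smul_apply, smul_apply, hp.alt v, smul_zero]
  · intro u v
    unfold ph1
    rw [smul_apply, smul_apply, smul_apply, smul_apply, hp.inv]
  · intro v
    unfold ph1
    rw [smul_apply, smul_apply, smul_eq_mul]
    exact mul_nonneg hpos (hp.nonneg v)

theorem ph1_bound (hC : Cst J F m M L LJ w0 c0 σ) (hd : Dens J F φ) (y : E4) :
    ‖ph1 σ F φ y‖ ≤ c0⁻¹ * (2 * M) := by
  have h1 := (hC.bd y).norm_le_q (hd.pos y)
  rw [hd.nrm y, mul_one] at h1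
  unfold ph1
  rw [norm_smul, norm_inv, Real.norm_of_nonneg (hC.c0pos.le.trans (hC.lo y))]
  exact mul_le_mul (inv_anti₀ hC.c0pos (hC.lo y)) h1 (norm_nonneg _) (inv_nonneg.2 hC.c0pos.le)

theorem ph1_meas (h : Bg J F) (hd : Dens J F φ) : Measurable (ph1 σ F φ) := by
  unfold ph1
  exact ((continuous_const.mul (continuous_WW h)).measurable.inv).smul hd.meas

theorem ph1_tr (hC : Cst J F m M L LJ w0 c0 σ) (hd : Dens J F φ) (y : E4) :
    (1 : ℝ) ≤ |W (ph1 σ F φ y) (F y)| := by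
  rw [W_ph1 hC.sg, hd.nrm y]
  rcases hC.sg with h | h <;> rw [h] <;> norm_num

theorem ph1_closed (hC : Cst J F m M L LJ w0 c0 σ) {s : Measure E4} {U : Set E4}
    (hcl : ClosedIn F s φ U) (S : E4 → Cov) (hS : ContDiff ℝ ∞ S) (hSc : HasCompactSupport S)
    (hSU : tsupport S ⊆ U) : ∫ y, W (ph1 σ F φ y) (d1 S y) ∂s = 0 := by
  simp_rw [W_ph1 hC.sg]
  rw [integral_const_mul, hcl S hS hSc hSU, mul_zero]

end ph1

/-! ### the assembly -/

/-- the shifted potential `u - (C+1)` satisfies all requirements. -/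
theorem shift_facts {C1 w u na : ℝ} (hC1 : 0 < C1) (hw : 0 ≤ w) (h1 : w / C1 - C1 ≤ -u)
    (h2 : -u ≤ C1 * (1 + w)) (h3 : na ≤ C1 * (1 + w)) :
    1 ≤ -(u - (C1 + 1)) ∧ -(u - (C1 + 1)) ≤ (2 * C1 + 1) * (1 + w) ∧
      w ≤ C1 * -(u - (C1 + 1)) ∧ na ≤ C1 * (1 + C1) * -(u - (C1 + 1)) := by
  have h0 : 0 ≤ w / C1 := by positivity
  have a1 : 1 ≤ -(u - (C1 + 1)) := by linarith
  have a3 : w ≤ C1 * -(u - (C1 + 1)) := by
    have : w / C1 ≤ -(u - (C1 + 1)) := by linarith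
    rw [div_le_iff₀ hC1] at this
    linarith
  refine ⟨a1, ?_, a3, ?_⟩
  · nlinarith
  · have h5 : C1 * (1 + w) ≤ C1 * (1 + C1) * -(u - (C1 + 1)) := by
      have : 1 + w ≤ (1 + C1) * -(u - (C1 + 1)) := by linarith
      calc C1 * (1 + w) ≤ C1 * ((1 + C1) * -(u - (C1 + 1))) := mul_le_mul_of_nonneg_left this hC1.le
        _ = _ := by ring
    linarith

theorem localPoles_of (hQ : QM) (hP : Pot.P4) : LocalPoles := by
  intro J F hBg x0 R hR s hs C hgr φ hd hcl S hS hSc hSR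
  obtain ⟨m, M, L, LJ, w0, c0, σ, hC⟩ := exists_cst hBg
  have hσF : ∀ y, 0 < σ * W (F y) (F y) := fun y => lt_of_lt_of_le hC.c0pos (hC.lo y)
  set φ₁ := ph1 σ F φ with hφ₁
  set B1 := c0⁻¹ * (2 * M) with hB1
  have hM : 0 < M := (hC.bd 0).M_pos
  have hc0 := hC.c0pos
  have hB1' : 0 ≤ B1 := by positivity
  have mφ : Measurable φ₁ := ph1_meas hBg hd
  have bφ : ∀ y, ‖φ₁ y‖ ≤ B1 := ph1_bound hC hd
  have pφ : ∀ y, Pos (J y) (φ₁ y) := ph1_pos hC hd
  obtain ⟨ρ, hρ⟩ := exists_moll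
  obtain ⟨Bρ, hBρ0, hBρ⟩ := hρ.bound
  -- growth with a nonnegative constant
  set C' := max C 0 with hC'
  have hC'0 : 0 ≤ C' := le_max_right _ _
  have hgr' : ∀ y r, 0 < r → s (ball y r) ≤ ENNReal.ofReal (C' * r ^ 2) := fun y r hr =>
    (hgr y r hr).trans (ENNReal.ofReal_le_ofReal
      (mul_le_mul_of_nonneg_right (le_max_left _ _) (by positivity)))
  -- Lemma P
  obtain ⟨C1, e1, hC1, he1, hPe⟩ := hP J F hBg.smJ hBg.smF hBg.sq hBg.pos x0 (2 * R) (by positivity)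
    s hs φ₁ mφ B1 1 bφ one_pos pφ (ph1_tr hC hd)
    (fun S hS hSc hSU => ph1_closed hC hcl S hS hSc hSU) ρ hρ.sm hρ.nn hρ.supp hρ.int
  have hR2 : 2 * R / 2 = R := by ring
  rw [hR2] at hPe
  choose! u a hsu hsa hua using hPe
  -- (Q)
  obtain ⟨AQ, hAQ, hQm⟩ := hQ J F m M L LJ w0 σ hC.bd hC.lip hC.nJ hC.sg hσF hC.hi
  -- cut-off
  obtain ⟨ζ, hζ, hζc, hζR, hζ1⟩ := exists_cut hR (isClosed_tsupport S) hSR
  -- the constant
  set A3 : ℝ := AQ + B1 * Bρ * C' + C1 * (16 * C') + B1 * s.real univ + C1 * (1 + C1) with hA3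
  have hsr : 0 ≤ s.real univ := measureReal_nonneg
  have n1 : 0 ≤ B1 * Bρ * C' := by positivity
  have n2 : 0 ≤ C1 * (16 * C') := by positivity
  have n3 : 0 ≤ B1 * s.real univ := by positivity
  have n4 : 0 ≤ C1 * (1 + C1) := by positivity
  obtain ⟨Cm, hCm⟩ := En3main J hBg.smJ hBg.sq ζ hζ hζc S hS hζ1 A3
  set s' := s.restrict (closedBall x0 (2 * R)) with hs'
  set e0 := min e1 1 with he0
  have he0pos : 0 < e0 := lt_min he1 one_pos
  have hsupp : tsupport (d1 S) ⊆ ball x0 R := (tsupport_d1 S).trans hSR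
  -- facts at scale `e`
  have hfacts : ∀ e x, 0 < e → e ≤ e0 → x ∈ ball x0 R →
      1 ≤ -(u e x - (C1 + 1)) ∧ -(u e x - (C1 + 1)) ≤ (2 * C1 + 1) * (1 + (Kern.we s' e x).toReal) ∧
      (Kern.we s' e x).toReal ≤ C1 * -(u e x - (C1 + 1)) ∧
      ‖a e x‖ ≤ C1 * (1 + C1) * -(u e x - (C1 + 1)) := by
    intro e x he hee hx
    have h1 := hua e he (hee.trans (min_le_left _ _)) x hx
    have hw : Pot.wE s x0 (2 * R) e 2 x = (Kern.we s' e x).toReal := wE_eq s x0 (2 * R) he x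
    rw [hw] at h1
    exact shift_facts hC1 ENNReal.toReal_nonneg h1.2.1 h1.2.2.1 h1.2.2.2.1
  have H : LimHyp s s' φ₁ (d1 S) B1 (2 * C1 + 1) Cm e0 (Pot.rhoE ρ)
      (fun e x => -(u e x - (C1 + 1))) :=
    { mφ := mφ
      bφ := bφ
      cD := (contDiff_d1 hS).continuous
      sD := hSc.of_isClosed_subset (isClosed_tsupport _) (tsupport_d1 S)
      e0pos := he0pos
      Cpos := by positivity
      ker := fun e he _ => hρ.ker he
      mt := fun e he hee => by
        have := (hsu e he (hee.trans (min_le_left _ _))).continuous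
        fun_prop
      t0 := fun e x he hee hx => by
        have := (hfacts e x he hee (hsupp hx)).1
        linarith
      up := fun e x he hee hx => (hfacts e x he hee (hsupp hx)).2.1
      lo := fun e x he hee hx => by
        have h1 := hfacts e x he hee (hsupp hx)
        have h2 := h1.2.2.1
        have h3 := h1.1
        nlinarith
      main := by
        intro e K he hee hK0 hK
        have hee1 : e ≤ e1 := hee.trans (min_le_left _ _)
        have hee2 : e ≤ 1 := hee.trans (min_le_right _ _)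
        have hk := hρ.ker he
        set u' : E4 → ℝ := fun x => u e x - (C1 + 1) with hu'
        have hu's : ContDiff ℝ ∞ u' := (hsu e he hee1).sub contDiff_const
        have hfd : fderiv ℝ u' = fderiv ℝ (u e) := by
          funext x
          rw [hu']
          exact fderiv_sub_const _
        set Φ : E4 → Bil := fun x => d1 (fun z => Jc (J z) (fderiv ℝ u' z)) x + d1 (a e) x with hΦ
        have hΦs : ContDiff ℝ ∞ Φ :=
          (contDiff_d1 (contDiff_Jc' hBg.smJ (hu's.fderiv_right (m := ∞) le_rfl))).add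
            (contDiff_d1 (hsa e he hee1))
        have hΦPh : ∀ x ∈ ball x0 R, Φ x = Ph s φ₁ (Pot.rhoE ρ e) x := by
          intro x hx
          have h1 := (hua e he hee1 x hx).1
          rw [hΦ]
          simp only [hfd]
          rw [← h1]
          rfl
        have hQx := hQm s hs φ₁ B1 mφ bφ pφ e (Pot.rhoE ρ e) he hee2 hk
        have hpn : ∀ x, 0 ≤ pe s B1 (Pot.rhoE ρ e) x := pe_nonneg hB1' hk
        have hmain := hCm e K Φ u' (a e) (pe s B1 (Pot.rhoE ρ e)) σ he hee2 hK0 hK hC.sg hΦs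
          (fun x => (alt_d1 _ x).add (alt_d1 _ x)) hu's (hsa e he hee1) (continuous_pe hk) hpn
          ⟨ball x0 R, isOpen_ball, hζR, fun x _ => rfl⟩
          (fun x hx => by
            rw [hΦPh x (hζR hx)]; exact (hQx x).1)
          (fun x hx ξ => by
            rw [hΦPh x (hζR hx)]
            have h1 := (hQx x).2.2.1 ξ
            have h2 : AQ * e ^ 2 * (B1 * ∫ y, Pot.rhoE ρ e (x - y) ∂s) * ‖ξ‖ ^ 2 ≤
                A3 * e ^ 2 * pe s B1 (Pot.rhoE ρ e) x * ‖ξ‖ ^ 2 := by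
              have : AQ ≤ A3 := by rw [hA3]; linarith
              have h3 := hpn x
              unfold pe at h3 ⊢
              gcongr
            linarith)
          (fun x hx => by
            rw [hΦPh x (hζR hx)]
            refine (hQx x).2.1.trans ?_
            have : AQ ≤ A3 := by rw [hA3]; linarith
            have h3 := hpn x
            unfold pe at h3 ⊢
            gcongr)
          (fun x hx => by
            rw [hΦPh x (hζR hx)]
            have h1 := (hQx x).2.2.2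
            have h2 : AQ * e ^ 2 * (B1 * ∫ y, Pot.rhoE ρ e (x - y) ∂s) ^ 2 ≤
                A3 * e ^ 2 * pe s B1 (Pot.rhoE ρ e) x ^ 2 := by
              have : AQ ≤ A3 := by rw [hA3]; linarith
              unfold pe
              gcongr
            linarith)
          (fun x _ => by
            have h1 := pe_le hB1' hk he (hBρ e he) hBρ0 hC'0 hgr' x
            rw [hA3]; linarith)
          (fun x hx => by
            rw [hfd]
            have h1 := (hua e he hee1 x (hζR hx)).2.2.2.2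
            have h2 := wE_three_le s x0 (2 * R) hC'0 hgr' he x
            have h3 : e * ‖fderiv ℝ (u e) x‖ ≤ C1 * (e * Pot.wE s x0 (2 * R) e 3 x) := by
              have := mul_le_mul_of_nonneg_left h1 he.le
              linarith
            have h4 := mul_le_mul_of_nonneg_left h2 hC1.le
            rw [hA3]; linarith)
          (by
            have h1 := setIntegral_pe_le (s := s) hB1' hk (K := tsupport ζ) hζc
            rw [hA3]; linarith)
          (fun x hx => (hfacts e x he hee (hζR hx)).1)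
          (fun x hx => by
            have h1 := hfacts e x he hee (hζR hx)
            have h2 := h1.2.2.2
            have h3 : C1 * (1 + C1) * -(u e x - (C1 + 1)) ≤ A3 * -(u e x - (C1 + 1)) := by
              have : C1 * (1 + C1) ≤ A3 := by rw [hA3]; linarith
              exact mul_le_mul_of_nonneg_right this (by linarith [h1.1])
            exact h2.trans h3)
        have heq : (fun x => CutFun.gf K (-(u e x - (C1 + 1))) *
            W (Ph s φ₁ (Pot.rhoE ρ e) x) (d1 S x)) = fun x => CutFun.gf K (-u' x) * W (Φ x) (d1 S x) := by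
          funext x
          by_cases hx : x ∈ tsupport S
          · rw [hΦPh x (hSR hx)]
          · rw [d1_zero_off hx]
            have h0 : ∀ b : Bil, W b 0 = 0 := fun b => by simp [W, ent_zero]
            simp only [h0, mul_zero]
        simp only [heq]
        exact hmain }
  have hfin := limit_zero H
  -- back to `q` and `wpot`
  have hS1 : MeasurableSet {y | Kern.w s' y < ⊤} :=
    measurableSet_lt (Kern.measurable_w s') measurable_const
  have hS2 : MeasurableSet {y | wpot s y < ⊤} := by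
    have : Measurable (wpot s) := by
      have h := Kern.measurable_w s
      have h2 : wpot s = Kern.w s := funext fun y => wpot_eq s y
      rw [h2]; exact h
    exact measurableSet_lt this measurable_const
  have hq : ∀ y, q (F y) (φ y) (d1 S y) = σ * W (φ₁ y) (d1 S y) := by
    intro y
    rw [hφ₁, W_ph1 hC.sg, ← mul_assoc, sigma_sq hC.sg, one_mul]
  simp_rw [hq]
  rw [integral_const_mul]
  have hset : ∫ y in {y | wpot s y < ⊤}, W (φ₁ y) (d1 S y) ∂s =
      ∫ y in {y | Kern.w s' y < ⊤}, W (φ₁ y) (d1 S y) ∂s := by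
    rw [← integral_indicator hS1, ← integral_indicator hS2]
    refine integral_congr_ae (ae_of_all _ fun y => ?_)
    by_cases hy : y ∈ ball x0 R
    · have h1 := w_restrict_iff s hR hy
      by_cases h2 : wpot s y < ⊤
      · rw [indicator_of_mem (by exact h2), indicator_of_mem (by exact h1.2 h2)]
      · rw [indicator_of_notMem (by exact h2), indicator_of_notMem (by exact fun h => h2 (h1.1 h))]
    · have h3 : d1 S y = 0 := d1_zero_off fun h => hy (hSR h)
      have h0 : W (φ₁ y) (d1 S y) = 0 := by rw [h3]; simp [W, ent_zero]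
      simp [indicator, h0]
  rw [hset, hfin, mul_zero]

end

end Crest.Agent.R240.Loc5
end

-- ▼ part R240/Loc5E
section

/-!
Row 240 (S0371), LOC5 (helper873): `QM` holds; LocalPoles follows from Lemma P (`Pot.P4`) alone.
-/

set_option autoImplicit false

open MeasureTheory

namespace Crest.Agent.R240.Loc5

theorem qm : QM := by
  intro J F m M L LJ w0 σ h1 h2 h3 h4 h5 h6
  obtain ⟨A, hA, h⟩ := Qmoll h1 h2 h3 h4 h5 h6
  refine ⟨A, hA, fun s hs => ?_⟩
  have := hs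
  exact h s

theorem localPoles_of_P4 (hP : Pot.P4) : LocalPoles := localPoles_of qm hP

end Crest.Agent.R240.Loc5
end

-- ▼ part R240/LocPolesFin

/-!
Row 240 (S0371): `LocalPoles`, unconditional.
-/

set_option autoImplicit false

namespace Crest.Agent.R240

theorem Loc5.localPoles : LocalPoles := Loc5.localPoles_of_P4 Pot.p4

end Crest.Agent.R240
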