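import Mathlib
import Crest.Agent.R240.Iface
import Crest.Agent.R240.En4L

/-!
Row 240 (S0371), TOP (helper23): the main assembly from the frozen nodes.
-/

set_option autoImplicit false
set_option maxSynthPendingDepth 3

open Set Function Filter MeasureTheory Metric
open scoped Manifold ContDiff Topology ENNReal

namespace Crest.Agent.R240

open Ch

noncomputable section

/-! ### pointwise facts -/

theorem neg_nr_le {J : E4 →L[ℝ] E4} {F b : Bil} (hJ : ∀ v, J (J v) = -v) (hF : SPos J F)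
    (hb : Alt b) (v : E4) : - (2 * nr J F b) * F v (J v) ≤ b v (J v) := by
  have hn0 : 0 ≤ nsq J F b := En4.nsq_nonneg hJ hF hb
  have hnr : nr J F b ^ 2 = nsq J F b := Real.sq_sqrt hn0
  have hnr0 : 0 ≤ nr J F b := Real.sqrt_nonneg _
  set n := nr J F b with hn
  set b' := invp J b with hb'
  have halt' : Alt b' := Alt.invp hb J
  have hinv' := R240.invp_inv hJ b
  set P : Bil := b' + (2 * n) • F with hP
  have hPalt : Alt P := Alt.add halt' (Alt.smul hF.alt _)
  have hPinv : ∀ u v, P (J u) (J v) = P u v := by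
    intro u v
    have h1 : P (J u) (J v) = b' (J u) (J v) + (2 * n) * F (J u) (J v) := rfl
    have h2 : P u v = b' u v + (2 * n) * F u v := rfl
    rw [h1, h2, hinv', hF.inv]
  have ha : q F b' F = q F b F := En4.q_F_invp hJ hF hb
  have hFF : q F F F = 1 := En4.q_F_F hJ hF
  have hcs : q F b F ^ 2 ≤ n ^ 2 := by
    have := En4.q_cs hJ hF hb hF.alt
    rw [En4.nsq_F hJ hF, mul_one] at this
    rw [hnr]; exact this
  have habs : |q F b F| ≤ n := abs_le_of_sq_le_sq hcs hnr0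
  have hsplit : nsq J F b = nsq J F b' + nsq J F (antip J b) := En4.nsq_split hJ hF hb
  have hanti0 : 0 ≤ nsq J F (antip J b) := En4.nsq_nonneg hJ hF (Alt.antip hb J)
  have hinvn : nsq J F b' = 2 * q F b' F ^ 2 - q F b' b' := En4.nsq_inv hJ hF hinv'
  have hqPF : q F P F = q F b F + 2 * n := by
    rw [hP, q_add_left, q_smul_left, hFF, ha]; ring
  have hqPP : q F P P = q F b' b' + 4 * n * q F b F + 4 * n ^ 2 := by
    rw [hP, q_add_left, q_add_right, q_add_right, q_smul_left, q_smul_left,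
      q_smul_right, q_smul_right, hFF, ha, q_comm F F b', ha]
    ring
  have hpos := (En4.pos_iff hJ hF hPalt hPinv).2
  have hres : ∀ v, 0 ≤ P v (J v) := by
    apply hpos
    constructor
    · rw [hqPF]; have := abs_le.1 habs; linarith
    · rw [hqPP]
      have h1 : q F b' b' = 2 * q F b F ^ 2 - nsq J F b' := by rw [hinvn, ha]; ring
      rw [h1]
      have h2 : nsq J F b' ≤ n ^ 2 := by rw [hnr]; linarith
      nlinarith [sq_nonneg (q F b F + n)]
  have h1 := hres v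
  have h2 : P v (J v) = b' v (J v) + (2 * n) * F v (J v) := rfl
  have h3 : b' v (J v) = b v (J v) := by
    rw [hb', invp_apply, hJ, map_neg]
    have := hb.swap v (J v)
    linarith
  rw [h2, h3] at h1
  linarith

/-! ### the data -/

namespace Dat

variable {M : Type*} [MetricSpace M] [CompactSpace M] [ChartedSpace E4 M]
    [IsManifold 𝓘(ℝ, E4) ∞ M] [MeasurableSpace M] [BorelSpace M]

theorem al_alt (D : Dat M) (x : M) : Alt (at2 D.al x) := fun v => D.sm_al.1 x v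

theorem F_apply (D : Dat M) (x : M) (v : E4) :
    at2 D.F x v (atJ D.J x v) = at2 D.al x v (atJ D.J x v) := by
  have h : at2 D.F x = invp (atJ D.J x) (at2 D.al x) := rfl
  rw [h, invp_apply, D.sq, map_neg]
  have := (D.al_alt x).swap v (atJ D.J x v)
  linarith

theorem spos (D : Dat M) (x : M) : SPos (atJ D.J x) (at2 D.F x) where
  alt := by
    have h : at2 D.F x = invp (atJ D.J x) (at2 D.al x) := rfl
    rw [h]; exact Alt.invp (D.al_alt x) _
  inv u v := R240.invp_inv (D.sq x) (at2 D.al x) u v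
  pos v hv := by rw [F_apply]; exact D.tames x v hv

theorem alt (b : X2 M) (x : M) : Alt (at2 (b : F2 E4 M) x) := fun v => b.2.1 x v


theorem at2_pi'' (D : Dat M) (b : X2 M) (x : M) :
    at2 ((D.pi'' b : X2 M) : F2 E4 M) x = antip (atJ D.J x) (at2 (b : F2 E4 M) x) := rfl

theorem pi_add (D : Dat M) (b : X2 M) : D.pi' b + D.pi'' b = b := by
  apply Subtype.ext
  funext x
  exact invp_add_antip (atJ D.J x) (at2 (b : F2 E4 M) x)

theorem nr_nonneg (D : Dat M) (b : F2 E4 M) (x : M) : 0 ≤ D.nr b x := Real.sqrt_nonneg _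

theorem neg_nr_le (D : Dat M) (b : X2 M) (x : M) (v : E4) :
    - (2 * D.nr (b : F2 E4 M) x) * at2 D.F x v (atJ D.J x v) ≤
      at2 (b : F2 E4 M) x v (atJ D.J x v) :=
  R240.neg_nr_le (D.sq x) (D.spos x) (alt b x) v

theorem nsq_eq (D : Dat M) (b : X2 M) (x : M) :
    nsqG D.J D.F (b : F2 E4 M) x = D.nr (b : F2 E4 M) x ^ 2 :=
  (Real.sq_sqrt (En4.nsq_nonneg (D.sq x) (D.spos x) (alt b x))).symm

theorem nr_neg (D : Dat M) (b : X2 M) (x : M) : D.nr ((-b : X2 M) : F2 E4 M) x = D.nr b x := by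
  have h : at2 ((-b : X2 M) : F2 E4 M) x = (-1 : ℝ) • at2 (b : F2 E4 M) x := by
    ext u v
    show - (at2 (b : F2 E4 M) x u v) = (-1 : ℝ) * (at2 (b : F2 E4 M) x u v)
    ring
  show R240.nr (atJ D.J x) (at2 D.F x) (at2 ((-b : X2 M) : F2 E4 M) x) =
    R240.nr (atJ D.J x) (at2 D.F x) (at2 (b : F2 E4 M) x)
  rw [h]
  unfold R240.nr R240.nsq
  have h1 := En4.ip_smul_left (atJ D.J x) (at2 D.F x) (-1) (at2 (b : F2 E4 M) x)
    ((-1 : ℝ) • at2 (b : F2 E4 M) x)
  have h2 := En4.ip_smul_right (atJ D.J x) (at2 D.F x) (-1) (at2 (b : F2 E4 M) x)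
    (at2 (b : F2 E4 M) x)
  congr 1
  calc _ = _ := h1
    _ = (-1) * ((-1) * _) := by rw [h2]
    _ = _ := by ring_nf

/-- the first alternative of `N2` for all `ρ` gives the goal. -/
theorem goal_of_first (D : Dat M) {𝒰 : Cover M} {m : ℕ} {C : ℝ}
    (h3 : ∀ b ∈ Z2 M, ∃ c ∈ Z2 M, D.pi'' c = D.pi'' b ∧
      ∀ x, D.nr (c : F2 E4 M) x ≤ C * 𝒰.cm m ((D.pi'' b : X2 M) : F2 E4 M))
    (h : ∀ ρ : ℝ, 0 < ρ → ∃ b ∈ Z2 M, D.pi' b - D.FX ∈ D.Pp ∧
      𝒰.cm m ((D.pi'' b : X2 M) : F2 E4 M) < ρ)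
    (hcm : ∀ b : X2 M, 0 ≤ 𝒰.cm m (b : F2 E4 M)) : D.Goal := by
  obtain ⟨b, hbZ, hbP, hbρ⟩ := h (1 / (4 * (|C| + 1))) (by positivity)
  obtain ⟨c, hcZ, hc, hcn⟩ := h3 b hbZ
  refine ⟨b - c, (Z2 M).sub_mem hbZ hcZ, ?_, ?_⟩
  · rw [map_sub, hc, sub_self]
  · intro x v hv
    have hsmall : D.nr (c : F2 E4 M) x ≤ 1 / 4 := by
      have h0 := hcm (D.pi'' b)
      calc D.nr (c : F2 E4 M) x ≤ C * 𝒰.cm m ((D.pi'' b : X2 M) : F2 E4 M) := hcn x
        _ ≤ (|C| + 1) * 𝒰.cm m ((D.pi'' b : X2 M) : F2 E4 M) := by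
            apply mul_le_mul_of_nonneg_right _ h0
            linarith [le_abs_self C]
        _ ≤ (|C| + 1) * (1 / (4 * (|C| + 1))) := by
            apply mul_le_mul_of_nonneg_left hbρ.le
            positivity
        _ = 1 / 4 := by
            have : |C| + 1 ≠ 0 := by positivity
            field_simp
    have hF0 : 0 < at2 D.F x v (atJ D.J x v) := (D.spos x).pos v hv
    have h1 := D.neg_nr_le (-c) x v
    rw [nr_neg] at h1
    have h2 : at2 ((-c : X2 M) : F2 E4 M) x v (atJ D.J x v) =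
      - at2 (c : F2 E4 M) x v (atJ D.J x v) := rfl
    rw [h2] at h1
    have h3 : at2 ((b - c : X2 M) : F2 E4 M) x v (atJ D.J x v) =
      at2 (b : F2 E4 M) x v (atJ D.J x v) - at2 (c : F2 E4 M) x v (atJ D.J x v) := rfl
    have h4 : 0 ≤ at2 ((D.pi' b - D.FX : X2 M) : F2 E4 M) x v (atJ D.J x v) := (hbP x).nonneg v
    have h5 : at2 ((D.pi' b - D.FX : X2 M) : F2 E4 M) x v (atJ D.J x v) =
      invp (atJ D.J x) (at2 (b : F2 E4 M) x) v (atJ D.J x v) - at2 D.F x v (atJ D.J x v) := rfl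
    have h6 : invp (atJ D.J x) (at2 (b : F2 E4 M) x) v (atJ D.J x v) =
        at2 (b : F2 E4 M) x v (atJ D.J x v) := by
      rw [invp_apply, D.sq, map_neg]
      have := (alt b x).swap v (atJ D.J x v)
      linarith
    rw [h5, h6] at h4
    rw [h3]
    have h7 : D.nr (c : F2 E4 M) x * at2 D.F x v (atJ D.J x v) ≤
      1 / 4 * at2 D.F x v (atJ D.J x v) := mul_le_mul_of_nonneg_right hsmall hF0.le
    nlinarith

/-- Step 6: the contradiction. -/
theorem false_of_second (D : Dat M) {L : X2 M →ₗ[ℝ] ℝ} {sT : Measure M} {C5 : ℝ}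
    (hLZ : KillsClosed L) (hLF : L D.FX = 1) (hsT : D.IsRM L sT)
    (hC5 : ∀ b : X2 M, |L (D.pi'' b)| ≤ C5 * D.n2 ((D.pi'' b : X2 M) : F2 E4 M))
    {s₀ : Measure M} [IsFiniteMeasure s₀] {C e₀ : ℝ} (hC : 0 < C) (he₀ : 0 < e₀)
    (h8 : ∀ e : ℝ, 0 < e → e ≤ e₀ →
      ∃ b ∈ Z2 M, ∃ p : M → ℝ, Continuous p ∧
        (∀ x, 0 ≤ p x ∧ p x ≤ C * (s₀.real (ball x (C * e)) / e ^ 4)) ∧
        GeF D.J D.F (b : F2 E4 M) (fun x => 1 - C * e - C * e ^ 2 * p x) ∧
        ∀ x, D.nr ((D.pi'' b : X2 M) : F2 E4 M) x ≤ C * e * p x)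
    (h7 : Tendsto (fun e : ℝ => ∫ x, s₀.real (ball x (C * e)) / e ^ 2 ∂sT) (𝓝[>] 0) (𝓝 0) ∧
      Tendsto (fun e : ℝ => ∫ x, s₀.real (ball x (C * e)) / e ^ 2 *
        (s₀.real (ball x (C * e)) / e ^ 4) ∂D.μ) (𝓝[>] 0) (𝓝 0)) : False := by
  have hfin := hsT.fin
  have hμfin := D.fin
  have hsT1 : sT.real univ = 1 := by
    have h1 := hsT.trace (fun _ => 1) (fun p => contDiffOn_const) D.FX (by
      funext x
      show D.F x = (1 : ℝ) • D.F x
      rw [one_smul])
    rw [hLF] at h1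
    simpa using h1.symm
  -- bounds for each small `e`
  have key : ∀ e : ℝ, 0 < e → e ≤ e₀ →
      1 ≤ C * e + C ^ 2 * ∫ x, s₀.real (ball x (C * e)) / e ^ 2 ∂sT +
        |C5| * √(C ^ 4 * ∫ x, s₀.real (ball x (C * e)) / e ^ 2 *
          (s₀.real (ball x (C * e)) / e ^ 4) ∂D.μ) := by
    intro e he hee
    obtain ⟨b, hbZ, p, hpc, hp, hge, hnr⟩ := h8 e he hee
    have hLb : L b = 0 := hLZ b hbZ
    have hsplit : L (D.pi' b) + L (D.pi'' b) = 0 := by
      rw [← map_add, D.pi_add, hLb]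
    have hlow := hsT.lower b (fun x => 1 - C * e - C * e ^ 2 * p x) (by fun_prop) hge
    have hint : ∀ (ν : Measure M) [IsFiniteMeasure ν] (f : M → ℝ), Continuous f →
        Integrable f ν := by
      intro ν _ f hf
      exact (BoundedContinuousFunction.mkOfCompact ⟨f, hf⟩).integrable ν
    have hmeas : ∀ r : ℝ, Measurable fun x : M => s₀.real (ball x r) := by
      intro r
      have hS : MeasurableSet {z : M × M | dist z.2 z.1 < r} :=
        (isOpen_lt (by fun_prop) (by fun_prop)).measurableSet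
      have := measurable_measure_prodMk_left (ν := s₀) hS
      exact this.ennreal_toReal
    have hbd : ∀ r : ℝ, ∀ x : M, s₀.real (ball x r) ≤ s₀.real univ := fun r x =>
      measureReal_mono (subset_univ _)
    have hI1 : Integrable (fun x => s₀.real (ball x (C * e)) / e ^ 2) sT := by
      apply Integrable.mono' (integrable_const (s₀.real univ / e ^ 2))
        ((hmeas _).div_const _).aestronglyMeasurable
      refine ae_of_all _ fun x => ?_
      have h0 : 0 ≤ s₀.real (ball x (C * e)) := measureReal_nonneg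
      rw [Real.norm_eq_abs, abs_of_nonneg (by positivity)]
      exact div_le_div_of_nonneg_right (hbd (C * e) x) (by positivity)
    have hI2 : Integrable (fun x => s₀.real (ball x (C * e)) / e ^ 2 *
        (s₀.real (ball x (C * e)) / e ^ 4)) D.μ := by
      apply Integrable.mono' (integrable_const (s₀.real univ / e ^ 2 * (s₀.real univ / e ^ 4)))
        (((hmeas _).div_const _).mul ((hmeas _).div_const _)).aestronglyMeasurable
      refine ae_of_all _ fun x => ?_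
      have h0 : 0 ≤ s₀.real (ball x (C * e)) := measureReal_nonneg
      have h1 : s₀.real (ball x (C * e)) / e ^ 2 ≤ s₀.real univ / e ^ 2 :=
        div_le_div_of_nonneg_right (hbd (C * e) x) (by positivity)
      have h2 : s₀.real (ball x (C * e)) / e ^ 4 ≤ s₀.real univ / e ^ 4 :=
        div_le_div_of_nonneg_right (hbd (C * e) x) (by positivity)
      have h3 : 0 ≤ s₀.real univ / e ^ 2 := le_trans (by positivity) h1
      have h4 : 0 ≤ s₀.real (ball x (C * e)) / e ^ 2 * (s₀.real (ball x (C * e)) / e ^ 4) := by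
        positivity
      show ‖s₀.real (ball x (C * e)) / e ^ 2 * (s₀.real (ball x (C * e)) / e ^ 4)‖ ≤ _
      rw [Real.norm_eq_abs, abs_of_nonneg h4]
      exact mul_le_mul h1 h2 (by positivity) h3
    have hpe : ∀ x, e ^ 2 * p x ≤ C * (s₀.real (ball x (C * e)) / e ^ 2) := by
      intro x
      calc e ^ 2 * p x ≤ e ^ 2 * (C * (s₀.real (ball x (C * e)) / e ^ 4)) := by
            have := (hp x).2
            gcongr
        _ = C * (s₀.real (ball x (C * e)) / e ^ 2) := by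
            field_simp
    -- first integral
    have h1 : ∫ x, (1 - C * e - C * e ^ 2 * p x) ∂sT =
        1 - C * e - C * ∫ x, e ^ 2 * p x ∂sT := by
      have e1 : (fun x => 1 - C * e - C * e ^ 2 * p x) =
          fun x => (1 - C * e) - C * (e ^ 2 * p x) := by funext x; ring
      rw [e1, integral_sub (integrable_const _) ((hint sT _ (by fun_prop)).const_mul C),
        integral_const_mul]
      simp [hsT1]
    have h2 : ∫ x, e ^ 2 * p x ∂sT ≤ C * ∫ x, s₀.real (ball x (C * e)) / e ^ 2 ∂sT := by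
      rw [← integral_const_mul]
      exact integral_mono (hint sT _ (by fun_prop)) (hI1.const_mul C) hpe
    -- second integral
    have h3 : ∫ x, nsqG D.J D.F ((D.pi'' b : X2 M) : F2 E4 M) x ∂D.μ ≤
        C ^ 4 * ∫ x, s₀.real (ball x (C * e)) / e ^ 2 *
          (s₀.real (ball x (C * e)) / e ^ 4) ∂D.μ := by
      rw [← integral_const_mul]
      apply integral_mono_of_nonneg
      · refine ae_of_all _ fun x => ?_
        show 0 ≤ nsqG D.J D.F ((D.pi'' b : X2 M) : F2 E4 M) x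
        rw [D.nsq_eq]; positivity
      · exact hI2.const_mul _
      · refine ae_of_all _ fun x => ?_
        show nsqG D.J D.F ((D.pi'' b : X2 M) : F2 E4 M) x ≤ _
        rw [D.nsq_eq]
        have h4 := hnr x
        have h40 := D.nr_nonneg ((D.pi'' b : X2 M) : F2 E4 M) x
        have h5 := (hp x).1
        have h6 := (hp x).2
        calc D.nr ((D.pi'' b : X2 M) : F2 E4 M) x ^ 2 ≤ (C * e * p x) ^ 2 := by gcongr
          _ = C ^ 2 * ((e ^ 2 * p x) * p x) := by ring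
          _ ≤ C ^ 2 * ((C * (s₀.real (ball x (C * e)) / e ^ 2)) *
                (C * (s₀.real (ball x (C * e)) / e ^ 4))) := by
              have := hpe x
              gcongr
          _ = C ^ 4 * (s₀.real (ball x (C * e)) / e ^ 2 *
                (s₀.real (ball x (C * e)) / e ^ 4)) := by ring
    have h4 : |L (D.pi'' b)| ≤ |C5| * √(C ^ 4 * ∫ x, s₀.real (ball x (C * e)) / e ^ 2 *
          (s₀.real (ball x (C * e)) / e ^ 4) ∂D.μ) := by
      calc |L (D.pi'' b)| ≤ C5 * D.n2 ((D.pi'' b : X2 M) : F2 E4 M) := hC5 b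
        _ ≤ |C5| * D.n2 ((D.pi'' b : X2 M) : F2 E4 M) := by
            apply mul_le_mul_of_nonneg_right (le_abs_self _) (Real.sqrt_nonneg _)
        _ ≤ _ := by
            apply mul_le_mul_of_nonneg_left _ (abs_nonneg _)
            exact Real.sqrt_le_sqrt h3
    have h5 : 1 - C * e - C * ∫ x, e ^ 2 * p x ∂sT ≤ |L (D.pi'' b)| := by
      rw [← h1]
      have h6 : L (D.pi' b) = - L (D.pi'' b) := by linarith
      calc _ ≤ L (D.pi' b) := hlow
        _ = - L (D.pi'' b) := h6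
        _ ≤ |L (D.pi'' b)| := neg_le_abs _
    have h6 : C * ∫ x, e ^ 2 * p x ∂sT ≤ C ^ 2 * ∫ x, s₀.real (ball x (C * e)) / e ^ 2 ∂sT := by
      calc C * ∫ x, e ^ 2 * p x ∂sT ≤ C * (C * ∫ x, s₀.real (ball x (C * e)) / e ^ 2 ∂sT) := by
            gcongr
        _ = _ := by ring
    linarith
  -- the limit
  have hlim : Tendsto (fun e : ℝ => C * e + C ^ 2 * ∫ x, s₀.real (ball x (C * e)) / e ^ 2 ∂sT +
        |C5| * √(C ^ 4 * ∫ x, s₀.real (ball x (C * e)) / e ^ 2 *
          (s₀.real (ball x (C * e)) / e ^ 4) ∂D.μ)) (𝓝[>] 0) (𝓝 0) := by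
    have t1 : Tendsto (fun e : ℝ => C * e) (𝓝[>] 0) (𝓝 (C * 0)) :=
      (tendsto_id.mono_left nhdsWithin_le_nhds).const_mul C
    have t2 := h7.1.const_mul (C ^ 2)
    have t3 := (h7.2.const_mul (C ^ 4)).sqrt.const_mul |C5|
    have := (t1.add t2).add t3
    simpa using this
  have hev : ∀ᶠ e in 𝓝[>] (0 : ℝ), (1 : ℝ) ≤ C * e +
      C ^ 2 * ∫ x, s₀.real (ball x (C * e)) / e ^ 2 ∂sT +
        |C5| * √(C ^ 4 * ∫ x, s₀.real (ball x (C * e)) / e ^ 2 *
          (s₀.real (ball x (C * e)) / e ^ 4) ∂D.μ) := by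
    filter_upwards [Ioc_mem_nhdsGT he₀] with e he
    exact key e he.1 he.2
  have := ge_of_tendsto hlim hev
  norm_num at this

/-- the current `Φ ≥ F` is non-negative. -/
theorem IsKahler.isNonneg {D : Dat M} {Φ : X2 M →ₗ[ℝ] ℝ} (h : D.IsKahler Φ) : D.IsNonneg Φ := by
  intro P hP
  refine le_trans ?_ (h P hP)
  apply integral_nonneg
  intro x
  exact ((En4.pos_iff (D.sq x) (D.spos x) (alt P x) (hP x).inv).1 (hP x).nonneg).1

/-- MAIN ASSEMBLY of row 240 from the frozen nodes. -/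
theorem goal (D : Dat M) (n1 : D.N1) (n2 : D.N2) (n3 : D.N3) (n4 : D.N4) (n5 : D.N5)
    (n5' : D.N5') (n6 : D.N6) (n7 : D.N7) (n8 : D.N8a)
    (hcm : ∀ (𝒰 : Cover M) (m : ℕ) (b : X2 M), 0 ≤ 𝒰.cm m (b : F2 E4 M)) : D.Goal := by
  obtain ⟨𝒰, m, C3, h3⟩ := n3
  by_cases hfirst : ∀ ρ : ℝ, 0 < ρ → ∃ b ∈ Z2 M, D.pi' b - D.FX ∈ D.Pp ∧
      𝒰.cm m ((D.pi'' b : X2 M) : F2 E4 M) < ρ
  · exact D.goal_of_first h3 hfirst (hcm 𝒰 m)
  · exfalso
    push Not at hfirst
    obtain ⟨ρ, hρ, hno⟩ := hfirst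
    rcases n2 𝒰 m ρ hρ with ⟨b, hb1, hb2, hb3⟩ | ⟨L, hLZ, hLpos, hLF, hLfin⟩
    · exact absurd hb3 (not_lt.2 (hno b hb1 hb2))
    · obtain ⟨sT, hsT⟩ := n4 L hLpos
      obtain ⟨hgT, C5, hC5⟩ := n5 L sT hLZ hLpos ⟨𝒰, m, ρ⁻¹, hLfin⟩ hsT
      obtain ⟨Φ, hΦinv, hΦK, hΦex⟩ := n1
      obtain ⟨s, hs⟩ := n4 Φ hΦK.isNonneg
      have hgs := n5' Φ s hΦinv hΦK.isNonneg hΦex hs
      obtain ⟨Φ₀, s₀, h0inv, h0K, h0ex, h0RM, h0g, h0z⟩ := n6 Φ s hΦinv hΦK hΦex hs hgs
      obtain ⟨C, e₀, hC, he₀, h8⟩ := n8 Φ₀ s₀ h0inv h0K h0ex h0RM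
      have := h0RM.fin
      exact D.false_of_second hLZ hLF hsT hC5 hC he₀ h8
        (n7 s₀ sT h0RM.fin hsT.fin h0g hgT h0z C hC)

end Dat

end

end Crest.Agent.R240
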