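import Mathlib
import Crest.Agent.R240.Mono1
import Crest.Agent.R240.Lin4

-- ▼ part R240/Mono2
section

/-!
Row 240 (S0371), MONO local, analytic part 2: the test form `χ λ / (q + r²)`.
-/

set_option autoImplicit false
set_option maxSynthPendingDepth 3
open MeasureTheory Metric Set Filter Topology
open scoped ContDiff

namespace Crest.Agent.R240.Mono

noncomputable section

open En

/-- `λ = F₀(x - y₀, ·)/2`. -/
def lam (F0 : Bil) (y0 x : E4) : Cov := (1 / 2 : ℝ) • F0 (x - y0)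

lemma hasFDerivAt_lam (F0 : Bil) (y0 x : E4) :
    HasFDerivAt (lam F0 y0) ((1 / 2 : ℝ) • F0) x := by
  have h1 : HasFDerivAt (fun x : E4 => x - y0) (ContinuousLinearMap.id ℝ E4) x :=
    (hasFDerivAt_id x).sub_const y0
  have h2 : HasFDerivAt (fun x : E4 => F0 (x - y0)) (F0.comp (ContinuousLinearMap.id ℝ E4)) x :=
    F0.hasFDerivAt.comp x h1
  have h3 := h2.const_smul (1 / 2 : ℝ)
  exact h3.congr_fderiv (by ext v w; simp)

lemma d1_lam {F0 : Bil} (hF : Alt F0) (y0 x : E4) : d1 (lam F0 y0) x = F0 := by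
  unfold d1
  rw [(hasFDerivAt_lam F0 y0 x).fderiv]
  ext v w
  have h := hF.swap v w
  simp
  linarith

lemma F0_symm {J0 : E4 →L[ℝ] E4} {F0 : Bil} (hJ : ∀ v, J0 (J0 v) = -v) (hF : Alt F0)
    (hinv : ∀ u v, F0 (J0 u) (J0 v) = F0 u v) (u v : E4) : F0 u (J0 v) = F0 v (J0 u) := by
  have h1 := hinv u (J0 v)
  rw [hJ] at h1
  rw [← h1, hF.swap]
  simp

lemma hasFDerivAt_DD {J0 : E4 →L[ℝ] E4} {F0 : Bil} (hJ : ∀ v, J0 (J0 v) = -v) (hF : Alt F0)
    (hinv : ∀ u v, F0 (J0 u) (J0 v) = F0 u v) (r : ℝ) (y0 x : E4) :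
    HasFDerivAt (fun x => DD J0 F0 r (x - y0)) ((2 : ℝ) • (F0 (x - y0)).comp J0) x := by
  have h1 : HasFDerivAt (fun x : E4 => x - y0) (ContinuousLinearMap.id ℝ E4) x :=
    (hasFDerivAt_id x).sub_const y0
  have h2 : HasFDerivAt (fun x : E4 => F0 (x - y0)) (F0.comp (ContinuousLinearMap.id ℝ E4)) x :=
    F0.hasFDerivAt.comp x h1
  have h3 : HasFDerivAt (fun x : E4 => J0 (x - y0)) (J0.comp (ContinuousLinearMap.id ℝ E4)) x :=
    J0.hasFDerivAt.comp x h1
  have h4 := (h2.clm_apply h3).add_const (r ^ 2)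
  have h5 : (fun x => DD J0 F0 r (x - y0)) = fun x => F0 (x - y0) (J0 (x - y0)) + r ^ 2 := rfl
  rw [h5]
  refine h4.congr_fderiv ?_
  ext v
  have h6 := F0_symm hJ hF hinv v (x - y0)
  simp only [add_apply, smul_apply, smul_eq_mul, ContinuousLinearMap.comp_apply,
    ContinuousLinearMap.flip_apply, ContinuousLinearMap.id_apply]
  linarith

/-- the test form. -/
def tS (J0 : E4 →L[ℝ] E4) (F0 : Bil) (r : ℝ) (y0 : E4) (χ : E4 → ℝ) (x : E4) : Cov :=
  (χ x * (DD J0 F0 r (x - y0))⁻¹) • lam F0 y0 x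

lemma d1_tS {J0 : E4 →L[ℝ] E4} {F0 : Bil} (hJ : ∀ v, J0 (J0 v) = -v) (hF : Alt F0)
    (hinv : ∀ u v, F0 (J0 u) (J0 v) = F0 u v) {r : ℝ} {y0 x : E4} {χ : E4 → ℝ}
    (hχ : DifferentiableAt ℝ χ x) (hD : DD J0 F0 r (x - y0) ≠ 0) :
    d1 (tS J0 F0 r y0 χ) x = (DD J0 F0 r (x - y0))⁻¹ • wed (fderiv ℝ χ x) (lam F0 y0 x)
      + χ x • ((1 / DD J0 F0 r (x - y0) ^ 2) • Om J0 F0 r (x - y0)) := by
  have h1 := hasFDerivAt_DD hJ hF hinv r y0 x
  have h2 : HasFDerivAt (fun x => (DD J0 F0 r (x - y0))⁻¹)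
      ((-(DD J0 F0 r (x - y0) ^ 2)⁻¹) • ((2 : ℝ) • (F0 (x - y0)).comp J0)) x := by
    exact (hasDerivAt_inv hD).comp_hasFDerivAt x h1
  have h3 := hχ.hasFDerivAt.mul h2
  have h4 : DifferentiableAt ℝ (fun x => χ x * (DD J0 F0 r (x - y0))⁻¹) x :=
    h3.differentiableAt
  have h5 : d1 (tS J0 F0 r y0 χ) x = _ := d1_smul h4 (hasFDerivAt_lam F0 y0 x).differentiableAt
  rw [h5, d1_lam hF]
  have h6 : fderiv ℝ (fun x => χ x * (DD J0 F0 r (x - y0))⁻¹) x = _ := h3.fderiv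
  rw [h6]
  set D := DD J0 F0 r (x - y0) with hDdef
  ext v w
  simp only [wed_apply, Om, thet, lam, add_apply, smul_apply, sub_apply, smul_eq_mul,
    ContinuousLinearMap.comp_apply]
  have hD' : F0 (x - y0) (J0 (x - y0)) = D - r ^ 2 := by rw [hDdef]; unfold DD; ring
  rw [hD']
  field_simp
  ring

end

end Crest.Agent.R240.Mono
end

-- ▼ part R240/Mono3
section

/-!
Row 240 (S0371), MONO local, analytic part 3: Cauchy-Schwarz and the weight `1/|z|`.
-/

set_option autoImplicit false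
set_option maxSynthPendingDepth 3
open MeasureTheory Metric Set Filter Topology
open scoped ContDiff

namespace Crest.Agent.R240.Mono

noncomputable section

open En

/-- Cauchy-Schwarz with `√`. -/
lemma cs {μ : Measure E4} {g w : E4 → ℝ} (hg0 : 0 ≤ᵐ[μ] g) (hw0 : 0 ≤ᵐ[μ] w)
    (hgm : AEStronglyMeasurable g μ) (hwm : AEStronglyMeasurable w μ)
    (hg : Integrable (fun x => g x ^ 2) μ) (hw : Integrable (fun x => w x ^ 2) μ) :
    Integrable (fun x => g x * w x) μ ∧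
      ∫ x, g x * w x ∂μ ≤ √(∫ x, g x ^ 2 ∂μ) * √(∫ x, w x ^ 2 ∂μ) := by
  have h1 : MemLp g 2 μ := (memLp_two_iff_integrable_sq hgm).2 hg
  have h2 : MemLp w 2 μ := (memLp_two_iff_integrable_sq hwm).2 hw
  refine ⟨h1.integrable_mul h2, ?_⟩
  have h22 : ENNReal.ofReal (2 : ℝ) = 2 := by norm_num
  have h3 := integral_mul_le_Lp_mul_Lq_of_nonneg (p := 2) (q := 2) Real.HolderConjugate.two_two
    hg0 hw0 (by rw [h22]; exact h1) (by rw [h22]; exact h2)
  rw [Real.sqrt_eq_rpow, Real.sqrt_eq_rpow]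
  simpa using h3

/-- the weight. -/
def wt (y0 x : E4) : ℝ := ‖x - y0‖⁻¹

lemma wt_nonneg (y0 x : E4) : 0 ≤ wt y0 x := inv_nonneg.2 (norm_nonneg _)

lemma measurable_wt (y0 : E4) : Measurable (wt y0) := by
  unfold wt
  fun_prop

lemma integrableOn_wt0 (r0 : ℝ) : IntegrableOn (fun x : E4 => (‖x‖⁻¹) ^ 2) (ball 0 r0) := by
  refine integrableOn_ball_of_norm_le_rpow (C := 1) (α := 2) ?_ ?_ ?_ ?_
  · simp
  · simp; norm_num
  · refine Filter.Eventually.of_forall fun x => ?_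
    rw [Real.norm_of_nonneg (by positivity), one_mul, Real.rpow_neg (norm_nonneg _)]
    norm_num
  · exact (by fun_prop : Measurable fun x : E4 => (‖x‖⁻¹) ^ 2).aestronglyMeasurable

lemma ball_ind (y0 : E4) (r0 : ℝ) (g : E4 → ℝ) (x : E4) :
    (ball y0 r0).indicator (fun x => g (x - y0)) x = (ball 0 r0).indicator g (x - y0) := by
  by_cases hx : x ∈ ball y0 r0
  · have : x - y0 ∈ ball (0 : E4) r0 := by
      rw [mem_ball_zero_iff, ← dist_eq_norm]; exact hx
    rw [indicator_of_mem hx, indicator_of_mem this]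
  · have : x - y0 ∉ ball (0 : E4) r0 := by
      rw [mem_ball_zero_iff, ← dist_eq_norm]; exact hx
    rw [indicator_of_notMem hx, indicator_of_notMem this]

lemma integrableOn_wt (y0 : E4) (r0 : ℝ) : IntegrableOn (fun x => wt y0 x ^ 2) (ball y0 r0) := by
  rw [← integrable_indicator_iff measurableSet_ball]
  have h := (integrable_indicator_iff measurableSet_ball).2 (integrableOn_wt0 r0)
  have h2 := h.comp_sub_right y0
  refine h2.congr (Filter.Eventually.of_forall fun x => ?_)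
  exact (ball_ind y0 r0 (fun z => (‖z‖⁻¹) ^ 2) x).symm

lemma integral_wt (y0 : E4) (r0 : ℝ) : ∫ x in ball y0 r0, wt y0 x ^ 2 =
    ∫ x in ball (0 : E4) r0, (‖x‖⁻¹) ^ 2 := by
  rw [← integral_indicator measurableSet_ball, ← integral_indicator measurableSet_ball,
    ← integral_sub_right_eq_self ((ball (0 : E4) r0).indicator fun x => (‖x‖⁻¹) ^ 2) y0]
  refine integral_congr_ae (Filter.Eventually.of_forall fun x => ?_)
  exact (ball_ind y0 r0 (fun z => (‖z‖⁻¹) ^ 2) x)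

lemma volume_ball (y0 : E4) (r0 : ℝ) : volume.real (ball y0 r0) = volume.real (ball (0 : E4) r0) := by
  unfold Measure.real
  rw [Measure.addHaar_ball_center]

/-- the two Cauchy-Schwarz consequences used. -/
lemma cs_ball (r0 : ℝ) : ∃ K : ℝ, 0 ≤ K ∧ ∀ (y0 : E4) (g : E4 → ℝ), (∀ x, 0 ≤ g x) →
    AEStronglyMeasurable g (volume.restrict (ball y0 r0)) →
    IntegrableOn (fun x => g x ^ 2) (ball y0 r0) →
    IntegrableOn (fun x => g x * wt y0 x) (ball y0 r0) ∧ IntegrableOn g (ball y0 r0) ∧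
    ∫ x in ball y0 r0, g x * wt y0 x ≤ K * √(∫ x in ball y0 r0, g x ^ 2) ∧
    ∫ x in ball y0 r0, g x ≤ K * √(∫ x in ball y0 r0, g x ^ 2) := by
  refine ⟨√(∫ x in ball (0 : E4) r0, (‖x‖⁻¹) ^ 2) + √(volume.real (ball (0 : E4) r0)), by positivity, ?_⟩
  intro y0 g hg0 hgm hg
  have h1 := cs (μ := volume.restrict (ball y0 r0)) (g := g) (w := wt y0)
    (Filter.Eventually.of_forall hg0) (Filter.Eventually.of_forall (wt_nonneg y0)) hgm
    (measurable_wt y0).aestronglyMeasurable hg (integrableOn_wt y0 r0)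
  have h2 := cs (μ := volume.restrict (ball y0 r0)) (g := g) (w := fun _ => 1)
    (Filter.Eventually.of_forall hg0) (Filter.Eventually.of_forall fun _ => zero_le_one) hgm
    aestronglyMeasurable_const hg (by
      have : IsFiniteMeasure (volume.restrict (ball y0 r0)) :=
        ⟨by rw [Measure.restrict_apply_univ]; exact measure_ball_lt_top⟩
      simpa using integrable_const (1 : ℝ))
  rw [integral_wt] at h1
  simp only [mul_one, one_pow, integral_const, smul_eq_mul, MeasurableSet.univ,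
    measureReal_restrict_apply, univ_inter] at h2
  rw [volume_ball] at h2
  refine ⟨h1.1, h2.1, ?_, ?_⟩
  · refine h1.2.trans ?_
    rw [add_mul, mul_comm]
    have : 0 ≤ √(volume.real (ball (0 : E4) r0)) * √(∫ x in ball y0 r0, g x ^ 2) := by positivity
    linarith
  · refine h2.2.trans ?_
    rw [add_mul, mul_comm]
    have : 0 ≤ √(∫ x in ball (0 : E4) r0, (‖x‖⁻¹) ^ 2) * √(∫ x in ball y0 r0, g x ^ 2) := by positivity
    linarith

end

end Crest.Agent.R240.Mono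
end

-- ▼ part R240/Mono4
section

/-!
Row 240 (S0371), MONO local, analytic part 4: assembly `PW → MonoLocal`.
-/

set_option autoImplicit false
set_option maxSynthPendingDepth 3
open MeasureTheory Metric Set Filter Topology
open scoped ContDiff

namespace Crest.Agent.R240.Mono

noncomputable section

open En

section geo

variable {y0 : E4} {r0 m L : ℝ} {J : E4 → E4 →L[ℝ] E4} {F : E4 → Bil}

lemma Geo.up (h : Geo y0 r0 m L J F) {x : E4} (hx : x ∈ ball y0 r0) (v : E4) :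
    F x v (J x v) ≤ L ^ 2 * ‖v‖ ^ 2 := by
  have h1 := (F x).le_opNorm₂ v (J x v)
  have h2 := (J x).le_opNorm v
  have h3 := h.bdF x hx
  have h4 := h.bdJ x hx
  have hL : 0 ≤ L := (norm_nonneg _).trans h3
  calc F x v (J x v) ≤ ‖F x v (J x v)‖ := Real.le_norm_self _
    _ ≤ ‖F x‖ * ‖v‖ * ‖J x v‖ := h1
    _ ≤ L * ‖v‖ * (L * ‖v‖) := by
        gcongr
        exact h2.trans (by gcongr)
    _ = L ^ 2 * ‖v‖ ^ 2 := by ring

lemma Geo.bd (h : Geo y0 r0 m L J F) (hm : 0 < m) {x : E4} (hx : x ∈ ball y0 r0) :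
    Bd (J x) (F x) m (L ^ 2) where
  sq := h.sq x hx
  spos := h.spos x hx
  m_pos := hm
  lo := h.low x hx
  hi := fun v => h.up hx v

end geo

lemma sW_nonneg {J : E4 →L[ℝ] E4} {F P : Bil} {m M s : ℝ} (h : Bd J F m M) (hP : Pos J P)
    (hs : 0 < s * W F F) : 0 ≤ s * W P F := by
  have h1 : 0 ≤ q F P F := h.q_pos_pos hP ⟨h.spos.alt, h.spos.inv, fun v => by
    have := h.lo v
    have hm := h.m_pos
    have : 0 ≤ m * ‖v‖ ^ 2 := by positivity
    linarith⟩
  have h2 : s * W P F = q F P F * (s * W F F) := by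
    unfold q
    have := h.W_ne
    field_simp
  rw [h2]
  positivity

/-- the cut-off function. -/
lemma exists_cut {r0 : ℝ} (hr0 : 0 < r0) : ∃ (g : E4 → ℝ) (M : ℝ), 0 ≤ M ∧ ContDiff ℝ 1 g ∧
    (∀ z, 0 ≤ g z) ∧ (∀ z, g z ≤ 1) ∧ (∀ z, ‖z‖ ≤ r0 / 2 → g z = 1) ∧
    (∀ z, 3 * r0 / 4 ≤ ‖z‖ → g z = 0) ∧ (∀ z, ‖fderiv ℝ g z‖ ≤ M) ∧
    (∀ z, ‖z‖ < r0 / 2 → fderiv ℝ g z = 0) := by
  let f : ContDiffBump (0 : E4) := ⟨r0 / 2, 3 * r0 / 4, by positivity, by linarith⟩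
  have hfc : ContDiff ℝ 1 (f : E4 → ℝ) := f.contDiff
  have h1 : HasCompactSupport (fderiv ℝ (f : E4 → ℝ)) := f.hasCompactSupport.fderiv (𝕜 := ℝ)
  obtain ⟨M, hM⟩ := (hfc.continuous_fderiv one_ne_zero).bounded_above_of_compact_support h1
  refine ⟨f, M, (norm_nonneg _).trans (hM 0), hfc, fun z => f.nonneg, fun z => f.le_one, ?_, ?_, hM, ?_⟩
  · intro z hz
    exact f.one_of_mem_closedBall (by simpa using hz)
  · intro z hz
    exact f.zero_of_le_dist (by simpa using hz)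
  · intro z hz
    have h2 : (f : E4 → ℝ) =ᶠ[𝓝 z] 1 := f.eventuallyEq_one_of_mem_ball (by simpa using hz)
    rw [h2.fderiv_eq]
    simp

section S

variable {y0 : E4} {r0 m L r : ℝ} {J : E4 → E4 →L[ℝ] E4} {F : E4 → Bil}

lemma Geo.DD_ge (h : Geo y0 r0 m L J F) (hr0 : 0 < r0) (x : E4) :
    m * ‖x - y0‖ ^ 2 + r ^ 2 ≤ DD (J y0) (F y0) r (x - y0) := by
  have := h.low y0 (mem_ball_self hr0) (x - y0)
  unfold DD
  linarith

lemma Geo.DD_pos (h : Geo y0 r0 m L J F) (hr0 : 0 < r0) (hm : 0 < m) (hr : 0 < r) (x : E4) :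
    0 < DD (J y0) (F y0) r (x - y0) := by
  have h1 := h.DD_ge (r := r) hr0 x
  have h2 : 0 < m * ‖x - y0‖ ^ 2 + r ^ 2 := by positivity
  linarith

lemma contDiff_DD (J0 : E4 →L[ℝ] E4) (F0 : Bil) (r : ℝ) (y0 : E4) :
    ContDiff ℝ 1 (fun x => DD J0 F0 r (x - y0)) := by
  unfold DD
  have h0 : ContDiff ℝ 1 (fun x : E4 => x - y0) := contDiff_id.sub contDiff_const
  have h1 : ContDiff ℝ 1 (fun x : E4 => F0 (x - y0)) := F0.contDiff.comp h0
  have h2 : ContDiff ℝ 1 (fun x : E4 => J0 (x - y0)) := J0.contDiff.comp h0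
  exact (h1.clm_apply h2).add contDiff_const

lemma contDiff_tS (h : Geo y0 r0 m L J F) (hr0 : 0 < r0) (hm : 0 < m) (hr : 0 < r) {χ : E4 → ℝ}
    (hχ : ContDiff ℝ 1 χ) : ContDiff ℝ 1 (tS (J y0) (F y0) r y0 χ) := by
  unfold tS lam
  have h0 : ContDiff ℝ 1 (fun x : E4 => x - y0) := contDiff_id.sub contDiff_const
  have h1 : ContDiff ℝ 1 (fun x : E4 => F y0 (x - y0)) := (F y0).contDiff.comp h0
  have h2 : ContDiff ℝ 1 (fun x => (DD (J y0) (F y0) r (x - y0))⁻¹) :=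
    (contDiff_DD _ _ _ _).inv (fun x => (h.DD_pos hr0 hm hr x).ne')
  have h3 : ContDiff ℝ 1 (fun x : E4 => (1 / 2 : ℝ) • F y0 (x - y0)) := h1.const_smul (1 / 2 : ℝ)
  exact (hχ.mul h2).smul h3

lemma tsupport_tS (J0 : E4 →L[ℝ] E4) (F0 : Bil) (r : ℝ) (y0 : E4) {χ : E4 → ℝ} {ρ : ℝ}
    (hχ : ∀ x, ρ ≤ ‖x - y0‖ → χ x = 0) : tsupport (tS J0 F0 r y0 χ) ⊆ closedBall y0 ρ := by
  refine closure_minimal ?_ isClosed_closedBall
  intro x hx
  by_contra hc
  apply hx
  have : ρ ≤ ‖x - y0‖ := by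
    rw [mem_closedBall, not_le, dist_eq_norm] at hc
    exact hc.le
  simp [tS, hχ x this]

lemma continuous_d1 {S : E4 → Cov} (hS : ContDiff ℝ 1 S) : Continuous (d1 S) := by
  have h1 : Continuous (fderiv ℝ S) := hS.continuous_fderiv one_ne_zero
  exact h1.sub ((ContinuousLinearMap.flipₗᵢ ℝ E4 E4 ℝ).continuous.comp h1)

lemma d1_eq_zero {S : E4 → Cov} {x : E4} (hx : x ∉ tsupport S) : d1 S x = 0 := by
  have h7 : S =ᶠ[𝓝 x] fun _ => 0 := by
    have : (tsupport S)ᶜ ∈ 𝓝 x := (isClosed_tsupport S).isOpen_compl.mem_nhds hx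
    filter_upwards [this] with y hy
    exact image_eq_zero_of_notMem_tsupport hy
  have h8 : fderiv ℝ S x = 0 := by rw [h7.fderiv_eq]; simp
  unfold d1
  rw [h8]
  ext v w
  simp

lemma bounded_d1 {S : E4 → Cov} (hS : ContDiff ℝ 1 S) (hc : HasCompactSupport S) :
    ∃ M, 0 ≤ M ∧ ∀ x, ‖d1 S x‖ ≤ M := by
  have h1 : HasCompactSupport (d1 S) := by
    refine HasCompactSupport.intro hc ?_
    intro x hx
    exact d1_eq_zero hx
  obtain ⟨M, hM⟩ := (continuous_d1 hS).bounded_above_of_compact_support h1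
  exact ⟨M, (norm_nonneg _).trans (hM 0), hM⟩

end S

set_option maxHeartbeats 1000000 in
/-- pointwise lower bound. -/
lemma point_lower (m L A r0 c C1 : ℝ) (hm : 0 < m) (hr0 : 0 < r0) (hc : 0 < c) (hC1 : 0 ≤ C1)
    (g : E4 → ℝ) (Mf : ℝ) (hMf0 : 0 ≤ Mf) (hg : ContDiff ℝ 1 g) (hg0 : ∀ z, 0 ≤ g z)
    (hg1 : ∀ z, g z ≤ 1) (hgr : ∀ z, ‖z‖ ≤ r0 / 2 → g z = 1) (hMf : ∀ z, ‖fderiv ℝ g z‖ ≤ Mf)
    (hf0 : ∀ z, ‖z‖ < r0 / 2 → fderiv ℝ g z = 0)
    (y0 : E4) (J : E4 → E4 →L[ℝ] E4) (F : E4 → Bil) (s ε r : ℝ) (h : Geo y0 r0 m L J F)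
    (hs : s = 1 ∨ s = -1) (hr : 0 < r) (hrr : r ≤ r0 / 2) (x : E4) (hx : x ∈ ball y0 r0)
    (hxy : x ≠ y0) (t b : Bil) (p : ℝ) (hsW : 0 < s * W (F x) (F x)) (ht : ‖t‖ ≤ p)
    (hP : Pos (J x) (invp (J x) t + (A * ε ^ 2 * p) • F x))
    (hpw : c * (r ^ 2 / DD (J y0) (F y0) r (x - y0) ^ 2) *
          (s * W (invp (J x) t + (A * ε ^ 2 * p) • F x) (F x))
        - C1 * p - C1 * ‖invp (J x) b‖ / (r * ‖x - y0‖) - C1 * ‖b‖ / ‖x - y0‖
      ≤ s * W (t + b) ((1 / DD (J y0) (F y0) r (x - y0) ^ 2) • Om (J y0) (F y0) r (x - y0))) :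
    (ball y0 r).indicator (fun _ => c / ((L ^ 2 + 1) ^ 2 * r ^ 2) *
        (s * W (invp (J x) t + (A * ε ^ 2 * p) • F x) (F x))) x
      - (C1 + 12 * Mf * L / (m * r0)) * p - C1 / r * (‖invp (J x) b‖ * wt y0 x)
      - C1 * (‖b‖ * wt y0 x) - 12 * Mf * L / (m * r0) * ‖b‖
      ≤ s * W (t + b) (d1 (tS (J y0) (F y0) r y0 (fun x => g (x - y0))) x) := by
  have hy0 := mem_ball_self (x := y0) hr0
  have hL : 0 ≤ L := (norm_nonneg _).trans (h.bdF y0 hy0)
  have hz : 0 < ‖x - y0‖ := norm_pos_iff.2 (sub_ne_zero.2 hxy)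
  set z := x - y0 with hzdef
  have hD := h.DD_pos hr0 hm hr x
  have hDge := h.DD_ge (r := r) hr0 x
  rw [← hzdef] at hD hDge
  set D := DD (J y0) (F y0) r z with hDdef
  have hχd : HasFDerivAt (fun x => g (x - y0)) (fderiv ℝ g z) x := by
    have h1 : HasFDerivAt (fun x : E4 => x - y0) (ContinuousLinearMap.id ℝ E4) x :=
      (hasFDerivAt_id x).sub_const y0
    have h2 : HasFDerivAt g (fderiv ℝ g z) (x - y0) :=
      ((hg.differentiable one_ne_zero) (x - y0)).hasFDerivAt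
    exact (h2.comp x h1).congr_fderiv (by ext v; simp)
  have hp : 0 ≤ p := (norm_nonneg _).trans ht
  have key := d1_tS (h.sq y0 hy0) (h.spos y0 hy0).alt (h.spos y0 hy0).inv (r := r) (y0 := y0)
    (x := x) (χ := fun x => g (x - y0)) hχd.differentiableAt hD.ne'
  rw [hχd.fderiv, ← hzdef, ← hDdef] at key
  rw [key, W_add_right, W_smul_right, W_smul_right]
  set Ω := W (t + b) ((1 / D ^ 2) • Om (J y0) (F y0) r z) with hΩ
  set H := s * W (invp (J x) t + (A * ε ^ 2 * p) • F x) (F x) with hH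
  have hH0 : 0 ≤ H := sW_nonneg (h.bd hm hx) hP hsW
  -- the boundary term
  have hbdry : |W (t + b) (wed (fderiv ℝ g z) (lam (F y0) y0 x))| * D⁻¹ ≤
      12 * Mf * L / (m * r0) * (p + ‖b‖) := by
    by_cases hzr : ‖z‖ < r0 / 2
    · rw [hf0 z hzr]
      have : wed 0 (lam (F y0) y0 x) = 0 := by ext v w; simp
      rw [this]
      have h0 : W (t + b) 0 = 0 := by simp [W, ent]
      rw [h0]
      simp
      positivity
    · push Not at hzr
      have h1 := abs_W_le (t + b) (wed (fderiv ℝ g z) (lam (F y0) y0 x))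
      have h2 := norm_wed_le1 (fderiv ℝ g z) (lam (F y0) y0 x)
      have h3 : ‖lam (F y0) y0 x‖ ≤ 1 / 2 * (L * ‖z‖) := by
        unfold lam
        rw [norm_smul]
        have h4 := (F y0).le_opNorm z
        have h5 := h.bdF y0 hy0
        have h6 : ‖(1 / 2 : ℝ)‖ = 1 / 2 := by norm_num
        rw [h6]
        have h7 : ‖F y0 z‖ ≤ L * ‖z‖ := h4.trans (by gcongr)
        linarith
      have h4 : ‖t + b‖ ≤ p + ‖b‖ := (norm_add_le _ _).trans (by linarith)
      have h5 : |W (t + b) (wed (fderiv ℝ g z) (lam (F y0) y0 x))| ≤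
          6 * ((p + ‖b‖) * (2 * (Mf * (1 / 2 * (L * ‖z‖))))) := by
        refine h1.trans ?_
        gcongr
        exact h2.trans (by gcongr; exact hMf z)
      have h6 : D⁻¹ ≤ (m * ‖z‖ ^ 2)⁻¹ := by
        apply inv_anti₀ (by positivity)
        nlinarith [sq_nonneg r]
      calc |W (t + b) (wed (fderiv ℝ g z) (lam (F y0) y0 x))| * D⁻¹
          ≤ (6 * ((p + ‖b‖) * (2 * (Mf * (1 / 2 * (L * ‖z‖)))))) * (m * ‖z‖ ^ 2)⁻¹ := by
            gcongr
        _ = 6 * Mf * L / m * (p + ‖b‖) * ‖z‖⁻¹ := by field_simp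
        _ ≤ 6 * Mf * L / m * (p + ‖b‖) * (r0 / 2)⁻¹ := by
            gcongr
        _ = 12 * Mf * L / (m * r0) * (p + ‖b‖) := by field_simp; ring
  have hs1 : |s| = 1 := by rcases hs with h | h <;> rw [h] <;> norm_num
  have hb1 : -(12 * Mf * L / (m * r0) * (p + ‖b‖)) ≤
      s * (D⁻¹ * W (t + b) (wed (fderiv ℝ g z) (lam (F y0) y0 x))) := by
    have h1 : |s * (D⁻¹ * W (t + b) (wed (fderiv ℝ g z) (lam (F y0) y0 x)))| ≤
        12 * Mf * L / (m * r0) * (p + ‖b‖) := by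
      rw [abs_mul, hs1, one_mul, abs_mul, abs_of_pos (inv_pos.2 hD), mul_comm]
      exact hbdry
    exact (abs_le.1 h1).1
  -- the main term
  have hgz0 := hg0 z
  have hgz1 := hg1 z
  have hwt : wt y0 x = ‖z‖⁻¹ := rfl
  have hmain : (ball y0 r).indicator (fun _ => c / ((L ^ 2 + 1) ^ 2 * r ^ 2) * H) x
      - C1 * p - C1 / r * (‖invp (J x) b‖ * wt y0 x) - C1 * (‖b‖ * wt y0 x)
      ≤ g z * (s * Ω) := by
    have h1 : g z * (c * (r ^ 2 / D ^ 2) * H
        - C1 * p - C1 * ‖invp (J x) b‖ / (r * ‖z‖) - C1 * ‖b‖ / ‖z‖) ≤ g z * (s * Ω) := by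
      gcongr
    refine le_trans ?_ h1
    have e1 : C1 * ‖invp (J x) b‖ / (r * ‖z‖) = C1 / r * (‖invp (J x) b‖ * wt y0 x) := by
      rw [hwt]; field_simp
    have e2 : C1 * ‖b‖ / ‖z‖ = C1 * (‖b‖ * wt y0 x) := by
      rw [hwt]; field_simp
    rw [e1, e2]
    have hw0 : 0 ≤ wt y0 x := wt_nonneg _ _
    have n1 : 0 ≤ C1 * p := by positivity
    have n2 : 0 ≤ C1 / r * (‖invp (J x) b‖ * wt y0 x) := by positivity
    have n3 : 0 ≤ C1 * (‖b‖ * wt y0 x) := by positivity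
    have hind : (ball y0 r).indicator (fun _ => c / ((L ^ 2 + 1) ^ 2 * r ^ 2) * H) x ≤
        g z * (c * (r ^ 2 / D ^ 2) * H) := by
      by_cases hxr : x ∈ ball y0 r
      · rw [indicator_of_mem hxr]
        have hzr : ‖z‖ < r := by rw [mem_ball, dist_eq_norm] at hxr; exact hxr
        rw [hgr z (by linarith), one_mul]
        have hDle : D ≤ (L ^ 2 + 1) * r ^ 2 := by
          have h2 := h.up hy0 z
          have h3 : ‖z‖ ^ 2 ≤ r ^ 2 := by gcongr
          have h4 : D = F y0 z (J y0 z) + r ^ 2 := rfl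
          rw [h4]
          have h6 : L ^ 2 * ‖z‖ ^ 2 ≤ L ^ 2 * r ^ 2 := by gcongr
          linarith
        have h5 : 1 / ((L ^ 2 + 1) ^ 2 * r ^ 2) ≤ r ^ 2 / D ^ 2 := by
          rw [div_le_div_iff₀ (by positivity) (by positivity)]
          have h6 : D ^ 2 ≤ ((L ^ 2 + 1) * r ^ 2) ^ 2 := by gcongr
          have h7 : ((L ^ 2 + 1) * r ^ 2) ^ 2 = r ^ 2 * ((L ^ 2 + 1) ^ 2 * r ^ 2) := by ring
          linarith
        calc c / ((L ^ 2 + 1) ^ 2 * r ^ 2) * H = c * (1 / ((L ^ 2 + 1) ^ 2 * r ^ 2)) * H := by ring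
          _ ≤ c * (r ^ 2 / D ^ 2) * H := by gcongr
      · rw [indicator_of_notMem hxr]
        positivity
    have m1 : g z * (C1 * p) ≤ C1 * p := mul_le_of_le_one_left n1 hgz1
    have m2 : g z * (C1 / r * (‖invp (J x) b‖ * wt y0 x)) ≤ C1 / r * (‖invp (J x) b‖ * wt y0 x) :=
      mul_le_of_le_one_left n2 hgz1
    have m3 : g z * (C1 * (‖b‖ * wt y0 x)) ≤ C1 * (‖b‖ * wt y0 x) :=
      mul_le_of_le_one_left n3 hgz1
    have e3 : g z * (c * (r ^ 2 / D ^ 2) * H - C1 * p - C1 / r * (‖invp (J x) b‖ * wt y0 x)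
        - C1 * (‖b‖ * wt y0 x)) = g z * (c * (r ^ 2 / D ^ 2) * H) - g z * (C1 * p)
        - g z * (C1 / r * (‖invp (J x) b‖ * wt y0 x)) - g z * (C1 * (‖b‖ * wt y0 x)) := by ring
    rw [e3]
    linarith
  have e4 : s * (D⁻¹ * W (t + b) (wed (fderiv ℝ g z) (lam (F y0) y0 x)) + g z * Ω) =
      s * (D⁻¹ * W (t + b) (wed (fderiv ℝ g z) (lam (F y0) y0 x))) + g z * (s * Ω) := by ring
  have e5 : (C1 + 12 * Mf * L / (m * r0)) * p = C1 * p + 12 * Mf * L / (m * r0) * p := by ring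
  have e6 : 12 * Mf * L / (m * r0) * (p + ‖b‖) = 12 * Mf * L / (m * r0) * p
      + 12 * Mf * L / (m * r0) * ‖b‖ := by ring
  rw [e4, e5]
  rw [e6] at hb1
  linarith

end

end Crest.Agent.R240.Mono
end

-- ▼ part R240/Mono5

/-!
Row 240 (S0371), MONO local: the theorem `mono_local : PW → MonoLocal`.
-/

set_option autoImplicit false
set_option maxSynthPendingDepth 3
open MeasureTheory Metric Set Filter Topology
open scoped ContDiff

namespace Crest.Agent.R240.Mono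

noncomputable section

open En

lemma int5 {μ : Measure E4} {f1 f2 f3 f4 f5 : E4 → ℝ} (i1 : Integrable f1 μ)
    (i2 : Integrable f2 μ) (i3 : Integrable f3 μ) (i4 : Integrable f4 μ) (i5 : Integrable f5 μ) :
    ∫ x, (f1 x - f2 x - f3 x - f4 x - f5 x) ∂μ =
      ∫ x, f1 x ∂μ - ∫ x, f2 x ∂μ - ∫ x, f3 x ∂μ - ∫ x, f4 x ∂μ - ∫ x, f5 x ∂μ := by
  have e1 : ∫ x, (f1 x - f2 x) ∂μ = ∫ x, f1 x ∂μ - ∫ x, f2 x ∂μ := integral_sub i1 i2
  have e2 : ∫ x, (f1 x - f2 x - f3 x) ∂μ = ∫ x, (f1 x - f2 x) ∂μ - ∫ x, f3 x ∂μ :=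
    integral_sub (i1.sub i2) i3
  have e3 : ∫ x, (f1 x - f2 x - f3 x - f4 x) ∂μ = ∫ x, (f1 x - f2 x - f3 x) ∂μ - ∫ x, f4 x ∂μ :=
    integral_sub ((i1.sub i2).sub i3) i4
  have e4 : ∫ x, (f1 x - f2 x - f3 x - f4 x - f5 x) ∂μ =
      ∫ x, (f1 x - f2 x - f3 x - f4 x) ∂μ - ∫ x, f5 x ∂μ :=
    integral_sub (((i1.sub i2).sub i3).sub i4) i5
  rw [e4, e3, e2, e1]

set_option maxHeartbeats 2000000 in
theorem mono_local (hPW : PW) : MonoLocal := by
  intro m L A r0 hm hr0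
  obtain ⟨c, C1, hc, hC1, hpw⟩ := hPW m L A r0 hm
  obtain ⟨g, Mf, hMf0, hg, hg0, hg1, hgr, hgz, hMf, hf0⟩ := exists_cut hr0
  obtain ⟨K, hK0, hK⟩ := cs_ball r0
  refine ⟨max 0 ((C1 + 12 * Mf * L / (m * r0)) * (1 + K) * ((L ^ 2 + 1) ^ 2 / c)), le_max_left _ _, ?_⟩
  intro y0 J F s t b p ε r h hs hsW hη hcl hbc htA hbA hpI hbI htp hta hPos hε hεr hrr
  have hr : 0 < r := hε.trans_le hεr
  have hy0 := mem_ball_self (x := y0) hr0
  have hL : 0 ≤ L := (norm_nonneg _).trans (h.bdF y0 hy0)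
  set K1 := 12 * Mf * L / (m * r0) with hK1
  have hK10 : 0 ≤ K1 := by positivity
  set B := ball y0 r0 with hB
  have hBo : IsOpen B := isOpen_ball
  have hBm : MeasurableSet B := measurableSet_ball
  set χ : E4 → ℝ := fun x => g (x - y0) with hχ
  have hχc : ContDiff ℝ 1 χ := hg.comp (contDiff_id.sub contDiff_const)
  set S := tS (J y0) (F y0) r y0 χ with hS
  have hSc : ContDiff ℝ 1 S := contDiff_tS h hr0 hm hr hχc
  have hSt : tsupport S ⊆ closedBall y0 (3 * r0 / 4) :=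
    tsupport_tS _ _ _ _ (fun x hx => hgz _ hx)
  have hScs : HasCompactSupport S :=
    IsCompact.of_isClosed_subset (isCompact_closedBall _ _) (isClosed_tsupport S) hSt
  have hSB : tsupport S ⊆ B := hSt.trans (closedBall_subset_ball (by linarith))
  have hstokes := stokes_loc hBo hη (fun x hx => (htA x hx).add (hbA x hx)) hSc hScs hSB hcl
  have hηc : ContinuousOn (fun x => t x + b x) B := hη.continuousOn
  have htc : ContinuousOn t B := by
    have := hηc.sub hbc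
    refine this.congr (fun x _ => ?_)
    simp
  obtain ⟨M1, hM10, hM1⟩ := bounded_d1 hSc hScs
  -- integrability
  have hbint := hK y0 (fun x => ‖b x‖) (fun x => norm_nonneg _)
    (hbc.norm.aestronglyMeasurable hBm) hbI
  have hb'c : ContinuousOn (fun x => invp (J x) (b x)) B := ContOn_invp h.contJ hbc
  have hb'le : ∀ x ∈ B, ‖invp (J x) (b x)‖ ≤ (1 + L ^ 2) * ‖b x‖ := by
    intro x hx
    refine (norm_invp_le _ _).trans ?_
    have := h.bdJ x hx
    gcongr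
  have hb'I : IntegrableOn (fun x => ‖invp (J x) (b x)‖ ^ 2) B := by
    refine Integrable.mono' (hbI.const_mul ((1 + L ^ 2) ^ 2)) ?_ ?_
    · exact ((hb'c.norm).pow 2).aestronglyMeasurable hBm
    · refine (ae_restrict_iff' hBm).2 (Filter.Eventually.of_forall fun x hx => ?_)
      rw [Real.norm_of_nonneg (by positivity), ← mul_pow]
      have := hb'le x hx
      gcongr
  have hb'int := hK y0 (fun x => ‖invp (J x) (b x)‖) (fun x => norm_nonneg _)
    (hb'c.norm.aestronglyMeasurable hBm) hb'I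
  have hGint : IntegrableOn (fun x => s * W (t x + b x) (d1 S x)) B := by
    refine Integrable.mono' (g := fun x => 6 * M1 * (p x + ‖b x‖))
      ((hpI.add hbint.2.1).const_mul (6 * M1)) ?_ ?_
    · exact ((ContOn_W hηc (continuous_d1 hSc).continuousOn).aestronglyMeasurable hBm).const_mul s
    · refine (ae_restrict_iff' hBm).2 (Filter.Eventually.of_forall fun x hx => ?_)
      have hs1 : |s| = 1 := by rcases hs with h | h <;> rw [h] <;> norm_num
      rw [Real.norm_eq_abs, abs_mul, hs1, one_mul]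
      have h1 := abs_W_le (t x + b x) (d1 S x)
      have h2 : ‖t x + b x‖ ≤ p x + ‖b x‖ :=
        (norm_add_le _ _).trans (by have := htp x hx; linarith)
      have h3 := hM1 x
      have h4 : ‖t x + b x‖ * ‖d1 S x‖ ≤ (p x + ‖b x‖) * M1 :=
        mul_le_mul h2 h3 (norm_nonneg _) ((norm_nonneg _).trans h2)
      linarith
  -- the positive form
  set H : E4 → ℝ := fun x => s * W (invp (J x) (t x) + (A * ε ^ 2 * p x) • F x) (F x) with hH
  have hHm : AEStronglyMeasurable H (volume.restrict B) := by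
    have h1 : AEStronglyMeasurable (fun x => invp (J x) (t x)) (volume.restrict B) :=
      (ContOn_invp h.contJ htc).aestronglyMeasurable hBm
    have h2 : AEStronglyMeasurable F (volume.restrict B) := h.contF.aestronglyMeasurable hBm
    have h3 : AEStronglyMeasurable (fun x => (A * ε ^ 2 * p x)) (volume.restrict B) :=
      hpI.aestronglyMeasurable.const_mul _
    exact (aesm_W (h1.add (h3.smul h2)) h2).const_mul s
  have hp0 : ∀ x ∈ B, 0 ≤ p x := fun x hx => (norm_nonneg _).trans (htp x hx)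
  have hHI : IntegrableOn H B := by
    refine Integrable.mono' (hpI.const_mul (6 * (((1 + L ^ 2) + |A| * ε ^ 2 * L) * L))) hHm ?_
    refine (ae_restrict_iff' hBm).2 (Filter.Eventually.of_forall fun x hx => ?_)
    have hs1 : |s| = 1 := by rcases hs with h | h <;> rw [h] <;> norm_num
    rw [hH, Real.norm_eq_abs, abs_mul, hs1, one_mul]
    have h1 := abs_W_le (invp (J x) (t x) + (A * ε ^ 2 * p x) • F x) (F x)
    have h2 : ‖invp (J x) (t x) + (A * ε ^ 2 * p x) • F x‖ ≤ ((1 + L ^ 2) + |A| * ε ^ 2 * L) * p x := by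
      refine (norm_add_le _ _).trans ?_
      rw [norm_smul, Real.norm_eq_abs, abs_mul, abs_mul, abs_of_nonneg (hp0 x hx),
        abs_of_nonneg (sq_nonneg ε)]
      have h3 : ‖invp (J x) (t x)‖ ≤ (1 + L ^ 2) * p x := by
        refine (norm_invp_le _ _).trans ?_
        have := h.bdJ x hx
        have := htp x hx
        gcongr
      have h4 : |A| * ε ^ 2 * p x * ‖F x‖ ≤ |A| * ε ^ 2 * p x * L := by
        have := h.bdF x hx
        have := hp0 x hx
        gcongr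
      linarith
    have h3 := h.bdF x hx
    have h4 : ‖invp (J x) (t x) + (A * ε ^ 2 * p x) • F x‖ * ‖F x‖ ≤
        (((1 + L ^ 2) + |A| * ε ^ 2 * L) * p x) * L :=
      mul_le_mul h2 h3 (norm_nonneg _) ((norm_nonneg _).trans h2)
    linarith
  -- the integrated inequality
  set a := c / ((L ^ 2 + 1) ^ 2 * r ^ 2) with ha
  have hlow : ∀ x ∈ B, x ≠ y0 → (ball y0 r).indicator (fun x => a * H x) x
      - (C1 + K1) * p x - C1 / r * (‖invp (J x) (b x)‖ * wt y0 x)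
      - C1 * (‖b x‖ * wt y0 x) - K1 * ‖b x‖ ≤ s * W (t x + b x) (d1 S x) := by
    intro x hx hxy
    have hxn : ‖x - y0‖ < r0 := by rw [← dist_eq_norm]; exact hx
    have h1 := hpw (J y0) (J x) (F y0) (F x) s (x - y0) (t x) (b x) (p x) ε r (h.sq y0 hy0)
      (h.sq x hx) (h.spos y0 hy0) (h.spos x hx) (h.low y0 hy0) (h.low x hx) (h.bdF y0 hy0)
      (h.bdF x hx) (h.bdJ y0 hy0) (h.bdJ x hx) (h.lip x hx) hs (hsW x hx) (htA x hx) (hbA x hx)
      (htp x hx) (hta x hx) (hPos x hx) hε hεr (by linarith) (sub_ne_zero.2 hxy) hxn.le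
    have h2 := point_lower m L A r0 c C1 hm hr0 hc hC1 g Mf hMf0 hg hg0 hg1 hgr hMf hf0 y0 J F s ε r
      h hs hr hrr x hx hxy (t x) (b x) (p x) (hsW x hx) (htp x hx) (hPos x hx) h1
    refine le_trans (le_of_eq ?_) h2
    by_cases hxr : x ∈ ball y0 r
    · rw [indicator_of_mem hxr, indicator_of_mem hxr]
    · rw [indicator_of_notMem hxr, indicator_of_notMem hxr]
  have i1 : IntegrableOn ((ball y0 r).indicator fun x => a * H x) B :=
    (hHI.const_mul a).indicator measurableSet_ball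
  have i2 : IntegrableOn (fun x => (C1 + K1) * p x) B := hpI.const_mul _
  have i3 : IntegrableOn (fun x => C1 / r * (‖invp (J x) (b x)‖ * wt y0 x)) B :=
    hb'int.1.const_mul _
  have i4 : IntegrableOn (fun x => C1 * (‖b x‖ * wt y0 x)) B := hbint.1.const_mul _
  have i5 : IntegrableOn (fun x => K1 * ‖b x‖) B := hbint.2.1.const_mul _
  have hint : ∫ x in B, ((ball y0 r).indicator (fun x => a * H x) x
      - (C1 + K1) * p x - C1 / r * (‖invp (J x) (b x)‖ * wt y0 x)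
      - C1 * (‖b x‖ * wt y0 x) - K1 * ‖b x‖) ≤ ∫ x in B, s * W (t x + b x) (d1 S x) := by
    refine integral_mono_ae ((((i1.sub i2).sub i3).sub i4).sub i5) hGint ?_
    have h1 : ∀ᵐ x ∂(volume.restrict B), x ≠ y0 := by
      refine ae_restrict_of_ae ?_
      have : (volume : Measure E4) {y0} = 0 := measure_singleton y0
      exact measure_eq_zero_iff_ae_notMem.1 this
    filter_upwards [h1, ae_restrict_mem hBm] with x hx1 hx2
    exact hlow x hx2 hx1
  have hzero : ∫ x in B, s * W (t x + b x) (d1 S x) = 0 := by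
    rw [integral_const_mul, setIntegral_eq_integral_of_forall_compl_eq_zero, hstokes, mul_zero]
    intro x hx
    have : x ∉ tsupport S := fun h => hx (hSB h)
    rw [d1_eq_zero this]
    simp [W, ent]
  have hint2 := (int5 i1 i2 i3 i4 i5).symm.le.trans (hint.trans_eq hzero)
  rw [integral_const_mul, integral_const_mul,
    integral_const_mul, integral_const_mul, setIntegral_indicator measurableSet_ball,
    inter_eq_right.2 (ball_subset_ball (by linarith)), integral_const_mul] at hint2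
  have j1 := hbint.2.2.1
  have j2 := hbint.2.2.2
  have j3 := hb'int.2.2.1
  set P0 := ∫ x in B, p x with hP0
  set Q0 := √(∫ x in B, ‖b x‖ ^ 2) with hQ0
  set R0 := √(∫ x in B, ‖invp (J x) (b x)‖ ^ 2) with hR0
  set I0 := ∫ x in ball y0 r, H x with hI0
  have hP0n : 0 ≤ P0 := setIntegral_nonneg hBm hp0
  have hQ0n : 0 ≤ Q0 := Real.sqrt_nonneg _
  have hR0n : 0 ≤ R0 := Real.sqrt_nonneg _
  have k1 : a * I0 ≤ (C1 + K1) * (1 + K) * (P0 + Q0 + R0 / r) := by
    have e1 : C1 / r * (∫ x in B, ‖invp (J x) (b x)‖ * wt y0 x) ≤ C1 / r * (K * R0) := by gcongr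
    have e2 : C1 * (∫ x in B, ‖b x‖ * wt y0 x) ≤ C1 * (K * Q0) := by gcongr
    have e3 : K1 * (∫ x in B, ‖b x‖) ≤ K1 * (K * Q0) := by gcongr
    have e4 : C1 / r * (K * R0) = C1 * K * (R0 / r) := by ring
    have hRr : 0 ≤ R0 / r := by positivity
    have e5 : (C1 + K1) * P0 + C1 * K * (R0 / r) + C1 * (K * Q0) + K1 * (K * Q0) ≤
        (C1 + K1) * (1 + K) * (P0 + Q0 + R0 / r) := by
      have : (C1 + K1) * (1 + K) * (P0 + Q0 + R0 / r) - ((C1 + K1) * P0 + C1 * K * (R0 / r)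
          + C1 * (K * Q0) + K1 * (K * Q0)) = (C1 + K1) * K * P0 + (C1 + K1) * Q0
          + C1 * (R0 / r) + K1 * (1 + K) * (R0 / r) := by ring
      have h0 : 0 ≤ (C1 + K1) * K * P0 + (C1 + K1) * Q0
          + C1 * (R0 / r) + K1 * (1 + K) * (R0 / r) := by positivity
      linarith
    linarith
  have k2 : I0 = ((L ^ 2 + 1) ^ 2 * r ^ 2 / c) * (a * I0) := by
    rw [ha]; field_simp
  rw [k2]
  have hS0 : 0 ≤ P0 + Q0 + R0 / r := by positivity
  calc ((L ^ 2 + 1) ^ 2 * r ^ 2 / c) * (a * I0)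
      ≤ ((L ^ 2 + 1) ^ 2 * r ^ 2 / c) * ((C1 + K1) * (1 + K) * (P0 + Q0 + R0 / r)) := by gcongr
    _ = ((C1 + K1) * (1 + K) * ((L ^ 2 + 1) ^ 2 / c)) * r ^ 2 * (P0 + Q0 + R0 / r) := by
        field_simp
    _ ≤ max 0 ((C1 + K1) * (1 + K) * ((L ^ 2 + 1) ^ 2 / c)) * r ^ 2 * (P0 + Q0 + R0 / r) :=
        mul_le_mul_of_nonneg_right
          (mul_le_mul_of_nonneg_right (le_max_right _ _) (sq_nonneg r)) hS0

end

end Crest.Agent.R240.Mono
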