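import Mathlib
import Crest.Prelude.Def_ManifoldTwoForm

-- ▼ part R240/Ch1
section

/-!
Row 240 (S0371), layer L1 (helper707): frozen definitions in charts, part 1.
-/

set_option autoImplicit false

open Set Function Filter VectorField Bundle
open scoped Manifold ContDiff Topology
open Crest.GeometryTopology.TwoForm

namespace Crest.Agent.R240.Ch

noncomputable section

variable {E : Type*} [NormedAddCommGroup E] [NormedSpace ℝ E]
variable {M : Type*} [TopologicalSpace M] [ChartedSpace E M] [IsManifold 𝓘(ℝ, E) ∞ M]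

/-- coordinate change of tangent vectors, from the chart at `x` to the chart at `y`, at `z`. -/
abbrev tcc (x y z : M) : E →L[ℝ] E := tangentCoordChange 𝓘(ℝ, E) x y z

variable (E M) in
/-- (not necessarily smooth) two-forms. -/
abbrev F2 := M → E →L[ℝ] E →L[ℝ] ℝ

variable (E M) in
/-- (not necessarily smooth) one-forms. -/
abbrev F1 := M → E →L[ℝ] ℝ

variable (E M) in
/-- (not necessarily smooth) vector fields. -/
abbrev VF := M → E

variable (E M) in
/-- (not necessarily smooth) endomorphism fields. -/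
abbrev EndF := M → E →L[ℝ] E

variable (E M) in
/-- two-forms, in the type used by the frozen definitions. -/
abbrev TF2 := (x : M) → TangentSpace 𝓘(ℝ, E) x →L[ℝ] TangentSpace 𝓘(ℝ, E) x →L[ℝ] ℝ

variable (E M) in
/-- vector fields, in the type used by the frozen definitions. -/
abbrev TVF := (x : M) → TangentSpace 𝓘(ℝ, E) x

variable (E M) in
/-- endomorphism fields, in the type used by the frozen definitions. -/
abbrev TEndF := (x : M) → TangentSpace 𝓘(ℝ, E) x →L[ℝ] TangentSpace 𝓘(ℝ, E) x

/-! ### coordinate changes -/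

lemma tcc_self {x z : M} (h : z ∈ (chartAt E x).source) (v : E) : tcc (E := E) x x z v = v :=
  tangentCoordChange_self (I := 𝓘(ℝ, E)) (by simpa [extChartAt_source] using h)

lemma tcc_comp {w x y z : M} (hw : z ∈ (chartAt E w).source)
    (hx : z ∈ (chartAt E x).source) (hy : z ∈ (chartAt E y).source) (v : E) :
    tcc x y z (tcc w x z v) = tcc (E := E) w y z v :=
  tangentCoordChange_comp (I := 𝓘(ℝ, E)) (by
    simp only [extChartAt_source]; exact ⟨⟨hw, hx⟩, hy⟩)

lemma tcc_cancel {x z : M} (hx : z ∈ (chartAt E x).source) (v : E) :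
    tcc z x z (tcc x z z v) = v := by
  rw [tcc_comp hx (mem_chart_source _ z) hx, tcc_self hx]

lemma tcc_cancel' {x z : M} (hx : z ∈ (chartAt E x).source) (v : E) :
    tcc x z z (tcc z x z v) = v := by
  rw [tcc_comp (mem_chart_source _ z) hx (mem_chart_source _ z), tcc_self (mem_chart_source _ z)]

omit [NormedSpace ℝ E] [IsManifold 𝓘(ℝ, E) ∞ M] in
lemma symm_mem {p : M} {y : E} (hy : y ∈ (chartAt E p).target) :
    (chartAt E p).symm y ∈ (chartAt E p).source :=
  (chartAt E p).map_target hy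

/-- the value of a two-form at `x`, as a bilinear form on the model space. -/
def at2 (a : F2 E M) (x : M) : E →L[ℝ] E →L[ℝ] ℝ := a x

/-- the value of a one-form at `x`, as a linear form on the model space. -/
def at1 (s : F1 E M) (x : M) : E →L[ℝ] ℝ := s x

/-- the value of a vector field at `x`, as a vector of the model space. -/
def atV (V : VF E M) (x : M) : E := V x

/-- the value of an endomorphism field at `x`, as an endomorphism of the model space. -/
def atJ (J : EndF E M) (x : M) : E →L[ℝ] E := J x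

/-! ### representations in charts -/

/-- a two-form in the chart at `p`. -/
def rep (p : M) (a : F2 E M) (y : E) : E →L[ℝ] E →L[ℝ] ℝ :=
  ContinuousLinearMap.bilinearComp (at2 a ((chartAt E p).symm y))
    (tcc p ((chartAt E p).symm y) ((chartAt E p).symm y))
    (tcc p ((chartAt E p).symm y) ((chartAt E p).symm y))

/-- a one-form in the chart at `p`. -/
def rep1 (p : M) (s : F1 E M) (y : E) : E →L[ℝ] ℝ :=
  ContinuousLinearMap.comp (at1 s ((chartAt E p).symm y))
    (tcc p ((chartAt E p).symm y) ((chartAt E p).symm y))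

/-- a vector field in the chart at `p`. -/
def repV (p : M) (V : VF E M) (y : E) : E :=
  tcc ((chartAt E p).symm y) p ((chartAt E p).symm y) (atV V ((chartAt E p).symm y))

/-- an endomorphism field in the chart at `p`. -/
def repJ (p : M) (J : EndF E M) (y : E) : E →L[ℝ] E :=
  (tcc ((chartAt E p).symm y) p ((chartAt E p).symm y)).comp
    (ContinuousLinearMap.comp (atJ J ((chartAt E p).symm y))
      (tcc p ((chartAt E p).symm y) ((chartAt E p).symm y)))

lemma rep_apply (p : M) (a : F2 E M) (y u v : E) :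
    rep p a y u v = (at2 a ((chartAt E p).symm y))
      (tcc p ((chartAt E p).symm y) ((chartAt E p).symm y) u)
      (tcc p ((chartAt E p).symm y) ((chartAt E p).symm y) v) := rfl

lemma rep1_apply (p : M) (s : F1 E M) (y u : E) :
    rep1 p s y u = (at1 s ((chartAt E p).symm y))
      (tcc p ((chartAt E p).symm y) ((chartAt E p).symm y) u) := rfl

lemma repJ_apply (p : M) (J : EndF E M) (y v : E) :
    repJ p J y v = tcc ((chartAt E p).symm y) p ((chartAt E p).symm y)
      ((atJ J ((chartAt E p).symm y))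
        (tcc p ((chartAt E p).symm y) ((chartAt E p).symm y) v)) := rfl

/-- the form at a point from its representation. -/
lemma apply_eq_rep {p x : M} (hx : x ∈ (chartAt E p).source) (a : F2 E M) (u v : E) :
    at2 a x u v
      = rep p a (chartAt E p x) (tcc x p x u) (tcc x p x v) := by
  rw [rep_apply, (chartAt E p).left_inv hx, tcc_cancel' hx, tcc_cancel' hx]

lemma apply_eq_rep1 {p x : M} (hx : x ∈ (chartAt E p).source) (s : F1 E M) (u : E) :
    at1 s x u = rep1 p s (chartAt E p x) (tcc x p x u) := by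
  rw [rep1_apply, (chartAt E p).left_inv hx, tcc_cancel' hx]

lemma apply_eq_repJ {p x : M} (hx : x ∈ (chartAt E p).source) (J : EndF E M) (u : E) :
    tcc x p x (atJ J x u) = repJ p J (chartAt E p x) (tcc x p x u) := by
  rw [repJ_apply, (chartAt E p).left_inv hx, tcc_cancel' hx]

/-- value at the centre of the chart. -/
lemma rep_self (x : M) (a : F2 E M) (u v : E) :
    rep x a (chartAt E x x) u v = at2 a x u v := by
  have h := apply_eq_rep (mem_chart_source E x) a u v
  rw [tcc_self (mem_chart_source E x), tcc_self (mem_chart_source E x)] at h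
  exact h.symm

lemma rep_repV {p : M} {y : E} (hy : y ∈ (chartAt E p).target) (a : F2 E M) (V W : VF E M) :
    rep p a y (repV p V y) (repV p W y) =
      a ((chartAt E p).symm y) (V ((chartAt E p).symm y)) (W ((chartAt E p).symm y)) := by
  rw [rep_apply, repV, repV, tcc_cancel' (symm_mem hy), tcc_cancel' (symm_mem hy)]
  rfl

lemma rep1_repV {p : M} {y : E} (hy : y ∈ (chartAt E p).target) (s : F1 E M) (V : VF E M) :
    rep1 p s y (repV p V y) = s ((chartAt E p).symm y) (V ((chartAt E p).symm y)) := by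
  rw [rep1_apply, repV, tcc_cancel' (symm_mem hy)]
  rfl

/-- transition law -/
lemma rep_trans {p q x : M} (hp : x ∈ (chartAt E p).source) (hq : x ∈ (chartAt E q).source)
    (a : F2 E M) (u v : E) :
    rep p a (chartAt E p x) u v
      = rep q a (chartAt E q x) (tcc p q x u) (tcc p q x v) := by
  rw [rep_apply, rep_apply, (chartAt E p).left_inv hp, (chartAt E q).left_inv hq,
    tcc_comp hp hq (mem_chart_source E x), tcc_comp hp hq (mem_chart_source E x)]

lemma rep1_trans {p q x : M} (hp : x ∈ (chartAt E p).source) (hq : x ∈ (chartAt E q).source)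
    (s : F1 E M) (u : E) :
    rep1 p s (chartAt E p x) u = rep1 q s (chartAt E q x) (tcc p q x u) := by
  rw [rep1_apply, rep1_apply, (chartAt E p).left_inv hp, (chartAt E q).left_inv hq,
    tcc_comp hp hq (mem_chart_source E x)]

lemma repJ_trans {p q x : M} (hp : x ∈ (chartAt E p).source) (hq : x ∈ (chartAt E q).source)
    (J : EndF E M) (u : E) :
    tcc p q x (repJ p J (chartAt E p x) u) = repJ q J (chartAt E q x) (tcc p q x u) := by
  rw [repJ_apply, repJ_apply, (chartAt E p).left_inv hp, (chartAt E q).left_inv hq,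
    tcc_comp hp hq (mem_chart_source E x), tcc_comp (mem_chart_source E x) hp hq]

/-- the coordinate change is the derivative of the transition map. -/
lemma tcc_eq_fderiv (p q x : M) :
    tcc p q x = fderiv ℝ (chartAt E q ∘ (chartAt E p).symm) (chartAt E p x) := by
  rw [tcc, tangentCoordChange_def]
  simp only [modelWithCornersSelf_coe, range_id, fderivWithin_univ]
  rfl

/-- transition law as a pull-back by the transition map. -/
lemma rep_pullback {p q : M} {y : E} (hy : y ∈ (chartAt E p).target)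
    (hq : (chartAt E p).symm y ∈ (chartAt E q).source) (a : F2 E M) (u v : E) :
    rep p a y u v
      = rep q a ((chartAt E q ∘ (chartAt E p).symm) y)
        (fderiv ℝ (chartAt E q ∘ (chartAt E p).symm) y u)
        (fderiv ℝ (chartAt E q ∘ (chartAt E p).symm) y v) := by
  have h := rep_trans (symm_mem hy) hq a u v
  rw [tcc_eq_fderiv, (chartAt E p).right_inv hy] at h
  exact h

/-! ### trivializations -/

/-- the section given by a vector field, in the trivialization at `p`. -/
lemma triv_apply (p x : M) (v : TangentSpace 𝓘(ℝ, E) x) :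
    (trivializationAt E (TangentSpace 𝓘(ℝ, E)) p ⟨x, v⟩).2 = tcc (E := E) x p x v := rfl

lemma triv_symm {p x : M} (hx : x ∈ (chartAt E p).source) (v : E) :
    (trivializationAt E (TangentSpace 𝓘(ℝ, E)) p).symm x v = tcc p x x v := by
  have h2 := TangentBundle.symmL_trivializationAt_eq_core (I := 𝓘(ℝ, E)) (b₀ := p) (b := x) hx
  have hb : x ∈ (trivializationAt E (TangentSpace 𝓘(ℝ, E)) p).baseSet := hx
  have h3 := (Trivialization.symmL_apply (R := ℝ)
    (trivializationAt E (TangentSpace 𝓘(ℝ, E)) p) hb v).symm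
  rw [h2] at h3
  exact h3

lemma triv2_apply {p x : M} (hx : x ∈ (chartAt E p).source) (a : TF2 E M) :
    (trivializationAt (E →L[ℝ] E →L[ℝ] ℝ)
        (fun x : M => TangentSpace 𝓘(ℝ, E) x →L[ℝ] TangentSpace 𝓘(ℝ, E) x →L[ℝ] ℝ) p
          ⟨x, a x⟩).2 = rep p a (chartAt E p x) := by
  rw [hom_trivializationAt_apply]
  ext u v
  have hb : x ∈ (trivializationAt E (TangentSpace 𝓘(ℝ, E)) p).baseSet := hx
  rw [inCoordinates_apply_eq₂ hb hb (Set.mem_univ _), triv_symm hx, triv_symm hx]
  have h4 : ∀ y : ℝ, (Trivialization.linearMapAt ℝ (trivializationAt ℝ (fun _ : M => ℝ) p) x) y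
      = y := by
    intro y
    rw [Trivialization.coe_linearMapAt_of_mem _ (mem_univ _)]
    rfl
  rw [rep_apply, (chartAt E p).left_inv hx]
  exact h4 _

lemma tcc_inj {p x : M} (hx : x ∈ (chartAt E p).source) {u v : E}
    (h : tcc x p x u = tcc x p x v) : u = v := by
  have := congrArg (tcc p x x) h
  rwa [tcc_cancel' hx, tcc_cancel' hx] at this

end

end Crest.Agent.R240.Ch
end

-- ▼ part R240/Ch2

/-!
Row 240 (S0371), layer L1 (helper707): smoothness in charts.
-/

set_option autoImplicit false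

open Set Function Filter VectorField Bundle
open scoped Manifold ContDiff Topology
open Crest.GeometryTopology.TwoForm

namespace Crest.Agent.R240.Ch

noncomputable section

variable {E : Type*} [NormedAddCommGroup E] [NormedSpace ℝ E]
variable {M : Type*} [TopologicalSpace M] [ChartedSpace E M] [IsManifold 𝓘(ℝ, E) ∞ M]
variable {F : Type*} [NormedAddCommGroup F] [NormedSpace ℝ F]

/-- smoothness of a function of the chart coordinates. -/
lemma contMDiffAt_comp_chart {p x : M} (hx : x ∈ (chartAt E p).source) (f : E → F) :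
    ContMDiffAt 𝓘(ℝ, E) 𝓘(ℝ, F) ∞ (fun x => f (chartAt E p x)) x ↔
      ContDiffAt ℝ ∞ f (chartAt E p x) := by
  constructor
  · intro h
    have hs : ContMDiffAt 𝓘(ℝ, E) 𝓘(ℝ, E) ∞ (chartAt E p).symm (chartAt E p x) :=
      (contMDiffOn_chart_symm (I := 𝓘(ℝ, E)) (x := p)).contMDiffAt
        ((chartAt E p).open_target.mem_nhds ((chartAt E p).map_source hx))
    have h' : ContMDiffAt 𝓘(ℝ, E) 𝓘(ℝ, F) ∞ (fun x => f (chartAt E p x))
        ((chartAt E p).symm (chartAt E p x)) := by
      rw [(chartAt E p).left_inv hx]; exact h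
    have h2 := (h'.comp _ hs).contDiffAt
    refine h2.congr_of_eventuallyEq ?_
    filter_upwards [(chartAt E p).open_target.mem_nhds ((chartAt E p).map_source hx)] with y hy
    simp only [comp_apply]
    rw [(chartAt E p).right_inv hy]
  · intro h
    have hc : ContMDiffAt 𝓘(ℝ, E) 𝓘(ℝ, E) ∞ (chartAt E p) x :=
      (contMDiffOn_chart (I := 𝓘(ℝ, E)) (x := p)).contMDiffAt
        ((chartAt E p).open_source.mem_nhds hx)
    exact h.contMDiffAt.comp x hc

lemma contMDiffAt_of_eq {p x : M} (hx : x ∈ (chartAt E p).source) {g : M → F} {f : E → F}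
    (h : ∀ z ∈ (chartAt E p).source, g z = f (chartAt E p z)) :
    ContMDiffAt 𝓘(ℝ, E) 𝓘(ℝ, F) ∞ g x ↔ ContDiffAt ℝ ∞ f (chartAt E p x) := by
  rw [← contMDiffAt_comp_chart hx f]
  have he : g =ᶠ[𝓝 x] fun x => f (chartAt E p x) := by
    filter_upwards [(chartAt E p).open_source.mem_nhds hx] with z hz using h z hz
  exact ⟨fun h => h.congr_of_eventuallyEq he.symm, fun h => h.congr_of_eventuallyEq he⟩

/-! ### pointwise smoothness of sections in charts -/

lemma repV_chart {p x : M} (hx : x ∈ (chartAt E p).source) (V : VF E M) :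
    repV p V (chartAt E p x) = tcc x p x (atV V x) := by
  rw [repV, (chartAt E p).left_inv hx]

theorem contMDiffAt_V {p x : M} (hx : x ∈ (chartAt E p).source) (V : TVF E M) :
    ContMDiffAt 𝓘(ℝ, E) 𝓘(ℝ, E).tangent ∞ (fun x => (V x : TangentBundle 𝓘(ℝ, E) M)) x ↔
      ContDiffAt ℝ ∞ (repV p V) (chartAt E p x) := by
  have h1 := (trivializationAt E (TangentSpace (M := M) 𝓘(ℝ, E)) p).contMDiffAt_section_iff
    (IB := 𝓘(ℝ, E)) (n := ∞) (s := V) (x₀ := x) hx
  refine h1.trans ?_
  exact contMDiffAt_of_eq hx (fun z hz => (repV_chart hz V).symm)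

lemma mem_baseSet2 {p x : M} (hx : x ∈ (chartAt E p).source) :
    x ∈ (trivializationAt (E →L[ℝ] E →L[ℝ] ℝ)
        (fun x : M => TangentSpace 𝓘(ℝ, E) x →L[ℝ] TangentSpace 𝓘(ℝ, E) x →L[ℝ] ℝ)
        p).baseSet := by
  rw [hom_trivializationAt_baseSet, hom_trivializationAt_baseSet]
  exact ⟨hx, hx, mem_univ _⟩

set_option synthInstance.maxHeartbeats 400000 in
set_option maxHeartbeats 1000000 in
theorem contMDiffAt_2 {p x : M} (hx : x ∈ (chartAt E p).source) (a : TF2 E M) :
    ContMDiffAt 𝓘(ℝ, E) (𝓘(ℝ, E).prod 𝓘(ℝ, E →L[ℝ] E →L[ℝ] ℝ)) ∞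
      (fun x => TotalSpace.mk' (E →L[ℝ] E →L[ℝ] ℝ) x (a x)) x ↔
      ContDiffAt ℝ ∞ (rep p a) (chartAt E p x) := by
  have h1 := Bundle.Trivialization.contMDiffAt_section_iff (𝕜 := ℝ) (B := M)
    (F := E →L[ℝ] E →L[ℝ] ℝ)
    (E := fun x : M => TangentSpace 𝓘(ℝ, E) x →L[ℝ] TangentSpace 𝓘(ℝ, E) x →L[ℝ] ℝ)
    (IB := 𝓘(ℝ, E)) (n := ∞) (s := a) (x₀ := x)
    (trivializationAt (E →L[ℝ] E →L[ℝ] ℝ)
        (fun x : M => TangentSpace 𝓘(ℝ, E) x →L[ℝ] TangentSpace 𝓘(ℝ, E) x →L[ℝ] ℝ)
        p) (mem_baseSet2 hx)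
  refine h1.trans ?_
  exact contMDiffAt_of_eq hx (fun z hz => triv2_apply hz a)

lemma trivJ_apply {p x : M} (hx : x ∈ (chartAt E p).source) (J : TEndF E M) :
    (trivializationAt (E →L[ℝ] E)
        (fun x : M => TangentSpace 𝓘(ℝ, E) x →L[ℝ] TangentSpace 𝓘(ℝ, E) x) p
          ⟨x, J x⟩).2 = repJ p J (chartAt E p x) := by
  rw [hom_trivializationAt_apply]
  ext v
  have hb : x ∈ (trivializationAt E (TangentSpace 𝓘(ℝ, E)) p).baseSet := hx
  have h1 : (ContinuousLinearMap.inCoordinates E (TangentSpace (M := M) 𝓘(ℝ, E)) E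
      (TangentSpace (M := M) 𝓘(ℝ, E)) p x p x (J x)) v =
      (trivializationAt E (TangentSpace (M := M) 𝓘(ℝ, E)) p
        ⟨x, J x ((trivializationAt E (TangentSpace (M := M) 𝓘(ℝ, E)) p).symm x v)⟩).2 := by
    rw [ContinuousLinearMap.inCoordinates_eq hb hb]
    rfl
  refine h1.trans ?_
  rw [triv_symm hx, triv_apply, repJ_apply, (chartAt E p).left_inv hx]
  rfl

theorem contMDiffAt_J {p x : M} (hx : x ∈ (chartAt E p).source) (J : TEndF E M) :
    ContMDiffAt 𝓘(ℝ, E) (𝓘(ℝ, E).prod 𝓘(ℝ, E →L[ℝ] E)) ∞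
      (fun x => TotalSpace.mk' (E →L[ℝ] E) x (J x)) x ↔
      ContDiffAt ℝ ∞ (repJ p J) (chartAt E p x) := by
  have h1 := (trivializationAt (E →L[ℝ] E)
        (fun x : M => TangentSpace 𝓘(ℝ, E) x →L[ℝ] TangentSpace 𝓘(ℝ, E) x)
        p).contMDiffAt_section_iff
    (IB := 𝓘(ℝ, E)) (n := ∞) (s := J) (x₀ := x) ⟨hx, hx⟩
  refine h1.trans ?_
  exact contMDiffAt_of_eq hx (fun z hz => trivJ_apply hz J)

/-! ### global smoothness -/

/-- smooth two-form, in charts. -/
def Smooth2 (a : F2 E M) : Prop :=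
  (∀ x v, at2 a x v v = 0) ∧ ∀ p : M, ContDiffOn ℝ ∞ (rep p a) (chartAt E p).target

/-- smooth one-form, in charts. -/
def Smooth1 (s : F1 E M) : Prop :=
  ∀ p : M, ContDiffOn ℝ ∞ (rep1 p s) (chartAt E p).target

/-- smooth vector field, in charts. -/
def SmoothV (V : VF E M) : Prop :=
  ∀ p : M, ContDiffOn ℝ ∞ (repV p V) (chartAt E p).target

/-- smooth endomorphism field, in charts. -/
def SmoothJ (J : EndF E M) : Prop :=
  ∀ p : M, ContDiffOn ℝ ∞ (repJ p J) (chartAt E p).target

omit [NormedSpace ℝ E] [IsManifold 𝓘(ℝ, E) ∞ M] in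
lemma forall_chart_iff {P : M → E → Prop} {Q : M → Prop}
    (h : ∀ p x : M, x ∈ (chartAt E p).source → (Q x ↔ P p (chartAt E p x))) :
    (∀ x, Q x) ↔ ∀ p : M, ∀ y ∈ (chartAt E p).target, P p y := by
  constructor
  · intro hq p y hy
    have := (h p _ (symm_mem hy)).1 (hq _)
    rwa [(chartAt E p).right_inv hy] at this
  · intro hp x
    exact (h x x (mem_chart_source E x)).2 (hp x _ (mem_chart_target E x))

omit [IsManifold 𝓘(ℝ, E) ∞ M] in
lemma contDiffOn_chart_iff {p : M} {f : E → F} :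
    ContDiffOn ℝ ∞ f (chartAt E p).target ↔ ∀ y ∈ (chartAt E p).target, ContDiffAt ℝ ∞ f y := by
  constructor
  · intro h y hy
    exact h.contDiffAt ((chartAt E p).open_target.mem_nhds hy)
  · intro h y hy
    exact (h y hy).contDiffWithinAt

theorem smooth2_iff (a : TF2 E M) : IsSmoothTwoForm 𝓘(ℝ, E) M a ↔ Smooth2 a := by
  have h := forall_chart_iff (P := fun p y => ContDiffAt ℝ ∞ (rep p a) y)
    (fun p x hx => contMDiffAt_2 hx a)
  constructor
  · rintro ⟨h1, h2⟩
    exact ⟨h1, fun p => contDiffOn_chart_iff.2 (h.1 h2 p)⟩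
  · rintro ⟨h1, h2⟩
    exact ⟨h1, h.2 fun p => contDiffOn_chart_iff.1 (h2 p)⟩

theorem smoothV_iff (V : TVF E M) : IsSmoothVectorField 𝓘(ℝ, E) M V ↔ SmoothV V := by
  have h := forall_chart_iff (P := fun p y => ContDiffAt ℝ ∞ (repV p V) y)
    (fun p x hx => contMDiffAt_V hx V)
  constructor
  · intro h2 p
    exact contDiffOn_chart_iff.2 (h.1 h2 p)
  · intro h2
    exact h.2 fun p => contDiffOn_chart_iff.1 (h2 p)

theorem smoothJ_iff (J : TEndF E M) :
    ContMDiff 𝓘(ℝ, E) (𝓘(ℝ, E).prod 𝓘(ℝ, E →L[ℝ] E)) ∞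
      (fun x => TotalSpace.mk' (E →L[ℝ] E) x (J x)) ↔ SmoothJ J := by
  have h := forall_chart_iff (P := fun p y => ContDiffAt ℝ ∞ (repJ p J) y)
    (fun p x hx => contMDiffAt_J hx J)
  constructor
  · intro h2 p
    exact contDiffOn_chart_iff.2 (h.1 h2 p)
  · intro h2
    exact h.2 fun p => contDiffOn_chart_iff.1 (h2 p)

/-! ### transition maps and locality of smoothness -/

/-- the transition map from the chart at `p` to the chart at `q`. -/
def trans (p q : M) : E → E := chartAt E q ∘ (chartAt E p).symm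

lemma trans_contDiffAt {p q : M} {y : E} (hy : y ∈ (chartAt E p).target)
    (hq : (chartAt E p).symm y ∈ (chartAt E q).source) :
    ContDiffAt ℝ ∞ (trans (E := E) p q) y := by
  have hs : ContMDiffAt 𝓘(ℝ, E) 𝓘(ℝ, E) ∞ (chartAt E p).symm y :=
    (contMDiffOn_chart_symm (I := 𝓘(ℝ, E)) (x := p)).contMDiffAt
      ((chartAt E p).open_target.mem_nhds hy)
  have hc : ContMDiffAt 𝓘(ℝ, E) 𝓘(ℝ, E) ∞ (chartAt E q) ((chartAt E p).symm y) :=
    (contMDiffOn_chart (I := 𝓘(ℝ, E)) (x := q)).contMDiffAt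
      ((chartAt E q).open_source.mem_nhds hq)
  exact (hc.comp y hs).contDiffAt

omit [NormedSpace ℝ E] [IsManifold 𝓘(ℝ, E) ∞ M] in
lemma trans_apply {p q x : M} (hp : x ∈ (chartAt E p).source) :
    trans (E := E) p q (chartAt E p x) = chartAt E q x := by
  simp only [trans, comp_apply]
  rw [(chartAt E p).left_inv hp]

lemma tcc_eq_fderiv_trans (p q x : M) :
    tcc p q x = fderiv ℝ (trans (E := E) p q) (chartAt E p x) := tcc_eq_fderiv p q x

/-- smoothness at a point can be checked in any chart. -/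
theorem smooth1_at_iff {p q x : M} (hp : x ∈ (chartAt E p).source) (hq : x ∈ (chartAt E q).source)
    (s : F1 E M) (h : ContDiffAt ℝ ∞ (rep1 q s) (chartAt E q x)) :
    ContDiffAt ℝ ∞ (rep1 p s) (chartAt E p x) := by
  have hy : chartAt E p x ∈ (chartAt E p).target := (chartAt E p).map_source hp
  have hq' : (chartAt E p).symm (chartAt E p x) ∈ (chartAt E q).source := by
    rw [(chartAt E p).left_inv hp]; exact hq
  have ht := trans_contDiffAt hy hq'
  have hft : ContDiffAt ℝ ∞ (fderiv ℝ (trans (E := E) p q)) (chartAt E p x) :=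
    ht.fderiv_right (m := ∞) (by simp)
  have hev : rep1 p s =ᶠ[𝓝 (chartAt E p x)] fun y =>
      (rep1 q s (trans (E := E) p q y)).comp (fderiv ℝ (trans (E := E) p q) y) := by
    have ho : IsOpen ((chartAt E p).target ∩ (chartAt E p).symm ⁻¹' (chartAt E q).source) :=
      (chartAt E p).isOpen_inter_preimage_symm (chartAt E q).open_source
    filter_upwards [ho.mem_nhds ⟨hy, hq'⟩] with y hy
    ext u
    have h1 := rep1_trans (symm_mem hy.1) hy.2 s u
    rw [(chartAt E p).right_inv hy.1, tcc_eq_fderiv_trans, (chartAt E p).right_inv hy.1] at h1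
    exact h1
  refine ContDiffAt.congr_of_eventuallyEq ?_ hev
  have h2 : ContDiffAt ℝ ∞ (fun y => rep1 q s (trans (E := E) p q y)) (chartAt E p x) := by
    have h3 : ContDiffAt ℝ ∞ (rep1 q s) (trans (E := E) p q (chartAt E p x)) := by
      rw [trans_apply hp]; exact h
    exact h3.comp (chartAt E p x) ht
  exact h2.clm_comp hft

theorem smooth2_at_iff {p q x : M} (hp : x ∈ (chartAt E p).source) (hq : x ∈ (chartAt E q).source)
    (a : F2 E M) :
    ContDiffAt ℝ ∞ (rep q a) (chartAt E q x) ↔ ContDiffAt ℝ ∞ (rep p a) (chartAt E p x) := by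
  rw [← contMDiffAt_2 hp a, ← contMDiffAt_2 hq a]

theorem smoothV_at_iff {p q x : M} (hp : x ∈ (chartAt E p).source) (hq : x ∈ (chartAt E q).source)
    (V : VF E M) :
    ContDiffAt ℝ ∞ (repV q V) (chartAt E q x) ↔ ContDiffAt ℝ ∞ (repV p V) (chartAt E p x) := by
  rw [← contMDiffAt_V hp V, ← contMDiffAt_V hq V]

theorem smoothJ_at_iff {p q x : M} (hp : x ∈ (chartAt E p).source) (hq : x ∈ (chartAt E q).source)
    (J : EndF E M) :
    ContDiffAt ℝ ∞ (repJ q J) (chartAt E q x) ↔ ContDiffAt ℝ ∞ (repJ p J) (chartAt E p x) := by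
  rw [← contMDiffAt_J hp J, ← contMDiffAt_J hq J]

/-- locality: smooth as soon as every point has a chart in which the representation is smooth. -/
theorem Smooth2.of_local {a : F2 E M} (h0 : ∀ x v, at2 a x v v = 0)
    (h : ∀ x : M, ∃ p : M, x ∈ (chartAt E p).source ∧ ContDiffAt ℝ ∞ (rep p a) (chartAt E p x)) :
    Smooth2 a := by
  refine ⟨h0, fun p => contDiffOn_chart_iff.2 fun y hy => ?_⟩
  obtain ⟨q, hq, hs⟩ := h ((chartAt E p).symm y)
  have := (smooth2_at_iff (symm_mem hy) hq a).1 hs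
  rwa [(chartAt E p).right_inv hy] at this

theorem Smooth1.of_local {s : F1 E M}
    (h : ∀ x : M, ∃ p : M, x ∈ (chartAt E p).source ∧ ContDiffAt ℝ ∞ (rep1 p s) (chartAt E p x)) :
    Smooth1 s := by
  refine fun p => contDiffOn_chart_iff.2 fun y hy => ?_
  obtain ⟨q, hq, hs⟩ := h ((chartAt E p).symm y)
  have := smooth1_at_iff (symm_mem hy) hq s hs
  rwa [(chartAt E p).right_inv hy] at this

theorem SmoothV.of_local {V : VF E M}
    (h : ∀ x : M, ∃ p : M, x ∈ (chartAt E p).source ∧ ContDiffAt ℝ ∞ (repV p V) (chartAt E p x)) :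
    SmoothV V := by
  refine fun p => contDiffOn_chart_iff.2 fun y hy => ?_
  obtain ⟨q, hq, hs⟩ := h ((chartAt E p).symm y)
  have := (smoothV_at_iff (symm_mem hy) hq V).1 hs
  rwa [(chartAt E p).right_inv hy] at this

theorem SmoothJ.of_local {J : EndF E M}
    (h : ∀ x : M, ∃ p : M, x ∈ (chartAt E p).source ∧ ContDiffAt ℝ ∞ (repJ p J) (chartAt E p x)) :
    SmoothJ J := by
  refine fun p => contDiffOn_chart_iff.2 fun y hy => ?_
  obtain ⟨q, hq, hs⟩ := h ((chartAt E p).symm y)
  have := (smoothJ_at_iff (symm_mem hy) hq J).1 hs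
  rwa [(chartAt E p).right_inv hy] at this

end

end Crest.Agent.R240.Ch
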