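import Mathlib
import Crest.Agent.R240.Lin1
import Crest.Agent.R240.Ch2
import Crest.Agent.R240.MonoDefs
import Crest.Agent.R240.FormDefs
import Crest.Agent.R240.IntMu
import Crest.Agent.R240.Lin4
import Crest.Agent.R240.TopDefs
import Crest.Agent.R240.XDefs

-- ▼ part R240/MonoM1
section

/-!
Row 240, MonoM (helper551), part 1: finitely many round charts, uniform constants.
-/

set_option autoImplicit false

open Set Function Filter Metric
open scoped Manifold ContDiff Topology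
open Crest.Agent.R240.Ch

namespace Crest.Agent.R240.MonoM

noncomputable section

variable {M : Type*} [TopologicalSpace M] [ChartedSpace E4 M]

/-- a finite family of charts with round balls: `x ∈ M` lies in the inner ball of one of them. -/
structure Rnd (M : Type*) [TopologicalSpace M] [ChartedSpace E4 M] where
  I : Finset M
  R : ℝ
  Rpos : 0 < R
  rad : M → ℝ
  radge : ∀ p ∈ I, R ≤ rad p
  sub : ∀ p ∈ I, closedBall (chartAt E4 p p) (2 * rad p) ⊆ (chartAt E4 p).target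
  cov : ∀ x : M, ∃ p ∈ I, x ∈ (chartAt E4 p).source ∧
    chartAt E4 p x ∈ ball (chartAt E4 p p) (rad p)

theorem Rnd.exists (M : Type*) [TopologicalSpace M] [CompactSpace M] [Nonempty M]
    [ChartedSpace E4 M] : Nonempty (Rnd M) := by
  have h1 : ∀ p : M, ∃ r : ℝ, 0 < r ∧ closedBall (chartAt E4 p p) (2 * r) ⊆
      (chartAt E4 p).target := by
    intro p
    have ho : (chartAt E4 p).target ∈ 𝓝 (chartAt E4 p p) :=
      (chartAt E4 p).open_target.mem_nhds (mem_chart_target E4 p)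
    obtain ⟨e, he, h⟩ := Metric.nhds_basis_closedBall.mem_iff.1 ho
    exact ⟨e / 2, by positivity, by simpa [mul_div_cancel₀] using h⟩
  choose r hr hsub using h1
  let U : M → Set M := fun p =>
    (chartAt E4 p).source ∩ (chartAt E4 p) ⁻¹' ball (chartAt E4 p p) (r p)
  have hU : ∀ p, IsOpen (U p) := fun p =>
    (chartAt E4 p).isOpen_inter_preimage isOpen_ball
  have hUm : ∀ p, p ∈ U p := fun p => ⟨mem_chart_source E4 p, by simp [hr p]⟩
  obtain ⟨t, ht⟩ := isCompact_univ.elim_finite_subcover U hU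
    (fun x _ => mem_iUnion.2 ⟨x, hUm x⟩)
  have hcov : ∀ x : M, ∃ p ∈ t, x ∈ U p := by
    intro x
    have := ht (mem_univ x)
    simpa using this
  have htne : t.Nonempty := by
    obtain ⟨p, hp, _⟩ := hcov (Classical.arbitrary M)
    exact ⟨p, hp⟩
  obtain ⟨p0, hp0, hmin⟩ := t.exists_min_image r htne
  exact ⟨{ I := t, R := r p0, Rpos := hr p0, rad := r, radge := hmin, sub := fun p _ => hsub p,
           cov := hcov }⟩

/-- the outer closed ball of the chart `p`. -/
def Rnd.K (S : Rnd M) (p : M) : Set E4 := closedBall (chartAt E4 p p) (2 * S.rad p)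

lemma Rnd.isCompact_K (S : Rnd M) (p : M) : IsCompact (S.K p) := isCompact_closedBall _ _

lemma Rnd.convex_K (S : Rnd M) (p : M) : Convex ℝ (S.K p) := convex_closedBall _ _

lemma Rnd.K_sub (S : Rnd M) {p : M} (hp : p ∈ S.I) : S.K p ⊆ (chartAt E4 p).target :=
  S.sub p hp

lemma Rnd.ball_sub (S : Rnd M) {p : M} (hp : p ∈ S.I) {y : E4}
    (hy : y ∈ ball (chartAt E4 p p) (S.rad p)) : closedBall y S.R ⊆ S.K p := by
  intro z hz
  have h1 := S.radge p hp
  have h2 : dist z y ≤ S.R := hz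
  have h3 : dist y (chartAt E4 p p) < S.rad p := hy
  have h4 := dist_triangle z y (chartAt E4 p p)
  show dist z _ ≤ _
  linarith

/-- uniform bound of finitely many continuous functions. -/
lemma Rnd.bdd (S : Rnd M) (g : M → E4 → ℝ)
    (hg : ∀ p ∈ S.I, ContinuousOn (g p) (S.K p)) :
    ∃ C : ℝ, 0 < C ∧ ∀ p ∈ S.I, ∀ y ∈ S.K p, g p y ≤ C := by
  have h1 : ∀ p ∈ S.I, ∃ C : ℝ, ∀ y ∈ S.K p, g p y ≤ C := by
    intro p hp
    obtain ⟨C, hC⟩ := (S.isCompact_K p).bddAbove_image (hg p hp)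
    exact ⟨C, fun y hy => hC ⟨y, hy, rfl⟩⟩
  classical
  have h2 : ∀ s : Finset M, s ⊆ S.I → ∃ C : ℝ, 0 < C ∧ ∀ p ∈ s, ∀ y ∈ S.K p, g p y ≤ C := by
    intro s
    induction s using Finset.induction_on with
    | empty => intro _; exact ⟨1, one_pos, by simp⟩
    | insert a s ha ih =>
      intro hs
      obtain ⟨C, hC, h⟩ := ih ((Finset.subset_insert a s).trans hs)
      obtain ⟨C', h'⟩ := h1 a (hs (Finset.mem_insert_self a s))
      refine ⟨max C C', lt_max_of_lt_left hC, ?_⟩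
      intro p hp y hy
      rcases Finset.mem_insert.1 hp with rfl | hp
      · exact (h' y hy).trans (le_max_right _ _)
      · exact (h p hp y hy).trans (le_max_left _ _)
  exact h2 S.I subset_rfl

/-- uniform positive lower bound. -/
lemma Rnd.bdd_below (S : Rnd M) (g : M → E4 → ℝ)
    (hg : ∀ p ∈ S.I, ContinuousOn (g p) (S.K p)) (hpos : ∀ p ∈ S.I, ∀ y ∈ S.K p, 0 < g p y) :
    ∃ c : ℝ, 0 < c ∧ ∀ p ∈ S.I, ∀ y ∈ S.K p, c ≤ g p y := by
  obtain ⟨C, hC, h⟩ := S.bdd (fun p y => (g p y)⁻¹)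
    (fun p hp => (hg p hp).inv₀ fun y hy => (hpos p hp y hy).ne')
  refine ⟨C⁻¹, inv_pos.2 hC, fun p hp y hy => ?_⟩
  have h1 := h p hp y hy
  have h2 := hpos p hp y hy
  exact inv_le_of_inv_le₀ h2 h1

/-- the constants of a pair `(J, F)` in the round charts. -/
structure Rnd.Const (S : Rnd M) (J : M → E4 → (E4 →L[ℝ] E4)) (F : M → E4 → Bil)
    (c0 C0 : ℝ) : Prop where
  c0pos : 0 < c0
  C0pos : 0 < C0
  low : ∀ p ∈ S.I, ∀ y ∈ S.K p, ∀ v, c0 * ‖v‖ ^ 2 ≤ F p y v (J p y v)
  Fb : ∀ p ∈ S.I, ∀ y ∈ S.K p, ‖F p y‖ ≤ C0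
  Jb : ∀ p ∈ S.I, ∀ y ∈ S.K p, ‖J p y‖ ≤ C0
  Jl : ∀ p ∈ S.I, ∀ y ∈ S.K p, ∀ z ∈ S.K p, ‖J p y - J p z‖ ≤ C0 * ‖y - z‖
  Fl : ∀ p ∈ S.I, ∀ y ∈ S.K p, ∀ z ∈ S.K p, ‖F p y - F p z‖ ≤ C0 * ‖y - z‖
  Wl : ∀ p ∈ S.I, ∀ y ∈ S.K p, c0 ≤ |W (F p y) (F p y)|
  Wb : ∀ p ∈ S.I, ∀ y ∈ S.K p, |W (F p y) (F p y)| ≤ C0

lemma continuous_ent (i j : Fin 4) : Continuous fun b : Bil => ent b i j := by
  unfold ent
  fun_prop

lemma continuousOn_W {X : Type*} [TopologicalSpace X] {s : Set X} {b c : X → Bil}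
    (hb : ContinuousOn b s) (hc : ContinuousOn c s) : ContinuousOn (fun x => W (b x) (c x)) s := by
  have h1 : ∀ i j : Fin 4, ContinuousOn (fun x => ent (b x) i j) s :=
    fun i j => (continuous_ent i j).comp_continuousOn hb
  have h2 : ∀ i j : Fin 4, ContinuousOn (fun x => ent (c x) i j) s :=
    fun i j => (continuous_ent i j).comp_continuousOn hc
  unfold W
  exact ((((((h1 0 1).mul (h2 2 3)).sub ((h1 0 2).mul (h2 1 3))).add
    ((h1 0 3).mul (h2 1 2))).add ((h1 1 2).mul (h2 0 3))).sub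
    ((h1 1 3).mul (h2 0 2))).add ((h1 2 3).mul (h2 0 1))

/-- minimum of a positive definite quadratic form on the unit sphere, uniform on compacts -/
lemma quad_low {K : Set E4} (hK : IsCompact K) (G : E4 → E4 → ℝ)
    (hc : ContinuousOn (fun yv : E4 × E4 => G yv.1 yv.2) (K ×ˢ univ))
    (hs : ∀ y ∈ K, ∀ (a : ℝ) v, G y (a • v) = a ^ 2 * G y v)
    (hp : ∀ y ∈ K, ∀ v, v ≠ 0 → 0 < G y v) :
    ∃ c : ℝ, 0 < c ∧ ∀ y ∈ K, ∀ v, c * ‖v‖ ^ 2 ≤ G y v := by
  rcases K.eq_empty_or_nonempty with rfl | hne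
  · exact ⟨1, one_pos, by simp⟩
  have hcomp : IsCompact (K ×ˢ sphere (0 : E4) 1) := hK.prod (isCompact_sphere _ _)
  have hne' : (K ×ˢ sphere (0 : E4) 1).Nonempty := by
    obtain ⟨y, hy⟩ := hne
    exact ⟨(y, ee 0), hy, by simp [ee]⟩
  obtain ⟨yv, hyv, hmin⟩ := hcomp.exists_isMinOn hne'
    (hc.mono (prod_mono subset_rfl (subset_univ _)))
  have hv0 : yv.2 ≠ 0 := by
    intro h
    have := hyv.2
    rw [h] at this
    simp at this
  refine ⟨G yv.1 yv.2, hp _ hyv.1 _ hv0, ?_⟩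
  intro y hy v
  rcases eq_or_ne v 0 with rfl | hv
  · have := hs y hy 0 (0 : E4)
    simp at this
    simp [this]
  · have hn : ‖v‖ ≠ 0 := norm_ne_zero_iff.2 hv
    have hmem : ((y, ‖v‖⁻¹ • v) : E4 × E4) ∈ K ×ˢ sphere (0 : E4) 1 := by
      refine ⟨hy, ?_⟩
      simp [norm_smul, hn]
    have h1 : G yv.1 yv.2 ≤ G y (‖v‖⁻¹ • v) := hmin hmem
    have h2 := hs y hy ‖v‖ (‖v‖⁻¹ • v)
    rw [smul_smul, mul_inv_cancel₀ hn, one_smul] at h2
    rw [h2]
    nlinarith [sq_nonneg ‖v‖]

/-- uniform Lipschitz bound -/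
lemma Rnd.lip {G : Type*} [NormedAddCommGroup G] [NormedSpace ℝ G] (S : Rnd M)
    (g : M → E4 → G) (hg : ∀ p, ContDiffOn ℝ ∞ (g p) (chartAt E4 p).target) :
    ∃ C : ℝ, 0 < C ∧ ∀ p ∈ S.I, ∀ y ∈ S.K p, ∀ z ∈ S.K p, ‖g p y - g p z‖ ≤ C * ‖y - z‖ := by
  obtain ⟨C, hC, h⟩ := S.bdd (fun p y => ‖fderiv ℝ (g p) y‖) (by
    intro p hp
    have h1 : ContinuousOn (fderiv ℝ (g p)) (chartAt E4 p).target :=
      (hg p).continuousOn_fderiv_of_isOpen (chartAt E4 p).open_target (by simp)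
    exact (h1.mono (S.K_sub hp)).norm)
  refine ⟨C, hC, fun p hp y hy z hz => ?_⟩
  refine Convex.norm_image_sub_le_of_norm_fderiv_le (s := S.K p) (𝕜 := ℝ)
    (fun x hx => ?_) (fun x hx => h p hp x hx) (S.convex_K p) hz hy
  exact ((hg p).contDiffAt ((chartAt E4 p).open_target.mem_nhds (S.K_sub hp hx))).differentiableAt
    (by simp)

theorem Rnd.exists_const (S : Rnd M) (J : M → E4 → (E4 →L[ℝ] E4)) (F : M → E4 → Bil)
    (hJ : ∀ p, ContDiffOn ℝ ∞ (J p) (chartAt E4 p).target)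
    (hF : ∀ p, ContDiffOn ℝ ∞ (F p) (chartAt E4 p).target)
    (hpos : ∀ p, ∀ y ∈ (chartAt E4 p).target, ∀ v, v ≠ 0 → 0 < F p y v (J p y v))
    (hW : ∀ p, ∀ y ∈ (chartAt E4 p).target, W (F p y) (F p y) ≠ 0) :
    ∃ c0 C0 : ℝ, S.Const J F c0 C0 := by
  have cF : ∀ p ∈ S.I, ContinuousOn (F p) (S.K p) := fun p hp =>
    (hF p).continuousOn.mono (S.K_sub hp)
  have cJ : ∀ p ∈ S.I, ContinuousOn (J p) (S.K p) := fun p hp =>
    (hJ p).continuousOn.mono (S.K_sub hp)
  obtain ⟨C1, hC1, h1⟩ := S.bdd (fun p y => ‖F p y‖)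
    (fun p hp => (continuous_norm (E := Bil)).comp_continuousOn (cF p hp))
  obtain ⟨C2, hC2, h2⟩ := S.bdd (fun p y => ‖J p y‖) (fun p hp => (cJ p hp).norm)
  obtain ⟨C3, hC3, h3⟩ := S.lip J hJ
  obtain ⟨C4, hC4, h4⟩ := S.lip F hF
  have cW : ∀ p ∈ S.I, ContinuousOn (fun y => |W (F p y) (F p y)|) (S.K p) := fun p hp =>
    (continuousOn_W (cF p hp) (cF p hp)).abs
  obtain ⟨c5, hc5, h5⟩ := S.bdd_below (fun p y => |W (F p y) (F p y)|) cW
    (fun p hp y hy => abs_pos.2 (hW p y (S.K_sub hp hy)))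
  obtain ⟨C6, hC6, h6⟩ := S.bdd (fun p y => |W (F p y) (F p y)|) cW
  -- the lower bound
  have h7 : ∀ p ∈ S.I, ∃ c : ℝ, 0 < c ∧ ∀ y ∈ S.K p, ∀ v, c * ‖v‖ ^ 2 ≤ F p y v (J p y v) := by
    intro p hp
    apply quad_low (S.isCompact_K p) (fun y v => F p y v (J p y v))
    · have e1 : ContinuousOn (fun yv : E4 × E4 => F p yv.1) (S.K p ×ˢ univ) :=
        (cF p hp).comp continuousOn_fst (fun x hx => hx.1)
      have e2 : ContinuousOn (fun yv : E4 × E4 => J p yv.1) (S.K p ×ˢ univ) :=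
        (cJ p hp).comp continuousOn_fst (fun x hx => hx.1)
      have e3 : ContinuousOn (fun yv : E4 × E4 => J p yv.1 yv.2) (S.K p ×ˢ univ) :=
        e2.clm_apply continuousOn_snd
      exact (e1.clm_apply continuousOn_snd).clm_apply e3
    · intro y hy a v
      simp only [map_smul, smul_apply, smul_eq_mul]
      ring
    · intro y hy v hv
      exact hpos p y (S.K_sub hp hy) v hv
  have h8 : ∃ c : ℝ, 0 < c ∧ ∀ p ∈ S.I, ∀ y ∈ S.K p, ∀ v, c * ‖v‖ ^ 2 ≤ F p y v (J p y v) := by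
    classical
    have : ∀ s : Finset M, s ⊆ S.I → ∃ c : ℝ, 0 < c ∧ ∀ p ∈ s, ∀ y ∈ S.K p, ∀ v,
        c * ‖v‖ ^ 2 ≤ F p y v (J p y v) := by
      intro s
      induction s using Finset.induction_on with
      | empty => intro _; exact ⟨1, one_pos, by simp⟩
      | insert a s ha ih =>
        intro hs
        obtain ⟨c, hc, h⟩ := ih ((Finset.subset_insert a s).trans hs)
        obtain ⟨c', hc', h'⟩ := h7 a (hs (Finset.mem_insert_self a s))
        refine ⟨min c c', lt_min hc hc', ?_⟩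
        intro p hp y hy v
        rcases Finset.mem_insert.1 hp with rfl | hp
        · refine le_trans ?_ (h' y hy v)
          gcongr
          exact min_le_right _ _
        · refine le_trans ?_ (h p hp y hy v)
          gcongr
          exact min_le_left _ _
    exact this S.I subset_rfl
  obtain ⟨c8, hc8, h8⟩ := h8
  refine ⟨min c5 c8, C1 + C2 + C3 + C4 + C6, ?_⟩
  refine ⟨lt_min hc5 hc8, by positivity, ?_, ?_, ?_, ?_, ?_, ?_, ?_⟩
  · intro p hp y hy v
    refine le_trans ?_ (h8 p hp y hy v)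
    gcongr
    exact min_le_right _ _
  · intro p hp y hy
    have := h1 p hp y hy
    linarith
  · intro p hp y hy
    have := h2 p hp y hy
    linarith
  · intro p hp y hy z hz
    refine (h3 p hp y hy z hz).trans ?_
    gcongr
    linarith
  · intro p hp y hy z hz
    refine (h4 p hp y hy z hz).trans ?_
    gcongr
    linarith
  · intro p hp y hy
    exact (min_le_left _ _).trans (h5 p hp y hy)
  · intro p hp y hy
    have := h6 p hp y hy
    linarith

end

end Crest.Agent.R240.MonoM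
end

-- ▼ part R240/MonoM2
section

/-!
Row 240, MonoM (helper551), part 2: pointwise data in a chart.
-/

set_option autoImplicit false

open Set Function Filter Metric MeasureTheory
open scoped Manifold ContDiff Topology ENNReal
open Crest.Agent.R240.Ch Crest.Agent.R240.Int

namespace Crest.Agent.R240.MonoM

noncomputable section

variable {M : Type*} [TopologicalSpace M] [ChartedSpace E4 M] [IsManifold 𝓘(ℝ, E4) ∞ M]

/-- the coordinate change at `symm y`. -/
abbrev TT (p : M) (y : E4) : E4 →L[ℝ] E4 :=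
  tcc p ((chartAt E4 p).symm y) ((chartAt E4 p).symm y)

lemma rep_pull (p : M) (a : F2 E4 M) (y : E4) :
    rep p a y = pull (TT p y) (at2 a ((chartAt E4 p).symm y)) := rep_eq_pull p a y

lemma J_TT (J : EndF E4 M) {p : M} {y : E4} (hy : y ∈ (chartAt E4 p).target) (v : E4) :
    atJ J ((chartAt E4 p).symm y) (TT p y v) = TT p y (repJ p J y v) := by
  rw [repJ_apply, TT, tcc_cancel' (symm_mem hy)]

lemma TT_inj {p : M} {y : E4} (hy : y ∈ (chartAt E4 p).target) {u v : E4}
    (h : TT p y u = TT p y v) : u = v := by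
  have h1 := congrArg (tcc ((chartAt E4 p).symm y) p ((chartAt E4 p).symm y)) h
  have h2 : ∀ w : E4, tcc ((chartAt E4 p).symm y) p ((chartAt E4 p).symm y) (TT p y w) = w := by
    intro w
    rw [TT, tcc_comp (symm_mem hy) (mem_chart_source E4 _) (symm_mem hy), tcc_self (symm_mem hy)]
  rwa [h2, h2] at h1

lemma repJ_sq {J : EndF E4 M} (hJ : ∀ x v, atJ J x (atJ J x v) = -v) {p : M} {y : E4}
    (hy : y ∈ (chartAt E4 p).target) (v : E4) : repJ p J y (repJ p J y v) = -v := by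
  apply TT_inj hy
  rw [← J_TT J hy, ← J_TT J hy, hJ, map_neg]

lemma antip_rep (J : EndF E4 M) (a : F2 E4 M) {p : M} {y : E4}
    (hy : y ∈ (chartAt E4 p).target) :
    antip (repJ p J y) (rep p a y) = pull (TT p y) (antip (atJ J ((chartAt E4 p).symm y))
      (at2 a ((chartAt E4 p).symm y))) := by
  rw [rep_pull]
  ext u v
  rw [antip_apply, pull_apply, pull_apply, pull_apply, antip_apply, ← J_TT J hy, ← J_TT J hy]

lemma invp_rep (J : EndF E4 M) (a : F2 E4 M) {p : M} {y : E4}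
    (hy : y ∈ (chartAt E4 p).target) :
    invp (repJ p J y) (rep p a y) = pull (TT p y) (invp (atJ J ((chartAt E4 p).symm y))
      (at2 a ((chartAt E4 p).symm y))) := by
  rw [rep_pull]
  ext u v
  rw [invp_apply, pull_apply, pull_apply, pull_apply, invp_apply, ← J_TT J hy, ← J_TT J hy]

lemma Pos.pullTT (J : EndF E4 M) {p : M} {y : E4} (hy : y ∈ (chartAt E4 p).target) {P : Bil}
    (h : Pos (atJ J ((chartAt E4 p).symm y)) P) : Pos (repJ p J y) (pull (TT p y) P) where
  alt := h.alt.pull _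
  inv u v := by rw [pull_apply, pull_apply, ← J_TT J hy, ← J_TT J hy, h.inv]
  nonneg v := by rw [pull_apply, ← J_TT J hy]; exact h.nonneg _

lemma SPos.pullTT (J : EndF E4 M) {p : M} {y : E4} (hy : y ∈ (chartAt E4 p).target) {P : Bil}
    (h : SPos (atJ J ((chartAt E4 p).symm y)) P) : SPos (repJ p J y) (pull (TT p y) P) where
  alt := h.alt.pull _
  inv u v := by rw [pull_apply, pull_apply, ← J_TT J hy, ← J_TT J hy, h.inv]
  pos v hv := by
    rw [pull_apply, ← J_TT J hy]
    apply h.pos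
    intro h0
    apply hv
    apply TT_inj hy
    rw [h0, map_zero]



/-- pointwise bound of a two-form by `β`, measured with `F(·, J ·)`. -/
def NB (J : EndF E4 M) (F a : F2 E4 M) (β : M → ℝ) : Prop :=
  ∀ x u v, |at2 a x u v| ≤ β x * (√(at2 F x u (atJ J x u)) * √(at2 F x v (atJ J x v)))

lemma norm_pull_le' {J : EndF E4 M} {F : F2 E4 M} {p : M} {y : E4}
    (hy : y ∈ (chartAt E4 p).target) {C0 : ℝ} (hF : ‖rep p F y‖ ≤ C0) (hJ : ‖repJ p J y‖ ≤ C0)
    {b : Bil} {β : ℝ} (hβ : 0 ≤ β)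
    (hb : ∀ u v, |b u v| ≤ β * (√(at2 F ((chartAt E4 p).symm y) u
      (atJ J ((chartAt E4 p).symm y) u)) * √(at2 F ((chartAt E4 p).symm y) v
        (atJ J ((chartAt E4 p).symm y) v)))) :
    ‖pull (TT p y) b‖ ≤ C0 ^ 2 * β := by
  have hC0 : 0 ≤ C0 := (norm_nonneg (rep p F y)).trans hF
  have key : ∀ u : E4, √(at2 F ((chartAt E4 p).symm y) (TT p y u)
      (atJ J ((chartAt E4 p).symm y) (TT p y u))) ≤ C0 * ‖u‖ := by
    intro u
    have h1 : at2 F ((chartAt E4 p).symm y) (TT p y u)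
      (atJ J ((chartAt E4 p).symm y) (TT p y u)) = rep p F y u (repJ p J y u) := by
      rw [rep_pull, pull_apply, J_TT J hy]
    rw [h1]
    apply Real.sqrt_le_iff.2
    refine ⟨by positivity, ?_⟩
    calc rep p F y u (repJ p J y u) ≤ ‖rep p F y u (repJ p J y u)‖ := Real.le_norm_self _
      _ ≤ ‖rep p F y‖ * ‖u‖ * ‖repJ p J y u‖ := ContinuousLinearMap.le_opNorm₂ _ _ _
      _ ≤ ‖rep p F y‖ * ‖u‖ * (‖repJ p J y‖ * ‖u‖) := by
          gcongr
          exact ContinuousLinearMap.le_opNorm _ _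
      _ ≤ C0 * ‖u‖ * (C0 * ‖u‖) := by gcongr
      _ = (C0 * ‖u‖) ^ 2 := by ring
  refine ContinuousLinearMap.opNorm_le_bound₂ _ (by positivity) ?_
  intro u v
  rw [pull_apply, Real.norm_eq_abs]
  refine (hb _ _).trans ?_
  calc β * (√(at2 F ((chartAt E4 p).symm y) (TT p y u)
      (atJ J ((chartAt E4 p).symm y) (TT p y u))) * √(at2 F ((chartAt E4 p).symm y) (TT p y v)
        (atJ J ((chartAt E4 p).symm y) (TT p y v)))) ≤ β * ((C0 * ‖u‖) * (C0 * ‖v‖)) := by
        gcongr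
        · exact key u
        · exact key v
    _ = C0 ^ 2 * β * ‖u‖ * ‖v‖ := by ring

/-- the ratio `q` in a chart. -/
lemma W_rep_eq {F b : F2 E4 M} (hF : Vol F) (hb : ∀ x, Alt (at2 b x)) {p : M} {y : E4}
    (hy : y ∈ (chartAt E4 p).target) :
    W (rep p b y) (rep p F y) = qG F b F ((chartAt E4 p).symm y) *
      W (rep p F y) (rep p F y) := by
  have h1 : q (rep p F y) (rep p b y) (rep p F y) = qG F b F ((chartAt E4 p).symm y) := by
    rw [rep_pull, rep_pull, qG]
    exact q_pull (hF.alt _) (hb _) (hF.alt _) (det_tcc_ne (symm_mem hy))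
  rw [← h1, q, div_mul_cancel₀ _ (hF.rep_ne hy)]

lemma W_antip_eq_zero {J : E4 →L[ℝ] E4} {F b : Bil} (hJ : ∀ v, J (J v) = -v) (hF : SPos J F)
    (hb : Alt b) : W (antip J b) F = 0 := by
  obtain ⟨A, hA⟩ := exists_frame hJ hF
  have h1 := hA.q_eq hF.alt (hb.antip J) hF.alt
  rw [W_comm (pull (A : E4 →L[ℝ] E4) (antip J b)),
    W_mixed0 ((hb.antip J).pull _) (hA.pull_inv hF.inv)
    (hA.pull_anti (antip_anti hJ b)), zero_div] at h1
  rw [q, div_eq_zero_iff] at h1
  rcases h1 with h1 | h1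
  · exact h1
  · exact absurd h1 (hA.W_ne hF.alt)

/-- the pointwise lower bound used in the integral. -/
lemma W_lower {J : E4 →L[ℝ] E4} {F t : Bil} (hJ : ∀ v, J (J v) = -v) (hF : SPos J F)
    (ht : Alt t) {s lam : ℝ} (hs : 0 < s * W F F) (hlam : 0 ≤ lam) :
    s * W t F ≤ s * W (invp J t + lam • F) F := by
  have h1 : W (invp J t) F = W t F := by
    conv_rhs => rw [← invp_add_antip J t, W_add_left, W_antip_eq_zero hJ hF ht, add_zero]
  rw [W_add_left, W_smul_left, h1]
  have : 0 ≤ lam * (s * W F F) := by positivity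
  linarith

end

end Crest.Agent.R240.MonoM
end

-- ▼ part R240/MonoM3
section

/-!
Row 240, MonoM (helper551), part 3: transfer of integrals, transfer of balls.
-/

set_option autoImplicit false
set_option maxSynthPendingDepth 3

open Set Function Filter Metric MeasureTheory
open scoped Manifold ContDiff Topology ENNReal
open Crest.Agent.R240.Ch Crest.Agent.R240.Int

namespace Crest.Agent.R240.MonoM

noncomputable section

section Meas

variable {M : Type*} [TopologicalSpace M] [ChartedSpace E4 M] [IsManifold 𝓘(ℝ, E4) ∞ M]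
variable [MeasurableSpace M] [BorelSpace M]

omit [IsManifold 𝓘(ℝ, E4) ∞ M] in
lemma exists_meas_chart (p : M) : ∃ φ : M → E4, Measurable φ ∧
    ∀ x ∈ (chartAt E4 p).source, φ x = chartAt E4 p x := by
  classical
  refine ⟨(chartAt E4 p).source.piecewise (chartAt E4 p) (fun _ => 0), ?_, ?_⟩
  · exact (chartAt E4 p).continuousOn.measurable_piecewise continuousOn_const
      (chartAt E4 p).open_source.measurableSet
  · intro x hx
    exact piecewise_eq_of_mem _ _ _ hx

/-- integrals in a chart are bounded by integrals on `M`. -/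
lemma lintegral_chart_le {F : F2 E4 M} {μ : Measure M} (hv : IsVol F μ) {p : M} {S : Set E4}
    (hS : MeasurableSet S) (hSt : S ⊆ (chartAt E4 p).target) {c : ℝ} (hc : 0 < c)
    (hd : ∀ y ∈ S, c ≤ |W (rep p F y) (rep p F y)|) (f : M → ℝ≥0∞) :
    ∫⁻ y in S, f ((chartAt E4 p).symm y) ≤ ENNReal.ofReal c⁻¹ * ∫⁻ x, f x ∂μ := by
  obtain ⟨g', hg'm, hg'le, hg'eq⟩ := exists_measurable_le_lintegral_eq
    (volume : Measure E4) (S.indicator fun y => f ((chartAt E4 p).symm y))
  obtain ⟨φ, hφm, hφ⟩ := exists_meas_chart (M := M) p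
  set g : M → ℝ≥0∞ := (chartAt E4 p).source.indicator (fun x => g' (φ x)) with hg
  have hgm : Measurable g :=
    (hg'm.comp hφm).indicator (chartAt E4 p).open_source.measurableSet
  have hg0 : ∀ x ∉ (chartAt E4 p).source, g x = 0 := fun x hx => indicator_of_notMem hx _
  have hgle : ∀ x, g x ≤ f x := by
    intro x
    by_cases hx : x ∈ (chartAt E4 p).source
    · rw [hg, indicator_of_mem hx, hφ x hx]
      refine (hg'le _).trans ?_
      by_cases hy : chartAt E4 p x ∈ S
      · rw [indicator_of_mem hy, (chartAt E4 p).left_inv hx]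
      · rw [indicator_of_notMem hy]; exact zero_le
    · rw [hg0 x hx]; exact zero_le
  have h1 := hv p g hgm hg0
  have h2 : ENNReal.ofReal c * ∫⁻ y in S, f ((chartAt E4 p).symm y) ≤ ∫⁻ x, g x ∂μ := by
    rw [h1, ← lintegral_indicator hS, hg'eq]
    calc ENNReal.ofReal c * ∫⁻ y, g' y ≤ ∫⁻ y, ENNReal.ofReal c * g' y :=
          lintegral_const_mul_le _ _
      _ = ∫⁻ y in (chartAt E4 p).target, ENNReal.ofReal c * g' y := by
          rw [← lintegral_indicator (chartAt E4 p).open_target.measurableSet]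
          refine lintegral_congr fun y => ?_
          by_cases hy : y ∈ (chartAt E4 p).target
          · rw [indicator_of_mem hy]
          · rw [indicator_of_notMem hy]
            have h3 := hg'le y
            rw [indicator_of_notMem (fun h => hy (hSt h))] at h3
            have h4 : g' y = 0 := le_antisymm h3 zero_le
            rw [h4, mul_zero]
      _ ≤ ∫⁻ y in (chartAt E4 p).target, g ((chartAt E4 p).symm y) *
            ENNReal.ofReal |W (rep p F y) (rep p F y)| := by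
          refine setLIntegral_mono' (chartAt E4 p).open_target.measurableSet fun y hy => ?_
          have h5 : g ((chartAt E4 p).symm y) = g' y := by
            rw [hg, indicator_of_mem (symm_mem hy), hφ _ (symm_mem hy), (chartAt E4 p).right_inv hy]
          rw [h5, mul_comm]
          by_cases hyS : y ∈ S
          · gcongr
            exact hd y hyS
          · have h3 := hg'le y
            rw [indicator_of_notMem hyS] at h3
            have h4 : g' y = 0 := le_antisymm h3 zero_le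
            rw [h4, zero_mul, zero_mul]
  have h3 : ENNReal.ofReal c * ∫⁻ y in S, f ((chartAt E4 p).symm y) ≤ ∫⁻ x, f x ∂μ :=
    h2.trans (lintegral_mono hgle)
  calc ∫⁻ y in S, f ((chartAt E4 p).symm y)
      = ENNReal.ofReal c⁻¹ * (ENNReal.ofReal c * ∫⁻ y in S, f ((chartAt E4 p).symm y)) := by
        rw [← mul_assoc, ← ENNReal.ofReal_mul (by positivity), inv_mul_cancel₀ hc.ne',
          ENNReal.ofReal_one, one_mul]
    _ ≤ _ := by gcongr

/-- integrals over a small subset of `M` in a chart. -/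
lemma lintegral_le_chart {F : F2 E4 M} {μ : Measure M} (hv : IsVol F μ) {p : M} {B : Set M}
    {S : Set E4} (hB : MeasurableSet B) (hS : MeasurableSet S) (hSt : S ⊆ (chartAt E4 p).target)
    (hBs : B ⊆ (chartAt E4 p).source) (hBS : ∀ x ∈ B, chartAt E4 p x ∈ S) {f : M → ℝ≥0∞}
    (hf : Measurable f) :
    ∫⁻ x in B, f x ∂μ ≤ ∫⁻ y in S, f ((chartAt E4 p).symm y) *
      ENNReal.ofReal |W (rep p F y) (rep p F y)| := by
  have h1 := hv p (B.indicator f) (hf.indicator hB)
    (fun x hx => indicator_of_notMem (fun h => hx (hBs h)) _)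
  rw [← lintegral_indicator hB, h1, ← lintegral_indicator hS,
    ← lintegral_indicator (chartAt E4 p).open_target.measurableSet]
  refine lintegral_mono fun y => ?_
  by_cases hy : y ∈ (chartAt E4 p).target
  · rw [indicator_of_mem hy]
    by_cases hyB : (chartAt E4 p).symm y ∈ B
    · have h2 := hBS _ hyB
      rw [(chartAt E4 p).right_inv hy] at h2
      rw [indicator_of_mem hyB, indicator_of_mem h2]
    · rw [indicator_of_notMem hyB, zero_mul]; exact zero_le
  · rw [indicator_of_notMem hy]; exact zero_le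

end Meas

section Balls

variable {M : Type*} [MetricSpace M] [ChartedSpace E4 M]

/-- small balls of `M` around points of the inner ball are contained in the chart ball. -/
lemma Rnd.exists_ball (S : Rnd M) (hBL : Met.BiLip E4 M) :
    ∃ c δ : ℝ, 0 < c ∧ c ≤ 1 ∧ 0 < δ ∧ ∀ p ∈ S.I, ∀ x ∈ (chartAt E4 p).source,
      chartAt E4 p x ∈ ball (chartAt E4 p p) (S.rad p) → ∀ r ≤ δ, ∀ z ∈ ball x r,
        z ∈ (chartAt E4 p).source ∧ chartAt E4 p z ∈ ball (chartAt E4 p x) (r / c) := by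
  have key : ∀ p ∈ S.I, ∃ c δ : ℝ, 0 < c ∧ c ≤ 1 ∧ 0 < δ ∧ ∀ x ∈ (chartAt E4 p).source,
      chartAt E4 p x ∈ ball (chartAt E4 p p) (S.rad p) → ∀ r ≤ δ, ∀ z ∈ ball x r,
        z ∈ (chartAt E4 p).source ∧ chartAt E4 p z ∈ ball (chartAt E4 p x) (r / c) := by
    intro p hp
    obtain ⟨c, C, hc, hC, hcC⟩ := hBL p (S.K p) (S.isCompact_K p) (S.K_sub hp)
    have hrad : 0 < S.rad p := S.Rpos.trans_le (S.radge p hp)
    set K1 : Set M := (chartAt E4 p).symm '' closedBall (chartAt E4 p p) (S.rad p) with hK1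
    set U : Set M := (chartAt E4 p).source ∩
      (chartAt E4 p) ⁻¹' ball (chartAt E4 p p) (2 * S.rad p) with hU
    have hUo : IsOpen U := (chartAt E4 p).isOpen_inter_preimage isOpen_ball
    have hsub1 : closedBall (chartAt E4 p p) (S.rad p) ⊆ (chartAt E4 p).target :=
      (closedBall_subset_closedBall (by linarith)).trans (S.K_sub hp)
    have hK1c : IsCompact K1 := (isCompact_closedBall _ _).image_of_continuousOn
      ((chartAt E4 p).continuousOn_symm.mono hsub1)
    have hK1U : K1 ⊆ U := by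
      rintro x ⟨y, hy, rfl⟩
      have hyt := hsub1 hy
      refine ⟨symm_mem hyt, ?_⟩
      rw [mem_preimage, (chartAt E4 p).right_inv hyt]
      exact closedBall_subset_ball (by linarith) hy
    obtain ⟨δ, hδ, hδU⟩ := hK1c.exists_thickening_subset_open hUo hK1U
    refine ⟨min c 1, δ, lt_min hc one_pos, min_le_right _ _, hδ, ?_⟩
    intro x hx hxb r hr z hz
    have hxK1 : x ∈ K1 := ⟨chartAt E4 p x, ball_subset_closedBall hxb,
      (chartAt E4 p).left_inv hx⟩
    have hzU : z ∈ U := hδU (mem_thickening_iff.2 ⟨x, hxK1, (mem_ball.1 hz).trans_le hr⟩)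
    refine ⟨hzU.1, ?_⟩
    have h1 := hcC (chartAt E4 p z) (ball_subset_closedBall hzU.2) (chartAt E4 p x)
      (closedBall_subset_closedBall (by linarith) (ball_subset_closedBall hxb))
    rw [(chartAt E4 p).left_inv hzU.1, (chartAt E4 p).left_inv hx] at h1
    have hm : 0 < min c 1 := lt_min hc one_pos
    rw [mem_ball, dist_eq_norm, lt_div_iff₀ hm]
    calc ‖chartAt E4 p z - chartAt E4 p x‖ * min c 1
        ≤ ‖chartAt E4 p z - chartAt E4 p x‖ * c := by
          gcongr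
          exact min_le_left _ _
      _ = c * ‖chartAt E4 p z - chartAt E4 p x‖ := mul_comm _ _
      _ ≤ dist z x := h1.1
      _ < r := hz
  classical
  have h2 : ∀ s : Finset M, s ⊆ S.I → ∃ c δ : ℝ, 0 < c ∧ c ≤ 1 ∧ 0 < δ ∧ ∀ p ∈ s,
      ∀ x ∈ (chartAt E4 p).source,
      chartAt E4 p x ∈ ball (chartAt E4 p p) (S.rad p) → ∀ r ≤ δ, ∀ z ∈ ball x r,
        z ∈ (chartAt E4 p).source ∧ chartAt E4 p z ∈ ball (chartAt E4 p x) (r / c) := by
    intro s
    induction s using Finset.induction_on with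
    | empty => intro _; exact ⟨1, 1, one_pos, le_rfl, one_pos, by simp⟩
    | insert a s ha ih =>
      intro hs
      obtain ⟨c, δ, hc, hc1, hδ, h⟩ := ih ((Finset.subset_insert a s).trans hs)
      obtain ⟨c', δ', hc', hc1', hδ', h'⟩ := key a (hs (Finset.mem_insert_self a s))
      refine ⟨min c c', min δ δ', lt_min hc hc', (min_le_left _ _).trans hc1, lt_min hδ hδ', ?_⟩
      intro p hp x hx hxb r hr z hz
      have hr0 : 0 ≤ r := dist_nonneg.trans (mem_ball.1 hz).le
      have hmin : 0 < min c c' := lt_min hc hc'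
      rcases Finset.mem_insert.1 hp with rfl | hp
      · obtain ⟨h3, h4⟩ := h' x hx hxb r (hr.trans (min_le_right _ _)) z hz
        refine ⟨h3, ball_subset_ball ?_ h4⟩
        gcongr
        exact min_le_right _ _
      · obtain ⟨h3, h4⟩ := h p hp x hx hxb r (hr.trans (min_le_left _ _)) z hz
        refine ⟨h3, ball_subset_ball ?_ h4⟩
        gcongr
        exact min_le_left _ _
  exact h2 S.I subset_rfl

end Balls

/-- constant sign of a nonvanishing continuous function on a ball. -/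
lemma exists_sign {y0 : E4} {R : ℝ} (hR : 0 < R) {g : E4 → ℝ} (hg : ContinuousOn g (ball y0 R))
    (h0 : ∀ y ∈ ball y0 R, g y ≠ 0) : ∃ s : ℝ, (s = 1 ∨ s = -1) ∧ ∀ y ∈ ball y0 R, 0 < s * g y := by
  have hc : IsPreconnected (ball y0 R) := (convex_ball y0 R).isPreconnected
  have hy0 : y0 ∈ ball y0 R := mem_ball_self hR
  rcases lt_or_gt_of_ne (h0 y0 hy0) with hneg | hpos
  · refine ⟨-1, Or.inr rfl, fun y hy => ?_⟩
    by_contra hcon
    have hy' : 0 ≤ g y := by linarith
    obtain ⟨z, hz, hz0⟩ := hc.intermediate_value hy0 hy hg ⟨hneg.le, hy'⟩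
    exact h0 z hz hz0
  · refine ⟨1, Or.inl rfl, fun y hy => ?_⟩
    by_contra hcon
    have hy' : g y ≤ 0 := by linarith
    obtain ⟨z, hz, hz0⟩ := hc.intermediate_value hy hy0 hg ⟨hy', hpos.le⟩
    exact h0 z hz hz0

end

end Crest.Agent.R240.MonoM
end

-- ▼ part R240/MonoM4

/-!
Row 240, MonoM (helper551), part 4: local monotonicity on `M` (in terms of pointwise bounds `NB`).
-/

set_option autoImplicit false
set_option maxSynthPendingDepth 3

open Set Function Filter Metric MeasureTheory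
open scoped Manifold ContDiff Topology ENNReal
open Crest.Agent.R240.Ch Crest.Agent.R240.Int

namespace Crest.Agent.R240.MonoM

noncomputable section

/-- closedness in the form of `En.Cl`. -/
lemma cl_of_closed {M : Type*} [TopologicalSpace M] [ChartedSpace E4 M]
    [IsManifold 𝓘(ℝ, E4) ∞ M] {a : F2 E4 M} (ha : Smooth2 a) (hc : Closed2 a) {p : M} {y : E4}
    (hy : y ∈ (chartAt E4 p).target) : En.Cl (rep p a) y := by
  intro u v w
  have h := hc p y hy u v w
  have hd := ha.diff hy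
  have h1 : fderiv ℝ (rep p a) y v u w = - fderiv ℝ (rep p a) y v w u := by
    have h2 := fderiv_pair (E := E4) (b := rep p a) (Y := fun _ => u) (Z := fun _ => w) hd
      (differentiableAt_const _) (differentiableAt_const _) v
    have h3 := fderiv_pair (E := E4) (b := rep p a) (Y := fun _ => w) (Z := fun _ => u) hd
      (differentiableAt_const _) (differentiableAt_const _) v
    have h4 : (fun z => rep p a z u w) = fun z => - rep p a z w u := by
      funext z
      exact ha.antisymm_rep p z u w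
    rw [h4, fderiv_fun_neg] at h2
    have e0 : fderiv ℝ (fun _ : E4 => w) y = 0 := by simp
    have e1 : fderiv ℝ (fun _ : E4 => u) y = 0 := by simp
    rw [e0, e1] at h2 h3
    have h5 : (-fderiv ℝ (fun z => rep p a z w u) y) v = - (fderiv ℝ (fun z => rep p a z w u) y v) :=
      rfl
    rw [h5, h3] at h2
    simp only [ContinuousLinearMap.zero_apply, map_zero, add_zero, zero_apply] at h2
    linarith
  simp only [dd] at h
  linarith

section

variable {M : Type*} [TopologicalSpace M] [ChartedSpace E4 M] [IsManifold 𝓘(ℝ, E4) ∞ M]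
variable [MeasurableSpace M] [BorelSpace M]

/-- real version of `lintegral_chart_le`. -/
lemma integral_chart_le {F : F2 E4 M} {μ : Measure M} (hv : IsVol F μ) {p : M} {S : Set E4}
    (hS : MeasurableSet S) (hSt : S ⊆ (chartAt E4 p).target) {c : ℝ} (hc : 0 < c)
    (hd : ∀ y ∈ S, c ≤ |W (rep p F y) (rep p F y)|) {g : E4 → ℝ} {G : M → ℝ}
    (hg : IntegrableOn g S) (hg0 : ∀ y ∈ S, 0 ≤ g y) (hG : Integrable G μ) (hG0 : ∀ x, 0 ≤ G x)
    (hgG : ∀ y ∈ S, g y ≤ G ((chartAt E4 p).symm y)) :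
    ∫ y in S, g y ≤ c⁻¹ * ∫ x, G x ∂μ := by
  have h0 : 0 ≤ c⁻¹ * ∫ x, G x ∂μ := mul_nonneg (inv_nonneg.2 hc.le) (integral_nonneg hG0)
  rw [← ENNReal.ofReal_le_ofReal_iff h0,
    ofReal_integral_eq_lintegral_ofReal hg ((ae_restrict_iff' hS).2 (Eventually.of_forall hg0)),
    ENNReal.ofReal_mul (inv_nonneg.2 hc.le),
    ofReal_integral_eq_lintegral_ofReal hG (Eventually.of_forall hG0)]
  refine le_trans ?_ (lintegral_chart_le hv hS hSt hc hd (fun x => ENNReal.ofReal (G x)))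
  refine setLIntegral_mono' hS fun y hy => ?_
  exact ENNReal.ofReal_le_ofReal (hgG y hy)

/-- real version of `lintegral_le_chart`. -/
lemma integral_le_chart {F : F2 E4 M} {μ : Measure M} (hv : IsVol F μ) {p : M} {B : Set M}
    {S : Set E4} (hB : MeasurableSet B) (hS : MeasurableSet S) (hSt : S ⊆ (chartAt E4 p).target)
    (hBs : B ⊆ (chartAt E4 p).source) (hBS : ∀ x ∈ B, chartAt E4 p x ∈ S) {f : M → ℝ}
    (hf : Measurable f) (hfi : Integrable f μ) (hf0 : ∀ x, 0 ≤ f x) {g : E4 → ℝ}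
    (hg : IntegrableOn g S) (hg0 : ∀ y ∈ S, 0 ≤ g y)
    (hfg : ∀ y ∈ S, f ((chartAt E4 p).symm y) * |W (rep p F y) (rep p F y)| ≤ g y) :
    ∫ x in B, f x ∂μ ≤ ∫ y in S, g y := by
  have h0 : 0 ≤ ∫ y in S, g y := setIntegral_nonneg hS hg0
  rw [← ENNReal.ofReal_le_ofReal_iff h0,
    ofReal_integral_eq_lintegral_ofReal hg ((ae_restrict_iff' hS).2 (Eventually.of_forall hg0)),
    ofReal_integral_eq_lintegral_ofReal hfi.integrableOn (Eventually.of_forall hf0)]
  refine (lintegral_le_chart hv hB hS hSt hBs hBS hf.ennreal_ofReal).trans ?_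
  refine setLIntegral_mono' hS fun y hy => ?_
  rw [← ENNReal.ofReal_mul (hf0 _)]
  exact ENNReal.ofReal_le_ofReal (hfg y hy)

end

/-- `Mono.MonoLocal` with the parentheses in the conclusion. -/
def ML : Prop := ∀ m L A r0 : ℝ, 0 < m → 0 < r0 → ∃ C : ℝ, 0 ≤ C ∧
  ∀ (y0 : E4) (J : E4 → E4 →L[ℝ] E4) (F : E4 → Bil) (s : ℝ) (t b : E4 → Bil) (p : E4 → ℝ)
    (ε r : ℝ), Mono.Geo y0 r0 m L J F → (s = 1 ∨ s = -1) →
    (∀ x ∈ ball y0 r0, 0 < s * W (F x) (F x)) →
    ContDiffOn ℝ 1 (fun x => t x + b x) (ball y0 r0) →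
    (∀ x ∈ ball y0 r0, En.Cl (fun x => t x + b x) x) →
    ContinuousOn b (ball y0 r0) →
    (∀ x ∈ ball y0 r0, Alt (t x)) → (∀ x ∈ ball y0 r0, Alt (b x)) →
    IntegrableOn p (ball y0 r0) → IntegrableOn (fun x => ‖b x‖ ^ 2) (ball y0 r0) →
    (∀ x ∈ ball y0 r0, ‖t x‖ ≤ p x) →
    (∀ x ∈ ball y0 r0, ‖antip (J x) (t x)‖ ≤ A * ε * p x) →
    (∀ x ∈ ball y0 r0, Pos (J x) (invp (J x) (t x) + (A * ε ^ 2 * p x) • F x)) →
    0 < ε → ε ≤ r → r ≤ r0 / 2 →
    ∫ x in ball y0 r, s * W (invp (J x) (t x) + (A * ε ^ 2 * p x) • F x) (F x) ≤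
      C * r ^ 2 * ((∫ x in ball y0 r0, p x) + √(∫ x in ball y0 r0, ‖b x‖ ^ 2)
        + √(∫ x in ball y0 r0, ‖invp (J x) (b x)‖ ^ 2) / r)

/-- integral of a function plus a nonnegative constant. -/
lemma int_add_const {y0 : E4} {r0 : ℝ} {p : E4 → ℝ} (hp : IntegrableOn p (ball y0 r0))
    (hp0 : ∀ x ∈ ball y0 r0, 0 ≤ p x) {a b : ℝ} (ha : 0 ≤ a) (hb : 0 ≤ b) :
    ∫ x in ball y0 r0, (p x + a + b) ≤
      (1 + (volume : Measure E4).real (ball 0 r0)) * ((∫ x in ball y0 r0, p x) + a + b) := by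
  have hfin : (volume : Measure E4) (ball y0 r0) ≠ ⊤ := measure_ball_lt_top.ne
  have hvol : (volume : Measure E4).real (ball y0 r0) = (volume : Measure E4).real (ball 0 r0) := by
    unfold Measure.real
    rw [Measure.addHaar_ball_center]
  have h1 : ∫ x in ball y0 r0, (p x + a + b) = (∫ x in ball y0 r0, p x) +
      (volume : Measure E4).real (ball y0 r0) * (a + b) := by
    have h2 : ∀ x, p x + a + b = p x + (a + b) := fun x => by ring
    simp only [h2]
    rw [integral_add hp (integrableOn_const hfin)]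
    simp
  have h3 : 0 ≤ ∫ x in ball y0 r0, p x := setIntegral_nonneg measurableSet_ball hp0
  have h4 : 0 ≤ (volume : Measure E4).real (ball 0 r0) := measureReal_nonneg
  rw [h1, hvol]
  nlinarith [mul_nonneg h4 h3]

theorem ml_of (h : Mono.MonoLocal) : ML := by
  first
  | exact h
  | (intro m L A r0 hm hr0
     obtain ⟨C, hC, H⟩ := h m L A r0 hm hr0
     refine ⟨C * (1 + (volume : Measure E4).real (ball 0 r0)),
       mul_nonneg hC (by have : 0 ≤ (volume : Measure E4).real (ball 0 r0) := measureReal_nonneg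
                         linarith), ?_⟩
     intro y0 J F s t b p ε r h1 h2 h3 h4 h5 h6 h7 h8 h9 h10 h11 h12 h13 h14 h15 h16
     refine (H y0 J F s t b p ε r h1 h2 h3 h4 h5 h6 h7 h8 h9 h10 h11 h12 h13 h14 h15 h16).trans ?_
     have hr : 0 < r := h14.trans_le h15
     have hb := int_add_const h9 (fun x hx => (norm_nonneg (t x)).trans (h11 x hx))
       (a := √(∫ x in ball y0 r0, ‖b x‖ ^ 2))
       (b := √(∫ x in ball y0 r0, ‖invp (J x) (b x)‖ ^ 2) / r)
       (Real.sqrt_nonneg _) (div_nonneg (Real.sqrt_nonneg _) hr.le)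
     have hCr : 0 ≤ C * r ^ 2 := by positivity
     refine (mul_le_mul_of_nonneg_left hb hCr).trans (le_of_eq ?_)
     ring)

set_option maxHeartbeats 1000000 in
/-- **local monotonicity on `M`**, with pointwise bounds. -/
theorem mono_NB (hML : ML) {M : Type*} [MetricSpace M] [CompactSpace M]
    [ChartedSpace E4 M] [IsManifold 𝓘(ℝ, E4) ∞ M] [MeasurableSpace M] [BorelSpace M]
    (hBL : Met.BiLip E4 M) {J : EndF E4 M} (hJ : SmoothJ J)
    (hsq : ∀ x v, atJ J x (atJ J x v) = -v) {F : F2 E4 M} (hF : Smooth2 F) (hpos : SPosG J F)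
    (hVol : Vol F) {μ : Measure M} (hv : IsVol F μ) {A : ℝ} (hA : 1 ≤ A) :
    ∃ C r0 : ℝ, 0 < C ∧ 0 < r0 ∧ ∀ (t b : F2 E4 M) (P β β' : M → ℝ) (ε : ℝ), 0 < ε →
      Smooth2 t → Smooth2 b → Closed2 (t + b) → Continuous P → (∀ x, 0 ≤ P x) →
      (∀ x, 0 ≤ β x) → (∀ x, 0 ≤ β' x) → Integrable P μ → Integrable (fun x => β x ^ 2) μ →
      Integrable (fun x => β' x ^ 2) μ → NB J F t (fun x => A * P x) →
      NB J F (bpp J t) (fun x => A * ε * P x) →
      (∀ x v, -(A * ε ^ 2 * P x) * at2 F x v (atJ J x v) ≤ at2 t x v (atJ J x v)) →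
      (∀ x, P x ≤ A * qG F t F x) → NB J F b β → NB J F (bp J b) β' →
      ∀ x r, ε ≤ r → r ≤ r0 → ∫ z in ball x r, P z ∂μ ≤
        C * r ^ 2 * (∫ z, P z ∂μ + √(∫ z, β z ^ 2 ∂μ) + √(∫ z, β' z ^ 2 ∂μ) / r) := by
  rcases isEmpty_or_nonempty M with hM | hM
  · exact ⟨1, 1, one_pos, one_pos, fun _ _ _ _ _ _ _ _ _ _ _ _ _ _ _ _ _ _ _ _ _ _ _ x =>
      (hM.false x).elim⟩
  obtain ⟨S⟩ := Rnd.exists M
  obtain ⟨c0, C0, hCon⟩ := S.exists_const (fun p => repJ p J) (fun p => rep p F) hJ hF.2 (by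
      intro p y hy v hv0
      have h := SPos.pullTT J hy (hpos ((chartAt E4 p).symm y))
      rw [← rep_pull] at h
      exact h.pos v hv0) (fun p y hy => hVol.rep_ne hy)
  obtain ⟨c, δ, hc, hc1, hδ, hball⟩ := S.exists_ball hBL
  obtain ⟨CL, hCL0, hCL⟩ := hML c0 C0 A S.R hCon.c0pos S.Rpos
  have hR := S.Rpos
  have hc0 := hCon.c0pos
  have hC0 := hCon.C0pos
  set C1 : ℝ := A * C0 ^ 2 + 1 with hC1
  have hC1pos : 0 < C1 := by positivity
  set C2 : ℝ := C1 / c0 + √(C0 ^ 4 / c0) with hC2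
  have hC2pos : 0 < C2 := by positivity
  refine ⟨A * (CL / c ^ 2 * C2) + 1, min δ (c * S.R / 2), by positivity, by positivity, ?_⟩
  intro t b P β β' ε hε ht hb hcl hPc hP0 hβ0 hβ'0 hPi hβi hβ'i ht1 ht2 ht3 ht4 hb1 hb2 x r hεr hr
  obtain ⟨p, hp, hxs, hxb⟩ := S.cov x
  set y0 : E4 := chartAt E4 p x with hy0
  have hKt := S.K_sub hp
  have hBK : closedBall y0 S.R ⊆ S.K p := S.ball_sub hp hxb
  have hbK : ball y0 S.R ⊆ S.K p := ball_subset_closedBall.trans hBK
  have hbt : ball y0 S.R ⊆ (chartAt E4 p).target := hbK.trans hKt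
  have hr0 : 0 < r := hε.trans_le hεr
  set r' : ℝ := r / c with hr'
  have hr'0 : 0 < r' := by positivity
  have hrr' : r ≤ r' := by
    rw [hr', le_div_iff₀ hc]
    nlinarith
  have hr'R : r' ≤ S.R / 2 := by
    rw [hr', div_le_iff₀ hc]
    have := hr.trans (min_le_right _ _)
    linarith
  have hbr' : ball y0 r' ⊆ ball y0 S.R := ball_subset_ball (by linarith)
  -- geometry
  have hpos' : ∀ y ∈ (chartAt E4 p).target, SPos (repJ p J y) (rep p F y) := by
    intro y hy
    rw [rep_pull]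
    exact SPos.pullTT J hy (hpos _)
  have cJ : ContinuousOn (repJ p J) (S.K p) := (hJ p).continuousOn.mono hKt
  have cF : ContinuousOn (rep p F) (S.K p) := (hF.2 p).continuousOn.mono hKt
  have ct : ContinuousOn (rep p t) (S.K p) := (ht.2 p).continuousOn.mono hKt
  have cb : ContinuousOn (rep p b) (S.K p) := (hb.2 p).continuousOn.mono hKt
  have cP : ContinuousOn (fun y => P ((chartAt E4 p).symm y)) (S.K p) :=
    hPc.comp_continuousOn ((chartAt E4 p).continuousOn_symm.mono hKt)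
  have hGeo : Mono.Geo y0 S.R c0 C0 (repJ p J) (rep p F) :=
    { contJ := cJ.mono hbK
      contF := cF.mono hbK
      sq := fun y hy v => repJ_sq hsq (hbt hy) v
      spos := fun y hy => hpos' y (hbt hy)
      low := fun y hy v => hCon.low p hp y (hbK hy) v
      bdF := fun y hy => hCon.Fb p hp y (hbK hy)
      bdJ := fun y hy => hCon.Jb p hp y (hbK hy)
      lip := fun y hy => hCon.Jl p hp y (hbK hy) y0 (hBK (mem_closedBall_self hR.le)) }
  obtain ⟨s, hs1, hs2⟩ := exists_sign (y0 := y0) hR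
    (g := fun y => W (rep p F y) (rep p F y)) (continuousOn_W (cF.mono hbK) (cF.mono hbK))
    (fun y hy => hVol.rep_ne (hbt hy))
  have hsabs : ∀ y ∈ ball y0 S.R, |W (rep p F y) (rep p F y)| = s * W (rep p F y) (rep p F y) := by
    intro y hy
    have h1 := hs2 y hy
    rcases hs1 with rfl | rfl
    · rw [one_mul] at h1 ⊢
      exact abs_of_pos h1
    · rw [neg_one_mul] at h1 ⊢
      exact abs_of_neg (by linarith)
  have halt_t : ∀ z, Alt (at2 t z) := fun z v => ht.1 z v
  have halt_b : ∀ z, Alt (at2 b z) := fun z v => hb.1 z v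
  have harep_t : ∀ y, Alt (rep p t y) := fun y => rep_alt halt_t p y
  have harep_b : ∀ y, Alt (rep p b y) := fun y => rep_alt halt_b p y
  -- pointwise bounds in the chart
  have ploc0 : ∀ y, 0 ≤ C1 * P ((chartAt E4 p).symm y) := fun y => mul_nonneg hC1pos.le (hP0 _)
  have hC12 : A * C0 ^ 2 ≤ C1 := by rw [hC1]; linarith
  have hA0 : 0 < A := by linarith
  have n1 : ∀ y ∈ ball y0 S.R, ‖rep p t y‖ ≤ C1 * P ((chartAt E4 p).symm y) := by
    intro y hy
    rw [rep_pull]
    refine (norm_pull_le' (hbt hy) (hCon.Fb p hp y (hbK hy)) (hCon.Jb p hp y (hbK hy))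
      (mul_nonneg hA0.le (hP0 _)) (ht1 _)).trans ?_
    calc C0 ^ 2 * (A * P ((chartAt E4 p).symm y)) = A * C0 ^ 2 * P ((chartAt E4 p).symm y) := by
          ring
      _ ≤ C1 * P ((chartAt E4 p).symm y) := mul_le_mul_of_nonneg_right hC12 (hP0 _)
  have n2 : ∀ y ∈ ball y0 S.R, ‖antip (repJ p J y) (rep p t y)‖ ≤
      A * ε * (C1 * P ((chartAt E4 p).symm y)) := by
    intro y hy
    rw [antip_rep J t (hbt hy)]
    refine (norm_pull_le' (hbt hy) (hCon.Fb p hp y (hbK hy)) (hCon.Jb p hp y (hbK hy))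
      (mul_nonneg (mul_nonneg hA0.le hε.le) (hP0 _)) (ht2 _)).trans ?_
    have h1 : C0 ^ 2 ≤ C1 := by
      rw [hC1]
      nlinarith [sq_nonneg C0]
    calc C0 ^ 2 * (A * ε * P ((chartAt E4 p).symm y))
        ≤ C1 * (A * ε * P ((chartAt E4 p).symm y)) :=
          mul_le_mul_of_nonneg_right h1 (mul_nonneg (mul_nonneg hA0.le hε.le) (hP0 _))
      _ = A * ε * (C1 * P ((chartAt E4 p).symm y)) := by ring
  have n3 : ∀ y ∈ ball y0 S.R, Pos (repJ p J y) (invp (repJ p J y) (rep p t y) +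
      (A * ε ^ 2 * (C1 * P ((chartAt E4 p).symm y))) • rep p F y) := by
    intro y hy
    have hJy : ∀ v, repJ p J y (repJ p J y v) = -v := repJ_sq hsq (hbt hy)
    have hFy := hpos' y (hbt hy)
    refine ⟨Alt.add ((harep_t y).invp _) (hFy.alt.smul _), fun u v => ?_, fun v => ?_⟩
    · have e1 : ∀ u v, (invp (repJ p J y) (rep p t y) +
        (A * ε ^ 2 * (C1 * P ((chartAt E4 p).symm y))) • rep p F y) u v =
          invp (repJ p J y) (rep p t y) u v +
          (A * ε ^ 2 * (C1 * P ((chartAt E4 p).symm y))) * rep p F y u v := fun _ _ => rfl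
      rw [e1, e1, invp_inv hJy, hFy.inv]
    · have e1 : (invp (repJ p J y) (rep p t y) +
        (A * ε ^ 2 * (C1 * P ((chartAt E4 p).symm y))) • rep p F y) v (repJ p J y v) =
          invp (repJ p J y) (rep p t y) v (repJ p J y v) +
          (A * ε ^ 2 * (C1 * P ((chartAt E4 p).symm y))) * rep p F y v (repJ p J y v) := rfl
      rw [e1, invp_diag hJy (harep_t y)]
      have e2 := ht3 ((chartAt E4 p).symm y) (TT p y v)
      rw [J_TT J (hbt hy)] at e2
      have e3 : ∀ a : F2 E4 M, at2 a ((chartAt E4 p).symm y) (TT p y v)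
          (TT p y (repJ p J y v)) = rep p a y v (repJ p J y v) := fun a => by
        rw [rep_pull, pull_apply]
      rw [e3, e3] at e2
      have e4 : 0 ≤ rep p F y v (repJ p J y v) := by
        rcases eq_or_ne v 0 with rfl | hv0
        · simp
        · exact (hFy.pos v hv0).le
      have e5 : A * ε ^ 2 * P ((chartAt E4 p).symm y) ≤
          A * ε ^ 2 * (C1 * P ((chartAt E4 p).symm y)) := by
        have h1 : 1 ≤ C1 := by rw [hC1]; nlinarith [sq_nonneg C0]
        have h2 : P ((chartAt E4 p).symm y) ≤ C1 * P ((chartAt E4 p).symm y) := by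
          have := mul_le_mul_of_nonneg_right h1 (hP0 ((chartAt E4 p).symm y))
          linarith
        exact mul_le_mul_of_nonneg_left h2 (by positivity)
      have e6 := mul_le_mul_of_nonneg_right e5 e4
      linarith
  -- integrability
  have hcomp : IsCompact (closedBall y0 S.R) := isCompact_closedBall _ _
  have int_of_cont : ∀ {g : E4 → ℝ}, ContinuousOn g (S.K p) → IntegrableOn g (ball y0 S.R) := by
    intro g hg
    exact ((hg.mono hBK).integrableOn_compact hcomp).mono_set ball_subset_closedBall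
  have i1 : IntegrableOn (fun y => C1 * P ((chartAt E4 p).symm y)) (ball y0 S.R) :=
    int_of_cont (continuousOn_const.mul cP)
  have i2 : IntegrableOn (fun y => ‖rep p b y‖ ^ 2) (ball y0 S.R) :=
    int_of_cont (cb.norm.pow 2)
  have cpull : ∀ {a : F2 E4 M}, ContinuousOn (rep p a) (S.K p) →
      ContinuousOn (fun y => invp (repJ p J y) (rep p a y)) (S.K p) := by
    intro a ca
    have h1 : ContinuousOn (fun y => pull (repJ p J y) (rep p a y)) (S.K p) := by
      unfold pull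
      have h2 : ContinuousOn (fun y => (ContinuousLinearMap.compL ℝ E4 E4 ℝ).flip (repJ p J y))
          (S.K p) := (ContinuousLinearMap.continuous _).comp_continuousOn cJ
      exact h2.clm_comp (ca.clm_comp cJ)
    have h3 : ContinuousOn (fun y => rep p a y + pull (repJ p J y) (rep p a y)) (S.K p) :=
      ca.add h1
    have h4 : Continuous fun b : Bil => (1 / 2 : ℝ) • b := continuous_const_smul _
    exact h4.comp_continuousOn h3
  have i3 : IntegrableOn (fun y => ‖invp (repJ p J y) (rep p b y)‖ ^ 2) (ball y0 S.R) :=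
    int_of_cont ((cpull cb).norm.pow 2)
  have cG : ContinuousOn (fun y => s * W (invp (repJ p J y) (rep p t y) +
      (A * ε ^ 2 * (C1 * P ((chartAt E4 p).symm y))) • rep p F y) (rep p F y)) (S.K p) := by
    have h1 : ContinuousOn (fun y => (A * ε ^ 2 * (C1 * P ((chartAt E4 p).symm y)))) (S.K p) :=
      continuousOn_const.mul (continuousOn_const.mul cP)
    have h2 : ContinuousOn (fun y => (A * ε ^ 2 * (C1 * P ((chartAt E4 p).symm y))) • rep p F y)
      (S.K p) := h1.smul cF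
    exact continuousOn_const.mul (continuousOn_W ((cpull ct).add h2) cF)
  -- apply the local statement
  have hloc := hCL y0 (repJ p J) (rep p F) s (rep p t) (rep p b)
    (fun y => C1 * P ((chartAt E4 p).symm y)) ε r' hGeo hs1 hs2
    ((((ht.2 p).add (hb.2 p)).mono hbt).of_le (by simp))
    (fun y hy => by
      have h1 := cl_of_closed (ht.add hb) hcl (hbt hy)
      have h2 : rep p (t + b) = fun y => rep p t y + rep p b y := funext (rep_add p t b)
      rwa [h2] at h1)
    (cb.mono hbK) (fun y _ => harep_t y) (fun y _ => harep_b y) i1 i2 n1 n2 n3 hε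
    (hεr.trans hrr') hr'R
  -- the left-hand side
  have hL : ∫ z in ball x r, P z ∂μ ≤ ∫ y in ball y0 r',
      A * (s * W (invp (repJ p J y) (rep p t y) +
      (A * ε ^ 2 * (C1 * P ((chartAt E4 p).symm y))) • rep p F y) (rep p F y)) := by
    have hpt : ∀ y ∈ ball y0 r', P ((chartAt E4 p).symm y) * |W (rep p F y) (rep p F y)| ≤
        A * (s * W (invp (repJ p J y) (rep p t y) +
      (A * ε ^ 2 * (C1 * P ((chartAt E4 p).symm y))) • rep p F y) (rep p F y)) := by
      intro y hy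
      have hyR := hbr' hy
      rw [hsabs y hyR]
      have h1 := W_rep_eq hVol halt_t (hbt hyR)
      have h2 := W_lower (repJ_sq hsq (hbt hyR)) (hpos' y (hbt hyR)) (harep_t y) (hs2 y hyR)
        (lam := A * ε ^ 2 * (C1 * P ((chartAt E4 p).symm y)))
        (mul_nonneg (by positivity) (ploc0 y))
      have h3 := mul_le_mul_of_nonneg_right (ht4 ((chartAt E4 p).symm y)) (hs2 y hyR).le
      rw [h1] at h2
      have h4 := mul_le_mul_of_nonneg_left h2 hA0.le
      calc _ ≤ _ := h3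
        _ = A * (s * (qG F t F ((chartAt E4 p).symm y) * W (rep p F y) (rep p F y))) := by ring
        _ ≤ _ := h4
    refine integral_le_chart hv measurableSet_ball measurableSet_ball (hbr'.trans hbt)
      (fun z hz => (hball p hp x hxs hxb r (hr.trans (min_le_left _ _)) z hz).1)
      (fun z hz => (hball p hp x hxs hxb r (hr.trans (min_le_left _ _)) z hz).2)
      hPc.measurable hPi hP0 ?_ ?_ hpt
    · exact (int_of_cont (continuousOn_const.mul cG)).mono_set hbr'
    · intro y hy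
      exact (mul_nonneg (hP0 _) (abs_nonneg _)).trans (hpt y hy)
  rw [integral_const_mul] at hL
  -- the right-hand side
  have hd : ∀ y ∈ ball y0 S.R, c0 ≤ |W (rep p F y) (rep p F y)| := fun y hy =>
    hCon.Wl p hp y (hbK hy)
  have u1 : ∫ y in ball y0 S.R, C1 * P ((chartAt E4 p).symm y) ≤ C1 / c0 * ∫ z, P z ∂μ := by
    have h1 := integral_chart_le hv measurableSet_ball hbt hc0 hd i1 (fun y _ => ploc0 y)
      (G := fun x => C1 * P x) (hPi.const_mul C1) (fun x => mul_nonneg hC1pos.le (hP0 x))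
      (fun y _ => le_rfl)
    refine h1.trans (le_of_eq ?_)
    rw [integral_const_mul]
    ring
  have gen : ∀ {g : E4 → ℝ} {γ : M → ℝ}, IntegrableOn (fun y => g y ^ 2) (ball y0 S.R) →
      (∀ y, 0 ≤ g y) → Integrable (fun x => γ x ^ 2) μ → (∀ x, 0 ≤ γ x) →
      (∀ y ∈ ball y0 S.R, g y ≤ C0 ^ 2 * γ ((chartAt E4 p).symm y)) →
      √(∫ y in ball y0 S.R, g y ^ 2) ≤ √(C0 ^ 4 / c0) * √(∫ z, γ z ^ 2 ∂μ) := by
    intro g γ hg hg0 hγ hγ0 hgγ
    have h1 := integral_chart_le hv measurableSet_ball hbt hc0 hd hg (fun y _ => sq_nonneg _)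
      (G := fun x => C0 ^ 4 * γ x ^ 2) (hγ.const_mul _) (fun x => by positivity)
      (fun y hy => by
        have h2 := hgγ y hy
        calc g y ^ 2 ≤ (C0 ^ 2 * γ ((chartAt E4 p).symm y)) ^ 2 := by
              gcongr
              exact hg0 y
          _ = C0 ^ 4 * γ ((chartAt E4 p).symm y) ^ 2 := by ring)
    rw [← Real.sqrt_mul (by positivity)]
    refine Real.sqrt_le_sqrt (h1.trans (le_of_eq ?_))
    rw [integral_const_mul]
    ring
  have u2 := gen (g := fun y => ‖rep p b y‖) i2 (fun y => norm_nonneg (rep p b y)) hβi hβ0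
    (fun y hy => by
      rw [rep_pull]
      exact norm_pull_le' (hbt hy) (hCon.Fb p hp y (hbK hy)) (hCon.Jb p hp y (hbK hy))
        (hβ0 _) (hb1 _))
  have u3 := gen (g := fun y => ‖invp (repJ p J y) (rep p b y)‖) i3
    (fun y => norm_nonneg (invp (repJ p J y) (rep p b y))) hβ'i hβ'0
    (fun y hy => by
      rw [invp_rep J b (hbt hy)]
      exact norm_pull_le' (hbt hy) (hCon.Fb p hp y (hbK hy)) (hCon.Jb p hp y (hbK hy))
        (hβ'0 _) (hb2 _))
  have hq1 : C1 / c0 ≤ C2 := by rw [hC2]; linarith [Real.sqrt_nonneg (C0 ^ 4 / c0)]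
  have hq2 : √(C0 ^ 4 / c0) ≤ C2 := by rw [hC2]; have : 0 < C1 / c0 := by positivity
                                       linarith
  have hIP : 0 ≤ ∫ z, P z ∂μ := integral_nonneg hP0
  have v1 := u1.trans (mul_le_mul_of_nonneg_right hq1 hIP)
  have v2 := u2.trans (mul_le_mul_of_nonneg_right hq2 (Real.sqrt_nonneg _))
  have v3 := u3.trans (mul_le_mul_of_nonneg_right hq2 (Real.sqrt_nonneg _))
  have v4 : √(∫ y in ball y0 S.R, ‖invp (repJ p J y) (rep p b y)‖ ^ 2) / r' ≤
      C2 * √(∫ z, β' z ^ 2 ∂μ) / r := by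
    have : 0 ≤ C2 * √(∫ z, β' z ^ 2 ∂μ) := mul_nonneg hC2pos.le (Real.sqrt_nonneg _)
    exact div_le_div₀ this v3 hr0 hrr'
  have hsum : CL * r' ^ 2 * ((∫ y in ball y0 S.R, C1 * P ((chartAt E4 p).symm y))
        + √(∫ y in ball y0 S.R, ‖rep p b y‖ ^ 2)
        + √(∫ y in ball y0 S.R, ‖invp (repJ p J y) (rep p b y)‖ ^ 2) / r') ≤
      CL * r' ^ 2 * (C2 * (∫ z, P z ∂μ + √(∫ z, β z ^ 2 ∂μ) + √(∫ z, β' z ^ 2 ∂μ) / r)) := by
    apply mul_le_mul_of_nonneg_left _ (by positivity)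
    have : C2 * (∫ z, P z ∂μ + √(∫ z, β z ^ 2 ∂μ) + √(∫ z, β' z ^ 2 ∂μ) / r) =
      C2 * ∫ z, P z ∂μ + C2 * √(∫ z, β z ^ 2 ∂μ) + C2 * √(∫ z, β' z ^ 2 ∂μ) / r := by ring
    rw [this]
    exact add_le_add (add_le_add v1 v2) v4
  have hfin : ∫ z in ball x r, P z ∂μ ≤ A * (CL * r' ^ 2 * (C2 * (∫ z, P z ∂μ +
      √(∫ z, β z ^ 2 ∂μ) + √(∫ z, β' z ^ 2 ∂μ) / r))) :=
    hL.trans (mul_le_mul_of_nonneg_left (hloc.trans hsum) hA0.le)
  refine hfin.trans ?_
  have hX : 0 ≤ ∫ z, P z ∂μ + √(∫ z, β z ^ 2 ∂μ) + √(∫ z, β' z ^ 2 ∂μ) / r := by positivity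
  have : A * (CL * r' ^ 2 * (C2 * (∫ z, P z ∂μ +
      √(∫ z, β z ^ 2 ∂μ) + √(∫ z, β' z ^ 2 ∂μ) / r))) = A * (CL / c ^ 2 * C2) * r ^ 2 *
      (∫ z, P z ∂μ + √(∫ z, β z ^ 2 ∂μ) + √(∫ z, β' z ^ 2 ∂μ) / r) := by
    rw [hr']
    field_simp
  rw [this]
  gcongr
  linarith

end

end Crest.Agent.R240.MonoM
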