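import Crest.Agent.R240.Lin4
import Crest.Agent.R240.MonoDefs

/-!
Row 240 (S0371), MONO local, pointwise part (helper615): `theorem pw : PW`.
-/

set_option autoImplicit false

namespace Crest.Agent.R240.Mono

open Crest.Agent.R240 Crest.Agent.R240.En

noncomputable section

theorem bil_add_apply (a b : Bil) (u v : E4) : (a + b) u v = a u v + b u v := rfl
theorem bil_smul_apply (r : ℝ) (b : Bil) (u v : E4) : (r • b) u v = r * b u v := rfl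



theorem one_le_of_sq {J : E4 →L[ℝ] E4} {L : ℝ} (hJ : ∀ v, J (J v) = -v) (h : ‖J‖ ≤ L) : 1 ≤ L := by
  have h1 : ‖J (J (ee 0))‖ ≤ ‖J‖ * (‖J‖ * ‖ee 0‖) :=
    (J.le_opNorm _).trans (mul_le_mul_of_nonneg_left (J.le_opNorm _) (norm_nonneg _))
  rw [hJ, norm_neg, norm_ee, mul_one] at h1
  have h3 := norm_nonneg J
  nlinarith

theorem abs_apply_le (b : Bil) (u v : E4) : |b u v| ≤ ‖b‖ * ‖u‖ * ‖v‖ := b.le_opNorm₂ u v

theorem bil_norm_le {b : Bil} {C : ℝ} (hC : 0 ≤ C) (h : ∀ u v, |b u v| ≤ C * ‖u‖ * ‖v‖) :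
    ‖b‖ ≤ C := ContinuousLinearMap.opNorm_le_bound₂ _ hC h

theorem apply_J_le {J : E4 →L[ℝ] E4} {L : ℝ} (h : ‖J‖ ≤ L) (v : E4) : ‖J v‖ ≤ L * ‖v‖ :=
  (J.le_opNorm v).trans (mul_le_mul_of_nonneg_right h (norm_nonneg v))

theorem norm_invp_le' {J : E4 →L[ℝ] E4} {L : ℝ} (h1 : 1 ≤ L) (hJ : ‖J‖ ≤ L) (b : Bil) :
    ‖invp J b‖ ≤ L ^ 2 * ‖b‖ := by
  refine bil_norm_le (by positivity) ?_
  intro u v
  rw [invp_apply]
  have e1 := abs_apply_le b u v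
  have e2 := abs_apply_le b (J u) (J v)
  have e3 : ‖b‖ * ‖J u‖ * ‖J v‖ ≤ ‖b‖ * (L * ‖u‖) * (L * ‖v‖) := by
    gcongr
    · exact apply_J_le hJ u
    · exact apply_J_le hJ v
  have e4 : ‖b‖ * ‖u‖ * ‖v‖ ≤ L ^ 2 * (‖b‖ * ‖u‖ * ‖v‖) := by
    have : (1 : ℝ) ≤ L ^ 2 := by nlinarith
    exact le_mul_of_one_le_left (by positivity) this
  rw [abs_le] at e1 e2 ⊢
  have e5 : ‖b‖ * (L * ‖u‖) * (L * ‖v‖) = L ^ 2 * (‖b‖ * ‖u‖ * ‖v‖) := by ring
  rw [e5] at e3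
  have e6 : L ^ 2 * ‖b‖ * ‖u‖ * ‖v‖ = L ^ 2 * (‖b‖ * ‖u‖ * ‖v‖) := by ring
  rw [e6]
  constructor <;> linarith [e1.1, e1.2, e2.1, e2.2]

theorem norm_antip_le' {J : E4 →L[ℝ] E4} {L : ℝ} (h1 : 1 ≤ L) (hJ : ‖J‖ ≤ L) (b : Bil) :
    ‖antip J b‖ ≤ L ^ 2 * ‖b‖ := by
  refine bil_norm_le (by positivity) ?_
  intro u v
  rw [antip_apply]
  have e1 := abs_apply_le b u v
  have e2 := abs_apply_le b (J u) (J v)
  have e3 : ‖b‖ * ‖J u‖ * ‖J v‖ ≤ ‖b‖ * (L * ‖u‖) * (L * ‖v‖) := by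
    gcongr
    · exact apply_J_le hJ u
    · exact apply_J_le hJ v
  have e4 : ‖b‖ * ‖u‖ * ‖v‖ ≤ L ^ 2 * (‖b‖ * ‖u‖ * ‖v‖) := by
    have : (1 : ℝ) ≤ L ^ 2 := by nlinarith
    exact le_mul_of_one_le_left (by positivity) this
  rw [abs_le] at e1 e2 ⊢
  have e5 : ‖b‖ * (L * ‖u‖) * (L * ‖v‖) = L ^ 2 * (‖b‖ * ‖u‖ * ‖v‖) := by ring
  rw [e5] at e3
  have e6 : L ^ 2 * ‖b‖ * ‖u‖ * ‖v‖ = L ^ 2 * (‖b‖ * ‖u‖ * ‖v‖) := by ring
  rw [e6]
  constructor <;> linarith [e1.1, e1.2, e2.1, e2.2]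

/-- anti-invariant part w.r.t. `J1` of a `J0`-invariant form. -/
theorem norm_antip_of_inv {J0 J1 : E4 →L[ℝ] E4} {L d : ℝ} (h0 : ‖J0‖ ≤ L) (h1 : ‖J1‖ ≤ L)
    (hd : ‖J1 - J0‖ ≤ d) {X : Bil} (hX : ∀ u v, X (J0 u) (J0 v) = X u v) :
    ‖antip J1 X‖ ≤ L * d * ‖X‖ := by
  have hL : 0 ≤ L := (norm_nonneg _).trans h0
  have hd0 : 0 ≤ d := (norm_nonneg _).trans hd
  refine bil_norm_le (by positivity) ?_
  intro u v
  rw [antip_apply, ← hX u v]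
  have e0 : X (J0 u) (J0 v) - X (J1 u) (J1 v)
      = - X ((J1 - J0) u) (J0 v) - X (J1 u) ((J1 - J0) v) := by
    simp only [sub_apply, map_sub]; ring
  rw [e0]
  have e1 := abs_apply_le X ((J1 - J0) u) (J0 v)
  have e2 := abs_apply_le X (J1 u) ((J1 - J0) v)
  have e3 : ‖X‖ * ‖(J1 - J0) u‖ * ‖J0 v‖ ≤ ‖X‖ * (d * ‖u‖) * (L * ‖v‖) := by
    gcongr
    · exact apply_J_le hd u
    · exact apply_J_le h0 v
  have e4 : ‖X‖ * ‖J1 u‖ * ‖(J1 - J0) v‖ ≤ ‖X‖ * (L * ‖u‖) * (d * ‖v‖) := by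
    gcongr
    · exact apply_J_le h1 u
    · exact apply_J_le hd v
  have e5 : ‖X‖ * (d * ‖u‖) * (L * ‖v‖) = L * d * ‖X‖ * ‖u‖ * ‖v‖ := by ring
  have e6 : ‖X‖ * (L * ‖u‖) * (d * ‖v‖) = L * d * ‖X‖ * ‖u‖ * ‖v‖ := by ring
  rw [e5] at e3
  rw [e6] at e4
  rw [abs_le] at e1 e2 ⊢
  constructor <;> linarith [e1.1, e1.2, e2.1, e2.2]

theorem norm_wed_le' (ξ η : E4 →L[ℝ] ℝ) : ‖wed ξ η‖ ≤ 2 * ‖ξ‖ * ‖η‖ := by
  refine bil_norm_le (by positivity) ?_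
  intro u v
  rw [wed_apply]
  have a1 : |ξ u| ≤ ‖ξ‖ * ‖u‖ := ξ.le_opNorm u
  have a2 : |η v| ≤ ‖η‖ * ‖v‖ := η.le_opNorm v
  have a3 : |η u| ≤ ‖η‖ * ‖u‖ := η.le_opNorm u
  have a4 : |ξ v| ≤ ‖ξ‖ * ‖v‖ := ξ.le_opNorm v
  have b1 : |ξ u * η v| ≤ (‖ξ‖ * ‖u‖) * (‖η‖ * ‖v‖) := by
    rw [abs_mul]; exact mul_le_mul a1 a2 (abs_nonneg _) (by positivity)
  have b2 : |η u * ξ v| ≤ (‖η‖ * ‖u‖) * (‖ξ‖ * ‖v‖) := by
    rw [abs_mul]; exact mul_le_mul a3 a4 (abs_nonneg _) (by positivity)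
  have := abs_sub (ξ u * η v) (η u * ξ v)
  nlinarith

theorem W_abs_le' (b c : Bil) : |W b c| ≤ 6 * (‖b‖ * ‖c‖) := by
  have h : ∀ i j k l, |ent b i j * ent c k l| ≤ ‖b‖ * ‖c‖ := by
    intro i j k l
    rw [abs_mul]
    exact mul_le_mul (abs_ent_le b i j) (abs_ent_le c k l) (abs_nonneg _)
      (ContinuousLinearMap.opNorm_nonneg b)
  have h1 := abs_le.1 (h 0 1 2 3)
  have h2 := abs_le.1 (h 0 2 1 3)
  have h3 := abs_le.1 (h 0 3 1 2)
  have h4 := abs_le.1 (h 1 2 0 3)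
  have h5 := abs_le.1 (h 1 3 0 2)
  have h6 := abs_le.1 (h 2 3 0 1)
  unfold W
  rw [abs_le]
  constructor
  · linarith [h1.1, h2.2, h3.1, h4.1, h5.2, h6.1]
  · linarith [h1.2, h2.1, h3.2, h4.2, h5.1, h6.2]

/-! ### signed pairing -/

section signed

variable {J : E4 →L[ℝ] E4} {F : Bil} {s : ℝ}

theorem sW_eq (h : 0 < s * W F F) (b c : Bil) : s * W b c = (s * W F F) * q F b c := by
  have hne : W F F ≠ 0 := by
    intro h0; rw [h0, mul_zero] at h; exact lt_irrefl _ h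
  unfold q
  field_simp

theorem sW_pos (hJ : ∀ v, J (J v) = -v) (hF : SPos J F) (h : 0 < s * W F F) {P R : Bil}
    (hP : Pos J P) (hR : Pos J R) : 0 ≤ s * W P R := by
  obtain ⟨A, hA⟩ := exists_frame hJ hF
  rw [sW_eq h]
  refine mul_nonneg h.le ?_
  rw [hA.q_eq hF.alt hP.alt hR.alt, W_inv0 (hA.pull_inv hP.inv) (hA.pull_inv hR.inv)]
  have hpos : ∀ {P : Bil}, Pos J P → ∀ v, 0 ≤ pull (A : E4 →L[ℝ] E4) P v (J0 v) := by
    intro P hP v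
    rw [pull_apply]
    simp only [ContinuousLinearEquiv.coe_coe]
    rw [← hA.cplx]; exact hP.nonneg _
  obtain ⟨a1, a2, a3⟩ := pos0_ent (hP.alt.pull _) (hA.pull_inv hP.inv) (hpos hP)
  obtain ⟨b1, b2, b3⟩ := pos0_ent (hR.alt.pull _) (hA.pull_inv hR.inv) (hpos hR)
  generalize ent (pull (A : E4 →L[ℝ] E4) P) 0 1 = a at *
  generalize ent (pull (A : E4 →L[ℝ] E4) P) 2 3 = d at *
  generalize ent (pull (A : E4 →L[ℝ] E4) P) 0 2 = c at *
  generalize ent (pull (A : E4 →L[ℝ] E4) P) 0 3 = e at *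
  generalize ent (pull (A : E4 →L[ℝ] E4) R) 0 1 = a' at *
  generalize ent (pull (A : E4 →L[ℝ] E4) R) 2 3 = d' at *
  generalize ent (pull (A : E4 →L[ℝ] E4) R) 0 2 = c' at *
  generalize ent (pull (A : E4 →L[ℝ] E4) R) 0 3 = e' at *
  have k1 : (c * c' + e * e') ^ 2 ≤ (a * d) * (a' * d') := by
    have : (c * c' + e * e') ^ 2 ≤ (c ^ 2 + e ^ 2) * (c' ^ 2 + e' ^ 2) := by
      nlinarith [sq_nonneg (c * e' - e * c')]
    refine this.trans (mul_le_mul a3 b3 (by positivity) (by positivity))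
  have k2 : (2 * (c * c' + e * e')) ^ 2 ≤ (a * d' + d * a') ^ 2 := by
    nlinarith [sq_nonneg (a * d' - d * a')]
  have k3 : 2 * (c * c' + e * e') ≤ a * d' + d * a' := by
    have k4 : 0 ≤ a * d' + d * a' := by positivity
    exact le_of_abs_le (abs_le_of_sq_le_sq k2 k4)
  linarith

theorem W_mixed (hJ : ∀ v, J (J v) = -v) (hF : SPos J F) {b c : Bil} (hb : Alt b) (hc : Alt c)
    (hbi : ∀ u v, b (J u) (J v) = b u v) (hca : ∀ u v, c (J u) (J v) = - c u v) :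
    W b c = 0 := by
  obtain ⟨A, hA⟩ := exists_frame hJ hF
  have h1 := hA.q_eq hF.alt hb hc
  rw [W_mixed0 (hc.pull _) (hA.pull_inv hbi) (hA.pull_anti hca), zero_div] at h1
  unfold q at h1
  exact (div_eq_zero_iff.1 h1).resolve_right (hA.W_ne hF.alt)

theorem W_split (hJ : ∀ v, J (J v) = -v) (hF : SPos J F) {b c : Bil} (hb : Alt b) (hc : Alt c) :
    W b c = W (invp J b) (invp J c) + W (antip J b) (antip J c) := by
  have h1 : W (invp J b) (antip J c) = 0 :=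
    W_mixed hJ hF (hb.invp J) (hc.antip J) (invp_inv hJ b) (antip_anti hJ c)
  have h2 : W (antip J b) (invp J c) = 0 := by
    rw [W_comm]
    exact W_mixed hJ hF (hc.invp J) (hb.antip J) (invp_inv hJ c) (antip_anti hJ b)
  conv_lhs => rw [← invp_add_antip J b, ← invp_add_antip J c]
  rw [W_add_left, W_add_right, W_add_right, h1, h2]
  ring

end signed

/-! ### positivity is quadratic -/

/-- (Q): `X` nonnegative for `J0`, `w = (J1 - J0) v`. -/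
theorem posQ {J0 J1 : E4 →L[ℝ] E4} (hJ0 : ∀ v, J0 (J0 v) = -v) {X : Bil} (hX : Pos J0 X) (v : E4) :
    (1 / 2) * X v (J0 v) - (1 / 2) * X ((J1 - J0) v) (J0 ((J1 - J0) v)) ≤ X v (J1 v) := by
  set w := (J1 - J0) v with hw
  have e1 : J1 v = J0 v + w := by rw [hw, sub_apply]; abel
  rw [e1, map_add]
  have h1 := hX.nonneg (v - J0 w)
  have hs : ∀ a b : E4, X a (J0 b) = X b (J0 a) := fun a b => SPos.symm hJ0 hX.alt hX.inv a b
  have e2 : X (v - J0 w) (J0 (v - J0 w)) = X v (J0 v) + X w (J0 w) + 2 * X v w := by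
    simp only [map_sub, sub_apply, hJ0, map_neg]
    have a1 : X (J0 w) (J0 v) = X w v := hX.inv w v
    have a2 : X (J0 w) w = - X w (J0 w) := hX.alt.swap _ _
    have a3 : X w v = - X v w := hX.alt.swap _ _
    rw [a1, a2, a3]
    ring
  rw [e2] at h1
  linarith

/-- `thet` is nonnegative for `J0`. -/
theorem thet_pos {J0 : E4 →L[ℝ] E4} {F0 : Bil} (hJ : ∀ v, J0 (J0 v) = -v) (hF : SPos J0 F0)
    (z : E4) : Pos J0 (thet J0 F0 z) := by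
  have happ : ∀ u v, thet J0 F0 z u v = F0 z (J0 z) * F0 u v
      - (F0 z (J0 u) * F0 z v - F0 z u * F0 z (J0 v)) := fun u v => rfl
  refine ⟨?_, ?_, ?_⟩
  · intro v
    rw [happ, hF.alt v]; ring
  · intro u v
    rw [happ, happ, hF.inv, hJ, hJ, map_neg, map_neg]; ring
  · intro v
    rw [happ, hJ, map_neg]
    by_cases hz : z = 0
    · subst hz
      simp
    have hQ := hF.pos z hz
    set Q := F0 z (J0 z) with hQd
    set a := F0 z (J0 v) with ha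
    set b := F0 z v with hb
    set g := F0 v (J0 v) with hg
    have hPos : Pos J0 F0 := ⟨hF.alt, hF.inv, fun v => by
      by_cases hv : v = 0
      · subst hv; simp
      · exact (hF.pos v hv).le⟩
    have h1 := hPos.nonneg (Q • v - a • z - b • J0 z)
    have c1 : F0 v (J0 z) = a := SPos.symm hJ hF.alt hF.inv v z
    have c2 : F0 v z = - b := hF.alt.swap v z
    have c3 : F0 (J0 z) (J0 v) = b := hF.inv z v
    have c4 : F0 (J0 z) (J0 z) = 0 := hF.alt _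
    have c5 : F0 (J0 z) z = - Q := hF.alt.swap _ _
    have c6 : F0 z z = 0 := hF.alt z
    have e2 : F0 (Q • v - a • z - b • J0 z) (J0 (Q • v - a • z - b • J0 z))
        = Q * (Q * g - a ^ 2 - b ^ 2) := by
      simp only [map_sub, map_smul, sub_apply, smul_apply, smul_eq_mul, hJ, map_neg, smul_neg]
      rw [c1, c2, c3, c4, c5, c6]
      ring
    rw [e2] at h1
    have h2 : 0 ≤ Q * g - a ^ 2 - b ^ 2 := nonneg_of_mul_nonneg_right h1 hQ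
    nlinarith

theorem norm_thet_le {J0 : E4 →L[ℝ] E4} {F0 : Bil} {L : ℝ} (hL : 1 ≤ L) (hF : ‖F0‖ ≤ L)
    (hJ : ‖J0‖ ≤ L) (z : E4) : ‖thet J0 F0 z‖ ≤ 3 * L ^ 3 * ‖z‖ ^ 2 := by
  have hL0 : 0 ≤ L := by linarith
  have h1 : ‖F0 z‖ ≤ L * ‖z‖ := (F0.le_opNorm z).trans (mul_le_mul_of_nonneg_right hF (norm_nonneg _))
  have h2 : ‖(F0 z).comp J0‖ ≤ L * ‖z‖ * L :=
    ((F0 z).opNorm_comp_le J0).trans (mul_le_mul h1 hJ (norm_nonneg _) (by positivity))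
  have h3 := norm_wed_le' ((F0 z).comp J0) (F0 z)
  have h4 : 2 * ‖(F0 z).comp J0‖ * ‖F0 z‖ ≤ 2 * (L * ‖z‖ * L) * (L * ‖z‖) := by gcongr
  have h5 : |F0 z (J0 z)| ≤ L * ‖z‖ * (L * ‖z‖) := by
    refine (abs_apply_le F0 z (J0 z)).trans ?_
    gcongr
    exact apply_J_le hJ z
  refine bil_norm_le (by positivity) ?_
  intro u v
  have e1 : thet J0 F0 z u v = F0 z (J0 z) * F0 u v - wed ((F0 z).comp J0) (F0 z) u v := rfl
  rw [e1]
  have a1 : |F0 z (J0 z) * F0 u v| ≤ (L * ‖z‖ * (L * ‖z‖)) * (L * ‖u‖ * ‖v‖) := by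
    rw [abs_mul]
    refine mul_le_mul h5 ?_ (abs_nonneg _) (by positivity)
    refine (abs_apply_le F0 u v).trans ?_
    gcongr
  have a2 : |wed ((F0 z).comp J0) (F0 z) u v| ≤ (2 * (L * ‖z‖ * L) * (L * ‖z‖)) * ‖u‖ * ‖v‖ := by
    refine (abs_apply_le _ u v).trans ?_
    gcongr
    exact h3.trans h4
  refine (abs_sub _ _).trans ((add_le_add a1 a2).trans (le_of_eq ?_))
  ring

theorem spos_pos {J : E4 →L[ℝ] E4} {F : Bil} (hF : SPos J F) : Pos J F :=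
  ⟨hF.alt, hF.inv, fun v => by
    by_cases hv : v = 0
    · subst hv; simp
    · exact (hF.pos v hv).le⟩

/-- the numerical end of the argument. -/
theorem pw_num {μ E D r nz ε p bi ba A L β α KP S1 S2 S3 S4 T G : ℝ} (hμ : 0 < μ) (hE : E = nz ^ 2 + r ^ 2)
    (hD : μ * E ≤ D) (hr : 0 < r) (hz : 0 < nz) (hε : 0 < ε) (hεr : ε ≤ r) (hp : 0 ≤ p)
    (hL : 1 ≤ L) (hβ : 0 ≤ β) (hKP : 0 ≤ KP) (hG0 : 0 ≤ G) (hG : G ≤ KP * p) (hbi : 0 ≤ bi) (hba : 0 ≤ ba)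
    (h1 : (α * r ^ 2 - β * E * nz ^ 2) * G ≤ S1)
    (h2 : |S2| ≤ 18 * |A| * L ^ 6 * ε ^ 2 * p * E)
    (h3 : |S3| ≤ 18 * |A| * L ^ 5 * ε * p * nz * E)
    (h4 : |S4| ≤ 18 * L ^ 5 * bi * E + 18 * L ^ 7 * ba * nz * E)
    (hT : T = S1 - S2 + S3 + S4) :
    α * (r ^ 2 / D ^ 2) * G
      - ((β * KP + 18 * |A| * L ^ 6 + 18 * |A| * L ^ 5 + 18 * L ^ 5 + 18 * L ^ 7) / μ ^ 2) * p
      - ((β * KP + 18 * |A| * L ^ 6 + 18 * |A| * L ^ 5 + 18 * L ^ 5 + 18 * L ^ 7) / μ ^ 2) * bi / (r * nz)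
      - ((β * KP + 18 * |A| * L ^ 6 + 18 * |A| * L ^ 5 + 18 * L ^ 5 + 18 * L ^ 7) / μ ^ 2) * ba / nz
      ≤ (1 / D ^ 2) * T := by
  have hE0 : 0 < E := by rw [hE]; positivity
  have hD0 : 0 < D := lt_of_lt_of_le (by positivity) hD
  have hD2 : μ ^ 2 * E ^ 2 ≤ D ^ 2 := by
    have : (μ * E) ^ 2 ≤ D ^ 2 := pow_le_pow_left₀ (by positivity) hD 2
    rwa [mul_pow] at this
  have hnzE : nz ^ 2 ≤ E := by rw [hE]; nlinarith
  have hrE : r ^ 2 ≤ E := by rw [hE]; nlinarith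
  have hrnE : r * nz ≤ E := by rw [hE]; nlinarith [sq_nonneg (r - nz)]
  have hεE : ε ^ 2 ≤ E := (pow_le_pow_left₀ hε.le hεr 2).trans hrE
  have hεnE : ε * nz ≤ E := (mul_le_mul_of_nonneg_right hεr hz.le).trans hrnE
  have hA := abs_nonneg A
  have hL0 : 0 ≤ L := by linarith
  set KK := β * KP + 18 * |A| * L ^ 6 + 18 * |A| * L ^ 5 + 18 * L ^ 5 + 18 * L ^ 7 with hKK
  have hKK0 : 0 ≤ KK := by positivity
  -- it suffices to bound the bad part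
  have key : β * E * nz ^ 2 * G + 18 * |A| * L ^ 6 * ε ^ 2 * p * E + 18 * |A| * L ^ 5 * ε * p * nz * E
      + (18 * L ^ 5 * bi * E + 18 * L ^ 7 * ba * nz * E)
      ≤ KK * E ^ 2 * p + KK * E ^ 2 * (bi / (r * nz)) + KK * E ^ 2 * (ba / nz) := by
    have k1 : β * E * nz ^ 2 * G ≤ β * KP * E ^ 2 * p := by
      have : β * E * nz ^ 2 * G ≤ β * E * E * (KP * p) := by gcongr
      linarith [show β * E * E * (KP * p) = β * KP * E ^ 2 * p by ring]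
    have k2 : 18 * |A| * L ^ 6 * ε ^ 2 * p * E ≤ 18 * |A| * L ^ 6 * E ^ 2 * p := by
      have : 18 * |A| * L ^ 6 * ε ^ 2 * p * E ≤ 18 * |A| * L ^ 6 * E * p * E := by gcongr
      linarith [show 18 * |A| * L ^ 6 * E * p * E = 18 * |A| * L ^ 6 * E ^ 2 * p by ring]
    have k3 : 18 * |A| * L ^ 5 * ε * p * nz * E ≤ 18 * |A| * L ^ 5 * E ^ 2 * p := by
      have : 18 * |A| * L ^ 5 * p * E * (ε * nz) ≤ 18 * |A| * L ^ 5 * p * E * E := by gcongr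
      linarith [show 18 * |A| * L ^ 5 * p * E * E = 18 * |A| * L ^ 5 * E ^ 2 * p by ring,
        show 18 * |A| * L ^ 5 * ε * p * nz * E = 18 * |A| * L ^ 5 * p * E * (ε * nz) by ring]
    have k4 : 18 * L ^ 5 * bi * E ≤ 18 * L ^ 5 * E ^ 2 * (bi / (r * nz)) := by
      have e1 : bi * E ≤ E ^ 2 * (bi / (r * nz)) := by
        rw [mul_div_assoc', le_div_iff₀ (by positivity)]
        have : bi * E * (r * nz) ≤ bi * E * E := by gcongr
        linarith [show bi * E * E = E ^ 2 * bi by ring]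
      have : 18 * L ^ 5 * (bi * E) ≤ 18 * L ^ 5 * (E ^ 2 * (bi / (r * nz))) := by gcongr
      linarith
    have k5 : 18 * L ^ 7 * ba * nz * E ≤ 18 * L ^ 7 * E ^ 2 * (ba / nz) := by
      have e1 : ba * nz * E ≤ E ^ 2 * (ba / nz) := by
        rw [mul_div_assoc', le_div_iff₀ (by positivity)]
        have : ba * E * nz ^ 2 ≤ ba * E * E := by gcongr
        linarith [show ba * E * E = E ^ 2 * ba by ring, show ba * nz * E * nz = ba * E * nz ^ 2 by ring]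
      have : 18 * L ^ 7 * (ba * nz * E) ≤ 18 * L ^ 7 * (E ^ 2 * (ba / nz)) := by gcongr
      linarith
    have u1 : 0 ≤ E ^ 2 * p := by positivity
    have u2 : 0 ≤ E ^ 2 * (bi / (r * nz)) := by positivity
    have u3 : 0 ≤ E ^ 2 * (ba / nz) := by positivity
    have v1 : (β * KP + 18 * |A| * L ^ 6 + 18 * |A| * L ^ 5) * (E ^ 2 * p) ≤ KK * (E ^ 2 * p) := by
      apply mul_le_mul_of_nonneg_right _ u1
      rw [hKK]
      have : 0 ≤ 18 * L ^ 5 + 18 * L ^ 7 := by positivity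
      linarith
    have v2 : 18 * L ^ 5 * (E ^ 2 * (bi / (r * nz))) ≤ KK * (E ^ 2 * (bi / (r * nz))) := by
      apply mul_le_mul_of_nonneg_right _ u2
      rw [hKK]
      have : 0 ≤ β * KP + 18 * |A| * L ^ 6 + 18 * |A| * L ^ 5 + 18 * L ^ 7 := by positivity
      linarith
    have v3 : 18 * L ^ 7 * (E ^ 2 * (ba / nz)) ≤ KK * (E ^ 2 * (ba / nz)) := by
      apply mul_le_mul_of_nonneg_right _ u3
      rw [hKK]
      have : 0 ≤ β * KP + 18 * |A| * L ^ 6 + 18 * |A| * L ^ 5 + 18 * L ^ 5 := by positivity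
      linarith
    linarith
  have key2 : KK * E ^ 2 * p + KK * E ^ 2 * (bi / (r * nz)) + KK * E ^ 2 * (ba / nz)
      ≤ D ^ 2 * (KK / μ ^ 2 * p + KK / μ ^ 2 * bi / (r * nz) + KK / μ ^ 2 * ba / nz) := by
    have w : KK * E ^ 2 ≤ D ^ 2 * (KK / μ ^ 2) := by
      rw [mul_div_assoc', le_div_iff₀ (by positivity)]
      have : KK * (μ ^ 2 * E ^ 2) ≤ KK * D ^ 2 := by gcongr
      linarith
    have w2 : 0 ≤ p + bi / (r * nz) + ba / nz := by positivity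
    have w3 := mul_le_mul_of_nonneg_right w w2
    have w4 : D ^ 2 * (KK / μ ^ 2 * p + KK / μ ^ 2 * bi / (r * nz) + KK / μ ^ 2 * ba / nz)
      = D ^ 2 * (KK / μ ^ 2) * (p + bi / (r * nz) + ba / nz) := by ring
    rw [w4]
    linarith [show KK * E ^ 2 * p + KK * E ^ 2 * (bi / (r * nz)) + KK * E ^ 2 * (ba / nz)
      = KK * E ^ 2 * (p + bi / (r * nz) + ba / nz) by ring]
  have hS2 := (abs_le.1 h2).2
  have hS3 := (abs_le.1 h3).1
  have hS4 := (abs_le.1 h4).1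
  have fin1 : α * r ^ 2 * G - D ^ 2 * (KK / μ ^ 2 * p + KK / μ ^ 2 * bi / (r * nz) + KK / μ ^ 2 * ba / nz)
      ≤ T := by
    rw [hT]
    have : (α * r ^ 2 - β * E * nz ^ 2) * G = α * r ^ 2 * G - β * E * nz ^ 2 * G := by ring
    rw [this] at h1
    linarith
  have fin2 : (1 / D ^ 2) * (α * r ^ 2 * G
      - D ^ 2 * (KK / μ ^ 2 * p + KK / μ ^ 2 * bi / (r * nz) + KK / μ ^ 2 * ba / nz)) ≤ (1 / D ^ 2) * T :=
    mul_le_mul_of_nonneg_left fin1 (by positivity)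
  refine le_trans (le_of_eq ?_) fin2
  have hD2' : D ^ 2 ≠ 0 := by positivity
  field_simp
  ring

set_option maxHeartbeats 1600000 in
theorem pw : PW := by
  intro m L A R hm
  by_cases hL : 1 ≤ L
  swap
  · refine ⟨1, 0, one_pos, le_rfl, ?_⟩
    intro J0 J1 F0 F1 s z t b p ε r hJ0 hJ1 _ _ _ _ _ _ hn0
    exact absurd (one_le_of_sq hJ0 hn0) hL
  have hL0 : 0 < L := by linarith
  set μ := min m 1 with hμ
  have hμ0 : 0 < μ := lt_min hm one_pos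
  set α := m / (2 * L ^ 2) with hα
  set β := 3 * L ^ 6 / (2 * m) with hβ
  set KP := 6 * L * (L ^ 2 + |A| * R ^ 2 * L) with hKP
  have hα0 : 0 < α := by positivity
  have hβ0 : 0 ≤ β := by positivity
  have hKP0 : 0 ≤ KP := by positivity
  refine ⟨α, (β * KP + 18 * |A| * L ^ 6 + 18 * |A| * L ^ 5 + 18 * L ^ 5 + 18 * L ^ 7) / μ ^ 2, hα0,
    by positivity, ?_⟩
  intro J0 J1 F0 F1 s z t b p ε r hJ0 hJ1 hF0 hF1 lo0 lo1 nF0 nF1 nJ0 nJ1 lip hs hsW ht hb htp hta hPpos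
    hε hεr hrR hz0 hzR
  have hr : 0 < r := lt_of_lt_of_le hε hεr
  have hnz : 0 < ‖z‖ := norm_pos_iff.2 hz0
  have hp : 0 ≤ p := (norm_nonneg t).trans htp
  have hs1 : |s| = 1 := by rcases hs with h | h <;> rw [h] <;> norm_num
  set D := DD J0 F0 r z with hDdef
  set E := ‖z‖ ^ 2 + r ^ 2 with hEdef
  have hE0 : 0 < E := by positivity
  have hDE : μ * E ≤ D := by
    have h1 := lo0 z
    have h2 : μ * ‖z‖ ^ 2 ≤ m * ‖z‖ ^ 2 := mul_le_mul_of_nonneg_right (min_le_left _ _) (by positivity)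
    have h3 : μ * r ^ 2 ≤ 1 * r ^ 2 := mul_le_mul_of_nonneg_right (min_le_right _ _) (by positivity)
    have h4 : D = F0 z (J0 z) + r ^ 2 := rfl
    rw [h4, hEdef]; linarith
  set X := Om J0 F0 r z with hX
  have hXe : X = r ^ 2 • F0 + thet J0 F0 z := rfl
  have hth := thet_pos hJ0 hF0 z
  have hXpos : Pos J0 X := by
    rw [hXe]
    refine ⟨(hF0.alt.smul _).add hth.alt, ?_, ?_⟩
    · intro u v
      rw [bil_add_apply, bil_add_apply, bil_smul_apply, bil_smul_apply, hF0.inv, hth.inv]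
    · intro v
      rw [bil_add_apply, bil_smul_apply]
      have := (spos_pos hF0).nonneg v
      have := hth.nonneg v
      positivity
  have hXn : ‖X‖ ≤ 3 * L ^ 3 * E := by
    rw [hXe]
    refine (norm_add_le _ _).trans ?_
    have h1 := norm_thet_le hL nF0 nJ0 z
    have h2 : ‖r ^ 2 • F0‖ ≤ r ^ 2 * L := by
      rw [norm_smul, Real.norm_of_nonneg (by positivity)]
      gcongr
    have h3 : r ^ 2 * L ≤ 3 * L ^ 3 * r ^ 2 := by
      have : L ≤ 3 * L ^ 3 := by nlinarith [mul_pos hL0 hL0]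
      nlinarith [sq_nonneg r]
    rw [hEdef]; linarith
  have hX1 : ‖invp J1 X‖ ≤ 3 * L ^ 5 * E := by
    refine (norm_invp_le' hL nJ1 X).trans ?_
    have : L ^ 2 * ‖X‖ ≤ L ^ 2 * (3 * L ^ 3 * E) := by gcongr
    linarith [show L ^ 2 * (3 * L ^ 3 * E) = 3 * L ^ 5 * E by ring]
  have hX2 : ‖antip J1 X‖ ≤ 3 * L ^ 5 * ‖z‖ * E := by
    refine (norm_antip_of_inv nJ0 nJ1 lip hXpos.inv).trans ?_
    have : L * (L * ‖z‖) * ‖X‖ ≤ L * (L * ‖z‖) * (3 * L ^ 3 * E) := by gcongr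
    linarith [show L * (L * ‖z‖) * (3 * L ^ 3 * E) = 3 * L ^ 5 * ‖z‖ * E by ring]
  set k : ℝ := A * ε ^ 2 * p with hk
  set P := invp J1 t + k • F1 with hP
  have hF1p := spos_pos hF1
  -- the comparison form
  have hRpos : Pos J1 (invp J1 X + (β * E * ‖z‖ ^ 2 - α * r ^ 2) • F1) := by
    refine ⟨(hXpos.alt.invp J1).add (hF1.alt.smul _), ?_, ?_⟩
    · intro u v
      rw [bil_add_apply, bil_add_apply, bil_smul_apply, bil_smul_apply, invp_inv hJ1, hF1.inv]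
    · intro v
      rw [bil_add_apply, bil_smul_apply, invp_diag hJ1 hXpos.alt]
      have q1 := posQ (J1 := J1) hJ0 hXpos v
      have q2 : r ^ 2 * (m * ‖v‖ ^ 2) ≤ X v (J0 v) := by
        rw [hXe, bil_add_apply, bil_smul_apply]
        have := mul_le_mul_of_nonneg_left (lo0 v) (sq_nonneg r)
        have := hth.nonneg v
        linarith
      have q3 : X ((J1 - J0) v) (J0 ((J1 - J0) v)) ≤ 3 * L ^ 6 * E * ‖z‖ ^ 2 * ‖v‖ ^ 2 := by
        refine (le_abs_self _).trans ((abs_apply_le X _ _).trans ?_)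
        have w1 : ‖(J1 - J0) v‖ ≤ L * ‖z‖ * ‖v‖ := apply_J_le lip v
        have w2 : ‖J0 ((J1 - J0) v)‖ ≤ L * (L * ‖z‖ * ‖v‖) :=
          (apply_J_le nJ0 _).trans (mul_le_mul_of_nonneg_left w1 hL0.le)
        have w3 : ‖X‖ * ‖(J1 - J0) v‖ * ‖J0 ((J1 - J0) v)‖ ≤
          (3 * L ^ 3 * E) * (L * ‖z‖ * ‖v‖) * (L * (L * ‖z‖ * ‖v‖)) := by gcongr
        linarith [show (3 * L ^ 3 * E) * (L * ‖z‖ * ‖v‖) * (L * (L * ‖z‖ * ‖v‖))
          = 3 * L ^ 6 * E * ‖z‖ ^ 2 * ‖v‖ ^ 2 by ring]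
      have q4 : F1 v (J1 v) ≤ L ^ 2 * ‖v‖ ^ 2 := by
        refine (le_abs_self _).trans ((abs_apply_le F1 _ _).trans ?_)
        have w3 : ‖F1‖ * ‖v‖ * ‖J1 v‖ ≤ L * ‖v‖ * (L * ‖v‖) := by
          gcongr
          exact apply_J_le nJ1 v
        linarith [show L * ‖v‖ * (L * ‖v‖) = L ^ 2 * ‖v‖ ^ 2 by ring]
      have q5 := lo1 v
      have q6 : α * r ^ 2 * F1 v (J1 v) ≤ (1 / 2) * (r ^ 2 * (m * ‖v‖ ^ 2)) := by
        have : α * r ^ 2 * F1 v (J1 v) ≤ α * r ^ 2 * (L ^ 2 * ‖v‖ ^ 2) := by gcongr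
        refine this.trans (le_of_eq ?_)
        rw [hα]; field_simp
      have q7 : (1 / 2) * (3 * L ^ 6 * E * ‖z‖ ^ 2 * ‖v‖ ^ 2) ≤ β * E * ‖z‖ ^ 2 * F1 v (J1 v) := by
        have : β * E * ‖z‖ ^ 2 * (m * ‖v‖ ^ 2) ≤ β * E * ‖z‖ ^ 2 * F1 v (J1 v) := by gcongr
        refine le_trans (le_of_eq ?_) this
        rw [hβ]; field_simp
      have q8 : (β * E * ‖z‖ ^ 2 - α * r ^ 2) * F1 v (J1 v)
        = β * E * ‖z‖ ^ 2 * F1 v (J1 v) - α * r ^ 2 * F1 v (J1 v) := by ring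
      rw [q8]
      linarith
  -- norms
  have habsk : |k| ≤ |A| * ε ^ 2 * p := by
    rw [hk, abs_mul, abs_mul, abs_of_nonneg (sq_nonneg ε), abs_of_nonneg hp]
  have hPn : ‖P‖ ≤ (L ^ 2 + |A| * R ^ 2 * L) * p := by
    refine (norm_add_le _ _).trans ?_
    have h1 := norm_invp_le' hL nJ1 t
    have h2 : L ^ 2 * ‖t‖ ≤ L ^ 2 * p := by gcongr
    have h3 : ‖k • F1‖ ≤ |A| * R ^ 2 * L * p := by
      rw [norm_smul, Real.norm_eq_abs]
      have e1 : ε ^ 2 ≤ R ^ 2 := pow_le_pow_left₀ hε.le (hεr.trans hrR) 2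
      have e2 : |k| * ‖F1‖ ≤ (|A| * ε ^ 2 * p) * L := by gcongr
      have e3 : (|A| * ε ^ 2 * p) * L ≤ (|A| * R ^ 2 * p) * L := by gcongr
      linarith [show (|A| * R ^ 2 * p) * L = |A| * R ^ 2 * L * p by ring]
    linarith
  have hG0 : 0 ≤ s * W P F1 := sW_pos hJ1 hF1 hsW hPpos hF1p
  have hG : s * W P F1 ≤ KP * p := by
    have h1 := W_abs_le' P F1
    have h2 : |s * W P F1| ≤ 6 * (‖P‖ * ‖F1‖) := by rw [abs_mul, hs1, one_mul]; exact h1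
    have h3 : 6 * (‖P‖ * ‖F1‖) ≤ 6 * (((L ^ 2 + |A| * R ^ 2 * L) * p) * L) := by gcongr
    refine (le_abs_self _).trans (h2.trans (h3.trans (le_of_eq ?_)))
    rw [hKP]; ring
  have hs_abs : ∀ x y : Bil, |s * W x y| ≤ 6 * (‖x‖ * ‖y‖) := by
    intro x y
    rw [abs_mul, hs1, one_mul]; exact W_abs_le' x y
  -- decomposition
  have hdec : s * W (t + b) X = s * W P (invp J1 X) - k * (s * W F1 (invp J1 X))
      + s * W (antip J1 t) (antip J1 X)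
      + (s * W (invp J1 b) (invp J1 X) + s * W (antip J1 b) (antip J1 X)) := by
    rw [W_add_left, W_split hJ1 hF1 ht hXpos.alt, W_split hJ1 hF1 hb hXpos.alt, hP, W_add_left,
      W_smul_left]
    ring
  have hRHS : s * W (t + b) ((1 / D ^ 2) • X) = (1 / D ^ 2) * (s * W (t + b) X) := by
    rw [W_smul_right]; ring
  rw [hRHS]
  refine pw_num (S1 := s * W P (invp J1 X)) (S2 := k * (s * W F1 (invp J1 X)))
    (S3 := s * W (antip J1 t) (antip J1 X))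
    (S4 := s * W (invp J1 b) (invp J1 X) + s * W (antip J1 b) (antip J1 X))
    hμ0 hEdef hDE hr hnz hε hεr hp hL hβ0 hKP0 hG0 hG (norm_nonneg _) (norm_nonneg _) ?_ ?_ ?_ ?_ hdec
  · have h1 := sW_pos hJ1 hF1 hsW hPpos hRpos
    rw [W_add_right, W_smul_right] at h1
    linarith
  · rw [abs_mul]
    have h1 := hs_abs F1 (invp J1 X)
    have h2 : 6 * (‖F1‖ * ‖invp J1 X‖) ≤ 6 * (L * (3 * L ^ 5 * E)) := by gcongr
    have h3 : |k| * |s * W F1 (invp J1 X)| ≤ (|A| * ε ^ 2 * p) * (6 * (L * (3 * L ^ 5 * E))) :=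
      mul_le_mul habsk (h1.trans h2) (abs_nonneg _) (by positivity)
    linarith [show (|A| * ε ^ 2 * p) * (6 * (L * (3 * L ^ 5 * E)))
      = 18 * |A| * L ^ 6 * ε ^ 2 * p * E by ring]
  · have h1 := hs_abs (antip J1 t) (antip J1 X)
    have h0 : A * ε * p ≤ |A| * ε * p := by
      have := le_abs_self A
      gcongr
    have h2 : 6 * (‖antip J1 t‖ * ‖antip J1 X‖) ≤ 6 * ((|A| * ε * p) * (3 * L ^ 5 * ‖z‖ * E)) := by
      gcongr
      exact hta.trans h0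
    linarith [show 6 * ((|A| * ε * p) * (3 * L ^ 5 * ‖z‖ * E))
      = 18 * |A| * L ^ 5 * ε * p * ‖z‖ * E by ring]
  · have h1 := hs_abs (invp J1 b) (invp J1 X)
    have h2 := hs_abs (antip J1 b) (antip J1 X)
    have h3 : 6 * (‖invp J1 b‖ * ‖invp J1 X‖) ≤ 6 * (‖invp J1 b‖ * (3 * L ^ 5 * E)) := by gcongr
    have h4 : 6 * (‖antip J1 b‖ * ‖antip J1 X‖) ≤ 6 * ((L ^ 2 * ‖b‖) * (3 * L ^ 5 * ‖z‖ * E)) := by
      gcongr
      exact norm_antip_le' hL nJ1 b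
    refine (abs_add_le _ _).trans ((add_le_add (h1.trans h3) (h2.trans h4)).trans (le_of_eq ?_))
    ring

end

end Crest.Agent.R240.Mono
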