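import Crest.Agent.R240.N2
import Crest.Agent.R240.N4
import Crest.Agent.R240.En4D
import Crest.Agent.R240.Cmp
import Crest.Agent.R240.Lin6

/-!
Row 240 (S0371), helper710: the nodes N2 (dichotomy) and N4 (trace measures) of `Iface`.
-/

set_option autoImplicit false
set_option maxSynthPendingDepth 3

open Set Function Filter MeasureTheory
open scoped Manifold ContDiff Topology ENNReal

namespace Crest.Agent.R240.N24

open Crest.Agent.R240 Crest.Agent.R240.Ch

noncomputable section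

/-- bounds for a single strictly positive form. -/
theorem exists_bd {J : E4 →L[ℝ] E4} (hJ : ∀ v, J (J v) = -v) {F : Bil} (hF : SPos J F) :
    ∃ m M : ℝ, Bd J F m M := by
  obtain ⟨A, hA⟩ := exists_frame hJ hF
  have hn0 : 0 < ‖(A : E4 →L[ℝ] E4)‖ := by
    rw [norm_pos_iff]
    intro h
    have h1 : A (ee 0) = 0 := by
      have := congrArg (fun B : E4 →L[ℝ] E4 => B (ee 0)) h
      exact this
    have h2 : ee 0 = 0 := by
      have := congrArg A.symm h1
      simpa using this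
    have h3 := norm_ee 0
    rw [h2, norm_zero] at h3
    exact zero_ne_one h3
  refine ⟨(‖(A : E4 →L[ℝ] E4)‖ ^ 2)⁻¹, ‖(A.symm : E4 →L[ℝ] E4)‖ ^ 2, hJ, hF, by positivity, ?_, ?_⟩
  · intro v
    obtain ⟨w, rfl⟩ := A.surjective v
    rw [hA.normsq]
    have h1 : ‖A w‖ ≤ ‖(A : E4 →L[ℝ] E4)‖ * ‖w‖ := (A : E4 →L[ℝ] E4).le_opNorm w
    rw [inv_mul_le_iff₀ (by positivity), ← mul_pow]
    exact pow_le_pow_left₀ (norm_nonneg _) h1 2
  · intro v
    have h2 := hA.normsq (A.symm v)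
    rw [A.apply_symm_apply] at h2
    rw [h2]
    have h1 : ‖A.symm v‖ ≤ ‖(A.symm : E4 →L[ℝ] E4)‖ * ‖v‖ := (A.symm : E4 →L[ℝ] E4).le_opNorm v
    rw [← mul_pow]
    exact pow_le_pow_left₀ (norm_nonneg _) h1 2

variable {M : Type*} [MetricSpace M] [CompactSpace M] [ChartedSpace E4 M]
    [IsManifold 𝓘(ℝ, E4) ∞ M] [MeasurableSpace M] [BorelSpace M] (D : Dat M)

/-- the `C^m` norm as a seminorm on `X2 M`. -/
def cmS (𝒰 : Cover M) (m : ℕ) : Seminorm ℝ (X2 M) where
  toFun b := 𝒰.cm m b.1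
  map_zero' := cm_zero 𝒰 m
  add_le' a b := cm_add_le 𝒰 m a.2 b.2
  neg' a := cm_neg 𝒰 m a.2
  smul' r a := cm_smul 𝒰 m a.2 r


/-- `k F ± b'` is semi-positive for `k = 2 |b|`. -/
theorem pos_add (b : X2 M) (x : M) :
    Pos (atJ D.J x) ((2 * D.nr b.1 x) • at2 D.F x + at2 (D.pi' b).1 x) := by
  obtain ⟨m, m', hB⟩ := exists_bd (D.sq x) (En4.spos D x)
  have h := hB.pos_add_nsq (b.2.1 x)
  have hn : 0 ≤ D.nr b.1 x := En4.nr_nonneg D b.1 x
  have h2 : Real.sqrt 2 ≤ 2 := by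
    rw [Real.sqrt_le_left (by norm_num)]; norm_num
  have hnr : Real.sqrt (nsq (atJ D.J x) (at2 D.F x) (at2 b.1 x)) = D.nr b.1 x := rfl
  have e : ∀ u v : E4, ((2 * D.nr b.1 x) • at2 D.F x + at2 (D.pi' b).1 x) u v =
      (invp (atJ D.J x) (at2 b.1 x) + (Real.sqrt 2 *
        Real.sqrt (nsq (atJ D.J x) (at2 D.F x) (at2 b.1 x))) • at2 D.F x) u v
      + ((2 - Real.sqrt 2) * D.nr b.1 x) * at2 D.F x u v := by
    intro u v
    rw [hnr]
    have e1 : ((2 * D.nr b.1 x) • at2 D.F x + at2 (D.pi' b).1 x) u v =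
      (2 * D.nr b.1 x) * at2 D.F x u v + invp (atJ D.J x) (at2 b.1 x) u v := rfl
    have e2 : (invp (atJ D.J x) (at2 b.1 x) + (Real.sqrt 2 * D.nr b.1 x) • at2 D.F x) u v =
      invp (atJ D.J x) (at2 b.1 x) u v + (Real.sqrt 2 * D.nr b.1 x) * at2 D.F x u v := rfl
    rw [e1, e2]; ring
  have hc : 0 ≤ (2 - Real.sqrt 2) * D.nr b.1 x := mul_nonneg (by linarith) hn
  have hs := En4.spos D x
  refine ⟨fun v => ?_, fun u v => ?_, fun v => ?_⟩
  · refine (e v v).trans ?_
    rw [h.alt v, hs.alt v, mul_zero, add_zero]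
  · refine (e _ _).trans (Eq.trans ?_ (e u v).symm)
    rw [h.inv, hs.inv]
  · refine le_of_le_of_eq ?_ (e v _).symm
    refine add_nonneg (h.nonneg v) (mul_nonneg hc ?_)
    have := hB.lo v
    have := hB.m_pos
    have : 0 ≤ m * ‖v‖ ^ 2 := by positivity
    linarith [hB.lo v]

theorem nr_neg (b : F2 E4 M) (x : M) : D.nr (-b) x = D.nr b x := by
  have h : nsq (atJ D.J x) (at2 D.F x) (at2 (-b) x) = nsq (atJ D.J x) (at2 D.F x) (at2 b x) := by
    have e : at2 (-b) x = (-1 : ℝ) • at2 b x := by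
      rw [neg_one_smul]; rfl
    rw [e]
    unfold nsq ip
    rw [invp_smul, antip_smul, q_smul_left, q_smul_left, q_smul_left, q_smul_right, q_smul_right]
    ring
  show Real.sqrt _ = Real.sqrt _
  rw [h]

theorem pos_sub (b : X2 M) (x : M) :
    Pos (atJ D.J x) ((2 * D.nr b.1 x) • at2 D.F x - at2 (D.pi' b).1 x) := by
  have h := pos_add D (-b) x
  have e1 : D.nr (-b : X2 M).1 x = D.nr b.1 x := nr_neg D b.1 x
  have e2 : at2 (D.pi' (-b)).1 x = - at2 (D.pi' b).1 x := by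
    rw [map_neg]; rfl
  rw [e1, e2, ← sub_eq_add_neg] at h
  exact h

theorem posF : PosG D.J D.F := fun x => by
  have h := En4.spos D x
  refine ⟨h.alt, h.inv, fun v => ?_⟩
  rcases eq_or_ne v 0 with rfl | hv
  · simp
  · exact (h.pos v hv).le

/-- **N4**: trace measures. -/
theorem n4 : D.N4 := by
  intro Φ hΦ
  obtain ⟨s, hs1, -, hs3, hs4⟩ := N4.n4_core1 D.J D.F (En4.smF D) (posF D) (X2 M)
    (fun a => Iff.rfl) Φ (fun P hP => hΦ P hP)
  refine ⟨s, hs1, ?_, ?_, ?_⟩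
  · intro f hf b hb
    exact (hs3 f hf b hb).symm
  · intro b
    have hc : Continuous (fun x => 2 * D.nr b.1 x) := continuous_const.mul (En4.cont_nr D b.2)
    have h1 := hs4 (D.pi' b) _ hc (fun x => pos_sub D b x)
    have h2 := hs4 (-(D.pi' b)) _ hc (fun x => by
      have e : (2 * D.nr b.1 x) • at2 D.F x - at2 (-(D.pi' b)).1 x =
          (2 * D.nr b.1 x) • at2 D.F x + at2 (D.pi' b).1 x := by
        have : at2 (-(D.pi' b)).1 x = - at2 (D.pi' b).1 x := rfl
        rw [this, sub_neg_eq_add]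
      rw [e]
      exact pos_add D b x)
    rw [map_neg] at h2
    rw [integral_const_mul] at h1 h2
    exact abs_le.2 ⟨by linarith, h1⟩
  · intro b h hh hg
    have h2 := hs4 (-(D.pi' b)) (fun x => - h x) hh.neg (fun x => by
      have e : ∀ u v : E4, ((- h x) • at2 D.F x - at2 (-(D.pi' b)).1 x) u v =
          at2 (D.pi' b).1 x u v - h x * at2 D.F x u v := by
        intro u v
        have e1 : ((- h x) • at2 D.F x - at2 (-(D.pi' b)).1 x) u v =
          (- h x) * at2 D.F x u v - (-(at2 (D.pi' b).1 x u v)) := rfl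
        rw [e1]; ring
      have hs := En4.spos D x
      have hb : ∀ u v : E4, at2 (D.pi' b).1 x u v =
          (at2 b.1 x u v + at2 b.1 x (atJ D.J x u) (atJ D.J x v)) / 2 :=
        fun u v => N2.at2_bp_apply D.J b.1 x u v
      refine ⟨fun v => ?_, fun u v => ?_, fun v => ?_⟩
      · refine (e v v).trans ?_
        rw [hs.alt v, hb, b.2.1 x v, b.2.1 x (atJ D.J x v)]
        ring
      · refine (e _ _).trans (Eq.trans ?_ (e u v).symm)
        have h1 : at2 (D.pi' b).1 x (atJ D.J x u) (atJ D.J x v) = at2 (D.pi' b).1 x u v :=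
          N2.at2_bp_inv D.sq b.1 x u v
        rw [hs.inv, h1]
      · refine le_of_le_of_eq ?_ (e v _).symm
        have h1 : at2 (D.pi' b).1 x v (atJ D.J x v) = at2 b.1 x v (atJ D.J x v) :=
          N2.at2_bp_diag D.sq (b.2.1 x) v
        rw [h1]
        exact sub_nonneg.2 (hg x v))
    rw [map_neg, integral_neg] at h2
    linarith

/-- **N2**: the dichotomy. -/
theorem n2 : D.N2 := by
  intro 𝒰 m ρ hρ
  have hunit : ∀ b : X2 M, ∃ t : ℝ, ∀ x (v : E4),
      |at2 b.1 x v (atJ D.J x v)| ≤ t * at2 D.FX.1 x v (atJ D.J x v) := by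
    intro b
    obtain ⟨t, -, ht⟩ := order_unit (En4.smF D) b.2 D.smJ (fun x v hv => (En4.spos D x).pos v hv)
    exact ⟨t, ht⟩
  rcases N2.n2_core D.sq (X2 M) (fun a ha x => ha.1 x) D.pi' D.pi'' (fun b => rfl) (fun b => rfl)
    (Z2 M) D.FX (posF D) hunit (cmS 𝒰 m) ρ hρ with ⟨b, hb, h1, h2⟩ | ⟨L, h1, h2, h3, h4⟩
  · left
    refine ⟨b, hb, ?_, h2⟩
    intro x
    exact h1 x
  · right
    refine ⟨L, h1, fun P hP => h2 P hP, h3, fun b => ?_⟩
    refine h4 (D.pi'' b) ?_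
    have h := En4.pi''_pi'' D b
    exact congrArg Subtype.val h

end

end Crest.Agent.R240.N24
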