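import Crest.Agent.R240.IfaceR
import Crest.Agent.R240.IntTop
import Crest.Agent.R240.En4L
import Crest.Agent.R240.Ch4

/-!
Row 240 (S0371), helper548: node N8a (smoothing of a closed Kaehler current) from the smoothing
package N8, FUND and the duality lemmas of helper744.
-/

set_option autoImplicit false
set_option maxSynthPendingDepth 3
set_option linter.ambiguousOpen false

open Set Function Filter MeasureTheory Metric
open scoped Manifold ContDiff Topology ENNReal

namespace Crest.Agent.R240.N8A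

open Crest.Agent.R240.Ch Crest.Agent.R240.Int

noncomputable section

/-! ### pointwise facts -/

/-- `|P| ≤ √2 q(P,F)` for `P ≥ 0`. -/
theorem nr_le_q {J : E4 →L[ℝ] E4} {F P : Bil} (hJ : ∀ v, J (J v) = -v) (hF : SPos J F)
    (hP : Pos J P) : nr J F P ≤ √2 * q F P F ∧ 0 ≤ q F P F := by
  have hPP : 0 ≤ q F P F ∧ 0 ≤ q F P P :=
    (En4.pos_iff hJ hF hP.alt hP.inv).1 hP.nonneg
  refine ⟨?_, hPP.1⟩
  unfold nr
  rw [En4.nsq_inv hJ hF hP.inv]
  have h1 : √2 * q F P F = √(2 * q F P F ^ 2) := by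
    rw [Real.sqrt_mul (by norm_num), Real.sqrt_sq hPP.1]
  rw [h1]
  exact Real.sqrt_le_sqrt (by linarith [hPP.2])

theorem contDiffOn_ent {U : Set E4} {b : E4 → Bil} (hb : ContDiffOn ℝ ∞ b U) (i j : Fin 4) :
    ContDiffOn ℝ ∞ (fun y => ent (b y) i j) U := by
  unfold ent
  exact (hb.clm_apply contDiffOn_const).clm_apply contDiffOn_const

theorem contDiffOn_W {U : Set E4} {b c : E4 → Bil} (hb : ContDiffOn ℝ ∞ b U)
    (hc : ContDiffOn ℝ ∞ c U) : ContDiffOn ℝ ∞ (fun y => W (b y) (c y)) U := by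
  unfold W
  have e := contDiffOn_ent hb
  have f := contDiffOn_ent hc
  exact ((((((e 0 1).mul (f 2 3)).sub ((e 0 2).mul (f 1 3))).add ((e 0 3).mul (f 1 2))).add
    ((e 1 2).mul (f 0 3))).sub ((e 1 3).mul (f 0 2))).add ((e 2 3).mul (f 0 1))

variable {M : Type*} [MetricSpace M] [CompactSpace M] [ChartedSpace E4 M]
    [IsManifold 𝓘(ℝ, E4) ∞ M] [MeasurableSpace M] [BorelSpace M]

/-- `q(b,c)` is smooth. -/
theorem smoothF_qG (D : Dat M) {b c : F2 E4 M} (hb : Smooth2 b) (hc : Smooth2 c) :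
    SmoothF E4 (qG D.F b c) := by
  intro p
  have hV := dat_volF D
  have h : ∀ y ∈ (chartAt E4 p).target, repF p (qG D.F b c) y =
      q (rep p D.F y) (rep p b y) (rep p c y) := fun y hy => qG_chart hV hb.1 hc.1 hy
  refine ContDiffOn.congr ?_ h
  unfold q
  exact (contDiffOn_W (hb.2 p) (hc.2 p)).div (contDiffOn_W ((dat_smF D).2 p) ((dat_smF D).2 p))
    fun y hy => hV.rep_ne hy


omit [ChartedSpace E4 M] [IsManifold 𝓘(ℝ, E4) ∞ M] in
theorem cont_int {ν : Measure M} [IsFiniteMeasure ν] {f : M → ℝ} (hf : Continuous f) :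
    Integrable f ν :=
  hf.integrable_of_hasCompactSupport (HasCompactSupport.of_compactSpace _)

/-- `D.nr b` is continuous. -/
theorem continuous_nr (D : Dat M) (b : X2 M) : Continuous (D.nr (b : F2 E4 M)) := by
  have h : ∀ x, D.nr (b : F2 E4 M) x = √(2 * qG D.F b.1 D.F x * qG D.F b.1 D.F x
      - qG D.F (D.pi' b).1 (D.pi' b).1 x + qG D.F (D.pi'' b).1 (D.pi'' b).1 x) := fun x => rfl
  rw [show D.nr (b : F2 E4 M) = _ from funext h]
  have c := fun (b c : X2 M) => SmoothF.cont (smoothF_qG D b.2 c.2)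
  exact ((((continuous_const.mul (c b D.FX)).mul (c b D.FX)).sub (c _ _)).add (c _ _)).sqrt

set_option maxHeartbeats 1000000 in
/-- the core: `N8a` from the smoothing package. -/
theorem n8a_of (D : Dat M) (𝒰 : Cover M) (S : SmPack D 𝒰)
    (hfund : D.FUND)
    (hcm : ∃ C0 : ℝ, ∀ b : X2 M, ∀ x, D.nr (b : F2 E4 M) x ≤ C0 * 𝒰.cm 0 (b : F2 E4 M))
    (hgeF : ∀ (X : X2 M) (g : M → ℝ), Continuous g →
      (∀ P ∈ D.Pp, 0 ≤ D.I (X : F2 E4 M) (P : F2 E4 M) +
        ∫ x, g x * qG D.F (P : F2 E4 M) D.F x ∂D.μ) →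
      GeF D.J D.F (X : F2 E4 M) (fun x => - g x))
    (hanti : ∀ (X : X2 M) (g : M → ℝ), Continuous g → (∀ x, 0 ≤ g x) →
      (∀ (b : X2 M) (h : M → ℝ), SmoothF E4 h → (∀ x, D.nr (b : F2 E4 M) x ≤ h x) →
        |D.I (X : F2 E4 M) (D.pi'' b : F2 E4 M)| ≤ ∫ x, h x * g x ∂D.μ) →
      ∀ x, D.nr (D.pi'' X : F2 E4 M) x ≤ g x) :
    D.N8a := by
  intro Φ s hInv hK hEx hRM
  have hμfin := D.fin
  have hsfin := hRM.fin
  have hV := dat_volF D
  have hsF := dat_smF D
  obtain ⟨C1, hC1⟩ := S.pos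
  obtain ⟨C2, hC2⟩ := S.leak2
  obtain ⟨C3, hC3⟩ := S.adj
  obtain ⟨C4, hC41, hC4⟩ := S.repm
  -- finite order of `Φ`
  have hFO : FOrd 𝒰 Φ := by
    obtain ⟨C0, hC0⟩ := hcm
    refine ⟨0, 2 * (C0 * s.real univ), fun b => ?_⟩
    rw [hInv b]
    refine (hRM.bound b).trans ?_
    have h1 : ∫ x, D.nr (b : F2 E4 M) x ∂s ≤ ∫ _x, C0 * 𝒰.cm 0 (b : F2 E4 M) ∂s :=
      integral_mono (cont_int (continuous_nr D b)) (integrable_const _) (hC0 b)
    rw [integral_const, smul_eq_mul] at h1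
    calc 2 * ∫ x, D.nr (b : F2 E4 M) x ∂s ≤ 2 * (s.real univ * (C0 * 𝒰.cm 0 (b : F2 E4 M))) := by
          linarith
      _ = _ := by ring
  -- constants
  set C : ℝ := 1 + |C3| + √2 * |C1| + 2 * |C2| + C4 with hC
  have hs2 : 0 ≤ √2 := Real.sqrt_nonneg _
  have hb1 : 0 ≤ √2 * |C1| := by positivity
  have hC3' : |C3| ≤ C := by rw [hC]; linarith [abs_nonneg C2]
  have hC1' : √2 * |C1| ≤ C := by rw [hC]; linarith [abs_nonneg C2, abs_nonneg C3]
  have hC2' : 2 * |C2| ≤ C := by rw [hC]; linarith [abs_nonneg C3]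
  have hC4' : C4 ≤ C := by rw [hC]; linarith [abs_nonneg C3, abs_nonneg C2]
  have hCpos : 0 < C := by linarith
  refine ⟨C, S.e0, hCpos, S.e0_pos, fun e he hee => ?_⟩
  obtain ⟨b, hb⟩ := S.rep Φ hFO e S.one he hee
  obtain ⟨g, hgS, hg0, hgd, hgle, -⟩ := hC4 s hsfin e he hee
  have hgc : Continuous g := SmoothF.cont hgS
  have hone : S.one ∈ S.clp 0 := S.one_mem 0
  -- `b` is closed
  have hbZ : b ∈ Z2 M := by
    refine hfund b fun c hc => ?_
    rw [← hb c]
    exact hEx _ (S.exact e S.one he hee c hc)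
  -- the `F`-multiples
  have hFX : ∀ {f : M → ℝ} (_ : SmoothF E4 f), ∃ c : X2 M, (c : F2 E4 M) = fmul f D.F :=
    fun {f} hf => ⟨⟨fmul f D.F, Smooth2.fmul hf hsF⟩, rfl⟩
  have hF0 : ∀ x v, 0 ≤ at2 D.F x v (atJ D.J x v) := by
    intro x v
    by_cases hv : v = 0
    · simp [hv]
    · exact ((dat_sposF D x).pos v hv).le
  -- the main inequality
  have key : ∀ P ∈ D.Pp, 0 ≤ D.I (b : F2 E4 M) (P : F2 E4 M) +
      ∫ x, (√2 * |C1| * e ^ 2 * g x - (1 - C3 * e)) * qG D.F (P : F2 E4 M) D.F x ∂D.μ := by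
    intro P hP
    have hPx : ∀ x, Pos (atJ D.J x) (at2 (P : F2 E4 M) x) := hP
    have hq0 : ∀ x, 0 ≤ qG D.F (P : F2 E4 M) D.F x := fun x =>
      (nr_le_q (D.sq x) (dat_sposF D x) (hPx x)).2
    have hqS : SmoothF E4 (qG D.F (P : F2 E4 M) D.F) := smoothF_qG D P.2 hsF
    have hqc := SmoothF.cont hqS
    set h : M → ℝ := fun x => √2 * qG D.F (P : F2 E4 M) D.F x with hh
    have hhS : SmoothF E4 h := fun p => contDiffOn_const.mul (hqS p)
    have hhc := SmoothF.cont hhS
    have hle : ∀ x, D.nr (P : F2 E4 M) x ≤ h x := fun x =>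
      (nr_le_q (D.sq x) (dat_sposF D x) (hPx x)).1
    have hh0 : ∀ x, 0 ≤ h x := fun x => mul_nonneg hs2 (hq0 x)
    set ah : M → ℝ := S.a e h with hah
    have hahS : SmoothF E4 ah := S.a_smooth e he hee h hhS
    have hah0 : ∀ x, 0 ≤ ah x := S.a_nonneg e he hee h hhS hh0
    have hahc := SmoothF.cont hahS
    have hpos := hC1 e S.one he hee hone P hP h hhS hle
    obtain ⟨c, hc⟩ := hFX hahS
    set Q : X2 M := D.pi' (S.A e S.one P) + (|C1| * e ^ 2) • c with hQ
    have hQP : Q ∈ D.Pp := by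
      intro x
      have hAalt : Alt (at2 (S.A e S.one P : F2 E4 M) x) := (S.A e S.one P).2.1 x
      have e0 : at2 (Q : F2 E4 M) x = invp (atJ D.J x) (at2 (S.A e S.one P : F2 E4 M) x) +
          (|C1| * e ^ 2) • (ah x • at2 D.F x) := by
        have h1 : at2 (Q : F2 E4 M) x = invp (atJ D.J x) (at2 (S.A e S.one P : F2 E4 M) x) +
          (|C1| * e ^ 2) • at2 (c : F2 E4 M) x := rfl
        rw [h1, hc]; rfl
      have hFp := dat_sposF D x
      rw [e0]
      refine ⟨?_, ?_, ?_⟩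
      · exact (hAalt.invp _).add ((hFp.alt.smul _).smul _)
      · intro u v
        simp only [add_apply, smul_apply, smul_eq_mul]
        rw [invp_inv (D.sq x), hFp.inv]
      · intro v
        simp only [add_apply, smul_apply, smul_eq_mul]
        rw [invp_diag (D.sq x) hAalt]
        have h2 := hpos x v
        have h3 : -(C1 * e ^ 2 * ah x) * at2 D.F x v (atJ D.J x v) ≥
            -(|C1| * e ^ 2 * ah x) * at2 D.F x v (atJ D.J x v) := by
          refine mul_le_mul_of_nonneg_right ?_ (hF0 x v)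
          have : C1 * e ^ 2 * ah x ≤ |C1| * e ^ 2 * ah x := by
            have h4 := le_abs_self C1
            have h5 := hah0 x
            gcongr
          linarith
        simp only at h2
        linarith
    have e1 := hK Q hQP
    -- `Φ Q`
    have e2 : Φ Q = D.I (b : F2 E4 M) (P : F2 E4 M) + |C1| * e ^ 2 * ∫ x, h x * g x ∂D.μ := by
      rw [hQ, map_add, map_smul, ← hInv, hb P, hRM.trace ah hahS c hc, hgd h hhS, smul_eq_mul]
    -- `I(Q,F)`
    have e3 : D.I (Q : F2 E4 M) D.F = D.I (S.A e S.one P : F2 E4 M) D.F +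
        |C1| * e ^ 2 * ∫ x, ah x ∂D.μ := by
      have i1 : Integrable (qG D.F (S.A e S.one P : F2 E4 M) D.F) D.μ :=
        cont_int (SmoothF.cont (smoothF_qG D (S.A e S.one P).2 hsF))
      show ∫ x, qG D.F (Q : F2 E4 M) D.F x ∂D.μ = ∫ x, qG D.F (S.A e S.one P : F2 E4 M) D.F x ∂D.μ + _
      rw [← integral_const_mul, ← integral_add i1 ((cont_int hahc).const_mul _)]
      refine integral_congr_ae (Eventually.of_forall fun x => ?_)
      have hFp := dat_sposF D x
      have hAalt : Alt (at2 (S.A e S.one P : F2 E4 M) x) := (S.A e S.one P).2.1 x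
      have e0 : at2 (Q : F2 E4 M) x = invp (atJ D.J x) (at2 (S.A e S.one P : F2 E4 M) x) +
          (|C1| * e ^ 2) • (ah x • at2 D.F x) := by
        have h1 : at2 (Q : F2 E4 M) x = invp (atJ D.J x) (at2 (S.A e S.one P : F2 E4 M) x) +
          (|C1| * e ^ 2) • at2 (c : F2 E4 M) x := rfl
        rw [h1, hc]; rfl
      show q (at2 D.F x) (at2 (Q : F2 E4 M) x) (at2 D.F x) =
        q (at2 D.F x) (at2 (S.A e S.one P : F2 E4 M) x) (at2 D.F x) + _
      rw [e0, q_add_left, q_smul_left, q_smul_left, En4.q_F_invp (D.sq x) hFp hAalt,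
        En4.q_F_F (D.sq x) hFp]
      ring
    have e4 := hC3 e he hee P hP
    have e5 : 0 ≤ ∫ x, ah x ∂D.μ := integral_nonneg hah0
    have e6 : ∫ x, (√2 * |C1| * e ^ 2 * g x - (1 - C3 * e)) * qG D.F (P : F2 E4 M) D.F x ∂D.μ =
        |C1| * e ^ 2 * ∫ x, h x * g x ∂D.μ - (1 - C3 * e) * D.I (P : F2 E4 M) D.F := by
      show _ = _ - (1 - C3 * e) * ∫ x, qG D.F (P : F2 E4 M) D.F x ∂D.μ
      have j1 : Integrable (fun x => |C1| * e ^ 2 * (h x * g x)) D.μ :=
        cont_int (continuous_const.mul (hhc.mul hgc))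
      have j2 : Integrable (fun x => (1 - C3 * e) * qG D.F (P : F2 E4 M) D.F x) D.μ :=
        cont_int (continuous_const.mul hqc)
      rw [← integral_const_mul, ← integral_const_mul, ← integral_sub j1 j2]
      refine integral_congr_ae (Eventually.of_forall fun x => ?_)
      simp only [hh]
      ring
    rw [e6]
    rw [e2, e3] at e1
    have e7 : 0 ≤ |C1| * e ^ 2 * ∫ x, ah x ∂D.μ := mul_nonneg (by positivity) e5
    linarith
  have hge := hgeF b (fun x => √2 * |C1| * e ^ 2 * g x - (1 - C3 * e))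
    ((continuous_const.mul hgc).sub continuous_const) key
  refine ⟨b, hbZ, g, hgc, fun x => ⟨hg0 x, ?_⟩, ?_, ?_⟩
  · -- density bound
    refine (hgle x).trans ?_
    have h1 : s.real (ball x (C4 * e)) ≤ s.real (ball x (C * e)) :=
      measureReal_mono (ball_subset_ball (by gcongr)) (measure_ne_top s _)
    have h0 : 0 ≤ s.real (ball x (C4 * e)) := measureReal_nonneg
    have hC4p : 0 ≤ C4 := by linarith
    calc C4 / e ^ 4 * s.real (ball x (C4 * e)) ≤ C / e ^ 4 * s.real (ball x (C * e)) := by gcongr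
      _ = _ := by ring
  · -- lower bound
    intro x v
    have h1 := hge x v
    refine le_trans ?_ h1
    refine mul_le_mul_of_nonneg_right ?_ (hF0 x v)
    have h2 : C3 * e ≤ C * e := by
      have := le_abs_self C3
      gcongr
      linarith
    have h3 : √2 * |C1| * e ^ 2 * g x ≤ C * e ^ 2 * g x := by
      have := hg0 x
      gcongr
    linarith
  · -- the anti-invariant part
    have h1 := hanti b (fun x => C * e * g x) (continuous_const.mul hgc)
      (fun x => mul_nonneg (by positivity) (hg0 x)) ?_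
    · exact h1
    · intro c h hS hle
      have hh0 : ∀ x, 0 ≤ h x := fun x => (Real.sqrt_nonneg _).trans (hle x)
      have hhc := SmoothF.cont hS
      have hahc := SmoothF.cont (S.a_smooth e he hee h hS)
      rw [← hb, hInv]
      have h2 : D.pi' (D.pi' (S.A e S.one (D.pi'' c))) = D.pi' (S.A e S.one (D.pi'' c)) := by
        apply Subtype.ext
        funext x
        exact invp_of_inv (invp_inv (D.sq x) _)
      have h3 := hRM.bound (D.pi' (S.A e S.one (D.pi'' c)))
      rw [h2] at h3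
      refine h3.trans ?_
      have h4 := hC2 e S.one he hee hone c h hS hle
      have h5 : ∫ x, D.nr (D.pi' (S.A e S.one (D.pi'' c)) : F2 E4 M) x ∂s ≤
          ∫ x, C2 * e * S.a e h x ∂s :=
        integral_mono (cont_int (continuous_nr D _)) ((cont_int hahc).const_mul _) h4
      rw [integral_const_mul, hgd h hS] at h5
      have h6 : 0 ≤ ∫ x, h x * g x ∂D.μ := integral_nonneg fun x => mul_nonneg (hh0 x) (hg0 x)
      have h7 : ∫ x, h x * (C * e * g x) ∂D.μ = C * e * ∫ x, h x * g x ∂D.μ := by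
        rw [← integral_const_mul]
        refine integral_congr_ae (Eventually.of_forall fun x => ?_)
        simp only
        ring
      rw [h7]
      have h8 : 2 * (C2 * e * ∫ x, h x * g x ∂D.μ) ≤ C * e * ∫ x, h x * g x ∂D.μ := by
        have h9 : 2 * C2 ≤ C := by linarith [le_abs_self C2]
        calc 2 * (C2 * e * ∫ x, h x * g x ∂D.μ) = 2 * C2 * (e * ∫ x, h x * g x ∂D.μ) := by ring
          _ ≤ C * (e * ∫ x, h x * g x ∂D.μ) := by gcongr
          _ = _ := by ring
      linarith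

end

end Crest.Agent.R240.N8A
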