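import Mathlib
import Crest.Agent.R240.LocDef
import Crest.Agent.R240.Met
import Crest.Agent.R240.Lin4
import Crest.Agent.R240.FormDefs

-- ▼ part R240/Pol1
section

/-!
Row 240 (S0371), node N6 (helper768): potentials on `M` versus potentials in a chart.
-/

set_option autoImplicit false
set_option linter.unusedSectionVars false

open MeasureTheory Metric Set Filter
open scoped ContDiff ENNReal Manifold Topology

namespace Crest.Agent.R240.Pol

open Crest.Agent.R240

section General

variable {X Y : Type*} [MetricSpace X] [MeasurableSpace X] [BorelSpace X]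
  [MetricSpace Y] [MeasurableSpace Y] [BorelSpace Y]

/-- the potential is measurable. -/
theorem measurable_wpot [SecondCountableTopology X] (s : Measure X) [SFinite s] :
    Measurable (wpot s) := by
  unfold wpot
  apply Measurable.lintegral_prod_right'
    (f := fun z : X × X => (edist z.1 z.2 ^ 2)⁻¹)
  exact ((measurable_fst.edist measurable_snd).pow_const 2).inv


/-- potential of the push-forward measure. -/
theorem wpot_map_le {A : Set X} (hA : MeasurableSet A) {f : X → Y}
    {s : Measure X} (hf : AEMeasurable f (s.restrict A)) {c : ℝ} (hc : 0 < c)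
    (hbi : ∀ x ∈ A, ∀ x' ∈ A, c * dist x x' ≤ dist (f x) (f x')) {x : X} (hx : x ∈ A) :
    wpot ((s.restrict A).map f) (f x) ≤ ENNReal.ofReal (c⁻¹ ^ 2) * wpot s x := by
  unfold wpot
  rw [lintegral_map' _ hf]
  · calc ∫⁻ x', (edist (f x) (f x') ^ 2)⁻¹ ∂(s.restrict A)
        ≤ ∫⁻ x', ENNReal.ofReal (c⁻¹ ^ 2) * (edist x x' ^ 2)⁻¹ ∂(s.restrict A) := by
          apply setLIntegral_mono' hA
          intro x' hx'
          have h := hbi x hx x' hx'
          have h1 : ENNReal.ofReal c * edist x x' ≤ edist (f x) (f x') := by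
            rw [edist_dist, edist_dist, ← ENNReal.ofReal_mul hc.le]
            exact ENNReal.ofReal_le_ofReal h
          have hc0 : ENNReal.ofReal c ≠ 0 := by simpa using hc
          have hct : ENNReal.ofReal c ≠ ⊤ := ENNReal.ofReal_ne_top
          calc (edist (f x) (f x') ^ 2)⁻¹ ≤ ((ENNReal.ofReal c * edist x x') ^ 2)⁻¹ := by
                apply ENNReal.inv_le_inv.2
                gcongr
            _ = ENNReal.ofReal (c⁻¹ ^ 2) * (edist x x' ^ 2)⁻¹ := by
                rw [mul_pow, ENNReal.mul_inv (Or.inl (by positivity)) (Or.inl (by finiteness))]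
                congr 1
                rw [← ENNReal.ofReal_pow hc.le, ← ENNReal.ofReal_inv_of_pos (by positivity),
                  inv_pow]
      _ ≤ ∫⁻ x', ENNReal.ofReal (c⁻¹ ^ 2) * (edist x x' ^ 2)⁻¹ ∂s :=
          lintegral_mono' Measure.restrict_le_self le_rfl
      _ = _ := by
          rw [lintegral_const_mul']
          exact ENNReal.ofReal_ne_top
  · exact (measurable_edist_right.pow_const 2).inv.aemeasurable

/-- the potential on `X` from the potential of the push-forward. -/
theorem wpot_le_map {A : Set X} (hA : MeasurableSet A) {f : X → Y}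
    {s : Measure X} (hf : AEMeasurable f (s.restrict A)) {C : ℝ} (hC : 0 < C)
    (hbi : ∀ x ∈ A, ∀ x' ∈ A, dist (f x) (f x') ≤ C * dist x x') {x : X} (hx : x ∈ A)
    {δ : ℝ} (hδ : 0 < δ) (hball : ∀ x', x' ∉ A → δ ≤ dist x x') :
    wpot s x ≤ ENNReal.ofReal (C ^ 2) * wpot ((s.restrict A).map f) (f x)
      + ENNReal.ofReal (δ⁻¹ ^ 2) * s univ := by
  unfold wpot
  rw [← lintegral_add_compl _ hA]
  gcongr
  · rw [lintegral_map' _ hf]
    · rw [← lintegral_const_mul' _ _ ENNReal.ofReal_ne_top]
      apply setLIntegral_mono' hA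
      intro x' hx'
      have h := hbi x hx x' hx'
      have h1 : edist (f x) (f x') ≤ ENNReal.ofReal C * edist x x' := by
        rw [edist_dist, edist_dist, ← ENNReal.ofReal_mul hC.le]
        exact ENNReal.ofReal_le_ofReal h
      have hC0 : ENNReal.ofReal C ≠ 0 := by simpa using hC
      have hCt : ENNReal.ofReal C ≠ ⊤ := ENNReal.ofReal_ne_top
      calc (edist x x' ^ 2)⁻¹
          = ENNReal.ofReal (C ^ 2) * ((ENNReal.ofReal C * edist x x') ^ 2)⁻¹ := by
            rw [mul_pow, ENNReal.mul_inv (Or.inl (by positivity)) (Or.inl (by finiteness)),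
              ENNReal.ofReal_pow hC.le, ← mul_assoc, ENNReal.mul_inv_cancel (by positivity)
                (by finiteness), one_mul]
        _ ≤ ENNReal.ofReal (C ^ 2) * (edist (f x) (f x') ^ 2)⁻¹ := by
            gcongr
    · exact (measurable_edist_right.pow_const 2).inv.aemeasurable
  · calc ∫⁻ x', (edist x x' ^ 2)⁻¹ ∂(s.restrict Aᶜ)
        ≤ ∫⁻ x', ENNReal.ofReal (δ⁻¹ ^ 2) ∂(s.restrict Aᶜ) := by
          apply setLIntegral_mono' hA.compl
          intro x' hx'
          have h := hball x' hx'
          have h1 : ENNReal.ofReal δ ≤ edist x x' := by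
            rw [edist_dist]; exact ENNReal.ofReal_le_ofReal h
          calc (edist x x' ^ 2)⁻¹ ≤ (ENNReal.ofReal δ ^ 2)⁻¹ := by
                apply ENNReal.inv_le_inv.2
                gcongr
            _ = ENNReal.ofReal (δ⁻¹ ^ 2) := by
                rw [← ENNReal.ofReal_pow hδ.le, ← ENNReal.ofReal_inv_of_pos (by positivity),
                  inv_pow]
      _ ≤ _ := by
          rw [lintegral_const]
          gcongr
          exact Measure.restrict_le_self

/-- the two potentials are finite at the same points. -/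
theorem wpot_map_lt_top_iff {A : Set X} (hA : MeasurableSet A) {f : X → Y}
    {s : Measure X} [IsFiniteMeasure s] (hf : AEMeasurable f (s.restrict A)) {c C : ℝ} (hc : 0 < c)
    (hC : 0 < C) (hbi : ∀ x ∈ A, ∀ x' ∈ A, c * dist x x' ≤ dist (f x) (f x'))
    (hbi' : ∀ x ∈ A, ∀ x' ∈ A, dist (f x) (f x') ≤ C * dist x x') {x : X}
    (hx : x ∈ interior A) :
    wpot ((s.restrict A).map f) (f x) < ⊤ ↔ wpot s x < ⊤ := by
  have hxA : x ∈ A := interior_subset hx
  constructor
  · intro h
    obtain ⟨δ, hδ, hb⟩ := Metric.mem_nhds_iff.1 (mem_interior_iff_mem_nhds.1 hx)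
    refine (wpot_le_map hA hf hC hbi' hxA hδ ?_).trans_lt ?_
    · intro x' hx'
      by_contra hlt
      push Not at hlt
      exact hx' (hb (by rwa [mem_ball, dist_comm]))
    · have h1 : s univ < ⊤ := measure_lt_top s univ
      exact ENNReal.add_lt_top.2 ⟨ENNReal.mul_lt_top ENNReal.ofReal_lt_top h,
        ENNReal.mul_lt_top ENNReal.ofReal_lt_top h1⟩
  · intro h
    exact (wpot_map_le hA hf hc hbi hxA).trans_lt (ENNReal.mul_lt_top ENNReal.ofReal_lt_top h)

/-- quadratic growth of the push-forward. -/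
theorem map_ball_le {A : Set X} (hA : MeasurableSet A) {f : X → Y}
    {s : Measure X} (hf : AEMeasurable f (s.restrict A)) {c : ℝ} (hc : 0 < c)
    (hbi : ∀ x ∈ A, ∀ x' ∈ A, c * dist x x' ≤ dist (f x) (f x')) {D : ℝ}
    (hs : ∀ x r, 0 < r → s (ball x r) ≤ ENNReal.ofReal (D * r ^ 2)) (y : Y) (r : ℝ) (hr : 0 < r) :
    ((s.restrict A).map f) (ball y r) ≤ ENNReal.ofReal (D * (2 * c⁻¹) ^ 2 * r ^ 2) := by
  rw [Measure.map_apply_of_aemeasurable hf measurableSet_ball,
    Measure.restrict_apply' hA]
  by_cases hne : (f ⁻¹' ball y r ∩ A).Nonempty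
  · obtain ⟨x, hx1, hx2⟩ := hne
    calc s (f ⁻¹' ball y r ∩ A) ≤ s (ball x (2 * c⁻¹ * r)) := by
          apply measure_mono
          rintro x' ⟨h1, h2⟩
          have h3 := hbi x' h2 x hx2
          have h4 : dist (f x') (f x) < 2 * r := by
            have := dist_triangle_right (f x') (f x) y
            have h5 : dist (f x') y < r := h1
            have h6 : dist (f x) y < r := hx1
            linarith
          rw [mem_ball]
          have h7 : c * dist x' x < 2 * r := lt_of_le_of_lt h3 h4
          calc dist x' x = c⁻¹ * (c * dist x' x) := by field_simp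
            _ < c⁻¹ * (2 * r) := by gcongr
            _ = 2 * c⁻¹ * r := by ring
      _ ≤ ENNReal.ofReal (D * (2 * c⁻¹ * r) ^ 2) := hs _ _ (by positivity)
      _ = _ := by congr 1; ring
  · rw [not_nonempty_iff_eq_empty] at hne
    rw [hne, measure_empty]
    exact bot_le

end General

end Crest.Agent.R240.Pol
end

-- ▼ part R240/Pol2
section

/-!
Row 240 (S0371), node N6 (helper768): reduction of the local poles theorem for `J`, `F` smooth on
an open set to the case of globally defined `J`, `F`.
-/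

set_option autoImplicit false
set_option linter.unusedSectionVars false
set_option maxSynthPendingDepth 3

open MeasureTheory Metric Set Filter
open scoped ContDiff ENNReal Manifold Topology

namespace Crest.Agent.R240.Pol

open Crest.Agent.R240 Crest.Agent.R240.En

/-- a smooth map of `E4` into a ball, equal to the identity on a smaller ball. -/
theorem exists_retr (x0 : E4) {R : ℝ} (hR : 0 < R) :
    ∃ r : E4 → E4, ContDiff ℝ ∞ r ∧ (∀ y ∈ closedBall x0 (2 * R), r y = y) ∧
      (∀ y, r y ∈ ball x0 (3 * R)) ∧ ∀ y, ‖x0‖ + 3 * R ≤ ‖y‖ → r y = x0 := by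
  let χ : ContDiffBump x0 := ⟨2 * R, 3 * R, by positivity, by linarith⟩
  refine ⟨fun y => x0 + χ y • (y - x0), ?_, ?_, ?_, ?_⟩
  · exact contDiff_const.add (χ.contDiff.smul (contDiff_id.sub contDiff_const))
  · intro y hy
    have h1 : χ y = 1 := χ.one_of_mem_closedBall hy
    simp [h1]
  · intro y
    rw [mem_ball, dist_eq_norm, add_sub_cancel_left]
    by_cases hy : y ∈ ball x0 (3 * R)
    · rw [norm_smul, Real.norm_of_nonneg χ.nonneg]
      have h1 : ‖y - x0‖ < 3 * R := by rwa [mem_ball, dist_eq_norm] at hy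
      have h2 : χ y ≤ 1 := χ.le_one
      have h3 : 0 ≤ χ y := χ.nonneg
      calc χ y * ‖y - x0‖ ≤ 1 * ‖y - x0‖ := by gcongr
        _ < 3 * R := by linarith
    · have h1 : χ y = 0 := by
        apply χ.zero_of_le_dist
        change 3 * R ≤ dist y x0
        rw [mem_ball] at hy; linarith
      simp [h1, hR]
  · intro y hy
    have h1 : χ y = 0 := by
      apply χ.zero_of_le_dist
      change 3 * R ≤ dist y x0
      rw [dist_eq_norm]
      have := norm_sub_norm_le y x0
      linarith
    simp [h1]

/-- composition with the retraction gives global background data. -/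
theorem bg_comp {J : E4 → E4 →L[ℝ] E4} {F : E4 → Bil} {U : Set E4} (hU : IsOpen U)
    (hJ : ContDiffOn ℝ ∞ J U) (hF : ContDiffOn ℝ ∞ F U) (hsq : ∀ y ∈ U, ∀ v, J y (J y v) = -v)
    (hpos : ∀ y ∈ U, SPos (J y) (F y)) {r : E4 → E4} (hr : ContDiff ℝ ∞ r) (hrU : ∀ y, r y ∈ U)
    {R' : ℝ} {x0 : E4} (hcst : ∀ y, R' ≤ ‖y‖ → r y = x0) :
    Bg (fun y => J (r y)) (fun y => F (r y)) where
  smJ := by
    rw [contDiff_iff_contDiffAt]
    intro y
    exact (hJ.contDiffAt (hU.mem_nhds (hrU y))).comp y hr.contDiffAt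
  smF := by
    rw [contDiff_iff_contDiffAt]
    intro y
    exact (hF.contDiffAt (hU.mem_nhds (hrU y))).comp y hr.contDiffAt
  sq y v := hsq _ (hrU y) v
  pos y := hpos _ (hrU y)
  cst := ⟨R', J x0, F x0, fun y hy => by simp [hcst y hy]⟩

/-- `q F F F = 1`. -/
theorem q_self_of_spos {J : E4 →L[ℝ] E4} (hJ : ∀ v, J (J v) = -v) {F : Bil} (hF : SPos J F) :
    q F F F = 1 := by
  obtain ⟨A, hA⟩ := exists_frame hJ hF
  exact div_self (hA.W_ne hF.alt)

/-- the local poles theorem for data which are only defined on an open set. -/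
theorem closedIn_core (LP : LocalPoles) {J : E4 → E4 →L[ℝ] E4} {F : E4 → Bil} {U : Set E4}
    (hU : IsOpen U)
    (hJ : ContDiffOn ℝ ∞ J U) (hF : ContDiffOn ℝ ∞ F U) (hsq : ∀ y ∈ U, ∀ v, J y (J y v) = -v)
    (hpos : ∀ y ∈ U, SPos (J y) (F y)) {x0 : E4} {R : ℝ} (hR : 0 < R)
    (hKU : closedBall x0 (3 * R) ⊆ U) {s : Measure E4} [IsFiniteMeasure s]
    (hs0 : s (closedBall x0 (2 * R))ᶜ = 0) {C : ℝ}
    (hs : ∀ y r, 0 < r → s (ball y r) ≤ ENNReal.ofReal (C * r ^ 2)) {φ : E4 → Bil}
    (hφ : Measurable φ) (hφp : ∀ y ∈ closedBall x0 (2 * R), Pos (J y) (φ y))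
    (hφn : ∀ y ∈ closedBall x0 (2 * R), q (F y) (φ y) (F y) = 1)
    (hcl : ClosedIn F s φ (ball x0 (2 * R))) :
    ClosedIn F (s.restrict {y | wpot s y < ⊤}) φ (ball x0 R) := by
  classical
  obtain ⟨r, hr, hr1, hr2, hr3⟩ := exists_retr x0 hR
  have hrU : ∀ y, r y ∈ U := fun y => hKU (ball_subset_closedBall (hr2 y))
  have hbg := bg_comp hU hJ hF hsq hpos hr hrU hr3
  set K : Set E4 := closedBall x0 (2 * R) with hK
  have hKm : MeasurableSet K := isClosed_closedBall.measurableSet
  set φ' : E4 → Bil := fun y => if y ∈ K then φ y else F (r y) with hφ'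
  have hd : Dens (fun y => J (r y)) (fun y => F (r y)) φ' := by
    refine ⟨?_, ?_, ?_⟩
    · exact Measurable.ite hKm hφ hbg.smF.continuous.measurable
    · intro y
      by_cases hy : y ∈ K
      · simp only [hφ', if_pos hy, hr1 y hy]
        exact hφp y hy
      · simp only [hφ', if_neg hy]
        have h := hbg.pos y
        exact ⟨h.alt, h.inv, fun v => by
          by_cases hv : v = 0
          · simp [hv]
          · exact (h.pos v hv).le⟩
    · intro y
      by_cases hy : y ∈ K
      · simp only [hφ', if_pos hy, hr1 y hy]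
        exact hφn y hy
      · simp only [hφ', if_neg hy]
        exact q_self_of_spos (hbg.sq y) (hbg.pos y)
  have hae : ∀ᵐ y ∂s, y ∈ K := by
    rw [ae_iff]
    exact hs0
  have heq : ∀ S : E4 → Cov, ∀ s' : Measure E4, s' ≤ s →
      ∫ y, q (F (r y)) (φ' y) (d1 S y) ∂s' = ∫ y, q (F y) (φ y) (d1 S y) ∂s' := by
    intro S s' hs'
    apply integral_congr_ae
    have hae' : ∀ᵐ y ∂s', y ∈ K := (Measure.absolutelyContinuous_of_le hs').ae_le hae
    filter_upwards [hae'] with y hy
    simp only [hφ', if_pos hy, hr1 y hy]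
  have h := LP _ _ hbg x0 R hR s inferInstance C hs φ' hd (by
    intro S h1 h2 h3
    rw [heq S s le_rfl]
    exact hcl S h1 h2 h3)
  intro S h1 h2 h3
  have := h S h1 h2 h3
  rw [heq S _ Measure.restrict_le_self] at this
  exact this

end Crest.Agent.R240.Pol
end

-- ▼ part R240/Pol3

/-!
Row 240 (S0371), node N6 (helper768): the local poles theorem transported to a chart of `M`.
-/

set_option autoImplicit false
set_option linter.unusedSectionVars false
set_option maxSynthPendingDepth 3

open MeasureTheory Metric Set Filter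
open scoped ContDiff ENNReal Manifold Topology

namespace Crest.Agent.R240.Pol

open Crest.Agent.R240 Crest.Agent.R240.Ch

variable {M : Type*} [MetricSpace M] [CompactSpace M] [MeasurableSpace M] [BorelSpace M]
  [ChartedSpace E4 M] [IsManifold 𝓘(ℝ, E4) ∞ M]

/-- the core of a chart. -/
def core (p : M) (K : Set E4) : Set M := (chartAt E4 p).symm '' K

/-- push-forward of `s`, restricted to a core, to the model space. -/
noncomputable def chMeas (p : M) (K : Set E4) (s : Measure M) : Measure E4 :=
  (s.restrict (core p K)).map (chartAt E4 p)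

variable {p : M} {K : Set E4}

theorem core_sub (hKt : K ⊆ (chartAt E4 p).target) : core p K ⊆ (chartAt E4 p).source := by
  rintro _ ⟨y, hy, rfl⟩
  exact symm_mem (hKt hy)

theorem core_compact (hK : IsCompact K) (hKt : K ⊆ (chartAt E4 p).target) :
    IsCompact (core p K) :=
  hK.image_of_continuousOn ((chartAt E4 p).continuousOn_symm.mono hKt)

theorem core_meas (hK : IsCompact K) (hKt : K ⊆ (chartAt E4 p).target) :
    MeasurableSet (core p K) := (core_compact hK hKt).measurableSet

theorem chart_core_mem (hKt : K ⊆ (chartAt E4 p).target) {x : M} (hx : x ∈ core p K) :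
    chartAt E4 p x ∈ K := by
  obtain ⟨y, hy, rfl⟩ := hx
  rwa [(chartAt E4 p).right_inv (hKt hy)]

theorem mem_core_iff (hKt : K ⊆ (chartAt E4 p).target) {x : M}
    (hx : x ∈ (chartAt E4 p).source) : x ∈ core p K ↔ chartAt E4 p x ∈ K := by
  constructor
  · exact chart_core_mem hKt
  · intro h
    exact ⟨_, h, (chartAt E4 p).left_inv hx⟩

theorem aemeas_chart (hK : IsCompact K) (hKt : K ⊆ (chartAt E4 p).target) (s : Measure M) :
    AEMeasurable (chartAt E4 p) (s.restrict (core p K)) :=
  ((chartAt E4 p).continuousOn.mono (core_sub hKt)).aemeasurable (core_meas hK hKt)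

instance (s : Measure M) [IsFiniteMeasure s] : IsFiniteMeasure (chMeas p K s) := by
  unfold chMeas; infer_instance

theorem chMeas_compl (hK : IsCompact K) (hKt : K ⊆ (chartAt E4 p).target) (s : Measure M) :
    chMeas p K s Kᶜ = 0 := by
  unfold chMeas
  rw [Measure.map_apply_of_aemeasurable (aemeas_chart hK hKt s) hK.measurableSet.compl,
    Measure.restrict_apply' (core_meas hK hKt)]
  convert measure_empty (μ := s)
  ext x
  simp only [mem_inter_iff, mem_preimage, mem_compl_iff, mem_empty_iff_false, iff_false, not_and]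
  intro h1 h2
  exact h1 (chart_core_mem hKt h2)

theorem interior_core (hKt : K ⊆ (chartAt E4 p).target) {x : M}
    (hx : x ∈ (chartAt E4 p).source) (hy : chartAt E4 p x ∈ interior K) :
    x ∈ interior (core p K) := by
  rw [mem_interior]
  refine ⟨(chartAt E4 p).symm '' interior K, image_mono interior_subset, ?_, ?_⟩
  · exact (chartAt E4 p).isOpen_image_symm_of_subset_target isOpen_interior
      (interior_subset.trans hKt)
  · exact ⟨_, hy, (chartAt E4 p).left_inv hx⟩

theorem bilip_core (hb : Met.BiLip E4 M) (hK : IsCompact K) (hKt : K ⊆ (chartAt E4 p).target) :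
    ∃ c C : ℝ, 0 < c ∧ 0 < C ∧ (∀ x ∈ core p K, ∀ x' ∈ core p K,
      c * dist x x' ≤ dist (chartAt E4 p x) (chartAt E4 p x')) ∧
      (∀ x ∈ core p K, ∀ x' ∈ core p K,
      dist (chartAt E4 p x) (chartAt E4 p x') ≤ C * dist x x') := by
  obtain ⟨c, C, hc, hC, h⟩ := hb p K hK hKt
  refine ⟨C⁻¹, c⁻¹, by positivity, by positivity, ?_, ?_⟩
  · rintro _ ⟨y, hy, rfl⟩ _ ⟨z, hz, rfl⟩
    rw [(chartAt E4 p).right_inv (hKt hy), (chartAt E4 p).right_inv (hKt hz), dist_eq_norm y z]
    rw [inv_mul_le_iff₀ hC]
    exact (h y hy z hz).2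
  · rintro _ ⟨y, hy, rfl⟩ _ ⟨z, hz, rfl⟩
    rw [(chartAt E4 p).right_inv (hKt hy), (chartAt E4 p).right_inv (hKt hz), dist_eq_norm y z]
    rw [le_inv_mul_iff₀ hc]
    exact (h y hy z hz).1

theorem wpot_chMeas_iff (hb : Met.BiLip E4 M) (hK : IsCompact K)
    (hKt : K ⊆ (chartAt E4 p).target) (s : Measure M) [IsFiniteMeasure s] {x : M}
    (hx : x ∈ (chartAt E4 p).source) (hy : chartAt E4 p x ∈ interior K) :
    wpot (chMeas p K s) (chartAt E4 p x) < ⊤ ↔ wpot s x < ⊤ := by
  obtain ⟨c, C, hc, hC, h1, h2⟩ := bilip_core hb hK hKt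
  exact wpot_map_lt_top_iff (core_meas hK hKt) (aemeas_chart hK hKt s) hc hC h1 h2
    (interior_core hKt hx hy)

theorem chMeas_ball_le (hb : Met.BiLip E4 M) (hK : IsCompact K)
    (hKt : K ⊆ (chartAt E4 p).target) {s : Measure M} {D : ℝ}
    (hs : ∀ x r, 0 < r → s (ball x r) ≤ ENNReal.ofReal (D * r ^ 2)) :
    ∃ D' : ℝ, ∀ y r, 0 < r → chMeas p K s (ball y r) ≤ ENNReal.ofReal (D' * r ^ 2) := by
  obtain ⟨c, C, hc, hC, h1, h2⟩ := bilip_core hb hK hKt
  exact ⟨_, fun y r hr => map_ball_le (core_meas hK hKt) (aemeas_chart hK hKt s) hc h1 hs y r hr⟩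

theorem integral_chMeas (hK : IsCompact K) (hKt : K ⊆ (chartAt E4 p).target) (s : Measure M)
    {g : E4 → ℝ} (hg : AEStronglyMeasurable g (chMeas p K s)) :
    ∫ y, g y ∂(chMeas p K s) = ∫ x in core p K, g (chartAt E4 p x) ∂s := by
  unfold chMeas
  rw [integral_map (aemeas_chart hK hKt s) hg]

/-! ### transport of pointwise properties to the chart -/

theorem repJ_sq {J : EndF E4 M} (hJ2 : ∀ x v, atJ J x (atJ J x v) = -v) {y : E4}
    (hy : y ∈ (chartAt E4 p).target) (v : E4) : repJ p J y (repJ p J y v) = -v := by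
  rw [repJ_apply, repJ_apply, tcc_cancel' (symm_mem hy), hJ2, map_neg, tcc_cancel (symm_mem hy)]

theorem spos_rep {J : EndF E4 M} {F : F2 E4 M} (hF : SPosG J F) {y : E4}
    (hy : y ∈ (chartAt E4 p).target) : SPos (repJ p J y) (rep p F y) := by
  have h := hF ((chartAt E4 p).symm y)
  refine ⟨fun v => ?_, fun u v => ?_, fun v hv => ?_⟩
  · rw [rep_apply]; exact h.alt _
  · rw [rep_apply, repJ_apply, repJ_apply, tcc_cancel' (symm_mem hy), tcc_cancel' (symm_mem hy),
      h.inv, rep_apply]
  · rw [rep_apply, repJ_apply, tcc_cancel' (symm_mem hy)]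
    apply h.pos
    intro h0
    apply hv
    have := tcc_cancel (E := E4) (symm_mem hy) v
    rw [h0, map_zero] at this
    exact this.symm

/-! ### measurability -/

theorem measurable_ent {X : Type*} [MeasurableSpace X] {f : X → Bil} (hf : Measurable f)
    (i j : Fin 4) : Measurable fun x => ent (f x) i j := by
  have h : Continuous fun b : Bil => b (ee i) (ee j) := by fun_prop
  exact h.measurable.comp hf

theorem measurable_W {X : Type*} [MeasurableSpace X] {f g : X → Bil} (hf : Measurable f)
    (hg : Measurable g) : Measurable fun x => W (f x) (g x) := by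
  have h := measurable_ent hf
  have h' := measurable_ent hg
  unfold W
  exact (((((((h 0 1).mul (h' 2 3)).sub ((h 0 2).mul (h' 1 3))).add ((h 0 3).mul (h' 1 2))).add
    ((h 1 2).mul (h' 0 3))).sub ((h 1 3).mul (h' 0 2))).add ((h 2 3).mul (h' 0 1)))

theorem measurable_q {X : Type*} [MeasurableSpace X] {f g k : X → Bil} (hf : Measurable f)
    (hg : Measurable g) (hk : Measurable k) : Measurable fun x => q (f x) (g x) (k x) :=
  (measurable_W hg hk).div (measurable_W hf hf)

/-- the integrand of the chart formula is a.e.-measurable. -/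
theorem aesm_integrand {F : F2 E4 M} (hF : Smooth2 F) {x0 : E4} {R : ℝ} (hR : 0 < R)
    (hKt : closedBall x0 (3 * R) ⊆ (chartAt E4 p).target) (s : Measure M) {φ : E4 → Bil}
    (hφ : Measurable φ) {β : E4 → Bil} (hβ : Measurable β) :
    AEStronglyMeasurable (fun y => q (rep p F y) (φ y) (β y))
      (chMeas p (closedBall x0 (2 * R)) s) := by
  obtain ⟨r, hr, hr1, hr2, hr3⟩ := exists_retr x0 hR
  have hsub : closedBall x0 (2 * R) ⊆ (chartAt E4 p).target :=
    (closedBall_subset_closedBall (by linarith)).trans hKt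
  have hFr : Continuous fun y => rep p F (r y) := by
    rw [continuous_iff_continuousAt]
    intro y
    have hy : r y ∈ (chartAt E4 p).target := hKt (ball_subset_closedBall (hr2 y))
    have h1 : ContinuousAt (rep p F) (r y) :=
      ((hF.2 p).continuousOn).continuousAt ((chartAt E4 p).open_target.mem_nhds hy)
    exact h1.comp hr.continuous.continuousAt
  refine ⟨fun y => q (rep p F (r y)) (φ y) (β y),
    (measurable_q hFr.measurable hφ hβ).stronglyMeasurable, ?_⟩
  have hae : ∀ᵐ y ∂(chMeas p (closedBall x0 (2 * R)) s), y ∈ closedBall x0 (2 * R) := by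
    rw [ae_iff]
    exact chMeas_compl (isCompact_closedBall _ _) hsub s
  filter_upwards [hae] with y hy
  rw [hr1 y hy]

/-- **the local poles theorem in a chart of `M`.** -/
theorem chart_zero (LP : LocalPoles) (hb : Met.BiLip E4 M) {J : EndF E4 M} (hJ : SmoothJ J)
    (hJ2 : ∀ x v, atJ J x (atJ J x v) = -v) {F : F2 E4 M} (hF : Smooth2 F) (hpos : SPosG J F)
    {x0 : E4} {R : ℝ} (hR : 0 < R) (hKt : closedBall x0 (3 * R) ⊆ (chartAt E4 p).target)
    (s : Measure M) [IsFiniteMeasure s] {D : ℝ}
    (hs : ∀ x r, 0 < r → s (ball x r) ≤ ENNReal.ofReal (D * r ^ 2)) {φ : E4 → Bil}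
    (hφ : Measurable φ) (hφp : ∀ y ∈ closedBall x0 (2 * R), Pos (repJ p J y) (φ y))
    (hφn : ∀ y ∈ closedBall x0 (2 * R), q (rep p F y) (φ y) (rep p F y) = 1)
    (hcl : ∀ S : E4 → En.Cov, ContDiff ℝ ∞ S → HasCompactSupport S → tsupport S ⊆ ball x0 (2 * R) →
      ∫ x in core p (closedBall x0 (2 * R)), q (rep p F (chartAt E4 p x)) (φ (chartAt E4 p x))
        (En.d1 S (chartAt E4 p x)) ∂s = 0)
    {S : E4 → En.Cov} (hS : ContDiff ℝ ∞ S) (hSc : HasCompactSupport S)
    (hSs : tsupport S ⊆ ball x0 R) :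
    ∫ x in {x | wpot s x < ⊤}, (core p (closedBall x0 (2 * R))).indicator
      (fun x => q (rep p F (chartAt E4 p x)) (φ (chartAt E4 p x))
        (En.d1 S (chartAt E4 p x))) x ∂s = 0 := by
  set K : Set E4 := closedBall x0 (2 * R) with hKdef
  have hK : IsCompact K := isCompact_closedBall _ _
  have hKsub : K ⊆ (chartAt E4 p).target :=
    (closedBall_subset_closedBall (by linarith)).trans hKt
  obtain ⟨D', hD'⟩ := chMeas_ball_le hb hK hKsub hs
  have hSm : ∀ S : E4 → En.Cov, ContDiff ℝ ∞ S → Measurable (En.d1 S) := by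
    intro S hS
    have h1 : Continuous (fderiv ℝ S) := hS.continuous_fderiv (by simp)
    have h2 : Continuous fun y => fderiv ℝ S y - (fderiv ℝ S y).flip :=
      h1.sub ((ContinuousLinearMap.flipₗᵢ ℝ E4 E4 ℝ).continuous.comp h1)
    exact h2.measurable
  have hcore := closedIn_core LP (chartAt E4 p).open_target (hJ p) (hF.2 p)
    (fun y hy v => repJ_sq hJ2 hy v) (fun y hy => spos_rep hpos hy) hR hKt
    (chMeas_compl hK hKsub s) hD' hφ hφp hφn (by
      intro S h1 h2 h3
      rw [integral_chMeas hK hKsub s (aesm_integrand hF hR hKt s hφ (hSm S h1))]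
      exact hcl S h1 h2 h3)
  have h0 := hcore S hS hSc hSs
  have hwm : MeasurableSet {y | wpot (chMeas p K s) y < ⊤} :=
    measurableSet_lt (measurable_wpot _) measurable_const
  have hGm : MeasurableSet {x | wpot s x < ⊤} :=
    measurableSet_lt (measurable_wpot _) measurable_const
  have hA : MeasurableSet (core p K) := core_meas hK hKsub
  rw [← integral_indicator hwm, integral_chMeas hK hKsub s
    ((aesm_integrand hF hR hKt s hφ (hSm S hS)).indicator hwm), ← integral_indicator hA] at h0
  rw [← integral_indicator hGm, ← h0]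
  congr 1
  ext x
  by_cases hxA : x ∈ core p K
  · rw [indicator_of_mem hxA]
    by_cases hxS : chartAt E4 p x ∈ tsupport S
    · have hi : chartAt E4 p x ∈ interior K := by
        apply mem_interior.2 ⟨ball x0 (2 * R), ball_subset_closedBall, isOpen_ball, ?_⟩
        exact ball_subset_ball (by linarith) (hSs hxS)
      have hiff := wpot_chMeas_iff hb hK hKsub s (core_sub hKsub hxA) hi
      by_cases hw : wpot s x < ⊤
      · rw [indicator_of_mem (by exact hw), indicator_of_mem hxA, indicator_of_mem]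
        exact hiff.2 hw
      · rw [indicator_of_notMem (by exact hw), indicator_of_notMem]
        intro h
        exact hw (hiff.1 h)
    · have hz : En.d1 S (chartAt E4 p x) = 0 := by
        have h1 : fderiv ℝ S (chartAt E4 p x) = 0 := by
          have := support_fderiv_subset ℝ (f := S)
          by_contra hne
          exact hxS (this hne)
        unfold En.d1
        rw [h1]
        simp
      have hz' : ∀ F φ : Bil, q F φ 0 = 0 := by
        intro F φ; simp [q, W, ent]
      by_cases hw : wpot s x < ⊤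
      · rw [indicator_of_mem (by exact hw), indicator_of_mem hxA, hz, hz']
        by_cases hw' : chartAt E4 p x ∈ {y | wpot (chMeas p K s) y < ⊤}
        · rw [indicator_of_mem hw', hz, hz']
        · rw [indicator_of_notMem hw']
      · rw [indicator_of_notMem (by exact hw)]
        by_cases hw' : chartAt E4 p x ∈ {y | wpot (chMeas p K s) y < ⊤}
        · rw [indicator_of_mem hw', hz, hz']
        · rw [indicator_of_notMem hw']
  · rw [indicator_of_notMem hxA]
    by_cases hw : wpot s x < ⊤
    · rw [indicator_of_mem (by exact hw), indicator_of_notMem hxA]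
    · rw [indicator_of_notMem (by exact hw)]

end Crest.Agent.R240.Pol
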