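import Mathlib
import Crest.Agent.R240.Main
import Crest.Agent.R240.IntTop
import Crest.Agent.R240.IntBall
import Crest.Agent.R240.Kern
import Crest.Agent.R240.Iface
import Crest.Agent.R240.N8a
import Crest.Agent.R240.NrCm
import Crest.Agent.R240.En4G
import Crest.Agent.R240.En4E
import Crest.Agent.R240.IntNodes
import Crest.Agent.R240.MonoM4
import Crest.Agent.R240.IfaceR
import Crest.Agent.R240.En4D
import Crest.Agent.R240.Mono5
import Crest.Agent.R240.MonoPw
import Crest.Agent.R240.FAFinal_Mg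
import Crest.Agent.R240.Ch4
import Crest.Agent.R240.CmPi
import Crest.Agent.R240.Pol3
import Crest.Agent.R240.PhiR
import Crest.Agent.R240.ChDens
import Crest.Agent.R240.LocPolesFin
import Crest.Agent.R240.N1
import Crest.Agent.R240.N24
import Crest.Agent.R240.Fund
import Crest.Agent.R240.Cmp

-- ▼ part R240/TopFin
section

/-!
Row 240 (S0371), TOP (helper23): last steps.
-/

set_option autoImplicit false
set_option maxSynthPendingDepth 3

open Set Function Filter MeasureTheory Metric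
open scoped Manifold ContDiff Topology ENNReal

namespace Crest.Agent.R240

open Ch

noncomputable section

namespace Dat

variable {M : Type*} [MetricSpace M] [CompactSpace M] [ChartedSpace E4 M]
    [IsManifold 𝓘(ℝ, E4) ∞ M] [MeasurableSpace M] [BorelSpace M]

theorem sposG_of_goal (D : Dat M) (h : D.Goal) :
    ∃ c : F2 E4 M, Smooth2 c ∧ Closed2 c ∧ SPosG D.J c := by
  obtain ⟨b, hbZ, hb0, hpos⟩ := h
  refine ⟨b.1, b.2, hbZ, fun x => ⟨alt b x, ?_, hpos x⟩⟩
  intro u v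
  have h1 : antip (atJ D.J x) (at2 (b : F2 E4 M) x) = 0 := by
    have h2 : at2 ((D.pi'' b : X2 M) : F2 E4 M) x = at2 ((0 : X2 M) : F2 E4 M) x := by rw [hb0]
    exact h2
  have h2 : antip (atJ D.J x) (at2 (b : F2 E4 M) x) u v = 0 := by rw [h1]; rfl
  rw [antip_apply] at h2
  linarith

/-- node VG. -/
theorem vg_int (D : Dat M) : D.VG := by
  obtain ⟨C, hC, h⟩ := Int.dat_ball_le D
  refine ⟨C, fun x r hr => ?_⟩
  exact ENNReal.toReal_le_of_le_ofReal (by positivity) (h x r hr)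

end Dat

end

end Crest.Agent.R240
end

-- ▼ part R240/MeasDens
section

/-!
# Row 240, node N7: densities, Vitali, `θ_ε`

For finite Borel measures on a second countable metric space (`M` with a bi-Lipschitz metric, or
a chart).

`th s x r = s (ball x r) / ofReal (r^2)`.

* `tendsto_th_of_w`     : `w s x < ⊤ → th s x r → 0`
* `vitali_null`         : `s_T(B_r) ≤ C r²`, density of `s_0` is `0` on `G`, `s_0(Gᶜ) = 0`
                          ⟹ density of `s_0` is `0` `s_T`-a.e.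
* `tendsto_lintegral_th`: `∫ θ_ε dν → 0`
* `lintegral_meas_ball_sq_le`: `∫ s(B_r)² dμ ≤ A r⁴ ∫ s(B_{2r}) ds`
* `tendsto_sq`          : `∫ (s_0(B_{Kε})/ε³)² dμ → 0`
-/

namespace Crest.Agent.R240.MeasDens

open MeasureTheory Metric Set Filter Topology ENNReal Crest.Agent.R240.Kern
open Crest.Agent.R240.Kern (ker)

variable {X : Type*} [PseudoMetricSpace X] [MeasurableSpace X]

/-- The density quotient `s(B_r(x))/r²`. -/
noncomputable def th (s : Measure X) (x : X) (r : ℝ) : ℝ≥0∞ :=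
  s (ball x r) / ENNReal.ofReal (r ^ 2)

theorem th_eq_ker (s : Measure X) (x : X) {r : ℝ} (hr : 0 < r) :
    th s x r = ker 2 r * s (ball x r) := by
  unfold th
  rw [ker_of_pos 2 hr, ENNReal.div_eq_inv_mul, ENNReal.ofReal_inv_of_pos (by positivity)]

theorem w_eq_edist (s : Measure X) (x : X) :
    w s x = ∫⁻ y, (edist x y ^ 2)⁻¹ ∂s := by
  unfold w Kern.ker
  simp_rw [edist_dist]


theorem w_mono {s s' : Measure X} (h : s ≤ s') (x : X) : w s x ≤ w s' x := by
  unfold w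
  exact lintegral_mono' h le_rfl

theorem th_le_of_growth (s : Measure X) (x : X) {C : ℝ}
    (hs : ∀ r : ℝ, 0 < r → s (ball x r) ≤ ENNReal.ofReal (C * r ^ 2)) {r : ℝ} (hr : 0 < r) :
    th s x r ≤ ENNReal.ofReal C := by
  unfold th
  apply ENNReal.div_le_of_le_mul
  rw [← ENNReal.ofReal_mul' (by positivity)]
  exact hs r hr

theorem th_le_setLIntegral [OpensMeasurableSpace X] (s : Measure X) (x : X) {r : ℝ} (hr : 0 < r) :
    th s x r ≤ ∫⁻ y in ball x r, ker 2 (dist x y) ∂s := by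
  rw [th_eq_ker s x hr, ← setLIntegral_const]
  apply setLIntegral_mono' measurableSet_ball
  intro y hy
  apply ker_anti
  rw [mem_ball, dist_comm] at hy
  exact hy.le

/-- If `w(x) < ∞` then `r^{-2} s(B_r(x)) → 0`. -/
theorem tendsto_th_of_w [OpensMeasurableSpace X] (s : Measure X) (x : X) (hx : w s x < ⊤) :
    Tendsto (fun r => th s x r) (𝓝[>] (0 : ℝ)) (𝓝 0) := by
  -- first `s (ball x r) → 0`
  have h1 : Tendsto (fun r : ℝ => s (ball x r)) (𝓝[>] (0 : ℝ)) (𝓝 0) := by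
    have hup : Tendsto (fun r : ℝ => ENNReal.ofReal (r ^ 2) * w s x) (𝓝[>] (0 : ℝ)) (𝓝 0) := by
      have h2 : Tendsto (fun r : ℝ => ENNReal.ofReal (r ^ 2)) (𝓝[>] (0 : ℝ)) (𝓝 0) := by
        have : Tendsto (fun r : ℝ => r ^ 2) (𝓝[>] (0 : ℝ)) (𝓝 0) := by
          have h3 : Tendsto (fun r : ℝ => r ^ 2) (𝓝 0) (𝓝 (0 ^ 2)) :=
            (continuous_pow 2).tendsto 0
          rw [zero_pow two_ne_zero] at h3
          exact h3.mono_left nhdsWithin_le_nhds
        simpa using ENNReal.tendsto_ofReal this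
      have h4 := ENNReal.Tendsto.mul_const h2 (Or.inr hx.ne)
      rwa [zero_mul] at h4
    refine tendsto_of_tendsto_of_tendsto_of_le_of_le' tendsto_const_nhds hup
      (Eventually.of_forall fun _ => zero_le) ?_
    filter_upwards [self_mem_nhdsWithin] with r hr
    have hr' : (0 : ℝ) < r := hr
    have h5 : th s x r ≤ w s x := (th_le_setLIntegral s x hr').trans (setLIntegral_le_lintegral _ _)
    unfold th at h5
    rw [ENNReal.div_le_iff_le_mul] at h5
    · rwa [mul_comm] at h5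
    · left; simp only [ne_eq, ENNReal.ofReal_eq_zero, not_le]; positivity
    · left; exact ENNReal.ofReal_ne_top
  have h2 : Tendsto (fun r : ℝ => ∫⁻ y in ball x r, ker 2 (dist x y) ∂s) (𝓝[>] (0 : ℝ)) (𝓝 0) :=
    tendsto_setLIntegral_zero hx.ne h1
  refine tendsto_of_tendsto_of_tendsto_of_le_of_le' tendsto_const_nhds h2
    (Eventually.of_forall fun _ => zero_le) ?_
  filter_upwards [self_mem_nhdsWithin] with r hr
  exact th_le_setLIntegral s x hr

/-- The restricted measure `s_0 = s⌊{w < ∞}` has zero density at every point of `{w < ∞}`. -/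
theorem tendsto_th_restrict [OpensMeasurableSpace X] (s : Measure X) (E : Set X) (x : X)
    (hx : w s x < ⊤) :
    Tendsto (fun r => th (s.restrict E) x r) (𝓝[>] (0 : ℝ)) (𝓝 0) :=
  tendsto_th_of_w _ x ((w_mono Measure.restrict_le_self x).trans_lt hx)

section vitali

variable [SecondCountableTopology X] [BorelSpace X]

/-- One Vitali step: the set where the upper density of `s₀` is `> t` is `s_T`-null. -/
theorem vitali_step (s₀ sT : Measure X) [IsFiniteMeasure s₀] {C : ℝ} (hC : 0 ≤ C)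
    (hT : ∀ (x : X) (r : ℝ), 0 < r → sT (ball x r) ≤ ENNReal.ofReal (C * r ^ 2))
    {t : ℝ} (ht : 0 < t) {A : Set X}
    (hA : ∀ x ∈ A, ∃ᶠ r in 𝓝[>] (0 : ℝ), ENNReal.ofReal t < th s₀ x r) (hA0 : s₀ A = 0) :
    sT A = 0 := by
  -- for each `δ`
  have key : ∀ δ : ℝ, 0 < δ → sT A ≤ ENNReal.ofReal (36 * C / t * δ) := by
    intro δ hδ
    obtain ⟨U, hAU, hUo, hU⟩ : ∃ U ⊇ A, IsOpen U ∧ s₀ U < ENNReal.ofReal δ :=
      A.exists_isOpen_lt_of_lt (μ := s₀) (ENNReal.ofReal δ)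
        (by rw [hA0]; exact ENNReal.ofReal_pos.mpr hδ)
    -- the family of admissible balls
    set T : Set (X × ℝ) := {p | 0 < p.2 ∧ p.2 ≤ 1 ∧ closedBall p.1 p.2 ⊆ U ∧
      ENNReal.ofReal (t * p.2 ^ 2) ≤ s₀ (closedBall p.1 p.2)} with hTdef
    have hcov : ∀ x ∈ A, ∃ r, (x, r) ∈ T := by
      intro x hx
      have hxU : U ∈ 𝓝 x := hUo.mem_nhds (hAU hx)
      obtain ⟨ρ, hρ, hρU⟩ := Metric.nhds_basis_closedBall.mem_iff.mp hxU
      have hev : ∀ᶠ r in 𝓝[>] (0 : ℝ), r < min ρ 1 ∧ 0 < r := by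
        filter_upwards [Ioo_mem_nhdsGT (show (0 : ℝ) < min ρ 1 by positivity)] with r hr
        exact ⟨hr.2, hr.1⟩
      obtain ⟨r, hr1, hr2, hr3⟩ := ((hA x hx).and_eventually hev).exists
      refine ⟨r, hr3, (hr2.trans_le (min_le_right _ _)).le,
        (closedBall_subset_closedBall (hr2.trans_le (min_le_left _ _)).le).trans hρU, ?_⟩
      unfold th at hr1
      have h1 : ENNReal.ofReal t * ENNReal.ofReal (r ^ 2) < s₀ (ball x r) := by
        rw [ENNReal.lt_div_iff_mul_lt] at hr1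
        · exact hr1
        · left; simp only [ne_eq, ENNReal.ofReal_eq_zero, not_le]; positivity
        · left; exact ENNReal.ofReal_ne_top
      rw [← ENNReal.ofReal_mul ht.le] at h1
      exact h1.le.trans (measure_mono ball_subset_closedBall)
    obtain ⟨u, huT, hdisj, hu⟩ :=
      Vitali.exists_disjoint_subfamily_covering_enlargement_closedBall T
        (fun p : X × ℝ => p.1) (fun p => p.2) 1 (fun p hp => hp.2.1) 5 (by norm_num)
    have hucount : u.Countable := by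
      refine hdisj.countable_of_nonempty_interior fun p hp => ?_
      exact ⟨p.1, mem_interior.mpr ⟨ball p.1 p.2, ball_subset_closedBall, isOpen_ball,
        mem_ball_self (huT hp).1⟩⟩
    have hsub : A ⊆ ⋃ p ∈ u, ball p.1 (6 * p.2) := by
      intro x hx
      obtain ⟨r, hr⟩ := hcov x hx
      obtain ⟨b, hb, hsb⟩ := hu (x, r) hr
      have hb0 := (huT hb).1
      simp only [mem_iUnion, exists_prop]
      refine ⟨b, hb, ?_⟩
      have : x ∈ closedBall b.1 (5 * b.2) := hsb (mem_closedBall_self hr.1.le)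
      rw [mem_closedBall] at this
      rw [mem_ball]
      linarith
    have : Countable u := hucount.to_subtype
    calc sT A ≤ sT (⋃ p ∈ u, ball p.1 (6 * p.2)) := measure_mono hsub
      _ ≤ ∑' p : u, sT (ball p.1.1 (6 * p.1.2)) := measure_biUnion_le _ hucount _
      _ ≤ ∑' p : u, ENNReal.ofReal (36 * C / t) * s₀ (closedBall p.1.1 p.1.2) := by
          apply ENNReal.tsum_le_tsum
          intro p
          have hp := huT p.2
          calc sT (ball p.1.1 (6 * p.1.2))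
              ≤ ENNReal.ofReal (C * (6 * p.1.2) ^ 2) := hT _ _ (by have := hp.1; linarith)
            _ = ENNReal.ofReal (36 * C / t) * ENNReal.ofReal (t * p.1.2 ^ 2) := by
                rw [← ENNReal.ofReal_mul (by positivity)]
                congr 1
                field_simp
                ring
            _ ≤ _ := by gcongr; exact hp.2.2.2
      _ = ENNReal.ofReal (36 * C / t) * ∑' p : u, s₀ (closedBall p.1.1 p.1.2) :=
          ENNReal.tsum_mul_left
      _ ≤ ENNReal.ofReal (36 * C / t) * s₀ U := by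
          gcongr
          rw [← measure_biUnion (f := fun p : X × ℝ => closedBall p.1 p.2) hucount hdisj
            (fun p _ => isClosed_closedBall.measurableSet)]
          apply measure_mono
          simp only [iUnion_subset_iff]
          exact fun p hp => (huT hp).2.2.1
      _ ≤ ENNReal.ofReal (36 * C / t) * ENNReal.ofReal δ := by gcongr
      _ = ENNReal.ofReal (36 * C / t * δ) := by rw [ENNReal.ofReal_mul (by positivity)]
  -- let `δ → 0`
  have hlim : Tendsto (fun δ : ℝ => ENNReal.ofReal (36 * C / t * δ)) (𝓝[>] 0) (𝓝 0) := by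
    have h1 : Tendsto (fun δ : ℝ => 36 * C / t * δ) (𝓝[>] 0) (𝓝 0) := by
      have : Tendsto (fun δ : ℝ => 36 * C / t * δ) (𝓝 0) (𝓝 (36 * C / t * 0)) := by
        apply Continuous.tendsto; fun_prop
      rw [mul_zero] at this
      exact this.mono_left nhdsWithin_le_nhds
    simpa using ENNReal.tendsto_ofReal h1
  refine le_antisymm (ge_of_tendsto hlim ?_) bot_le
  filter_upwards [self_mem_nhdsWithin] with δ hδ
  exact key δ hδ

/-- **N7, first half.** -/
theorem vitali_null (s₀ sT : Measure X) [IsFiniteMeasure s₀] {C : ℝ}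
    (hT : ∀ (x : X) (r : ℝ), 0 < r → sT (ball x r) ≤ ENNReal.ofReal (C * r ^ 2))
    {G : Set X} (hG : s₀ Gᶜ = 0)
    (hd : ∀ x ∈ G, Tendsto (fun r => th s₀ x r) (𝓝[>] (0 : ℝ)) (𝓝 0)) :
    ∀ᵐ x ∂sT, Tendsto (fun r => th s₀ x r) (𝓝[>] (0 : ℝ)) (𝓝 0) := by
  have hT' : ∀ (x : X) (r : ℝ), 0 < r → sT (ball x r) ≤ ENNReal.ofReal (max C 0 * r ^ 2) := by
    intro x r hr
    refine (hT x r hr).trans (ENNReal.ofReal_le_ofReal ?_)
    gcongr
    exact le_max_left _ _
  have h1 : ∀ n : ℕ, ∀ᵐ x ∂sT,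
      ¬ ∃ᶠ r in 𝓝[>] (0 : ℝ), ENNReal.ofReal (1 / ((n : ℝ) + 1)) < th s₀ x r := by
    intro n
    rw [ae_iff]
    simp only [not_not]
    have htn : (0 : ℝ) < 1 / ((n : ℝ) + 1) := by positivity
    refine vitali_step s₀ sT (le_max_right C 0) hT' htn (fun x hx => hx) ?_
    refine measure_mono_null ?_ hG
    intro x hx hxG
    apply hx
    have := (tendsto_order.mp (hd x hxG)).2 (ENNReal.ofReal (1 / ((n : ℝ) + 1)))
      (ENNReal.ofReal_pos.mpr htn)
    filter_upwards [this] with r hr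
    exact not_lt.mpr hr.le
  rw [← ae_all_iff] at h1
  filter_upwards [h1] with x hx
  rw [tendsto_order]
  refine ⟨fun b hb => absurd hb (by simp), fun b hb => ?_⟩
  obtain ⟨n, hn⟩ : ∃ n : ℕ, ENNReal.ofReal (1 / ((n : ℝ) + 1)) < b := by
    have hl : Tendsto (fun n : ℕ => ENNReal.ofReal (1 / ((n : ℝ) + 1))) atTop (𝓝 0) := by
      simpa using ENNReal.tendsto_ofReal
        (tendsto_one_div_add_atTop_nhds_zero_nat (𝕜 := ℝ))
    exact ((tendsto_order.mp hl).2 b hb).exists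
  have h2 := hx n
  rw [not_frequently] at h2
  filter_upwards [h2] with r hr
  exact (not_lt.mp hr).trans_lt hn

end vitali

section theta

variable [SecondCountableTopology X] [BorelSpace X]

theorem measurable_meas_ball (s : Measure X) [SFinite s] (r : ℝ) :
    Measurable fun x => s (ball x r) := by
  have hE : MeasurableSet {q : X × X | dist q.2 q.1 < r} :=
    measurableSet_lt (measurable_snd.dist measurable_fst) measurable_const
  exact measurable_measure_prodMk_left hE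

/-- `θ_{K,ε}(x) = s(B_{Kε}(x))/ε²`. -/
noncomputable def tht (s : Measure X) (K ε : ℝ) (x : X) : ℝ≥0∞ :=
  s (ball x (K * ε)) / ENNReal.ofReal (ε ^ 2)

omit [SecondCountableTopology X] [BorelSpace X] in
theorem tht_eq (s : Measure X) {K ε : ℝ} (hK : 0 < K) (hε : 0 < ε) (x : X) :
    tht s K ε x = ENNReal.ofReal (K ^ 2) * th s x (K * ε) := by
  unfold tht th
  rw [mul_pow, ENNReal.ofReal_mul (by positivity), ENNReal.div_eq_inv_mul, ENNReal.div_eq_inv_mul,
    ENNReal.mul_inv (Or.inr ENNReal.ofReal_ne_top) (Or.inl ENNReal.ofReal_ne_top), mul_assoc,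
    ← mul_assoc (ENNReal.ofReal (K ^ 2)), ENNReal.mul_inv_cancel, one_mul]
  · simp only [ne_eq, ENNReal.ofReal_eq_zero, not_le]; positivity
  · exact ENNReal.ofReal_ne_top

theorem measurable_tht (s : Measure X) [SFinite s] (K ε : ℝ) : Measurable (tht s K ε) := by
  unfold tht
  exact (measurable_meas_ball s _).div_const _

omit [SecondCountableTopology X] [BorelSpace X] in
theorem tht_le (s : Measure X) {C : ℝ} (x : X)
    (hs : ∀ r : ℝ, 0 < r → s (ball x r) ≤ ENNReal.ofReal (C * r ^ 2))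
    {K ε : ℝ} (hK : 0 < K) (hε : 0 < ε) : tht s K ε x ≤ ENNReal.ofReal (K ^ 2 * C) := by
  rw [tht_eq s hK hε, ENNReal.ofReal_mul (by positivity)]
  gcongr
  exact th_le_of_growth s x hs (by positivity)

omit [SecondCountableTopology X] [BorelSpace X] in
theorem tendsto_tht (s : Measure X) {K : ℝ} (hK : 0 < K) (x : X)
    (h : Tendsto (fun r => th s x r) (𝓝[>] (0 : ℝ)) (𝓝 0)) :
    Tendsto (fun ε => tht s K ε x) (𝓝[>] (0 : ℝ)) (𝓝 0) := by
  have h1 : Tendsto (fun ε : ℝ => K * ε) (𝓝[>] (0 : ℝ)) (𝓝[>] (0 : ℝ)) := by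
    refine tendsto_nhdsWithin_iff.mpr ⟨?_, ?_⟩
    · have : Tendsto (fun ε : ℝ => K * ε) (𝓝 0) (𝓝 (K * 0)) := by
        apply Continuous.tendsto; fun_prop
      rw [mul_zero] at this
      exact this.mono_left nhdsWithin_le_nhds
    · filter_upwards [self_mem_nhdsWithin] with ε hε
      have : (0 : ℝ) < ε := hε
      exact mul_pos hK this
  have h2 := ENNReal.Tendsto.const_mul (h.comp h1) (Or.inr (ENNReal.ofReal_ne_top (r := K ^ 2)))
  rw [mul_zero] at h2
  refine h2.congr' ?_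
  filter_upwards [self_mem_nhdsWithin] with ε hε
  exact (tht_eq s hK hε x).symm

/-- **N7, second half.** `∫ θ_{K,ε} dν → 0` for a finite measure `ν` such that the density of
`s₀` vanishes `ν`-a.e. -/
theorem tendsto_lintegral_tht (s₀ ν : Measure X) [IsFiniteMeasure s₀] [IsFiniteMeasure ν] {C : ℝ}
    (hs : ∀ (x : X) (r : ℝ), 0 < r → s₀ (ball x r) ≤ ENNReal.ofReal (C * r ^ 2))
    (hd : ∀ᵐ x ∂ν, Tendsto (fun r => th s₀ x r) (𝓝[>] (0 : ℝ)) (𝓝 0)) {K : ℝ} (hK : 0 < K) :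
    Tendsto (fun ε => ∫⁻ x, tht s₀ K ε x ∂ν) (𝓝[>] (0 : ℝ)) (𝓝 0) := by
  have := tendsto_lintegral_filter_of_dominated_convergence (μ := ν) (l := 𝓝[>] (0 : ℝ))
    (F := fun ε x => tht s₀ K ε x) (f := fun _ => 0) (fun _ => ENNReal.ofReal (K ^ 2 * C))
    (Eventually.of_forall fun ε => measurable_tht s₀ K ε) ?_ ?_ ?_
  · simpa using this
  · filter_upwards [self_mem_nhdsWithin] with ε hε
    exact ae_of_all _ fun x => tht_le s₀ x (hs x) hK hε
  · rw [lintegral_const]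
    exact ENNReal.mul_ne_top ENNReal.ofReal_ne_top (measure_ne_top _ _)
  · filter_upwards [hd] with x hx
    exact tendsto_tht s₀ hK x hx

/-- `∫ s(B_r)² dμ ≤ A r^a ∫ s(B_{2r}) ds`, for `μ(B_r) ≤ A r^a`. -/
theorem lintegral_meas_ball_sq_le (μ s : Measure X) [SFinite μ] [SFinite s] {a : ℕ} {A : ℝ}
    {r : ℝ} (hr : 0 < r)
    (hμ : ∀ x : X, μ (ball x r) ≤ ENNReal.ofReal (A * r ^ a)) :
    ∫⁻ x, s (ball x r) ^ 2 ∂μ ≤
      ENNReal.ofReal (A * r ^ a) * ∫⁻ y, s (ball y (2 * r)) ∂s := by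
  have h1 : ∀ x, s (ball x r) ^ 2 = s (ball x r) * s (ball x r) := fun x => sq _
  simp_rw [h1]
  rw [lintegral_mul_meas_ball μ s (measurable_meas_ball s r) r,
    ← lintegral_const_mul _ (measurable_meas_ball s (2 * r))]
  apply lintegral_mono
  intro y
  calc ∫⁻ z in ball y r, s (ball z r) ∂μ ≤ ∫⁻ _ in ball y r, s (ball y (2 * r)) ∂μ := by
        apply setLIntegral_mono' measurableSet_ball
        intro z hz
        apply measure_mono
        apply ball_subset_ball'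
        rw [mem_ball] at hz
        linarith
    _ = s (ball y (2 * r)) * μ (ball y r) := by rw [setLIntegral_const]
    _ ≤ s (ball y (2 * r)) * ENNReal.ofReal (A * r ^ a) := by gcongr; exact hμ y
    _ = _ := mul_comm _ _


/-- `∫ (s₀(B_{Kε})/ε³)² dμ ≤ A K⁴ ∫ θ_{2K,ε} ds₀`. -/
theorem lintegral_sq_le (μ s₀ : Measure X) [SFinite μ] [SFinite s₀] {A K ε : ℝ}
    (hA : 0 ≤ A) (hK : 0 < K) (hε : 0 < ε)
    (hμ : ∀ (x : X) (r : ℝ), 0 < r → μ (ball x r) ≤ ENNReal.ofReal (A * r ^ 4)) :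
    ∫⁻ x, (s₀ (ball x (K * ε)) / ENNReal.ofReal (ε ^ 3)) ^ 2 ∂μ ≤
      ENNReal.ofReal (A * K ^ 4) * ∫⁻ y, tht s₀ (2 * K) ε y ∂s₀ := by
  have e : ∀ x, (s₀ (ball x (K * ε)) / ENNReal.ofReal (ε ^ 3)) ^ 2 =
      (ENNReal.ofReal ((ε ^ 6)⁻¹)) * s₀ (ball x (K * ε)) ^ 2 := by
    intro x
    rw [ENNReal.div_eq_inv_mul, mul_pow, ← ENNReal.ofReal_inv_of_pos (by positivity),
      ← ENNReal.ofReal_pow (by positivity)]
    congr 2
    rw [inv_pow, ← pow_mul]
  simp_rw [e]
  rw [lintegral_const_mul _ ((measurable_meas_ball s₀ _).pow_const 2)]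
  calc ENNReal.ofReal ((ε ^ 6)⁻¹) * ∫⁻ x, s₀ (ball x (K * ε)) ^ 2 ∂μ
      ≤ ENNReal.ofReal ((ε ^ 6)⁻¹) * (ENNReal.ofReal (A * (K * ε) ^ 4) *
          ∫⁻ y, s₀ (ball y (2 * (K * ε))) ∂s₀) := by
        gcongr
        exact lintegral_meas_ball_sq_le μ s₀ (by positivity) fun x => hμ x _ (by positivity)
    _ = ENNReal.ofReal (A * K ^ 4) * (ENNReal.ofReal ((ε ^ 2)⁻¹) *
          ∫⁻ y, s₀ (ball y (2 * (K * ε))) ∂s₀) := by
        rw [← mul_assoc (ENNReal.ofReal ((ε ^ 6)⁻¹)), ← mul_assoc (ENNReal.ofReal (A * K ^ 4)),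
          ← ENNReal.ofReal_mul (by positivity), ← ENNReal.ofReal_mul (by positivity)]
        congr 2
        field_simp
    _ = _ := by
        rw [← lintegral_const_mul _ (measurable_meas_ball s₀ _)]
        congr 1
        apply lintegral_congr
        intro y
        unfold tht
        rw [ENNReal.div_eq_inv_mul, ← ENNReal.ofReal_inv_of_pos (by positivity)]
        congr 3
        ring

/-- **L² smallness** used in Step 6: `∫ (s₀(B_{Kε})/ε³)² dμ → 0`. -/
theorem tendsto_lintegral_sq (μ s₀ : Measure X) [SFinite μ] [IsFiniteMeasure s₀] {A C : ℝ}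
    (hA : 0 ≤ A)
    (hμ : ∀ (x : X) (r : ℝ), 0 < r → μ (ball x r) ≤ ENNReal.ofReal (A * r ^ 4))
    (hs : ∀ (x : X) (r : ℝ), 0 < r → s₀ (ball x r) ≤ ENNReal.ofReal (C * r ^ 2))
    (hd : ∀ᵐ x ∂s₀, Tendsto (fun r => th s₀ x r) (𝓝[>] (0 : ℝ)) (𝓝 0)) {K : ℝ} (hK : 0 < K) :
    Tendsto (fun ε => ∫⁻ x, (s₀ (ball x (K * ε)) / ENNReal.ofReal (ε ^ 3)) ^ 2 ∂μ)
      (𝓝[>] (0 : ℝ)) (𝓝 0) := by
  have h1 := ENNReal.Tendsto.const_mul (tendsto_lintegral_tht s₀ s₀ hs hd (K := 2 * K)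
    (by positivity)) (Or.inr (ENNReal.ofReal_ne_top (r := A * K ^ 4)))
  rw [mul_zero] at h1
  refine tendsto_of_tendsto_of_tendsto_of_le_of_le' tendsto_const_nhds h1
    (Eventually.of_forall fun _ => zero_le) ?_
  filter_upwards [self_mem_nhdsWithin] with ε hε
  exact lintegral_sq_le μ s₀ hA hK hε hμ


end theta

section growth



end growth

section final

variable [SecondCountableTopology X] [BorelSpace X]


/-- Real-valued form: `∫ s₀(B_{Kε}(x))/ε² dν(x) → 0` (Bochner integrals). -/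
theorem tendsto_integral_of_lintegral {ν s₀ : Measure X} [IsFiniteMeasure s₀] {K : ℝ}
    (h : Tendsto (fun ε => ∫⁻ x, s₀ (ball x (K * ε)) / ENNReal.ofReal (ε ^ 2) ∂ν)
      (𝓝[>] (0 : ℝ)) (𝓝 0)) :
    Tendsto (fun ε => ∫ x, s₀.real (ball x (K * ε)) / ε ^ 2 ∂ν) (𝓝[>] (0 : ℝ)) (𝓝 0) := by
  have h2 := (ENNReal.tendsto_toReal ENNReal.zero_ne_top).comp h
  rw [ENNReal.toReal_zero] at h2
  refine h2.congr' ?_
  filter_upwards [self_mem_nhdsWithin] with ε hε
  have hε' : (0 : ℝ) < ε := hε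
  simp only [Function.comp]
  rw [integral_eq_lintegral_of_nonneg_ae]
  · congr 1
    apply lintegral_congr
    intro x
    rw [ENNReal.ofReal_div_of_pos (by positivity), Measure.real, ENNReal.ofReal_toReal
      (measure_ne_top _ _)]
  · exact ae_of_all _ fun x => by positivity
  · exact ((measurable_meas_ball s₀ (K * ε)).ennreal_toReal.div_const _).aestronglyMeasurable

end final

end Crest.Agent.R240.MeasDens
end

-- ▼ part R240/N7
section

/-!
Row 240 (S0371), TOP (helper23): node N7 from helper369's `MeasDens`.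
-/

set_option autoImplicit false
set_option maxSynthPendingDepth 3

open Set Function Filter MeasureTheory Metric
open scoped Manifold ContDiff Topology ENNReal

namespace Crest.Agent.R240

open Ch

noncomputable section

section Metric

variable {X : Type*} [PseudoMetricSpace X] [MeasurableSpace X]

theorem growth_ennreal {s : Measure X} [IsFiniteMeasure s] {C : ℝ} {a : ℕ}
    (h : ∀ x : X, ∀ r : ℝ, 0 < r → s.real (ball x r) ≤ C * r ^ a) :
    ∀ (x : X) (r : ℝ), 0 < r → s (ball x r) ≤ ENNReal.ofReal (C * r ^ a) := by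
  intro x r hr
  rw [← ENNReal.ofReal_toReal (measure_ne_top s (ball x r))]
  exact ENNReal.ofReal_le_ofReal (h x r hr)

theorem th_tendsto {s : Measure X} [IsFiniteMeasure s] {x : X}
    (h : Tendsto (fun r : ℝ => s.real (ball x r) / r ^ 2) (𝓝[>] 0) (𝓝 0)) :
    Tendsto (fun r => MeasDens.th s x r) (𝓝[>] (0 : ℝ)) (𝓝 0) := by
  have h2 : Tendsto (fun r : ℝ => ENNReal.ofReal (s.real (ball x r) / r ^ 2)) (𝓝[>] 0) (𝓝 0) := by
    have := ENNReal.tendsto_ofReal h
    rwa [ENNReal.ofReal_zero] at this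
  refine h2.congr' ?_
  filter_upwards [self_mem_nhdsWithin] with r hr
  have hr' : (0 : ℝ) < r := hr
  unfold MeasDens.th
  rw [ENNReal.ofReal_div_of_pos (by positivity), Measure.real, ENNReal.ofReal_toReal
    (measure_ne_top _ _)]

end Metric

namespace Dat

variable {M : Type*} [MetricSpace M] [CompactSpace M] [ChartedSpace E4 M]
    [IsManifold 𝓘(ℝ, E4) ∞ M] [MeasurableSpace M] [BorelSpace M]

theorem n7_proof (D : Dat M) : D.N7 := by
  intro s₀ s hs₀ hs hg₀ hg hz K hK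
  have hμfin := D.fin
  obtain ⟨A, hA⟩ := D.vg_int
  obtain ⟨C, hC⟩ := hg₀
  obtain ⟨C', hC'⟩ := hg
  have hμ : ∀ (x : M) (r : ℝ), 0 < r → D.μ (ball x r) ≤ ENNReal.ofReal (max A 0 * r ^ 4) := by
    intro x r hr
    refine (growth_ennreal hA x r hr).trans (ENNReal.ofReal_le_ofReal ?_)
    gcongr
    exact le_max_left _ _
  have hs0' := growth_ennreal hC
  have hs' := growth_ennreal hC'
  have h0 : ∀ᵐ x ∂s₀, Tendsto (fun r => MeasDens.th s₀ x r) (𝓝[>] (0 : ℝ)) (𝓝 0) := by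
    filter_upwards [hz] with x hx
    exact th_tendsto hx
  have h1 : ∀ᵐ x ∂s, Tendsto (fun r => MeasDens.th s₀ x r) (𝓝[>] (0 : ℝ)) (𝓝 0) := by
    apply MeasDens.vitali_null s₀ s hs'
      (G := {x | Tendsto (fun r => MeasDens.th s₀ x r) (𝓝[>] (0 : ℝ)) (𝓝 0)})
    · exact h0
    · intro x hx; exact hx
  refine ⟨?_, ?_⟩
  · exact MeasDens.tendsto_integral_of_lintegral (MeasDens.tendsto_lintegral_tht s₀ s hs0' h1 hK)
  · have h2 := MeasDens.tendsto_lintegral_sq D.μ s₀ (le_max_right A 0) hμ hs0' h0 hK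
    have h3 := (ENNReal.tendsto_toReal ENNReal.zero_ne_top).comp h2
    rw [ENNReal.toReal_zero] at h3
    refine h3.congr' ?_
    filter_upwards [self_mem_nhdsWithin] with ε hε
    have hε' : (0 : ℝ) < ε := hε
    simp only [Function.comp]
    rw [integral_eq_lintegral_of_nonneg_ae]
    · congr 1
      apply lintegral_congr
      intro x
      have h4 : s₀ (ball x (K * ε)) = ENNReal.ofReal (s₀.real (ball x (K * ε))) := by
        rw [Measure.real, ENNReal.ofReal_toReal (measure_ne_top _ _)]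
      have h5 : 0 ≤ s₀.real (ball x (K * ε)) := measureReal_nonneg
      rw [h4, ← ENNReal.ofReal_div_of_pos (by positivity), ← ENNReal.ofReal_pow (by positivity)]
      congr 1
      field_simp
    · exact ae_of_all _ fun x => by
        have h5 : 0 ≤ s₀.real (ball x (K * ε)) := measureReal_nonneg
        show 0 ≤ s₀.real (ball x (K * ε)) / ε ^ 2 * (s₀.real (ball x (K * ε)) / ε ^ 4)
        positivity
    · have hm : Measurable fun x : M => s₀.real (ball x (K * ε)) :=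
        (MeasDens.measurable_meas_ball s₀ (K * ε)).ennreal_toReal
      exact ((hm.div_const _).mul (hm.div_const _)).aestronglyMeasurable

end Dat

end

end Crest.Agent.R240
end

-- ▼ part R240/N8aFin
section

/-!
Row 240 (S0371), helper548: node N8a.
-/

set_option autoImplicit false
set_option maxSynthPendingDepth 3

open Set Function Filter MeasureTheory Metric
open scoped Manifold ContDiff Topology ENNReal

namespace Crest.Agent.R240.N8A

open Crest.Agent.R240.Ch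

variable {M : Type*} [MetricSpace M] [CompactSpace M] [ChartedSpace E4 M]
    [IsManifold 𝓘(ℝ, E4) ∞ M] [MeasurableSpace M] [BorelSpace M]

/-- NODE N8a. -/
theorem node_N8a (D : Dat M) (h8 : D.N8) (hcov : D.COV) (hfund : D.FUND) : D.N8a := by
  obtain ⟨𝒰⟩ := hcov
  obtain ⟨S⟩ := h8 𝒰
  refine n8a_of D 𝒰 S hfund ?_ ?_ ?_
  · obtain ⟨C, -, hC⟩ := NrCm.nr_le_cm D 𝒰
    exact ⟨C, hC⟩
  · intro X g hg h
    exact En4.geF_of_dual D X hg h
  · intro X g hg hg0 h x
    exact En4.nr_anti_le_of_dual D X hg hg0 h x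

end Crest.Agent.R240.N8A
end

-- ▼ part R240/N5p
section

/-!
Row 240 (S0371), helper240: node N5' (growth of the trace measure of a closed (1,1)-current)
from the smoothing package N8, the monotonicity N9 and FUND.
-/

set_option autoImplicit false
set_option maxSynthPendingDepth 3

open Set Function Filter MeasureTheory Metric
open scoped Manifold ContDiff Topology ENNReal

namespace Crest.Agent.R240.N5P

open Crest.Agent.R240.Ch Crest.Agent.R240.En4

noncomputable section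

variable {M : Type*} [MetricSpace M] [CompactSpace M] [ChartedSpace E4 M]
    [IsManifold 𝓘(ℝ, E4) ∞ M] [MeasurableSpace M] [BorelSpace M]

theorem nrcm (D : Dat M) (𝒰 : Cover M) : NRCM D 𝒰 := by
  obtain ⟨C, -, hC⟩ := NrCm.nr_le_cm D 𝒰
  exact ⟨C, hC⟩

theorem n2_zero (D : Dat M) : D.n2 ((0 : X2 M) : F2 E4 M) = 0 := by
  have h := n2_split D (0 : X2 M)
  rw [map_zero, map_zero] at h
  have h2 : D.n2 ((0 : X2 M) : F2 E4 M) ^ 2 = 0 := by linarith
  exact pow_eq_zero_iff two_ne_zero |>.1 h2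

omit [CompactSpace M] [IsManifold 𝓘(ℝ, E4) ∞ M] [MeasurableSpace M] [BorelSpace M] in
/-- constants are smooth. -/
theorem sF_one : SmoothF E4 (fun _ : M => (1 : ℝ)) := sF_const 1

/-- `∫ g = s(M)`. -/
theorem mass_eq {D : Dat M} {𝒰 : Cover M} (S : SmPack D 𝒰) {s : Measure M}
    {e : ℝ} (he : 0 < e) (hee : e ≤ S.e0) {g : M → ℝ}
    (hgs : ∀ f, SmoothF E4 f → ∫ x, S.a e f x ∂s = ∫ x, f x * g x ∂D.μ) :
    ∫ x, g x ∂D.μ = s.real univ := by
  have h := hgs (fun _ => 1) sF_one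
  simp only [S.a_one e he hee, one_mul, integral_const, smul_eq_mul, mul_one] at h
  exact h.symm

/-- from the smoothed densities to the growth of the measure. -/
theorem growth_of {s : Measure M} [IsFiniteMeasure s] {μ : Measure M} {Cm K r0 e1 : ℝ}
    (hCm : 1 ≤ Cm) (hr0 : 0 < r0) (he1 : 0 < e1) (hK : 0 ≤ K)
    (h : ∀ e, 0 < e → e ≤ e1 → ∃ g : M → ℝ,
      (∀ x r, e ≤ r → s.real (ball x r) ≤ Cm * ∫ y in ball x (Cm * r), g y ∂μ) ∧
      (∀ x r, e ≤ r → r ≤ r0 → ∫ y in ball x r, g y ∂μ ≤ K * r ^ 2)) :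
    Dat.Growth2 s := by
  refine ⟨Cm * (K * Cm ^ 2) + s.real univ * (Cm / r0) ^ 2, fun x r hr => ?_⟩
  have hCm0 : 0 < Cm := by linarith
  have hsu : 0 ≤ s.real univ := measureReal_nonneg
  rcases le_or_gt (Cm * r) r0 with h1 | h1
  · obtain ⟨g, hg1, hg2⟩ := h (min e1 r) (lt_min he1 hr) (min_le_left _ _)
    have h2 := hg1 x r (min_le_right _ _)
    have h3 := hg2 x (Cm * r) ((min_le_right _ _).trans (by nlinarith)) h1
    have h4 : Cm * ∫ y in ball x (Cm * r), g y ∂μ ≤ Cm * (K * (Cm * r) ^ 2) := by gcongr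
    have h5 : 0 ≤ s.real univ * (Cm / r0) ^ 2 * r ^ 2 := by positivity
    nlinarith
  · have h2 : s.real (ball x r) ≤ s.real univ := measureReal_mono (subset_univ _) (measure_ne_top _ _)
    have h3 : 1 ≤ Cm / r0 * r := by
      rw [div_mul_eq_mul_div, one_le_div hr0]; exact h1.le
    have h4 : 1 ≤ (Cm / r0 * r) ^ 2 := one_le_pow₀ h3
    have h5 : 0 ≤ Cm * (K * Cm ^ 2) * r ^ 2 := by positivity
    have h6 : s.real univ * 1 ≤ s.real univ * (Cm / r0 * r) ^ 2 := by gcongr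
    nlinarith

/-- **node N5'**. -/
theorem n5'_of (D : Dat M) (hN8 : D.N8) (hN9 : D.N9) (hF : D.FUND) : D.N5' := by
  intro Φ s hInv hNn hEx hRM
  have hfin := hRM.fin
  obtain ⟨𝒰⟩ := Int.node_COV D
  obtain ⟨S⟩ := hN8 𝒰
  obtain ⟨C1, hC1, hT⟩ := tpart D S (nrcm D 𝒰)
  obtain ⟨Cm, hCm, hm⟩ := S.repm
  obtain ⟨C9, r0, hC9, hr0, h9⟩ := hN9 (C1 + 1) (by linarith)
  have he1 : 0 < min S.e0 (1 / (2 * C1)) := lt_min S.e0_pos (by positivity)
  refine growth_of (μ := D.μ) (K := C9 * s.real univ) hCm hr0 he1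
    (mul_nonneg hC9.le measureReal_nonneg) fun e he hee => ?_
  have hee0 : e ≤ S.e0 := hee.trans (min_le_left _ _)
  have hee1 : e * C1 ≤ 1 / 2 := by
    have h := hee.trans (min_le_right _ _)
    rw [le_div_iff₀ (by positivity)] at h
    linarith
  obtain ⟨g, hgS, hg0, hgs, -, hgm⟩ := hm s hfin e he hee0
  refine ⟨g, hgm, ?_⟩
  obtain ⟨T, hT0, hT1, -, hT3, hT4, -, hT6⟩ :=
    hT Φ s hRM e he hee0 g hgS hg0 hgs S.one (S.one_mem 0)
  have hTZ : T ∈ Z2 M := by
    refine hF T fun b hb => ?_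
    rw [← hT0, ← hInv]
    exact hEx _ (S.exact e S.one he hee0 b hb)
  intro x r her hr
  have h := h9 e he (hee0.trans S.e0_le) T 0 g hgS hg0 (by rw [add_zero]; exact hTZ)
    (fun x => (hT1 x).trans (by nlinarith [hg0 x]))
    (GeF.mono D hT3 fun x => by
      have := hg0 x
      have h2 : 0 ≤ e ^ 2 * g x := by positivity
      nlinarith)
    (fun x => (hT4 x).trans (by
      have := hg0 x
      have h2 : 0 ≤ e * g x := by positivity
      nlinarith))
    (fun x => by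
      have h1 := hT6 rfl x
      have h2 := hg0 x
      have h3 : 1 / 2 * g x ≤ (1 - C1 * e) * g x := by
        apply mul_le_mul_of_nonneg_right _ h2
        linarith
      have h4 : 0 ≤ qG D.F (T : F2 E4 M) D.F x := by nlinarith
      nlinarith) x r her hr
  rw [map_zero, n2_zero, mass_eq S he hee0 hgs, zero_div, add_zero, add_zero] at h
  calc ∫ y in ball x r, g y ∂D.μ ≤ C9 * r ^ 2 * s.real univ := h
    _ = C9 * s.real univ * r ^ 2 := by ring

end

end Crest.Agent.R240.N5P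
end

-- ▼ part R240/MonoM5
section

/-!
Row 240, MonoM (helper551), part 5: the node N9 from the local monotonicity statement.
-/

set_option autoImplicit false
set_option maxSynthPendingDepth 3

open Set Function Filter Metric MeasureTheory
open scoped Manifold ContDiff Topology ENNReal
open Crest.Agent.R240.Ch Crest.Agent.R240.Int

namespace Crest.Agent.R240.MonoM

noncomputable section

/-- the Hodge norm controls the values. -/
lemma abs_le_nr {J : E4 →L[ℝ] E4} {F b : Bil} (hJ : ∀ v, J (J v) = -v) (hF : SPos J F)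
    (hb : Alt b) (u v : E4) : |b u v| ≤ √2 * nr J F b * (√(F u (J u)) * √(F v (J v))) := by
  obtain ⟨A, hA⟩ := exists_frame hJ hF
  have h1 : b u v = pull (A : E4 →L[ℝ] E4) b (A.symm u) (A.symm v) := by simp
  have h2 := alt_apply_sq_le (hb.pull (A : E4 →L[ℝ] E4)) (A.symm u) (A.symm v)
  have hn : ∀ w, F w (J w) = ‖A.symm w‖ ^ 2 := by
    intro w
    have := hA.normsq (A.symm w)
    simpa using this
  have h3 : N0 (pull (A : E4 →L[ℝ] E4) b) = 2 * nsq J F b := by
    unfold nsq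
    rw [En4.IsFrame.ip_eq hF.alt hA hb hb]
    unfold N0 En4.S6
    ring
  have h4 : 0 ≤ nsq J F b := En4.nsq_nonneg hJ hF hb
  rw [hn, hn, Real.sqrt_sq (norm_nonneg _), Real.sqrt_sq (norm_nonneg _)]
  have h5 : 0 ≤ nr J F b := Real.sqrt_nonneg _
  apply abs_le_of_sq_le_sq _ (by positivity)
  rw [h1]
  refine h2.trans (le_of_eq ?_)
  rw [h3]
  have h6 : nr J F b ^ 2 = nsq J F b := Real.sq_sqrt h4
  have h7 : √2 ^ 2 = (2 : ℝ) := Real.sq_sqrt (by norm_num)
  rw [mul_pow, mul_pow, h6, h7]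
  ring

variable {M : Type*} [MetricSpace M] [CompactSpace M] [ChartedSpace E4 M]
    [IsManifold 𝓘(ℝ, E4) ∞ M] [MeasurableSpace M] [BorelSpace M]

lemma NB_of_nr (D : Dat M) {b : F2 E4 M} (hb : ∀ x, Alt (at2 b x)) {β : M → ℝ}
    (h : ∀ x, D.nr b x ≤ β x) : NB D.J D.F b (fun x => √2 * β x) := by
  intro x u v
  refine (abs_le_nr (D.sq x) (dat_sposF D x) (hb x) u v).trans ?_
  have h1 : nr (atJ D.J x) (at2 D.F x) (at2 b x) ≤ β x := h x
  have h2 : √2 * nr (atJ D.J x) (at2 D.F x) (at2 b x) ≤ √2 * β x :=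
    mul_le_mul_of_nonneg_left h1 (Real.sqrt_nonneg _)
  exact mul_le_mul_of_nonneg_right h2 (mul_nonneg (Real.sqrt_nonneg _) (Real.sqrt_nonneg _))

/-- **N9**: the monotonicity inequality on `M`, from the local statement. -/
theorem n9 (hML : Mono.MonoLocal) (D : Dat M) : D.N9 := by
  intro A hA
  have hA0 : 0 < A := by linarith
  have hs2 : 0 < √(2 : ℝ) := Real.sqrt_pos.2 (by norm_num)
  have hs1 : 1 ≤ √(2 : ℝ) := Real.one_le_sqrt.2 (by norm_num)
  have hsA : A ≤ √2 * A := by nlinarith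
  obtain ⟨C, r0, hC, hr0, H⟩ := mono_NB (ml_of hML) D.bl D.smJ D.sq (dat_smF D) (dat_sposF D)
    (dat_volF D) (dat_isVol D) (A := √2 * A) (hA.trans hsA)
  refine ⟨C * √2, r0, by positivity, hr0, ?_⟩
  intro e he he1 t b p hp hp0 hcl ht1 ht2 ht3 ht4 x r her hr
  have hpc : Continuous p := En4.sF_continuous hp
  have cb : Continuous (D.nr (b : F2 E4 M)) := En4.cont_nr D b.2
  have cb' : Continuous (D.nr (D.pi' b : F2 E4 M)) := En4.cont_nr D (D.pi' b).2
  have hnn : ∀ (c : F2 E4 M) (y : M), 0 ≤ √2 * D.nr c y := fun c y =>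
    mul_nonneg hs2.le (En4.nr_nonneg D c y)
  have key := H (t : F2 E4 M) (b : F2 E4 M) p (fun y => √2 * D.nr (b : F2 E4 M) y)
    (fun y => √2 * D.nr (D.pi' b : F2 E4 M) y) e he t.2 b.2 hcl hpc hp0 (hnn _) (hnn _)
    (En4.integrable_cont D hpc) (En4.integrable_cont D ((continuous_const.mul cb).pow 2))
    (En4.integrable_cont D ((continuous_const.mul cb').pow 2))
    (by
      have h := NB_of_nr D (b := (t : F2 E4 M)) t.2.1 ht1
      intro x u v
      refine (h x u v).trans (le_of_eq ?_)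
      ring)
    (by
      have h := NB_of_nr D (b := (D.pi'' t : F2 E4 M)) (D.pi'' t).2.1 ht3
      intro x u v
      refine (h x u v).trans (le_of_eq ?_)
      ring)
    (by
      intro x v
      have h := ht2 x v
      have hF0 : 0 ≤ at2 D.F x v (atJ D.J x v) := by
        rcases eq_or_ne v 0 with rfl | hv
        · simp
        · exact ((dat_sposF D x).pos v hv).le
      refine le_trans (mul_le_mul_of_nonneg_right ?_ hF0) h
      have : A * e ^ 2 * p x ≤ √2 * A * e ^ 2 * p x := by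
        have := hp0 x
        gcongr
      linarith)
    (by
      intro x
      have h := ht4 x
      have h0 : 0 ≤ qG D.F (t : F2 E4 M) D.F x := by
        have := (hp0 x).trans h
        exact nonneg_of_mul_nonneg_right this hA0
      exact h.trans (mul_le_mul_of_nonneg_right hsA h0))
    (NB_of_nr D (b := (b : F2 E4 M)) b.2.1 (fun _ => le_rfl))
    (NB_of_nr D (b := (D.pi' b : F2 E4 M)) (D.pi' b).2.1 (fun _ => le_rfl)) x r her hr
  have hn2 : ∀ c : X2 M, √(∫ z, (√2 * D.nr (c : F2 E4 M) z) ^ 2 ∂D.μ) =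
      √2 * D.n2 (c : F2 E4 M) := by
    intro c
    have h1 : ∀ z, (√2 * D.nr (c : F2 E4 M) z) ^ 2 = 2 * nsqG D.J D.F (c : F2 E4 M) z := by
      intro z
      rw [mul_pow, En4.nr_sq D c.2.1 z, Real.sq_sqrt (by norm_num)]
    simp only [h1]
    rw [integral_const_mul, Real.sqrt_mul (by norm_num)]
    rfl
  rw [hn2 b, hn2 (D.pi' b)] at key
  refine key.trans ?_
  have hr' : 0 < r := he.trans_le her
  have hI : 0 ≤ ∫ z, p z ∂D.μ := integral_nonneg hp0
  have h1 : ∫ z, p z ∂D.μ + √2 * D.n2 (b : F2 E4 M) + √2 * D.n2 (D.pi' b : F2 E4 M) / r ≤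
      √2 * (∫ z, p z ∂D.μ + D.n2 (b : F2 E4 M) + D.n2 (D.pi' b : F2 E4 M) / r) := by
    have : ∫ z, p z ∂D.μ ≤ √2 * ∫ z, p z ∂D.μ := by nlinarith
    have h2 : √2 * (∫ z, p z ∂D.μ + D.n2 (b : F2 E4 M) + D.n2 (D.pi' b : F2 E4 M) / r) =
      √2 * ∫ z, p z ∂D.μ + √2 * D.n2 (b : F2 E4 M) + √2 * D.n2 (D.pi' b : F2 E4 M) / r := by ring
    rw [h2]
    linarith
  calc _ ≤ C * r ^ 2 * (√2 * (∫ z, p z ∂D.μ + D.n2 (b : F2 E4 M) +
        D.n2 (D.pi' b : F2 E4 M) / r)) := mul_le_mul_of_nonneg_left h1 (by positivity)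
    _ = _ := by ring

end

end Crest.Agent.R240.MonoM
end

-- ▼ part R240/MonoFin
section

/-!
Row 240 (S0371): **MONO local**, final statements.
-/

set_option autoImplicit false
set_option maxSynthPendingDepth 3
open MeasureTheory Metric Set

namespace Crest.Agent.R240.Mono

theorem monoLocal : MonoLocal := mono_local pw

end Crest.Agent.R240.Mono
end

-- ▼ part R240/MonoN9
section

/-!
Row 240, helper551: the node N9 (MonoLocal: helper857, helper615).
-/

set_option autoImplicit false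

open scoped Manifold ContDiff

namespace Crest.Agent.R240

/-- **N9** (unconditional). -/
theorem node_N9 {M : Type*} [MetricSpace M] [CompactSpace M] [ChartedSpace E4 M]
    [IsManifold 𝓘(ℝ, E4) ∞ M] [MeasurableSpace M] [BorelSpace M] (D : Dat M) : D.N9 :=
  MonoM.n9 Mono.monoLocal D

end Crest.Agent.R240
end

-- ▼ part R240/N3
section

/-!
# Node N3 (Lemma A) of row 240, complete

`N3` = helper106's gluing (`Ell.n3_of_local`) applied to the local theorem (`FA.localThm`).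
-/

open scoped Manifold ContDiff Topology

namespace Crest.Agent.R240.Dat

variable {M : Type*} [MetricSpace M] [CompactSpace M] [ChartedSpace E4 M]
  [IsManifold 𝓘(ℝ, E4) ∞ M] [MeasurableSpace M] [BorelSpace M]

theorem n3 (D : Dat M) : D.N3 := Ell.n3_of_local FA.localThm D

end Crest.Agent.R240.Dat
end

-- ▼ part R240/En4H
section

/-!
Row 240 (helper744): the energy inequality of Step 4 from the smoothing package `SmPack`.
-/

set_option autoImplicit false
set_option maxSynthPendingDepth 3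

open Set Function Filter MeasureTheory Metric
open scoped Manifold ContDiff Topology ENNReal

namespace Crest.Agent.R240.En4

open Crest.Agent.R240 Crest.Agent.R240.Ch

noncomputable section

variable {M : Type*} [MetricSpace M] [CompactSpace M] [ChartedSpace E4 M]
    [IsManifold 𝓘(ℝ, E4) ∞ M] [MeasurableSpace M] [BorelSpace M] (D : Dat M)

/-- exact forms are closed. -/
theorem closed_of_isEx {b : X2 M} (h : IsEx (b : F2 E4 M)) : b ∈ Z2 M := by
  obtain ⟨σ, hσ, hb⟩ := h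
  intro p y hy u v w
  have h1 : rep p (b : F2 E4 M) =ᶠ[𝓝 y] d1 (rep1 p σ) := by
    filter_upwards [(chartAt E4 p).open_target.mem_nhds hy] with z hz using hb p z hz
  rw [dd_congr h1]
  exact dd_d1 (Ch.Smooth1.at hσ hy) u v w

theorem nsqG_sub_le (a b : X2 M) (x : M) : nsqG D.J D.F ((a - b : X2 M) : F2 E4 M) x ≤
    2 * nsqG D.J D.F (a : F2 E4 M) x + 2 * nsqG D.J D.F (b : F2 E4 M) x := by
  have h := nsqG_nonneg D (a + b).2.1 x
  have e1 : nsqG D.J D.F ((a + b : X2 M) : F2 E4 M) x =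
      nsqG D.J D.F (a : F2 E4 M) x + nsqG D.J D.F (b : F2 E4 M) x
        + 2 * ip (atJ D.J x) (at2 D.F x) (at2 (a : F2 E4 M) x) (at2 (b : F2 E4 M) x) := by
    have e : nsqG D.J D.F ((a + b : X2 M) : F2 E4 M) x =
      ip (atJ D.J x) (at2 D.F x) (at2 (a : F2 E4 M) x + at2 (b : F2 E4 M) x)
        (at2 (a : F2 E4 M) x + at2 (b : F2 E4 M) x) := rfl
    rw [e, ip_add_left, ip_add_right, ip_add_right,
      ip_comm (atJ D.J x) (at2 D.F x) (at2 (b : F2 E4 M) x) (at2 (a : F2 E4 M) x)]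
    have e2 : ∀ c : X2 M, nsqG D.J D.F (c : F2 E4 M) x =
      ip (atJ D.J x) (at2 D.F x) (at2 (c : F2 E4 M) x) (at2 (c : F2 E4 M) x) := fun c => rfl
    rw [e2, e2]; ring
  have e2 : nsqG D.J D.F ((a - b : X2 M) : F2 E4 M) x =
      nsqG D.J D.F (a : F2 E4 M) x + nsqG D.J D.F (b : F2 E4 M) x
        - 2 * ip (atJ D.J x) (at2 D.F x) (at2 (a : F2 E4 M) x) (at2 (b : F2 E4 M) x) := by
    have e : nsqG D.J D.F ((a - b : X2 M) : F2 E4 M) x =
      ip (atJ D.J x) (at2 D.F x) (at2 (a : F2 E4 M) x + (-1 : ℝ) • at2 (b : F2 E4 M) x)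
        (at2 (a : F2 E4 M) x + (-1 : ℝ) • at2 (b : F2 E4 M) x) := by
      have h3 : at2 (a : F2 E4 M) x + (-1 : ℝ) • at2 (b : F2 E4 M) x =
          at2 ((a - b : X2 M) : F2 E4 M) x := by
        rw [X2.coe_sub, at2_sub]
        ext u v
        simp only [add_apply, sub_apply, smul_apply, smul_eq_mul]; ring
      rw [h3]; rfl
    rw [e, ip_add_left, ip_add_right, ip_add_right, ip_smul_left, ip_smul_left, ip_smul_right,
      ip_smul_right, ip_comm (atJ D.J x) (at2 D.F x) (at2 (b : F2 E4 M) x) (at2 (a : F2 E4 M) x)]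
    have e2 : ∀ c : X2 M, nsqG D.J D.F (c : F2 E4 M) x =
      ip (atJ D.J x) (at2 D.F x) (at2 (c : F2 E4 M) x) (at2 (c : F2 E4 M) x) := fun c => rfl
    rw [e2, e2]; ring
  rw [e1] at h
  rw [e2]
  linarith

theorem nsqG_pi'' (b : X2 M) (x : M) : nsqG D.J D.F (D.pi'' b : F2 E4 M) x =
    qG D.F (D.pi'' b : F2 E4 M) (D.pi'' b : F2 E4 M) x :=
  nsq_anti (D.sq x) (spos D x) ((alt2 b x).antip _) (antip_anti (D.sq x) _)

theorem n2_sq_pi'' (b : X2 M) : D.n2 (D.pi'' b : F2 E4 M) ^ 2 =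
    D.I (D.pi'' b : F2 E4 M) (D.pi'' b : F2 E4 M) := by
  rw [n2_sq]
  unfold Dat.I IG
  congr 1
  funext x
  exact nsqG_pi'' D b x

/-- pointwise energy inequality. -/
theorem pt_energy {T B : X2 M} {x : M} {C e g : ℝ} (hC : 1 ≤ C) (he : 0 ≤ e) (he1 : e ≤ 1)
    (hg : 0 ≤ g) (h1 : D.nr (D.pi' T : F2 E4 M) x ≤ C * g)
    (h2 : ∀ v, - (C * e ^ 2 * g) * at2 D.F x v (atJ D.J x v) ≤
      at2 (T : F2 E4 M) x v (atJ D.J x v))
    (h3 : qG D.F (T : F2 E4 M) D.F x ≤ C * g) :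
    - (3 * C ^ 2 * e ^ 2 * g ^ 2 + 2 * C * (g * D.nr (D.pi' B : F2 E4 M) x)
        + D.nr (D.pi' B : F2 E4 M) x ^ 2) ≤
      qG D.F (D.pi' (T + B) : F2 E4 M) (D.pi' (T + B) : F2 E4 M) x := by
  set s := C * e ^ 2 * g with hs
  have hs0 : 0 ≤ s := by positivity
  have e0 : qG D.F (D.pi' (T + B) : F2 E4 M) (D.pi' (T + B) : F2 E4 M) x =
      qG D.F (D.pi' T : F2 E4 M) (D.pi' T : F2 E4 M) x
        + 2 * qG D.F (D.pi' T : F2 E4 M) (D.pi' B : F2 E4 M) x
        + qG D.F (D.pi' B : F2 E4 M) (D.pi' B : F2 E4 M) x := by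
    rw [map_add]
    have e : qG D.F ((D.pi' T + D.pi' B : X2 M) : F2 E4 M) ((D.pi' T + D.pi' B : X2 M) : F2 E4 M) x
      = q (at2 D.F x) (at2 (D.pi' T : F2 E4 M) x + at2 (D.pi' B : F2 E4 M) x)
        (at2 (D.pi' T : F2 E4 M) x + at2 (D.pi' B : F2 E4 M) x) := rfl
    rw [e, q_add_left, q_add_right, q_add_right,
      q_comm (at2 D.F x) (at2 (D.pi' B : F2 E4 M) x) (at2 (D.pi' T : F2 E4 M) x)]
    unfold qG
    ring
  -- lower bound of q(T',T')
  have hpos : ∀ v, 0 ≤ (at2 (D.pi' T : F2 E4 M) x + s • at2 D.F x) v (atJ D.J x v) := by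
    intro v
    have e1 : (at2 (D.pi' T : F2 E4 M) x + s • at2 D.F x) v (atJ D.J x v) =
      invp (atJ D.J x) (at2 (T : F2 E4 M) x) v (atJ D.J x v)
        + s * at2 D.F x v (atJ D.J x v) := rfl
    rw [e1, invp_diag (D.sq x) (alt2 T x)]
    have := h2 v
    linarith
  have hinv : ∀ u v, (at2 (D.pi' T : F2 E4 M) x + s • at2 D.F x) (atJ D.J x u) (atJ D.J x v) =
      (at2 (D.pi' T : F2 E4 M) x + s • at2 D.F x) u v := by
    intro u v
    have e1 : ∀ a b, (at2 (D.pi' T : F2 E4 M) x + s • at2 D.F x) a b =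
      invp (atJ D.J x) (at2 (T : F2 E4 M) x) a b + s * at2 D.F x a b := fun a b => rfl
    rw [e1, e1, invp_inv (D.sq x), (spos D x).inv]
  obtain ⟨-, h4⟩ := (pos_iff (D.sq x) (spos D x)
    ((alt2 (D.pi' T) x).add ((spos D x).alt.smul s)) hinv).1 hpos
  have e1 : q (at2 D.F x) (at2 (D.pi' T : F2 E4 M) x + s • at2 D.F x)
      (at2 (D.pi' T : F2 E4 M) x + s • at2 D.F x) =
      qG D.F (D.pi' T : F2 E4 M) (D.pi' T : F2 E4 M) x
        + 2 * s * qG D.F (T : F2 E4 M) D.F x + s ^ 2 := by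
    rw [q_add_left, q_add_right, q_add_right, q_smul_left, q_smul_left, q_smul_right,
      q_smul_right, q_F_F (D.sq x) (spos D x), q_comm (at2 D.F x) (at2 D.F x)]
    have e2 : q (at2 D.F x) (at2 (D.pi' T : F2 E4 M) x) (at2 D.F x) =
      qG D.F (T : F2 E4 M) D.F x := q_F_invp (D.sq x) (spos D x) (alt2 T x)
    rw [e2]
    unfold qG
    ring
  rw [e1] at h4
  have h5 := abs_le.1 (abs_qG_le D (D.pi' T) (D.pi' B) x)
  have h6 := abs_le.1 (abs_qG_le D (D.pi' B) (D.pi' B) x)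
  have hb := nr_nonneg D (D.pi' B : F2 E4 M) x
  have h7 : D.nr (D.pi' T : F2 E4 M) x * D.nr (D.pi' B : F2 E4 M) x ≤
      C * (g * D.nr (D.pi' B : F2 E4 M) x) := by
    calc _ ≤ (C * g) * D.nr (D.pi' B : F2 E4 M) x := by gcongr
      _ = _ := by ring
  have h8 : 2 * s * qG D.F (T : F2 E4 M) D.F x ≤ 2 * C ^ 2 * e ^ 2 * g ^ 2 := by
    calc 2 * s * qG D.F (T : F2 E4 M) D.F x ≤ 2 * s * (C * g) := by gcongr
      _ = 2 * C ^ 2 * e ^ 2 * g ^ 2 := by rw [hs]; ring
  have h9 : s ^ 2 ≤ C ^ 2 * e ^ 2 * g ^ 2 := by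
    have : e ^ 2 ≤ 1 := pow_le_one₀ he he1
    calc s ^ 2 = (C ^ 2 * e ^ 2 * g ^ 2) * e ^ 2 := by rw [hs]; ring
      _ ≤ (C ^ 2 * e ^ 2 * g ^ 2) * 1 := by gcongr
      _ = _ := by ring
  rw [e0]
  nlinarith [h5.1, h6.1]

/-- **Energy inequality** (T1). -/
theorem bpart {𝒰 : Cover M} (S : SmPack D 𝒰) (hn : NRCM D 𝒰) (hfund : D.FUND) :
    ∃ C : ℝ, 1 ≤ C ∧ ∀ (L : X2 M →ₗ[ℝ] ℝ) (s : Measure M), D.IsRM L s →
      Dat.KillsClosed L → FOrd 𝒰 (L.comp D.pi'') →
      ∀ e, 0 < e → e ≤ S.e0 → ∀ g : M → ℝ, SmoothF E4 g → (∀ x, 0 ≤ g x) →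
      (∀ f, SmoothF E4 f → ∫ x, S.a e f x ∂s = ∫ x, f x * g x ∂D.μ) → ∀ p ∈ S.clp 0,
      ∃ T B : X2 M, (∀ b : X2 M, L (D.pi' (S.A e p b)) = D.I (T : F2 E4 M) (b : F2 E4 M)) ∧
        (∀ b : X2 M, L (D.pi'' (S.A e p b)) = D.I (B : F2 E4 M) (b : F2 E4 M)) ∧
        T + B ∈ Z2 M ∧
        (∀ x, D.nr (T : F2 E4 M) x ≤ C * g x) ∧
        GeF D.J D.F (T : F2 E4 M) (fun x => - (C * e ^ 2 * g x)) ∧
        (∀ x, D.nr (D.pi'' T : F2 E4 M) x ≤ C * e * g x) ∧
        (p = S.one → ∀ x, (1 - C * e) * g x ≤ qG D.F (T : F2 E4 M) D.F x) ∧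
        D.n2 (D.pi'' B : F2 E4 M) ^ 2 ≤ C * (e ^ 2 * ∫ x, g x ^ 2 ∂D.μ
          + √(∫ x, g x ^ 2 ∂D.μ) * D.n2 (D.pi' B : F2 E4 M)
          + D.n2 (D.pi' B : F2 E4 M) ^ 2) := by
  obtain ⟨C, hC1, hC⟩ := tpart D S hn
  refine ⟨8 * C ^ 2, by nlinarith, ?_⟩
  intro L s hR hkill hfo e he he0 g hg hg0 hgs p hp
  have he1 : e ≤ 1 := he0.trans S.e0_le
  obtain ⟨T, hT, hT1, hT2, hT3, hT4, hT5, hT6⟩ := hC L s hR e he he0 g hg hg0 hgs p hp
  obtain ⟨B, hB⟩ := S.rep (L.comp D.pi'') hfo e p he he0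
  have hB' : ∀ b : X2 M, L (D.pi'' (S.A e p b)) = D.I (B : F2 E4 M) (b : F2 E4 M) := hB
  have hCC : C ≤ 8 * C ^ 2 := by nlinarith
  have hC0 : 0 ≤ C := by linarith
  have hgc := sF_continuous hg
  have hsum : ∀ b : X2 M, D.I ((T + B : X2 M) : F2 E4 M) (b : F2 E4 M) = L (S.A e p b) := by
    intro b
    rw [I_add_left, ← hT, ← hB', ← map_add, pi_add]
  have hZ : T + B ∈ Z2 M := by
    apply hfund
    intro b hb
    rw [hsum]
    exact hkill _ (closed_of_isEx (S.exact e p he he0 b hb))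
  have hII : D.I ((T + B : X2 M) : F2 E4 M) ((T + B : X2 M) : F2 E4 M) = 0 := by
    rw [hsum]
    exact hkill _ (S.closed e p he he0 _ hZ)
  refine ⟨T, B, hT, hB', hZ, ?_, ?_, ?_, ?_, ?_⟩
  · intro x
    have := hg0 x
    exact (hT1 x).trans (by gcongr)
  · apply GeF.mono D hT3
    intro x
    have := hg0 x
    have h : C * e ^ 2 * g x ≤ 8 * C ^ 2 * e ^ 2 * g x := by gcongr
    linarith
  · intro x
    have := hg0 x
    exact (hT4 x).trans (by gcongr)
  · intro hp1 x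
    have := hg0 x
    have h : C * e * g x ≤ 8 * C ^ 2 * e * g x := by gcongr
    have := hT6 hp1 x
    linarith
  · -- energy
    set β := D.n2 (D.pi' B : F2 E4 M) with hβ
    have hβ0 : 0 ≤ β := n2_nonneg D _
    set G := ∫ x, g x ^ 2 ∂D.μ with hG
    have hG0 : 0 ≤ G := integral_nonneg fun x => sq_nonneg _
    have hnB : Continuous (D.nr (D.pi' B : F2 E4 M)) := cont_nr D (D.pi' B).2
    have hβ2 : ∫ x, D.nr (D.pi' B : F2 E4 M) x ^ 2 ∂D.μ = β ^ 2 := by
      rw [hβ, n2_sq]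
      congr 1
      funext x
      exact nr_sq D (D.pi' B).2.1 x
    have hi1 : Integrable (fun x => g x ^ 2) D.μ := integrable_cont D (hgc.pow 2)
    have hi2 : Integrable (fun x => g x * D.nr (D.pi' B : F2 E4 M) x) D.μ :=
      integrable_cont D (hgc.mul hnB)
    have hi3 : Integrable (fun x => D.nr (D.pi' B : F2 E4 M) x ^ 2) D.μ :=
      integrable_cont D (hnB.pow 2)
    -- the invariant part
    have hi4 : Integrable (fun x => 3 * C ^ 2 * e ^ 2 * g x ^ 2
        + 2 * C * (g x * D.nr (D.pi' B : F2 E4 M) x)) D.μ := (hi1.const_mul _).add (hi2.const_mul _)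
    have h1 : - (3 * C ^ 2 * e ^ 2 * G + 2 * C * ∫ x, g x * D.nr (D.pi' B : F2 E4 M) x ∂D.μ
        + β ^ 2) ≤ D.I (D.pi' (T + B) : F2 E4 M) (D.pi' (T + B) : F2 E4 M) := by
      have e1 : - (3 * C ^ 2 * e ^ 2 * G + 2 * C * ∫ x, g x * D.nr (D.pi' B : F2 E4 M) x ∂D.μ
        + β ^ 2) = ∫ x, - (3 * C ^ 2 * e ^ 2 * g x ^ 2
          + 2 * C * (g x * D.nr (D.pi' B : F2 E4 M) x) + D.nr (D.pi' B : F2 E4 M) x ^ 2) ∂D.μ := by
        rw [integral_neg, integral_add hi4 hi3,
          integral_add (hi1.const_mul _) (hi2.const_mul _), integral_const_mul,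
          integral_const_mul, hβ2]
      rw [e1]
      apply integral_mono
      · exact (hi4.add hi3).neg
      · exact integrable_qG D (D.pi' (T + B)).2 (D.pi' (T + B)).2
      · intro x
        exact pt_energy D hC1 he.le he1 (hg0 x) (hT2 x) (fun v => hT3 x v) (hT5 x)
    have hcs : ∫ x, g x * D.nr (D.pi' B : F2 E4 M) x ∂D.μ ≤ √G * β := by
      have := cs_int D hgc hnB hg0 (nr_nonneg D _)
      rw [hβ2, Real.sqrt_sq hβ0] at this
      exact this
    -- the anti-invariant part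
    have h2 : D.n2 (D.pi'' (T + B) : F2 E4 M) ^ 2 ≤
        3 * C ^ 2 * e ^ 2 * G + 2 * C * (√G * β) + β ^ 2 := by
      rw [n2_sq_pi'']
      have h3 := I_split D (T + B) (T + B)
      rw [hII] at h3
      have h4 : 2 * C * ∫ x, g x * D.nr (D.pi' B : F2 E4 M) x ∂D.μ ≤ 2 * C * (√G * β) := by
        gcongr
      linarith
    -- remove T''
    have h5 : D.n2 (D.pi'' B : F2 E4 M) ^ 2 ≤
        2 * D.n2 (D.pi'' (T + B) : F2 E4 M) ^ 2 + 2 * (C ^ 2 * e ^ 2 * G) := by
      have e1 : D.pi'' B = D.pi'' (T + B) - D.pi'' T := by rw [map_add]; abel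
      have hT'' : ∫ x, nsqG D.J D.F (D.pi'' T : F2 E4 M) x ∂D.μ ≤ C ^ 2 * e ^ 2 * G := by
        rw [hG, ← integral_const_mul]
        apply integral_mono (integrable_cont D (sF_continuous (sF_nsqG D (D.pi'' T).2)))
          (hi1.const_mul _)
        intro x
        have h6 := hT4 x
        have h7 := nr_nonneg D (D.pi'' T : F2 E4 M) x
        have h8 := nr_sq D (D.pi'' T).2.1 x
        have h9 : D.nr (D.pi'' T : F2 E4 M) x ^ 2 ≤ (C * e * g x) ^ 2 := by gcongr
        rw [h8] at h9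
        calc _ ≤ _ := h9
          _ = C ^ 2 * e ^ 2 * g x ^ 2 := by ring
      have hpt : ∫ x, nsqG D.J D.F (D.pi'' B : F2 E4 M) x ∂D.μ ≤
          2 * ∫ x, nsqG D.J D.F (D.pi'' (T + B) : F2 E4 M) x ∂D.μ
            + 2 * ∫ x, nsqG D.J D.F (D.pi'' T : F2 E4 M) x ∂D.μ := by
        have hiA := integrable_cont D (sF_continuous (sF_nsqG D (D.pi'' (T + B)).2))
        have hiB := integrable_cont D (sF_continuous (sF_nsqG D (D.pi'' T).2))
        rw [← integral_const_mul, ← integral_const_mul,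
          ← integral_add (hiA.const_mul 2) (hiB.const_mul 2)]
        apply integral_mono (integrable_cont D (sF_continuous (sF_nsqG D (D.pi'' B).2)))
          ((hiA.const_mul 2).add (hiB.const_mul 2))
        intro x
        rw [e1]
        exact nsqG_sub_le D _ _ x
      rw [n2_sq, n2_sq]
      linarith
    have hGs : 0 ≤ √G * β := by positivity
    have hC2 : C ≤ C ^ 2 := by nlinarith
    have h10 : 0 ≤ e ^ 2 * G := by positivity
    calc D.n2 (D.pi'' B : F2 E4 M) ^ 2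
        ≤ 2 * (3 * C ^ 2 * e ^ 2 * G + 2 * C * (√G * β) + β ^ 2) + 2 * (C ^ 2 * e ^ 2 * G) := by
          linarith
      _ = 8 * C ^ 2 * (e ^ 2 * G) + 4 * C * (√G * β) + 2 * β ^ 2 := by ring
      _ ≤ 8 * C ^ 2 * (e ^ 2 * G) + 8 * C ^ 2 * (√G * β) + 8 * C ^ 2 * β ^ 2 := by
          have a1 : 4 * C * (√G * β) ≤ 8 * C ^ 2 * (√G * β) := by
            apply mul_le_mul_of_nonneg_right _ hGs; nlinarith
          have a2 : 2 * β ^ 2 ≤ 8 * C ^ 2 * β ^ 2 := by
            apply mul_le_mul_of_nonneg_right _ (sq_nonneg _); nlinarith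
          linarith
      _ = _ := by ring

end

end Crest.Agent.R240.En4
end

-- ▼ part R240/TopNum
section

/-!
Row 240, PART T (helper23): real-number lemmas for the bootstrap of Step 4.
-/

set_option autoImplicit false

namespace Crest.Agent.R240.Top

/-- A quadratic inequality with a small coefficient. -/
theorem quad_small {C e t N : ℝ} (hC : 1 ≤ C) (he : 0 ≤ e) (heC : C * e ≤ 1 / 8)
    (ht : 0 ≤ t) (hN : 0 ≤ N)
    (h : N ^ 2 ≤ C * (e ^ 2 * t ^ 2 + t * (e * (N + 1)) + (e * (N + 1)) ^ 2)) :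
    N ≤ 8 * C * (1 + e * t) := by
  have hCe0 : 0 ≤ C * e := by positivity
  have hCe2 : C * e ^ 2 ≤ 1 / 8 := by
    have h1 : e ≤ 1 / 8 := by nlinarith
    calc C * e ^ 2 = (C * e) * e := by ring
      _ ≤ (1 / 8) * e := by gcongr
      _ ≤ (1 / 8) * 1 := by gcongr; linarith
      _ = 1 / 8 := by ring
  set y := e * t with hy
  have hy0 : 0 ≤ y := by positivity
  have h2 : N ^ 2 ≤ C * y ^ 2 + C * y * (N + 1) + (1 / 8) * (N + 1) ^ 2 := by
    calc N ^ 2 ≤ C * (e ^ 2 * t ^ 2 + t * (e * (N + 1)) + (e * (N + 1)) ^ 2) := h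
      _ = C * y ^ 2 + C * y * (N + 1) + (C * e ^ 2) * (N + 1) ^ 2 := by rw [hy]; ring
      _ ≤ _ := by gcongr
  by_contra hcon
  push Not at hcon
  have h3 : 0 ≤ C := by linarith
  -- N > 8 C (1 + y)
  have h4 : 8 ≤ N := by nlinarith
  have h5 : C * y ≤ N / 8 := by nlinarith
  have h6 : C * y ^ 2 ≤ N ^ 2 / 64 := by
    have h7 : y ≤ C * y := by nlinarith
    calc C * y ^ 2 = (C * y) * y := by ring
      _ ≤ (N / 8) * (N / 8) := by
          apply mul_le_mul h5 (h7.trans h5) hy0 (by positivity)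
      _ = N ^ 2 / 64 := by ring
  have h8 : C * y * (N + 1) ≤ (N / 8) * (N + 1) := by gcongr
  nlinarith

/-- Abstract energy bootstrap at a fixed scale `e`: `f κ = ‖B_κ‖`, `g κ = ‖B_κ'‖`,
`h κ = ‖B_κ''‖` in `L²`. -/
theorem energy_boot {ι : Type*} {pos : Set ι} {f g h : ι → ℝ} {C e t : ℝ}
    (hC : 1 ≤ C) (he : 0 ≤ e) (heC : 8 * C ^ 6 * e ≤ 1 / 8) (ht : 0 ≤ t)
    (hf0 : ∀ κ, 0 ≤ f κ) (hg0 : ∀ κ, 0 ≤ g κ)
    (hbdd : BddAbove (Set.range f))
    (hfgh : ∀ κ ∈ pos, f κ ^ 2 ≤ C * (g κ ^ 2 + h κ ^ 2))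
    (hpos : ∀ κ ∈ pos, h κ ^ 2 ≤ C * (e ^ 2 * t ^ 2 + t * g κ + g κ ^ 2))
    (hg : ∀ N : ℝ, (∀ κ, f κ ≤ N) → ∀ κ, g κ ≤ C * (e * (N + 1)))
    (hdec : ∀ κ, ∃ κ₁ ∈ pos, ∃ κ₂ ∈ pos, f κ ≤ C * (f κ₁ + f κ₂)) :
    ∀ κ, f κ ≤ 8 * (8 * C ^ 6) * (1 + e * t) := by
  intro κ₀
  have : Nonempty ι := ⟨κ₀⟩
  set N := ⨆ κ, f κ with hN
  have hle : ∀ κ, f κ ≤ N := fun κ => le_ciSup hbdd κ
  have hN0 : 0 ≤ N := (hf0 κ₀).trans (hle κ₀)
  have hC0 : 0 ≤ C := by linarith
  have hgN := hg N hle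
  have hX0 : 0 ≤ e * (N + 1) := by positivity
  -- bound for positive kernels
  set X := e * (N + 1) with hX
  have e1 : 0 ≤ e ^ 2 * t ^ 2 := by positivity
  have e2 : 0 ≤ t * X := by positivity
  have e3 : 0 ≤ X ^ 2 := by positivity
  set Q := e ^ 2 * t ^ 2 + t * X + X ^ 2 with hQ
  have hQ0 : 0 ≤ Q := by positivity
  have hP : ∀ κ ∈ pos, f κ ^ 2 ≤ 2 * C ^ 4 * Q := by
    intro κ hκ
    have h1 := hfgh κ hκ
    have h2 := hpos κ hκ
    have h3 := hgN κ
    have h30 := hg0 κ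
    have h4 : g κ ^ 2 ≤ C ^ 2 * X ^ 2 := by
      calc g κ ^ 2 ≤ (C * X) ^ 2 := by gcongr
        _ = C ^ 2 * X ^ 2 := by ring
    have h5 : t * g κ ≤ C * (t * X) := by
      calc t * g κ ≤ t * (C * X) := by gcongr
        _ = C * (t * X) := by ring
    have h6 : h κ ^ 2 ≤ C * (e ^ 2 * t ^ 2 + C * (t * X) + C ^ 2 * X ^ 2) := by
      calc h κ ^ 2 ≤ _ := h2
        _ ≤ _ := by gcongr
    have p1 : (1 : ℝ) ≤ C ^ 2 := one_le_pow₀ hC
    have p2 : C ≤ C ^ 2 := by nlinarith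
    have p3 : C ^ 2 ≤ C ^ 3 := pow_le_pow_right₀ hC (by norm_num)
    have p4 : C ^ 3 ≤ C ^ 4 := pow_le_pow_right₀ hC (by norm_num)
    have p5 : C ^ 2 ≤ C ^ 4 := p3.trans p4
    calc f κ ^ 2 ≤ C * (g κ ^ 2 + h κ ^ 2) := h1
      _ ≤ C * (C ^ 2 * X ^ 2 + C * (e ^ 2 * t ^ 2 + C * (t * X) + C ^ 2 * X ^ 2)) := by gcongr
      _ = C ^ 2 * (e ^ 2 * t ^ 2) + C ^ 3 * (t * X) + (C ^ 3 + C ^ 4) * X ^ 2 := by ring
      _ ≤ (2 * C ^ 4) * (e ^ 2 * t ^ 2) + (2 * C ^ 4) * (t * X) + (2 * C ^ 4) * X ^ 2 := by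
          have q4 : 0 ≤ C ^ 4 := by positivity
          gcongr <;> linarith
      _ = 2 * C ^ 4 * Q := by rw [hQ]; ring
  have hall : ∀ κ, f κ ^ 2 ≤ 8 * C ^ 6 * Q := by
    intro κ
    obtain ⟨κ₁, h1, κ₂, h2, h3⟩ := hdec κ
    have h4 := hP κ₁ h1
    have h5 := hP κ₂ h2
    calc f κ ^ 2 ≤ (C * (f κ₁ + f κ₂)) ^ 2 := by
          have := hf0 κ
          gcongr
      _ = C ^ 2 * (f κ₁ + f κ₂) ^ 2 := by ring
      _ ≤ C ^ 2 * (2 * (f κ₁ ^ 2 + f κ₂ ^ 2)) := by
          gcongr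
          nlinarith [sq_nonneg (f κ₁ - f κ₂)]
      _ ≤ C ^ 2 * (2 * (2 * C ^ 4 * Q + 2 * C ^ 4 * Q)) := by gcongr
      _ = 8 * C ^ 6 * Q := by ring
  have hNle : N ≤ Real.sqrt (8 * C ^ 6 * Q) := by
    apply ciSup_le
    intro κ
    exact Real.le_sqrt_of_sq_le (hall κ)
  have hN2 : N ^ 2 ≤ 8 * C ^ 6 * Q := by
    calc N ^ 2 ≤ Real.sqrt (8 * C ^ 6 * Q) ^ 2 := by gcongr
      _ = 8 * C ^ 6 * Q := Real.sq_sqrt (by positivity)
  have hC6 : 1 ≤ 8 * C ^ 6 := by
    have : (1 : ℝ) ≤ C ^ 6 := one_le_pow₀ hC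
    linarith
  exact (hle κ₀).trans (quad_small hC6 he heC ht hN0 hN2)

/-- The last step of the bootstrap: `N ≤ C(1+y)`, `y² ≤ C D`, `D ≤ C(1+N)`. -/
theorem boot_final {C y N D : ℝ} (hC : 1 ≤ C) (hN0 : 0 ≤ N) (hy0 : 0 ≤ y)
    (h1 : N ≤ C * (1 + y)) (h2 : y ^ 2 ≤ C * D) (h3 : D ≤ C * (1 + N)) :
    N ≤ 4 * C ^ 4 ∧ D ≤ C * (1 + 4 * C ^ 4) := by
  have hC0 : 0 ≤ C := by linarith
  have hC2 : 1 ≤ C ^ 2 := one_le_pow₀ hC
  have hC4 : 1 ≤ C ^ 4 := one_le_pow₀ hC
  have h4 : y ^ 2 ≤ C ^ 2 * (1 + C * (1 + y)) := by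
    calc y ^ 2 ≤ C * D := h2
      _ ≤ C * (C * (1 + N)) := by gcongr
      _ ≤ C * (C * (1 + C * (1 + y))) := by gcongr
      _ = _ := by ring
  -- y ≤ 3 C^3
  have hy : y ≤ 3 * C ^ 3 := by
    by_contra hcon
    push Not at hcon
    have hC3 : 1 ≤ C ^ 3 := one_le_pow₀ hC
    have p2 : C ^ 2 ≤ C ^ 3 := pow_le_pow_right₀ hC (by norm_num)
    have h5 : y ^ 2 ≤ C ^ 2 + C ^ 3 + C ^ 3 * y := by nlinarith
    nlinarith
  have hN : N ≤ 4 * C ^ 4 := by
    have p3 : C ≤ C ^ 4 := by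
      calc C = C ^ 1 := (pow_one C).symm
        _ ≤ C ^ 4 := pow_le_pow_right₀ hC (by norm_num)
    calc N ≤ C * (1 + y) := h1
      _ ≤ C * (1 + 3 * C ^ 3) := by gcongr
      _ = C + 3 * C ^ 4 := by ring
      _ ≤ 4 * C ^ 4 := by linarith
  refine ⟨hN, h3.trans ?_⟩
  gcongr

end Crest.Agent.R240.Top
end

-- ▼ part R240/TopAbs
section

/-!
Row 240, PART T (helper23): abstract assembly of Step 4 and Step 6.
-/

set_option autoImplicit false

open MeasureTheory Filter Set Metric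
open scoped Topology

namespace Crest.Agent.R240.Top

noncomputable section

/-! ### Energy inequality (T1), integrated form -/

section Energy

variable {M : Type*} [MeasurableSpace M] {μ : Measure M}


end Energy

/-! ### Step 4: the bootstrap on a metric space -/

section Boot

variable {M : Type*} [PseudoMetricSpace M] [MeasurableSpace M]

/-- two-dimensional upper density bound for radii `≥ e`. -/
def DenB (s : Measure M) (e D : ℝ) : Prop :=
  ∀ x : M, ∀ r : ℝ, e ≤ r → s.real (ball x r) ≤ D * r ^ 2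

theorem step4_boot {ι : Type*} [Nonempty ι] {pos : Set ι} {s : Measure M} {e0 C : ℝ}
    (he0 : 0 < e0) (hC : 1 ≤ C)
    (f g h : ℝ → ι → ℝ) (t : ℝ → ℝ) (ht0 : ∀ e, 0 ≤ t e)
    (hf0 : ∀ e κ, 0 ≤ f e κ) (hg0 : ∀ e κ, 0 ≤ g e κ)
    (hbdd : ∀ e, 0 < e → e ≤ e0 → BddAbove (Set.range (f e)))
    (hfgh : ∀ e, 0 < e → e ≤ e0 → ∀ κ ∈ pos, f e κ ^ 2 ≤ C * (g e κ ^ 2 + h e κ ^ 2))
    (hpos : ∀ e, 0 < e → e ≤ e0 → ∀ κ ∈ pos,
      h e κ ^ 2 ≤ C * (e ^ 2 * t e ^ 2 + t e * g e κ + g e κ ^ 2))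
    (hg : ∀ e, 0 < e → e ≤ e0 → ∀ N : ℝ, (∀ κ, f e κ ≤ N) → ∀ κ, g e κ ≤ C * (e * (N + 1)))
    (hdec : ∀ e, 0 < e → e ≤ e0 → ∀ κ, ∃ κ₁ ∈ pos, ∃ κ₂ ∈ pos, f e κ ≤ C * (f e κ₁ + f e κ₂))
    (ht : ∀ e, 0 < e → e ≤ e0 → ∀ D, DenB s e D → e ^ 2 * t e ^ 2 ≤ C * D)
    (hmono : ∀ e, 0 < e → e ≤ e0 → ∀ N, (∀ κ, f e κ ≤ N) → DenB s e (C * (1 + N))) :
    ∃ e1 > 0, ∃ N D : ℝ, (∀ e, 0 < e → e ≤ e1 → ∀ κ, f e κ ≤ N) ∧
      ∀ x : M, ∀ r : ℝ, 0 < r → s.real (ball x r) ≤ D * r ^ 2 := by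
  have hC0 : 0 < C := by linarith
  set K := 8 * (8 * C ^ 6) with hK
  have hC6 : (1 : ℝ) ≤ C ^ 6 := one_le_pow₀ hC
  have hCK : C ≤ K := by
    have : C ≤ C ^ 6 := by
      calc C = C ^ 1 := (pow_one C).symm
        _ ≤ C ^ 6 := pow_le_pow_right₀ hC (by norm_num)
    rw [hK]; linarith
  have hK1 : 1 ≤ K := hC.trans hCK
  set e1 := min e0 (1 / (8 * (8 * C ^ 6))) with he1
  have he1pos : 0 < e1 := lt_min he0 (by positivity)
  have key : ∀ e, 0 < e → e ≤ e1 → ∀ κ, f e κ ≤ 4 * K ^ 4 := by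
    intro e he hee
    have hee0 : e ≤ e0 := hee.trans (min_le_left _ _)
    have hsm : 8 * C ^ 6 * e ≤ 1 / 8 := by
      have h1 : e ≤ 1 / (8 * (8 * C ^ 6)) := hee.trans (min_le_right _ _)
      rw [le_div_iff₀ (by positivity)] at h1
      linarith
    have hb := energy_boot hC he.le hsm (ht0 e) (hf0 e) (hg0 e) (hbdd e he hee0)
      (hfgh e he hee0) (hpos e he hee0) (hg e he hee0) (hdec e he hee0)
    set N := ⨆ κ, f e κ with hN
    have hle : ∀ κ, f e κ ≤ N := fun κ => le_ciSup (hbdd e he hee0) κ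
    have hN0 : 0 ≤ N := by
      obtain ⟨κ⟩ := ‹Nonempty ι›
      exact (hf0 e κ).trans (hle κ)
    have hN1 : N ≤ K * (1 + e * t e) := ciSup_le hb
    have hD := hmono e he hee0 N hle
    have hD2 := ht e he hee0 _ hD
    have h2 : (e * t e) ^ 2 ≤ K * (K * (1 + N)) := by
      calc (e * t e) ^ 2 = e ^ 2 * t e ^ 2 := by ring
        _ ≤ C * (C * (1 + N)) := hD2
        _ ≤ K * (K * (1 + N)) := by gcongr
    have hfin := boot_final (D := K * (1 + N)) hK1 hN0
      (mul_nonneg he.le (ht0 e)) hN1 h2 le_rfl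
    intro κ
    exact (hle κ).trans hfin.1
  refine ⟨e1, he1pos, 4 * K ^ 4, C * (1 + 4 * K ^ 4), key, ?_⟩
  intro x r hr
  have hm : 0 < min r e1 := lt_min hr he1pos
  exact hmono (min r e1) hm ((min_le_right _ _).trans (min_le_left _ _)) _
    (key _ hm (min_le_right _ _)) x r (min_le_left _ _)

end Boot

end

end Crest.Agent.R240.Top
end

-- ▼ part R240/N5
section

/-!
Row 240 (S0371), helper781: node N5 (Step 4) from the smoothing package N8, monotonicity N9, FUND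
and the energy output of helper744 (`En4.bpart`); node N5' is `N5P.n5'_of` (helper240).
-/

set_option autoImplicit false
set_option maxSynthPendingDepth 3

open Set Function Filter MeasureTheory Metric
open scoped Manifold ContDiff Topology ENNReal

namespace Crest.Agent.R240.N5

open Crest.Agent.R240 Crest.Agent.R240.Ch

noncomputable section

variable {M : Type*} [MetricSpace M] [CompactSpace M] [ChartedSpace E4 M]
    [IsManifold 𝓘(ℝ, E4) ∞ M] [MeasurableSpace M] [BorelSpace M]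

/-- `g` is the density of the smoothed measure `s` at scale `e`. -/
def IsDen (D : Dat M) {𝒰 : Cover M} (S : SmPack D 𝒰) (s : Measure M) (e : ℝ) (g : M → ℝ) : Prop :=
  SmoothF E4 g ∧ (∀ x, 0 ≤ g x) ∧
    ∀ f, SmoothF E4 f → ∫ x, S.a e f x ∂s = ∫ x, f x * g x ∂D.μ

/-- the energy inequality for the smoothed functional. -/
def EPart (D : Dat M) {𝒰 : Cover M} (S : SmPack D 𝒰) : Prop :=
  ∃ C : ℝ, 1 ≤ C ∧ ∀ (L : X2 M →ₗ[ℝ] ℝ) (s : Measure M), Dat.KillsClosed L → D.IsNonneg L →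
    D.IsRM L s → FOrd 𝒰 (L ∘ₗ D.pi'') →
    ∀ e, 0 < e → e ≤ S.e0 → ∀ g : M → ℝ, IsDen D S s e g → ∀ p ∈ S.clp 0,
    ∃ T B : X2 M, T + B ∈ Z2 M ∧
      (∀ b : X2 M, D.I (B : F2 E4 M) (b : F2 E4 M) = L (D.pi'' (S.A e p b))) ∧
      (∀ x, D.nr (T : F2 E4 M) x ≤ C * g x) ∧
      GeF D.J D.F (T : F2 E4 M) (fun x => - (C * e ^ 2 * g x)) ∧
      (∀ x, D.nr (D.pi'' T : F2 E4 M) x ≤ C * e * g x) ∧
      (p = S.one → ∀ x, (1 - C * e) * g x ≤ qG D.F (T : F2 E4 M) D.F x) ∧
      D.n2 (D.pi'' B : F2 E4 M) ^ 2 ≤ C * (e ^ 2 * (∫ x, g x ^ 2 ∂D.μ) +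
        √(∫ x, g x ^ 2 ∂D.μ) * D.n2 (D.pi' B : F2 E4 M) + D.n2 (D.pi' B : F2 E4 M) ^ 2)

theorem ePart (D : Dat M) (hF : D.FUND) {𝒰 : Cover M} (S : SmPack D 𝒰) : EPart D S := by
  obtain ⟨C, hC, h⟩ := En4.bpart D S (N5P.nrcm D 𝒰) hF
  refine ⟨C, hC, fun L s hcl _ hrm hfo e he hee g hg p hp => ?_⟩
  obtain ⟨T, B, -, h2, h3, h4, h5, h6, h7, h8⟩ := h L s hrm hcl hfo e he hee g hg.1 hg.2.1 hg.2.2 p hp
  exact ⟨T, B, h3, fun b => (h2 b).symm, h4, h5, h6, h7, h8⟩

/-! ### small facts -/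

theorem n2_congr (D : Dat M) {X Y : X2 M}
    (h : ∀ b : X2 M, D.I (X : F2 E4 M) (b : F2 E4 M) = D.I (Y : F2 E4 M) (b : F2 E4 M)) :
    D.n2 (X : F2 E4 M) = D.n2 (Y : F2 E4 M) := by
  apply le_antisymm
  · exact En4.n2_le_of_dual D (En4.n2_nonneg D _) fun b => by rw [h]; exact En4.I_le D Y b
  · exact En4.n2_le_of_dual D (En4.n2_nonneg D _) fun b => by rw [← h]; exact En4.I_le D X b

theorem n2_pi'_congr (D : Dat M) {X Y : X2 M}
    (h : ∀ b : X2 M, D.I (X : F2 E4 M) (b : F2 E4 M) = D.I (Y : F2 E4 M) (b : F2 E4 M)) :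
    D.n2 (D.pi' X : F2 E4 M) = D.n2 (D.pi' Y : F2 E4 M) := by
  apply n2_congr
  intro b
  rw [← En4.I_pi'_right, ← En4.I_pi'_right, h]

theorem n2_pi''_congr (D : Dat M) {X Y : X2 M}
    (h : ∀ b : X2 M, D.I (X : F2 E4 M) (b : F2 E4 M) = D.I (Y : F2 E4 M) (b : F2 E4 M)) :
    D.n2 (D.pi'' X : F2 E4 M) = D.n2 (D.pi'' Y : F2 E4 M) := by
  apply n2_congr
  intro b
  rw [← En4.I_pi''_right, ← En4.I_pi''_right, h]

/-- the functional `b ↦ L b''` has finite order. -/
theorem fOrd_pi'' (D : Dat M) (𝒰 : Cover M) (L : X2 M →ₗ[ℝ] ℝ) {m : ℕ} {C : ℝ}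
    (h : ∀ b : X2 M, |L (D.pi'' b)| ≤ C * 𝒰.cm m ((D.pi'' b : X2 M) : F2 E4 M)) :
    FOrd 𝒰 (L ∘ₗ D.pi'') := by
  obtain ⟨C', hC', h'⟩ := cm_bpp_le 𝒰 D.smJ m
  refine ⟨m, |C| * C', fun b => ?_⟩
  calc |(L ∘ₗ D.pi'') b| = |L (D.pi'' b)| := rfl
    _ ≤ C * 𝒰.cm m ((D.pi'' b : X2 M) : F2 E4 M) := h b
    _ ≤ |C| * 𝒰.cm m ((D.pi'' b : X2 M) : F2 E4 M) :=
        mul_le_mul_of_nonneg_right (le_abs_self C) (cm_nonneg _ _ _)
    _ ≤ |C| * (C' * 𝒰.cm m (b : F2 E4 M)) :=
        mul_le_mul_of_nonneg_left (h' _ b.2) (abs_nonneg C)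
    _ = _ := by ring

theorem int_den (D : Dat M) {𝒰 : Cover M} (S : SmPack D 𝒰) {s : Measure M} {e : ℝ}
    (he : 0 < e) (he0 : e ≤ S.e0) {g : M → ℝ} (hg : IsDen D S s e g) :
    ∫ x, g x ∂D.μ = s.real univ := by
  have h := hg.2.2 (fun _ => 1) (En4.sF_const 1)
  simp only [one_mul] at h
  rw [← h]
  have h2 : (fun x => S.a e (fun _ => 1) x) = fun _ => (1 : ℝ) := funext (S.a_one e he he0)
  rw [h2]
  simp

/-- the growth bound from MONO and the representation of the measure. -/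
theorem den_growth (D : Dat M) {s : Measure M} [IsFiniteMeasure s] {C : ℝ}
    (hC : 1 ≤ C) {e : ℝ} (he : 0 < e) {g : M → ℝ} {r₀ Q : ℝ} (hr₀ : 0 < r₀) (hQ : 0 ≤ Q)
    (h1 : ∀ x r, e ≤ r → r ≤ r₀ → ∫ y in ball x r, g y ∂D.μ ≤ Q * r ^ 2)
    (h2 : ∀ x r, e ≤ r → s.real (ball x r) ≤ C * ∫ y in ball x (C * r), g y ∂D.μ) :
    Top.DenB s e (C ^ 3 * Q + s.real univ * (C / r₀) ^ 2) := by
  intro x r hr
  have hr0 : 0 < r := he.trans_le hr
  have hC0 : 0 < C := by linarith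
  have hs0 : 0 ≤ s.real univ := measureReal_nonneg
  rcases le_or_gt (C * r) r₀ with h | h
  · have h3 := h2 x r hr
    have h4 := h1 x (C * r) (hr.trans (le_mul_of_one_le_left hr0.le hC)) h
    calc s.real (ball x r) ≤ C * ∫ y in ball x (C * r), g y ∂D.μ := h3
      _ ≤ C * (Q * (C * r) ^ 2) := by gcongr
      _ = C ^ 3 * Q * r ^ 2 + 0 := by ring
      _ ≤ C ^ 3 * Q * r ^ 2 + s.real univ * (C / r₀) ^ 2 * r ^ 2 := by gcongr; positivity
      _ = _ := by ring
  · have h3 : 1 ≤ (C * r / r₀) ^ 2 := by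
      apply one_le_pow₀
      rw [le_div_iff₀ hr₀]
      linarith
    calc s.real (ball x r) ≤ s.real univ := measureReal_mono (subset_univ _)
      _ = s.real univ * 1 := by ring
      _ ≤ s.real univ * (C * r / r₀) ^ 2 := by gcongr
      _ = 0 + s.real univ * (C / r₀) ^ 2 * r ^ 2 := by ring
      _ ≤ C ^ 3 * Q * r ^ 2 + s.real univ * (C / r₀) ^ 2 * r ^ 2 := by gcongr; positivity
      _ = _ := by ring

theorem dens_le {A C e g q : ℝ} (hA : 2 ≤ A) (hg : 0 ≤ g) (hC : C * e ≤ 1 / 2)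
    (h : (1 - C * e) * g ≤ q) : g ≤ A * q := by
  have h1 : 1 / 2 * g ≤ (1 - C * e) * g := mul_le_mul_of_nonneg_right (by linarith) hg
  have h2 : 0 ≤ q := by linarith
  have h3 : 2 * q ≤ A * q := mul_le_mul_of_nonneg_right hA h2
  linarith

theorem le_of_small {a b c e1 : ℝ} (he1 : 0 < e1) (h : ∀ e, 0 < e → e ≤ e1 → a ≤ b + e * c) :
    a ≤ b := by
  have h1 : Tendsto (fun e : ℝ => b + e * c) (𝓝[>] 0) (𝓝 (b + 0 * c)) :=
    ((continuous_const.add (continuous_id.mul continuous_const)).tendsto 0).mono_left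
      nhdsWithin_le_nhds
  rw [zero_mul, add_zero] at h1
  refine ge_of_tendsto h1 ?_
  filter_upwards [Ioc_mem_nhdsGT he1] with e he
  exact h e he.1 he.2

/-! ### N5 -/

/-- **node N5** (Step 4): `s` has two-dimensional growth and `|L b''| ≤ C ‖b''‖₂`. -/
theorem n5 (D : Dat M) (h8 : D.N8) (h9 : D.N9) (hF : D.FUND) : D.N5 := by
  have hE : ∀ (𝒰 : Cover M) (S : SmPack D 𝒰), EPart D S := fun 𝒰 S => ePart D hF S
  intro L s hcl hnn hfo hrm
  have hfin := hrm.fin
  rcases isEmpty_or_nonempty M with hM | ⟨⟨x₀⟩⟩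
  · refine ⟨⟨0, fun x => (hM.false x).elim⟩, 0, fun b => ?_⟩
    have h0 : D.pi'' b = 0 := Subtype.ext (funext fun x => (hM.false x).elim)
    rw [h0, map_zero]; simp
  obtain ⟨𝒰, m, K, hK⟩ := hfo
  have hFO := fOrd_pi'' D 𝒰 L hK
  obtain ⟨S⟩ := h8 𝒰
  obtain ⟨C₁, hC₁, hE⟩ := hE 𝒰 S
  obtain ⟨C₂, hC₂, hrepm⟩ := S.repm
  have hC₁0 : 0 < C₁ := by linarith
  have hC₂0 : 0 < C₂ := by linarith
  obtain ⟨m', K', hK'⟩ := hFO
  obtain ⟨k, n, C₄, hcrude⟩ := S.crude m'
  obtain ⟨C₅, hleak⟩ := S.leak k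
  obtain ⟨C₆, hsign⟩ := S.sign k
  obtain ⟨C₇, happ⟩ := S.approx m'
  set A : ℝ := max 2 C₁ with hA
  have hA2 : 2 ≤ A := le_max_left _ _
  have hAC : C₁ ≤ A := le_max_right _ _
  obtain ⟨C₃, r₀, hC₃, hr₀, h9⟩ := h9 A (by linarith)
  set e0 : ℝ := min S.e0 (1 / (2 * C₁)) with he0
  have he0pos : 0 < e0 := lt_min S.e0_pos (by positivity)
  have he0S : e0 ≤ S.e0 := min_le_left _ _
  have hs0 : 0 ≤ s.real univ := measureReal_nonneg
  set L' : X2 M →ₗ[ℝ] ℝ := L ∘ₗ D.pi'' with hL'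
  have hL'' : ∀ b, L' b = L' (D.pi'' b) := by
    intro b
    show L (D.pi'' b) = L (D.pi'' (D.pi'' b))
    rw [En4.pi''_pi'']
  have hFO : FOrd 𝒰 L' := ⟨m', K', hK'⟩
  -- the smoothed functionals
  have hB : ∀ (e : ℝ) (p : S.κ), ∃ η : X2 M, 0 < e → e ≤ S.e0 →
      ∀ b : X2 M, L' (S.A e p b) = D.I (η : F2 E4 M) (b : F2 E4 M) := by
    intro e p
    by_cases h : 0 < e ∧ e ≤ S.e0
    · obtain ⟨η, hη⟩ := S.rep L' hFO e p h.1 h.2
      exact ⟨η, fun _ _ => hη⟩
    · exact ⟨0, fun h1 h2 => (h ⟨h1, h2⟩).elim⟩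
  choose B hB using hB
  have hG : ∀ e : ℝ, ∃ g : M → ℝ, 0 < e → e ≤ S.e0 → IsDen D S s e g ∧
      (∀ x, g x ≤ C₂ / e ^ 4 * s.real (ball x (C₂ * e))) ∧
      (∀ x r, e ≤ r → s.real (ball x r) ≤ C₂ * ∫ y in ball x (C₂ * r), g y ∂D.μ) := by
    intro e
    by_cases h : 0 < e ∧ e ≤ S.e0
    · obtain ⟨g, h1, h2, h3, h4, h5⟩ := hrepm s hfin e h.1 h.2
      exact ⟨g, fun _ _ => ⟨⟨h1, h2, h3⟩, h4, h5⟩⟩
    · exact ⟨0, fun h1 h2 => (h ⟨h1, h2⟩).elim⟩
  choose G hG using hG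
  let ι : Type := {p : S.κ // p ∈ S.cl k}
  let one' : ι := ⟨S.one, S.clp_sub k (S.one_mem k)⟩
  have : Nonempty ι := ⟨one'⟩
  set pos : Set ι := {q | q.1 ∈ S.clp k} with hpos
  have hone : one' ∈ pos := S.one_mem k
  set f : ℝ → ι → ℝ := fun e q => D.n2 (B e q.1 : F2 E4 M) with hf
  set g : ℝ → ι → ℝ := fun e q => D.n2 (D.pi' (B e q.1) : F2 E4 M) with hg
  set h : ℝ → ι → ℝ := fun e q => D.n2 (D.pi'' (B e q.1) : F2 E4 M) with hh
  set t : ℝ → ℝ := fun e => √(∫ x, G e x ^ 2 ∂D.μ) with ht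
  have hf0 : ∀ e q, 0 ≤ f e q := fun e q => En4.n2_nonneg D _
  have hg0 : ∀ e q, 0 ≤ g e q := fun e q => En4.n2_nonneg D _
  have hIB : ∀ e, 0 < e → e ≤ e0 → ∀ q : ι, ∀ b : X2 M,
      |L' (S.A e q.1 b)| ≤ f e q * D.n2 (b : F2 E4 M) := by
    intro e he hee q b
    rw [hB e q.1 he (hee.trans he0S)]
    exact En4.I_le D _ _
  have hfle : ∀ e, 0 < e → e ≤ e0 → ∀ q : ι, ∀ N : ℝ, 0 ≤ N →
      (∀ b : X2 M, |L' (S.A e q.1 b)| ≤ N * D.n2 (b : F2 E4 M)) → f e q ≤ N := by
    intro e he hee q N hN h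
    apply En4.n2_le_of_dual D hN
    intro b
    rw [← hB e q.1 he (hee.trans he0S)]
    exact h b
  -- crude bound
  have hbdd : ∀ e, 0 < e → e ≤ e0 → BddAbove (Set.range (f e)) := by
    intro e he hee
    refine ⟨|K'| * (|C₄| / e ^ n), ?_⟩
    rintro _ ⟨q, rfl⟩
    apply hfle e he hee q _ (by positivity)
    intro b
    calc |L' (S.A e q.1 b)| ≤ K' * 𝒰.cm m' (S.A e q.1 b : F2 E4 M) := hK' _
      _ ≤ |K'| * 𝒰.cm m' (S.A e q.1 b : F2 E4 M) :=
          mul_le_mul_of_nonneg_right (le_abs_self _) (cm_nonneg _ _ _)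
      _ ≤ |K'| * (C₄ / e ^ n * D.n2 (b : F2 E4 M)) :=
          mul_le_mul_of_nonneg_left (hcrude e q.1 he (hee.trans he0S) q.2 b) (abs_nonneg _)
      _ ≤ |K'| * (|C₄| / e ^ n * D.n2 (b : F2 E4 M)) := by
          have h0 := En4.n2_nonneg D (b : F2 E4 M)
          gcongr
          exact le_abs_self _
      _ = _ := by ring
  -- leak
  have hleak' : ∀ e, 0 < e → e ≤ e0 → ∀ N : ℝ, (∀ q, f e q ≤ N) →
      ∀ q, g e q ≤ |C₅| * e * N := by
    intro e he hee N hN q
    have hN0 : 0 ≤ N := (hf0 e one').trans (hN one')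
    apply En4.n2_inv_le_of_dual D (by positivity)
    intro b
    rw [← hB e q.1 he (hee.trans he0S)]
    refine (hleak e he (hee.trans he0S) L' hFO hL'' N hN0 ?_ q.1 q.2 b).trans ?_
    · intro p hp c
      exact (hIB e he hee ⟨p, hp⟩ c).trans
        (mul_le_mul_of_nonneg_right (hN ⟨p, hp⟩) (En4.n2_nonneg D _))
    · have h0 := En4.n2_nonneg D (b : F2 E4 M)
      gcongr
      exact le_abs_self _
  -- the decomposition into positive kernels
  have hdec : ∀ e, 0 < e → e ≤ e0 → ∀ q, ∃ q₁ ∈ pos, ∃ q₂ ∈ pos,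
      f e q ≤ (2 * |C₆|) * (f e q₁ + f e q₂) := by
    intro e he hee q
    set R : ℝ := sSup (f e '' pos) with hR
    have hbd : BddAbove (f e '' pos) := (hbdd e he hee).mono (image_subset_range _ _)
    have hle : ∀ q' ∈ pos, f e q' ≤ R := fun q' hq' => le_csSup hbd ⟨q', hq', rfl⟩
    have hR0 : 0 ≤ R := (hf0 e one').trans (hle one' hone)
    have hq : f e q ≤ |C₆| * R := by
      apply hfle e he hee q _ (by positivity)
      intro b
      have h0 := En4.n2_nonneg D (b : F2 E4 M)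
      have h1 := hsign e he (hee.trans he0S) L' b (R * D.n2 (b : F2 E4 M)) (by
        intro p hp
        exact (hIB e he hee ⟨p, S.clp_sub k hp⟩ b).trans
          (mul_le_mul_of_nonneg_right (hle ⟨p, S.clp_sub k hp⟩ hp) h0)) q.1 q.2
      calc |L' (S.A e q.1 b)| ≤ C₆ * (R * D.n2 (b : F2 E4 M)) := h1
        _ ≤ |C₆| * (R * D.n2 (b : F2 E4 M)) := by gcongr; exact le_abs_self _
        _ = _ := by ring
    rcases hR0.eq_or_lt with hR1 | hR1
    · refine ⟨one', hone, one', hone, ?_⟩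
      rw [← hR1, mul_zero] at hq
      have := hf0 e one'
      exact hq.trans (by positivity)
    · obtain ⟨_, ⟨q', hq', rfl⟩, hlt⟩ := exists_lt_of_lt_csSup
        (⟨_, one', hone, rfl⟩ : (f e '' pos).Nonempty) (half_lt_self hR1)
      refine ⟨q', hq', q', hq', hq.trans ?_⟩
      have : R ≤ 2 * f e q' := by linarith
      have h6 := abs_nonneg C₆
      nlinarith [hf0 e q']
  -- energy
  have hpos' : ∀ e, 0 < e → e ≤ e0 → ∀ q ∈ pos,
      h e q ^ 2 ≤ C₁ * (e ^ 2 * t e ^ 2 + t e * g e q + g e q ^ 2) := by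
    intro e he hee q hq
    obtain ⟨hden, -, -⟩ := hG e he (hee.trans he0S)
    obtain ⟨T, B', -, hB', -, -, -, -, hen⟩ := hE L s hcl hnn hrm hFO e he (hee.trans he0S)
      (G e) hden q.1 (S.clp_anti 0 k (Nat.zero_le k) hq)
    have hcong : ∀ b : X2 M, D.I (B' : F2 E4 M) (b : F2 E4 M) =
        D.I (B e q.1 : F2 E4 M) (b : F2 E4 M) := by
      intro b
      rw [hB', ← hB e q.1 he (hee.trans he0S)]
      rfl
    rw [n2_pi''_congr D hcong, n2_pi'_congr D hcong] at hen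
    have ht2 : t e ^ 2 = ∫ x, G e x ^ 2 ∂D.μ :=
      Real.sq_sqrt (integral_nonneg fun x => sq_nonneg _)
    rw [ht2]
    exact hen
  -- the density
  have htb : ∀ e, 0 < e → e ≤ e0 → ∀ Dn, Top.DenB s e Dn →
      e ^ 2 * t e ^ 2 ≤ (C₂ ^ 3 * s.real univ) * Dn := by
    intro e he hee Dn hDn
    obtain ⟨hden, hup, -⟩ := hG e he (hee.trans he0S)
    have hDn0 : 0 ≤ Dn := by
      have h1 : 0 ≤ s.real (ball x₀ e) := measureReal_nonneg
      have h2 := hDn x₀ e le_rfl
      have h3 : 0 < e ^ 2 := by positivity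
      by_contra hneg
      rw [not_le] at hneg
      nlinarith
    have ht2 : t e ^ 2 = ∫ x, G e x ^ 2 ∂D.μ :=
      Real.sq_sqrt (integral_nonneg fun x => sq_nonneg _)
    have hGc : Continuous (G e) := En4.sF_continuous hden.1
    have hGle : ∀ x, G e x ≤ C₂ ^ 3 * Dn / e ^ 2 := by
      intro x
      have h1 := hup x
      have h2 := hDn x (C₂ * e) (le_mul_of_one_le_left he.le hC₂)
      calc G e x ≤ C₂ / e ^ 4 * s.real (ball x (C₂ * e)) := h1
        _ ≤ C₂ / e ^ 4 * (Dn * (C₂ * e) ^ 2) := by gcongr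
        _ = C₂ ^ 3 * Dn / e ^ 2 := by field_simp
    have hint : ∫ x, G e x ^ 2 ∂D.μ ≤ C₂ ^ 3 * Dn / e ^ 2 * s.real univ := by
      calc ∫ x, G e x ^ 2 ∂D.μ ≤ ∫ x, C₂ ^ 3 * Dn / e ^ 2 * G e x ∂D.μ := by
            apply integral_mono (En4.integrable_cont D (hGc.pow 2))
              (En4.integrable_cont D (continuous_const.mul hGc))
            intro x
            show G e x ^ 2 ≤ C₂ ^ 3 * Dn / e ^ 2 * G e x
            have h1 := hGle x
            have h2 := hden.2.1 x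
            rw [sq]
            exact mul_le_mul_of_nonneg_right h1 h2
        _ = C₂ ^ 3 * Dn / e ^ 2 * s.real univ := by
            rw [integral_const_mul, int_den D S he (hee.trans he0S) hden]
    rw [ht2]
    calc e ^ 2 * ∫ x, G e x ^ 2 ∂D.μ ≤ e ^ 2 * (C₂ ^ 3 * Dn / e ^ 2 * s.real univ) := by
          gcongr
      _ = _ := by field_simp
  -- monotonicity
  have hmono : ∀ e, 0 < e → e ≤ e0 → ∀ N, (∀ q, f e q ≤ N) →
      Top.DenB s e ((C₂ ^ 3 * (C₃ * (s.real univ + 1 + |C₅|)) +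
        s.real univ * (C₂ / r₀) ^ 2) * (1 + N)) := by
    intro e he hee N hN
    have hN0 : 0 ≤ N := (hf0 e one').trans (hN one')
    obtain ⟨hden, -, hlo⟩ := hG e he (hee.trans he0S)
    obtain ⟨T, B', hTB, hB', hT2, hT3, hT4, hT5, -⟩ := hE L s hcl hnn hrm hFO e he
      (hee.trans he0S) (G e) hden S.one (S.one_mem 0)
    have hcong : ∀ b : X2 M, D.I (B' : F2 E4 M) (b : F2 E4 M) =
        D.I (B e S.one : F2 E4 M) (b : F2 E4 M) := by
      intro b
      rw [hB', ← hB e S.one he (hee.trans he0S)]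
      rfl
    have hn1 : D.n2 (B' : F2 E4 M) ≤ N := by
      rw [n2_congr D hcong]; exact hN one'
    have hn2 : D.n2 (D.pi' B' : F2 E4 M) ≤ |C₅| * e * N := by
      rw [n2_pi'_congr D hcong]; exact hleak' e he hee N hN one'
    have hesm : C₁ * e ≤ 1 / 2 := by
      have h1 : e ≤ 1 / (2 * C₁) := hee.trans (min_le_right _ _)
      rw [le_div_iff₀ (by positivity)] at h1
      linarith
    have hgn := hden.2.1
    have hpg : ∀ x, G e x ≤ A * qG D.F (T : F2 E4 M) D.F x := by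
      intro x
      exact dens_le hA2 (hgn x) hesm (hT5 rfl x)
    have hA1 : ∀ x, D.nr (T : F2 E4 M) x ≤ A * G e x := fun x =>
      (hT2 x).trans (mul_le_mul_of_nonneg_right hAC (hgn x))
    have hA2 : GeF D.J D.F (T : F2 E4 M) (fun x => - (A * e ^ 2 * G e x)) := by
      intro x v
      refine le_trans ?_ (hT3 x v)
      apply mul_le_mul_of_nonneg_right
      · have := mul_le_mul_of_nonneg_right hAC (mul_nonneg (sq_nonneg e) (hgn x))
        simp only
        nlinarith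
      · rcases eq_or_ne v 0 with rfl | hv
        · simp
        · exact ((En4.spos D x).pos v hv).le
    have hA3 : ∀ x, D.nr (D.pi'' T : F2 E4 M) x ≤ A * e * G e x := fun x =>
      (hT4 x).trans (mul_le_mul_of_nonneg_right
        (mul_le_mul_of_nonneg_right hAC he.le) (hgn x))
    have hm := h9 e he ((hee.trans he0S).trans S.e0_le) T B' (G e) hden.1 hgn hTB hA1 hA2 hA3 hpg
    have hgr := den_growth D hC₂ he (Q := C₃ * (s.real univ + 1 + |C₅|) * (1 + N)) hr₀
      (by positivity) (by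
        intro x r hr hrr
        have hr0 : 0 < r := he.trans_le hr
        have hm1 := hm x r hr hrr
        rw [int_den D S he (hee.trans he0S) hden] at hm1
        have h5 : D.n2 (D.pi' B' : F2 E4 M) / r ≤ |C₅| * N := by
          rw [div_le_iff₀ hr0]
          calc D.n2 (D.pi' B' : F2 E4 M) ≤ |C₅| * e * N := hn2
            _ ≤ |C₅| * r * N := by gcongr
            _ = _ := by ring
        have h5' := abs_nonneg C₅
        calc ∫ y in ball x r, G e y ∂D.μ
            ≤ C₃ * r ^ 2 * (s.real univ + D.n2 (B' : F2 E4 M) +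
              D.n2 (D.pi' B' : F2 E4 M) / r) := hm1
          _ ≤ C₃ * r ^ 2 * (s.real univ + N + |C₅| * N) := by gcongr
          _ ≤ C₃ * r ^ 2 * ((s.real univ + 1 + |C₅|) * (1 + N)) := by
              gcongr
              nlinarith [mul_nonneg hs0 hN0]
          _ = _ := by ring) hlo
    intro x r hr
    refine (hgr x r hr).trans ?_
    have hr2 : 0 ≤ r ^ 2 := sq_nonneg r
    apply mul_le_mul_of_nonneg_right _ hr2
    have h7 : 0 ≤ s.real univ * (C₂ / r₀) ^ 2 := by positivity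
    nlinarith [mul_nonneg h7 hN0]
  -- bootstrap
  set C : ℝ := 1 + C₁ + |C₅| + 2 * |C₆| + C₂ ^ 3 * s.real univ +
    (C₂ ^ 3 * (C₃ * (s.real univ + 1 + |C₅|)) + s.real univ * (C₂ / r₀) ^ 2) with hC
  have a1 : 0 ≤ |C₅| := abs_nonneg _
  have a2 : 0 ≤ |C₆| := abs_nonneg _
  have a3 : 0 ≤ C₂ ^ 3 * s.real univ := by positivity
  have a4 : 0 ≤ C₂ ^ 3 * (C₃ * (s.real univ + 1 + |C₅|)) + s.real univ * (C₂ / r₀) ^ 2 := by
    positivity
  have hC1 : 1 ≤ C := by rw [hC]; linarith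
  obtain ⟨e1, he1, N, Dn, hN, hDn⟩ := Top.step4_boot (pos := pos) (s := s) (e0 := e0) (C := C)
    he0pos hC1 f g h t (fun e => Real.sqrt_nonneg _) hf0 hg0 hbdd
    (by
      intro e he hee q hq
      have h1 : f e q ^ 2 = g e q ^ 2 + h e q ^ 2 := En4.n2_split D (B e q.1)
      rw [h1]
      exact le_mul_of_one_le_left (by positivity) hC1)
    (by
      intro e he hee q hq
      refine (hpos' e he hee q hq).trans (mul_le_mul_of_nonneg_right ?_ ?_)
      · rw [hC]; linarith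
      · have := hg0 e q
        have : 0 ≤ t e := Real.sqrt_nonneg _
        positivity)
    (by
      intro e he hee N hN q
      have hN0 : 0 ≤ N := (hf0 e one').trans (hN one')
      calc g e q ≤ |C₅| * e * N := hleak' e he hee N hN q
        _ = |C₅| * (e * N) := by ring
        _ ≤ C * (e * N) := by
            apply mul_le_mul_of_nonneg_right _ (by positivity)
            rw [hC]; linarith
        _ ≤ C * (e * (N + 1)) := by
            have : 0 ≤ C := by linarith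
            gcongr
            linarith)
    (by
      intro e he hee q
      obtain ⟨q₁, h1, q₂, h2, h3⟩ := hdec e he hee q
      refine ⟨q₁, h1, q₂, h2, h3.trans ?_⟩
      apply mul_le_mul_of_nonneg_right _ (add_nonneg (hf0 _ _) (hf0 _ _))
      rw [hC]; linarith)
    (by
      intro e he hee Dn hDn
      refine (htb e he hee Dn hDn).trans ?_
      have hDn0 : 0 ≤ Dn := by
        have h1 : 0 ≤ s.real (ball x₀ e) := measureReal_nonneg
        have h2 := hDn x₀ e le_rfl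
        have h3 : 0 < e ^ 2 := by positivity
        by_contra hneg
        rw [not_le] at hneg
        nlinarith
      apply mul_le_mul_of_nonneg_right _ hDn0
      rw [hC]; linarith)
    (by
      intro e he hee N hN x r hr
      have hN0 : 0 ≤ N := (hf0 e one').trans (hN one')
      refine (hmono e he hee N hN x r hr).trans ?_
      apply mul_le_mul_of_nonneg_right _ (sq_nonneg r)
      apply mul_le_mul_of_nonneg_right _ (by linarith)
      rw [hC]; linarith)
  refine ⟨⟨Dn, hDn⟩, N, fun b => ?_⟩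
  set c : X2 M := D.pi'' b with hc
  have hLc : L c = L' c := by
    show L c = L (D.pi'' c)
    rw [hc, En4.pi''_pi'']
  rw [hLc]
  refine le_of_small (lt_min he1 he0pos)
    (c := |K'| * (|C₇| * 𝒰.cm (m' + 1) (c : F2 E4 M))) fun e he hee => ?_
  have hee1 : e ≤ e1 := hee.trans (min_le_left _ _)
  have hee0 : e ≤ e0 := hee.trans (min_le_right _ _)
  have h1 : |L' (S.A e S.one c)| ≤ N * D.n2 (c : F2 E4 M) :=
    (hIB e he hee0 one' c).trans
      (mul_le_mul_of_nonneg_right (hN e he hee1 one') (En4.n2_nonneg D _))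
  have h2 : |L' (S.A e S.one c - c)| ≤ |K'| * (|C₇| * e * 𝒰.cm (m' + 1) (c : F2 E4 M)) := by
    calc |L' (S.A e S.one c - c)|
        ≤ K' * 𝒰.cm m' ((S.A e S.one c - c : X2 M) : F2 E4 M) := hK' _
      _ ≤ |K'| * 𝒰.cm m' ((S.A e S.one c - c : X2 M) : F2 E4 M) :=
          mul_le_mul_of_nonneg_right (le_abs_self _) (cm_nonneg _ _ _)
      _ ≤ |K'| * (C₇ * e * 𝒰.cm (m' + 1) (c : F2 E4 M)) :=
          mul_le_mul_of_nonneg_left ((happ e he (hee0.trans he0S) c).2) (abs_nonneg _)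
      _ ≤ _ := by
          have h0 := cm_nonneg 𝒰 (m' + 1) (c : F2 E4 M)
          gcongr
          exact le_abs_self _
  have h3 : L' c = L' (S.A e S.one c) - L' (S.A e S.one c - c) := by
    rw [map_sub]; ring
  rw [h3]
  calc |L' (S.A e S.one c) - L' (S.A e S.one c - c)|
      ≤ |L' (S.A e S.one c)| + |L' (S.A e S.one c - c)| := abs_sub _ _
    _ ≤ N * D.n2 (c : F2 E4 M) + |K'| * (|C₇| * e * 𝒰.cm (m' + 1) (c : F2 E4 M)) :=
        add_le_add h1 h2
    _ = _ := by ring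

end

end Crest.Agent.R240.N5
end

-- ▼ part R240/Pol4
section

/-!
Row 240 (S0371), node N6 (helper768): one-forms supported in a chart.
-/

set_option autoImplicit false
set_option linter.unusedSectionVars false
set_option maxSynthPendingDepth 3

open MeasureTheory Metric Set Filter Function
open scoped ContDiff ENNReal Manifold Topology

namespace Crest.Agent.R240.Pol

open Crest.Agent.R240 Crest.Agent.R240.Ch

section Ext

variable {M : Type*} [TopologicalSpace M] [T2Space M]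
  [ChartedSpace E4 M] [IsManifold 𝓘(ℝ, E4) ∞ M]

variable {p : M} {K : Set E4}

lemma at1_ext1_of_mem {x : M} (hx : x ∈ (chartAt E4 p).source) (f : E4 → E4 →L[ℝ] ℝ) :
    at1 (ext1 p f) x = (f (chartAt E4 p x)).comp (tcc x p x) := if_pos hx

lemma at1_ext1_of_notMem {x : M} (hx : x ∉ (chartAt E4 p).source) (f : E4 → E4 →L[ℝ] ℝ) :
    at1 (ext1 p f) x = 0 := if_neg hx

lemma rep1_ext1_self {y : E4} (hy : y ∈ (chartAt E4 p).target) (f : E4 → E4 →L[ℝ] ℝ) :
    rep1 p (ext1 p f) y = f y := by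
  ext u
  rw [rep1_apply, at1_ext1_of_mem (symm_mem hy), (chartAt E4 p).right_inv hy]
  simp only [ContinuousLinearMap.comp_apply]
  rw [tcc_cancel (symm_mem hy)]

lemma at1_ext1_zero {x : M} {f : E4 → E4 →L[ℝ] ℝ}
    (h0 : ∀ y, y ∉ K → f y = 0) (hx : x ∉ (chartAt E4 p).symm '' K) :
    at1 (ext1 p f) x = 0 := by
  by_cases h : x ∈ (chartAt E4 p).source
  · rw [at1_ext1_of_mem h, h0 _ fun h1 => hx ⟨_, h1, (chartAt E4 p).left_inv h⟩]
    simp
  · exact at1_ext1_of_notMem h f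

lemma rep1_zero_of_at1 {q : M} {s : F1 E4 M} {y : E4} (h : at1 s ((chartAt E4 q).symm y) = 0) :
    rep1 q s y = 0 := by
  ext u
  rw [rep1_apply, h]; simp

/-- smoothness of the extension by zero. -/
theorem smooth1_ext1 (hK : IsCompact K) (hKt : K ⊆ (chartAt E4 p).target)
    {f : E4 → E4 →L[ℝ] ℝ} (hf : ContDiff ℝ ∞ f) (h0 : ∀ y, y ∉ K → f y = 0) :
    Smooth1 (ext1 p f) := by
  refine Smooth1.of_local (fun x => ?_)
  by_cases h : x ∈ (chartAt E4 p).source
  · refine ⟨p, h, ?_⟩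
    have ht := (chartAt E4 p).map_source h
    refine hf.contDiffAt.congr_of_eventuallyEq ?_
    filter_upwards [(chartAt E4 p).open_target.mem_nhds ht] with y hy
    exact rep1_ext1_self hy f
  · refine ⟨x, mem_chart_source E4 x, ?_⟩
    have hcl : IsClosed ((chartAt E4 p).symm '' K) :=
      (hK.image_of_continuousOn ((chartAt E4 p).continuousOn_symm.mono hKt)).isClosed
    have hx : (chartAt E4 x).symm (chartAt E4 x x) ∉ (chartAt E4 p).symm '' K := by
      rw [(chartAt E4 x).left_inv (mem_chart_source E4 x)]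
      rintro ⟨y, hy, rfl⟩
      exact h (symm_mem (hKt hy))
    have h1 : ∀ᶠ y' in 𝓝 (chartAt E4 x x),
        (chartAt E4 x).symm y' ∈ ((chartAt E4 p).symm '' K)ᶜ :=
      ((chartAt E4 x).continuousAt_symm (mem_chart_target E4 x)).eventually
        (hcl.isOpen_compl.mem_nhds hx)
    refine (contDiffAt_const (c := (0 : E4 →L[ℝ] ℝ))).congr_of_eventuallyEq ?_
    filter_upwards [h1] with y' hy'
    exact rep1_zero_of_at1 (at1_ext1_zero h0 hy')

/-- the exterior derivative of the extension vanishes off the core. -/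
theorem dG_zero_of_off (hK : IsCompact K) (hKt : K ⊆ (chartAt E4 p).target) {s : F1 E4 M}
    (h0 : ∀ x, x ∉ (chartAt E4 p).symm '' K → at1 s x = 0) {x : M}
    (hx : x ∉ (chartAt E4 p).symm '' K) : at2 (dG s) x = 0 := by
  have hcl : IsClosed ((chartAt E4 p).symm '' K) :=
    (hK.image_of_continuousOn ((chartAt E4 p).continuousOn_symm.mono hKt)).isClosed
  have hx' : (chartAt E4 x).symm (chartAt E4 x x) ∉ (chartAt E4 p).symm '' K := by
    rwa [(chartAt E4 x).left_inv (mem_chart_source E4 x)]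
  have h1 : ∀ᶠ y' in 𝓝 (chartAt E4 x x),
      (chartAt E4 x).symm y' ∈ ((chartAt E4 p).symm '' K)ᶜ :=
    ((chartAt E4 x).continuousAt_symm (mem_chart_target E4 x)).eventually
      (hcl.isOpen_compl.mem_nhds hx')
  have h2 : rep1 x s =ᶠ[𝓝 (chartAt E4 x x)] fun _ => 0 := by
    filter_upwards [h1] with y' hy'
    exact rep1_zero_of_at1 (h0 _ hy')
  change d1 (rep1 x s) (chartAt E4 x x) = 0
  rw [d1_congr h2]
  ext u v
  simp [d1_apply]

/-- the representation of a one-form supported in a core, as a test form on the model space. -/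
theorem exists_test (hK : IsCompact K) (hKt : K ⊆ (chartAt E4 p).target) {s : F1 E4 M}
    (hs : Smooth1 s) (h0 : ∀ x, x ∉ (chartAt E4 p).symm '' K → at1 s x = 0) :
    ∃ S : E4 → E4 →L[ℝ] ℝ, ContDiff ℝ ∞ S ∧ tsupport S ⊆ K ∧
      ∀ y ∈ (chartAt E4 p).target, rep1 p s y = S y := by
  classical
  refine ⟨fun y => if y ∈ (chartAt E4 p).target then rep1 p s y else 0, ?_, ?_, ?_⟩
  · rw [contDiff_iff_contDiffAt]
    intro y
    by_cases hy : y ∈ (chartAt E4 p).target
    · have h1 : ContDiffAt ℝ ∞ (rep1 p s) y := hs.at hy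
      refine h1.congr_of_eventuallyEq ?_
      filter_upwards [(chartAt E4 p).open_target.mem_nhds hy] with z hz
      rw [if_pos hz]
    · have hyK : y ∈ Kᶜ := fun h => hy (hKt h)
      refine (contDiffAt_const (c := (0 : E4 →L[ℝ] ℝ))).congr_of_eventuallyEq ?_
      filter_upwards [hK.isClosed.isOpen_compl.mem_nhds hyK] with z hz
      by_cases hzt : z ∈ (chartAt E4 p).target
      · rw [if_pos hzt]
        apply rep1_zero_of_at1
        apply h0
        rintro ⟨z', hz', he⟩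
        have : z' = z := (chartAt E4 p).symm.injOn (hKt hz') hzt he
        exact hz (this ▸ hz')
      · rw [if_neg hzt]
  · apply closure_minimal _ hK.isClosed
    intro y hy
    by_contra hyK
    apply hy
    by_cases hyt : y ∈ (chartAt E4 p).target
    · simp only [if_pos hyt]
      apply rep1_zero_of_at1
      apply h0
      rintro ⟨z', hz', he⟩
      have : z' = y := (chartAt E4 p).symm.injOn (hKt hz') hyt he
      exact hyK (this ▸ hz')
    · simp only [if_neg hyt]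
  · intro y hy
    simp only [if_pos hy]

end Ext

end Crest.Agent.R240.Pol
end

-- ▼ part R240/Pol5
section

/-!
Row 240 (S0371), node N6 (helper768): the restricted current is closed.
-/

set_option autoImplicit false
set_option linter.unusedSectionVars false
set_option maxSynthPendingDepth 3

open MeasureTheory Metric Set Filter Function
open scoped ContDiff ENNReal Manifold Topology

namespace Crest.Agent.R240.Pol

open Crest.Agent.R240 Crest.Agent.R240.Ch

/-! ### partition of unity subordinate to chart balls -/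

section PU

variable (M : Type*) [TopologicalSpace M] [T2Space M] [CompactSpace M]
  [ChartedSpace E4 M] [IsManifold 𝓘(ℝ, E4) ∞ M]

/-- a finite smooth partition of unity supported in chart balls. -/
structure BallPU where
  t : Finset M
  x0 : M → E4
  R : M → ℝ
  K : M → Set E4
  χ : M → M → ℝ
  R_pos : ∀ i, 0 < R i
  sub : ∀ i, closedBall (x0 i) (3 * R i) ⊆ (chartAt E4 i).target
  K_cpt : ∀ i, IsCompact (K i)
  K_sub : ∀ i, K i ⊆ ball (x0 i) (R i)
  smooth : ∀ i, SmoothF E4 (χ i)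
  off : ∀ i x, x ∉ (chartAt E4 i).symm '' K i → χ i x = 0
  sum_one : ∀ x, ∑ i ∈ t, χ i x = 1

theorem exists_ballPU : Nonempty (BallPU M) := by
  classical
  have h1 : ∀ x : M, ∃ R : ℝ, 0 < R ∧ closedBall (chartAt E4 x x) (3 * R) ⊆
      (chartAt E4 x).target := by
    intro x
    obtain ⟨ε, hε, h⟩ := Metric.isOpen_iff.1 (chartAt E4 x).open_target (chartAt E4 x x)
      (mem_chart_target E4 x)
    refine ⟨ε / 6, by positivity, ?_⟩
    refine (closedBall_subset_ball (by linarith)).trans h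
  choose R hR hRs using h1
  let U : M → Set M := fun x => (chartAt E4 x).symm '' ball (chartAt E4 x x) (R x)
  have hsub : ∀ x, ball (chartAt E4 x x) (R x) ⊆ (chartAt E4 x).target := fun x =>
    (ball_subset_closedBall.trans (closedBall_subset_closedBall (by linarith [hR x]))).trans
      (hRs x)
  have hU : ∀ x, IsOpen (U x) := fun x =>
    (chartAt E4 x).isOpen_image_symm_of_subset_target isOpen_ball (hsub x)
  have hxU : ∀ x, x ∈ U x := fun x =>
    ⟨chartAt E4 x x, mem_ball_self (hR x), (chartAt E4 x).left_inv (mem_chart_source E4 x)⟩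
  obtain ⟨f, hf⟩ := SmoothPartitionOfUnity.exists_isSubordinate 𝓘(ℝ, E4)
    (isClosed_univ (X := M)) U hU (fun x _ => mem_iUnion.2 ⟨x, hxU x⟩)
  have hfin : {i | (support (f i)).Nonempty}.Finite :=
    f.locallyFinite.finite_nonempty_of_compact
  have hts : ∀ i, tsupport (f i) ⊆ (chartAt E4 i).source := by
    intro i x hx
    obtain ⟨y, hy, rfl⟩ := hf i hx
    exact symm_mem (hsub i hy)
  refine ⟨⟨hfin.toFinset, fun x => chartAt E4 x x, R, fun i => chartAt E4 i '' tsupport (f i),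
    fun i => f i, hR, hRs, ?_, ?_, ?_, ?_, ?_⟩⟩
  · intro i
    exact ((isClosed_tsupport (f i)).isCompact).image_of_continuousOn
      ((chartAt E4 i).continuousOn.mono (hts i))
  · rintro i _ ⟨x, hx, rfl⟩
    obtain ⟨y, hy, rfl⟩ := hf i hx
    rwa [(chartAt E4 i).right_inv (hsub i hy)]
  · intro i
    exact (smoothF_iff _).1 (f i).contMDiff
  · intro i x hx
    by_contra hne
    apply hx
    have hxt : x ∈ tsupport (f i) := subset_tsupport _ hne
    exact ⟨chartAt E4 i x, ⟨x, hxt, rfl⟩, (chartAt E4 i).left_inv (hts i hxt)⟩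
  · intro x
    have h2 := f.sum_eq_one (mem_univ x)
    rw [finsum_eq_sum_of_support_subset] at h2
    · exact h2
    · intro p hp
      rw [Set.Finite.coe_toFinset]
      exact ⟨x, hp⟩

end PU

/-! ### finite sums of one-forms -/

section Sums

variable {M : Type*} [TopologicalSpace M] [T2Space M] [CompactSpace M]
  [ChartedSpace E4 M] [IsManifold 𝓘(ℝ, E4) ∞ M]

theorem smooth1_sum {ι : Type*} (t : Finset ι) (s : ι → F1 E4 M) (h : ∀ i ∈ t, Smooth1 (s i)) :
    Smooth1 (∑ i ∈ t, s i) := by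
  classical
  induction t using Finset.induction_on with
  | empty => simpa using smooth1_zero
  | insert a t ha ih =>
    rw [Finset.sum_insert ha]
    exact (h a (Finset.mem_insert_self a t)).add
      (ih fun i hi => h i (Finset.mem_insert_of_mem hi))

theorem dG_zero' : dG (0 : F1 E4 M) = 0 := by
  have h := dG_smul (0 : ℝ) (smooth1_zero (E := E4) (M := M))
  simpa using h

theorem dG_sum {ι : Type*} (t : Finset ι) (s : ι → F1 E4 M) (h : ∀ i ∈ t, Smooth1 (s i)) :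
    dG (∑ i ∈ t, s i) = ∑ i ∈ t, dG (s i) := by
  classical
  induction t using Finset.induction_on with
  | empty => simpa using dG_zero'
  | insert a t ha ih =>
    rw [Finset.sum_insert ha, Finset.sum_insert ha,
      dG_add (h a (Finset.mem_insert_self a t))
        (smooth1_sum t s fun i hi => h i (Finset.mem_insert_of_mem hi)),
      ih fun i hi => h i (Finset.mem_insert_of_mem hi)]

/-- a form is the sum of its pieces. -/
theorem sum_pieces (P : BallPU M) (S : F1 E4 M) : ∑ i ∈ P.t, fmul1 (P.χ i) S = S := by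
  funext x
  rw [Finset.sum_apply]
  have : ∀ i ∈ P.t, fmul1 (P.χ i) S x = P.χ i x • S x := fun i _ => rfl
  rw [Finset.sum_congr rfl this, ← Finset.sum_smul, P.sum_one, one_smul]

/-- an exact form is `dG` of its primitive. -/
theorem eq_dG {b : F2 E4 M} {S : F1 E4 M} (hS : Smooth1 S)
    (h : ∀ p : M, ∀ y ∈ (chartAt E4 p).target, rep p b y = d1 (rep1 p S) y) : b = dG S := by
  funext x
  have h1 := h x _ (mem_chart_target E4 x)
  have h2 := rep_dG hS (mem_chart_target E4 x)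
  rw [← h2] at h1
  change at2 b x = at2 (dG S) x
  ext u v
  rw [← rep_self x b u v, ← rep_self x (dG S) u v, h1]

end Sums

end Crest.Agent.R240.Pol
end

-- ▼ part R240/Pol6
section

/-!
Row 240 (S0371), node N6 (helper768): the restricted current is closed.
-/

set_option autoImplicit false
set_option linter.unusedSectionVars false
set_option maxSynthPendingDepth 3

open MeasureTheory Metric Set Filter Function
open scoped ContDiff ENNReal Manifold Topology

namespace Crest.Agent.R240.Pol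

open Crest.Agent.R240 Crest.Agent.R240.Ch Crest.Agent.R240.Vm

/-! ### bounds -/

theorem continuousOn_W' {f g : E4 → Bil} {K : Set E4} (hf : ContinuousOn f K)
    (hg : ContinuousOn g K) : ContinuousOn (fun y => W (f y) (g y)) K := by
  unfold W ent
  fun_prop

theorem abs_W_le2 (b c : Bil) : |W b c| ≤ 6 * (‖b‖ * ‖c‖) := by
  have e : ∀ i j k l : Fin 4, |ent b i j * ent c k l| ≤ ‖b‖ * ‖c‖ := by
    intro i j k l
    rw [abs_mul]
    exact mul_le_mul (abs_ent_le b i j) (abs_ent_le c k l) (abs_nonneg _) (norm_nonneg _)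
  have h1 := abs_le.1 (e 0 1 2 3)
  have h2 := abs_le.1 (e 0 2 1 3)
  have h3 := abs_le.1 (e 0 3 1 2)
  have h4 := abs_le.1 (e 1 2 0 3)
  have h5 := abs_le.1 (e 1 3 0 2)
  have h6 := abs_le.1 (e 2 3 0 1)
  unfold W
  rw [abs_le]
  constructor <;> linarith [h1.1, h1.2, h2.1, h2.2, h3.1, h3.2, h4.1, h4.2, h5.1, h5.2, h6.1, h6.2]

section Bdd

variable {M : Type*} [TopologicalSpace M] [ChartedSpace E4 M] [IsManifold 𝓘(ℝ, E4) ∞ M]
variable {p : M} {K : Set E4}

theorem W_ne_of_spos {J : E4 →L[ℝ] E4} (hJ : ∀ v, J (J v) = -v) {F : Bil} (hF : SPos J F) :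
    W F F ≠ 0 := by
  obtain ⟨A, hA⟩ := exists_frame hJ hF
  exact hA.W_ne hF.alt

theorem bdd_q (hK : IsCompact K) (hKt : K ⊆ (chartAt E4 p).target) {J : EndF E4 M}
    {F : F2 E4 M} (hF : Smooth2 F)
    (hs : ∀ y ∈ K, SPos (repJ p J y) (rep p F y))
    (hJ2 : ∀ y ∈ K, ∀ v, repJ p J y (repJ p J y v) = -v) {φ : E4 → Bil} {C : ℝ}
    (hφ : ∀ y ∈ K, ‖φ y‖ ≤ C) {β : E4 → Bil} (hβ : ContinuousOn β K) :
    ∃ C' : ℝ, 0 ≤ C' ∧ ∀ y ∈ K, |q (rep p F y) (φ y) (β y)| ≤ C' := by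
  have hFc : ContinuousOn (rep p F) K := (hF.2 p).continuousOn.mono hKt
  have hW : ContinuousOn (fun y => (W (rep p F y) (rep p F y))⁻¹) K := by
    apply ContinuousOn.inv₀
    · exact continuousOn_W' hFc hFc
    · intro y hy
      exact W_ne_of_spos (hJ2 y hy) (hs y hy)
  obtain ⟨C1, hC1⟩ := hK.exists_bound_of_continuousOn hW
  obtain ⟨C2, hC2⟩ := hK.exists_bound_of_continuousOn hβ
  refine ⟨6 * (|C| * |C2|) * |C1|, by positivity, ?_⟩
  intro y hy
  unfold q
  rw [div_eq_mul_inv, abs_mul]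
  have h1 := hC1 y hy
  rw [Real.norm_eq_abs] at h1
  have h2 := hC2 y hy
  have h3 := hφ y hy
  calc |W (φ y) (β y)| * |(W (rep p F y) (rep p F y))⁻¹|
      ≤ (6 * (‖φ y‖ * ‖β y‖)) * |(W (rep p F y) (rep p F y))⁻¹| := by
        gcongr
        exact abs_W_le2 _ _
    _ ≤ 6 * (|C| * |C2|) * |C1| := by
        refine mul_le_mul ?_ (h1.trans (le_abs_self _)) (abs_nonneg _) (by positivity)
        refine mul_le_mul_of_nonneg_left ?_ (by norm_num)
        exact mul_le_mul (h3.trans (le_abs_self _)) (h2.trans (le_abs_self _)) (norm_nonneg _)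
          (abs_nonneg _)

end Bdd

/-! ### the chart density -/

section Main

variable {M : Type*} [MetricSpace M] [CompactSpace M] [ChartedSpace E4 M]
    [IsManifold 𝓘(ℝ, E4) ∞ M] [MeasurableSpace M] [BorelSpace M]

/-- (D2) of helper703: the current has a density in every chart ball. -/
def ChartDens (D : Dat M) : Prop :=
  ∀ (Φ : X2 M →ₗ[ℝ] ℝ) (s : Measure M), D.IsInv Φ → D.IsNonneg Φ → D.IsRM Φ s →
  ∀ (p : M) (x0 : E4) (R : ℝ), 0 < R → closedBall x0 (3 * R) ⊆ (chartAt E4 p).target →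
  ∃ φ : E4 → Bil, Measurable φ ∧ (∀ y ∈ closedBall x0 (2 * R), Pos (repJ p D.J y) (φ y)) ∧
    (∀ y ∈ closedBall x0 (2 * R), q (rep p D.F y) (φ y) (rep p D.F y) = 1) ∧
    (∃ C : ℝ, ∀ y ∈ closedBall x0 (2 * R), ‖φ y‖ ≤ C) ∧
    ∀ b : X2 M, (∀ x, x ∉ core p (closedBall x0 (2 * R)) → at2 (b : F2 E4 M) x = 0) →
      Φ b = ∫ x in core p (closedBall x0 (2 * R)),
        q (rep p D.F (chartAt E4 p x)) (φ (chartAt E4 p x))
          (rep p (b : F2 E4 M) (chartAt E4 p x)) ∂s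

theorem smF (D : Dat M) : Smooth2 D.F := Smooth2.bp D.smJ D.sm_al

theorem sposF (D : Dat M) : SPosG D.J D.F := by
  intro x
  refine ⟨?_, ?_, ?_⟩
  · intro v
    change invp (atJ D.J x) (at2 D.al x) v v = 0
    rw [invp_apply]
    have h1 := D.sm_al.1 x v
    have h2 := D.sm_al.1 x (atJ D.J x v)
    rw [h1, h2]; simp
  · intro u v
    change invp (atJ D.J x) (at2 D.al x) _ _ = invp (atJ D.J x) (at2 D.al x) u v
    rw [invp_apply, invp_apply, D.sq, D.sq]
    simp
    ring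
  · intro v hv
    change 0 < invp (atJ D.J x) (at2 D.al x) v (atJ D.J x v)
    rw [invp_apply, D.sq]
    have h1 := D.tames x v hv
    have h3 : at2 D.al x (atJ D.J x v) (-v) = at2 D.al x v (atJ D.J x v) := by
      rw [map_neg]
      have := D.sm_al.antisymm x (atJ D.J x v) v
      change at2 D.al x (atJ D.J x v) v = - at2 D.al x v (atJ D.J x v) at this
      rw [this]; simp
    rw [h3]
    linarith

theorem rep_eq_d1 {p : M} {s1 : F1 E4 M} (hs1 : Smooth1 s1) {σ : E4 → E4 →L[ℝ] ℝ}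
    (h : ∀ y ∈ (chartAt E4 p).target, rep1 p s1 y = σ y) {y : E4}
    (hy : y ∈ (chartAt E4 p).target) : rep p (dG s1) y = En.d1 σ y := by
  rw [rep_dG hs1 hy]
  have h1 : rep1 p s1 =ᶠ[𝓝 y] σ := by
    filter_upwards [(chartAt E4 p).open_target.mem_nhds hy] with z hz using h z hz
  rw [d1_congr h1]
  rfl

theorem piece_zero (LP : LocalPoles) (D : Dat M) {Φ : X2 M →ₗ[ℝ] ℝ} {s : Measure M}
    [IsFiniteMeasure s]
    (hinv : D.IsInv Φ) (hnn : D.IsNonneg Φ) (hEx : Dat.KillsExact Φ) (hRM : D.IsRM Φ s)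
    (hgr : Dat.Growth2 s) (hCD : ChartDens D) {Φ₀ : X2 M →ₗ[ℝ] ℝ}
    (hrepr : ∀ (b : X2 M) (g : M → ℝ) (C : ℝ), AEStronglyMeasurable g s → (∀ x, |g x| ≤ C) →
      (∀ f : SF M, Φ (mulX M f b) = ∫ x, f x * g x ∂s) →
      Φ₀ b = ∫ x in {x | wpot s x < ⊤}, g x ∂s)
    {p : M} {x0 : E4} {R : ℝ} (hR : 0 < R) (hsub : closedBall x0 (3 * R) ⊆ (chartAt E4 p).target)
    {K : Set E4} (hK : IsCompact K) (hKR : K ⊆ ball x0 R) {s1 : F1 E4 M} (hs1 : Smooth1 s1)
    (h0 : ∀ x, x ∉ (chartAt E4 p).symm '' K → at1 s1 x = 0) :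
    Φ₀ ⟨dG s1, Smooth2.dG hs1⟩ = 0 := by
  obtain ⟨φ, hφm, hφp, hφn, ⟨Cφ, hCφ⟩, hform⟩ := hCD Φ s hinv hnn hRM p x0 R hR hsub
  have h2sub : closedBall x0 (2 * R) ⊆ (chartAt E4 p).target :=
    (closedBall_subset_closedBall (by linarith)).trans hsub
  have h2c : IsCompact (closedBall x0 (2 * R)) := isCompact_closedBall _ _
  have hKt : K ⊆ (chartAt E4 p).target :=
    (hKR.trans (ball_subset_closedBall.trans (closedBall_subset_closedBall (by linarith)))).trans
      h2sub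
  obtain ⟨C, hC⟩ := hgr
  have hs : ∀ x r, 0 < r → s (ball x r) ≤ ENNReal.ofReal (C * r ^ 2) := by
    intro x r hr
    rw [← ENNReal.ofReal_toReal (measure_ne_top s (ball x r))]
    exact ENNReal.ofReal_le_ofReal (hC x r hr)
  -- closedness in the chart
  have hcl : ∀ S : E4 → En.Cov, ContDiff ℝ ∞ S → HasCompactSupport S →
      tsupport S ⊆ ball x0 (2 * R) →
      ∫ x in core p (closedBall x0 (2 * R)), q (rep p D.F (chartAt E4 p x)) (φ (chartAt E4 p x))
        (En.d1 S (chartAt E4 p x)) ∂s = 0 := by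
    intro S hS hSc hSs
    have hSt : tsupport S ⊆ (chartAt E4 p).target :=
      (hSs.trans ball_subset_closedBall).trans h2sub
    have hS0 : ∀ y, y ∉ tsupport S → S y = 0 := fun y hy => image_eq_zero_of_notMem_tsupport hy
    have hsm : Smooth1 (ext1 p S) := smooth1_ext1 hSc.isCompact hSt hS hS0
    have hrep1 : ∀ y ∈ (chartAt E4 p).target, rep1 p (ext1 p S) y = S y :=
      fun y hy => rep1_ext1_self hy S
    have hz := hEx ⟨dG (ext1 p S), Smooth2.dG hsm⟩ ⟨ext1 p S, hsm, fun q y hy => rep_dG hsm hy⟩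
    rw [hform _ (by
      intro x hx
      apply dG_zero_of_off hSc.isCompact hSt (fun x hx => at1_ext1_zero hS0 hx)
      intro h
      apply hx
      obtain ⟨y, hy, rfl⟩ := h
      exact ⟨y, ball_subset_closedBall (hSs hy), rfl⟩)] at hz
    rw [← hz]
    apply setIntegral_congr_fun (core_meas h2c h2sub)
    intro x hx
    have hy := h2sub (chart_core_mem h2sub hx)
    simp only
    rw [rep_eq_d1 hsm hrep1 hy]
  -- the piece as a test form
  obtain ⟨σ, hσ, hσK, hσr⟩ := exists_test hK hKt hs1 h0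
  have hσc : HasCompactSupport σ := hK.of_isClosed_subset (isClosed_tsupport σ) hσK
  have hz := chart_zero LP D.bl D.smJ D.sq (smF D) (sposF D) hR hsub s hs hφm hφp hφn hcl hσ hσc
    (hσK.trans hKR)
  have hσm : Measurable (En.d1 σ) := by
    have h1 : Continuous (fderiv ℝ σ) := hσ.continuous_fderiv (by simp)
    have h2 : Continuous fun y => fderiv ℝ σ y - (fderiv ℝ σ y).flip :=
      h1.sub ((ContinuousLinearMap.flipₗᵢ ℝ E4 E4 ℝ).continuous.comp h1)
    exact h2.measurable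
  have hσcont : Continuous (En.d1 σ) := by
    have h1 : Continuous (fderiv ℝ σ) := hσ.continuous_fderiv (by simp)
    exact h1.sub ((ContinuousLinearMap.flipₗᵢ ℝ E4 E4 ℝ).continuous.comp h1)
  set A : Set M := core p (closedBall x0 (2 * R)) with hA
  have hAm : MeasurableSet A := core_meas h2c h2sub
  obtain ⟨Cq, hCq0, hCq⟩ := bdd_q (p := p) h2c h2sub (J := D.J) (smF D)
    (fun y hy => spos_rep (sposF D) (h2sub hy)) (fun y hy v => repJ_sq D.sq (h2sub hy) v) hCφ
    (hσcont.continuousOn (s := closedBall x0 (2 * R)))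
  rw [← hz]
  apply hrepr _ _ Cq
  · rw [aestronglyMeasurable_indicator_iff hAm]
    have h1 := aesm_integrand (smF D) hR hsub s hφm hσm
    exact h1.comp_aemeasurable (aemeas_chart h2c h2sub s)
  · intro x
    by_cases hx : x ∈ A
    · rw [indicator_of_mem hx]
      exact hCq _ (chart_core_mem h2sub hx)
    · rw [indicator_of_notMem hx, abs_zero]
      exact hCq0
  · intro f
    rw [hform _ (by
      intro x hx
      rw [at2_mulX]
      have h3 : at2 (dG s1) x = 0 := by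
        apply dG_zero_of_off hK hKt h0
        intro h
        apply hx
        obtain ⟨y, hy, rfl⟩ := h
        exact ⟨y, ball_subset_closedBall (ball_subset_ball (by linarith) (hKR hy)), rfl⟩
      rw [h3, smul_zero]), ← integral_indicator hAm]
    congr 1
    ext x
    by_cases hx : x ∈ A
    · rw [indicator_of_mem hx, indicator_of_mem hx]
      have hy := h2sub (chart_core_mem h2sub hx)
      have hxs : x ∈ (chartAt E4 p).source := core_sub h2sub hx
      have h5 : rep p ((⟨dG s1, Smooth2.dG hs1⟩ : X2 M) : F2 E4 M) (chartAt E4 p x)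
          = En.d1 σ (chartAt E4 p x) := rep_eq_d1 hs1 hσr hy
      rw [mulX_coe, Vm.rep_fmul, h5, (chartAt E4 p).left_inv hxs, q_smul_right]
    · rw [indicator_of_notMem hx, indicator_of_notMem hx, mul_zero]

end Main

end Crest.Agent.R240.Pol
end

-- ▼ part R240/PhiN
section

/-!
# R240: restriction of a current on `M` to a Borel set, node form (helper168)

`PhiR_exists'` (with lower bounds w.r.t. the trace measure) and `PhiR_node` (IsInv, IsKahler, IsRM).
-/

set_option autoImplicit false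
set_option linter.unusedSectionVars false
set_option maxSynthPendingDepth 3
open MeasureTheory Set Filter Topology
open scoped Manifold ContDiff

namespace Crest.Agent.R240.Vm

open Crest.Agent.R240.Ch Crest.Agent.R240.HB

noncomputable section

theorem nsq_smul (J : E4 →L[ℝ] E4) (F : Bil) (r : ℝ) (b : Bil) :
    nsq J F (r • b) = r ^ 2 * nsq J F b := by
  have h1 : invp J (r • b) = r • invp J b := by
    ext u v
    have e : ∀ (c : Bil) x y, (r • c) x y = r * c x y := fun _ _ _ => rfl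
    rw [invp_apply, e, e, e, invp_apply]
    ring
  have h2 : antip J (r • b) = r • antip J b := by
    ext u v
    have e : ∀ (c : Bil) x y, (r • c) x y = r * c x y := fun _ _ _ => rfl
    rw [antip_apply, e, e, e, antip_apply]
    ring
  unfold nsq ip
  rw [h1, h2, q_smul_left, q_smul_left, q_smul_left, q_comm F (invp J b) (r • invp J b),
    q_comm F (antip J b) (r • antip J b), q_smul_left, q_smul_left]
  ring

theorem nr_smul (J : E4 →L[ℝ] E4) (F : Bil) (r : ℝ) (b : Bil) :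
    nr J F (r • b) = |r| * nr J F b := by
  unfold nr
  rw [nsq_smul, Real.sqrt_mul (sq_nonneg r), Real.sqrt_sq_eq_abs]

section Main

variable {M : Type*} [MetricSpace M] [CompactSpace M] [ChartedSpace E4 M]
    [IsManifold 𝓘(ℝ, E4) ∞ M] [MeasurableSpace M] [BorelSpace M]

theorem nr_mulX (D : Dat M) (f : SF M) (b : X2 M) (x : M) :
    D.nr (mulX M f b).1 x = |f x| * D.nr b.1 x :=
  nr_smul (atJ D.J x) (at2 D.F x) (f x) (at2 b.1 x)

theorem smoothF_SF (f : SF M) : SmoothF E4 (fun x => f x) := (smoothF_iff _).1 f.contMDiff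

set_option maxHeartbeats 1000000 in
/-- **Restriction of a current to a Borel set**, with the lower bounds. -/
theorem PhiR_exists' (D : Dat M) (hqc : ∀ P : X2 M, Continuous (qG D.F P.1 D.F))
    (N : X2 M → M → ℝ) (hNc : ∀ b, Continuous (N b)) (hN0 : ∀ b x, 0 ≤ N b x)
    (hNm : ∀ (f : SF M) b x, N (mulX M f b) x = |f x| * N b x)
    (Phi : X2 M →ₗ[ℝ] ℝ) (hinv : ∀ b, Phi b = Phi (invM D.J D.smJ b))
    (hpos : ∀ P ∈ PosM D.J, D.I P.1 D.F ≤ Phi P)
    (s : Measure M) [IsFiniteMeasure s] (hb : ∀ b, |Phi b| ≤ ∫ x, N b x ∂s)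
    (G : Set M) (hG : MeasurableSet G) (hGμ : D.μ Gᶜ = 0) :
    ∃ Phi0 : X2 M →ₗ[ℝ] ℝ,
      (∀ b, Phi0 b = Phi0 (invM D.J D.smJ b)) ∧
      (∀ P ∈ PosM D.J, D.I P.1 D.F ≤ Phi0 P) ∧
      (∀ b, |Phi0 b| ≤ ∫ x in G, N b x ∂s) ∧
      (∀ b (g : M → ℝ) (C : ℝ), AEStronglyMeasurable g s → (∀ x, |g x| ≤ C) →
        (∀ f : SF M, Phi (mulX M f b) = ∫ x, f x * g x ∂s) → Phi0 b = ∫ x in G, g x ∂s) ∧
      (∀ F0 : X2 M, (∀ f : SF M, Phi (mulX M f F0) = ∫ x, f x ∂s) →
        ∀ f : SF M, Phi0 (mulX M f F0) = ∫ x in G, f x ∂s) ∧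
      (∀ b (k : M → ℝ) (C : ℝ), AEStronglyMeasurable k s → (∀ x, |k x| ≤ C) →
        (∀ f : SF M, (∀ x, 0 ≤ f x) → ∫ x, f x * k x ∂s ≤ Phi (mulX M f b)) →
        ∫ x in G, k x ∂s ≤ Phi0 b) := by
  have := D.fin
  have hcont : ∀ f : SF M, Continuous (evSmooth 𝓘(ℝ, E4) f) := evSmooth_continuous 𝓘(ℝ, E4)
  obtain ⟨Phi0, hR⟩ := exists_Restr (A := SF M) (X := X2 M) s D.μ (evSmooth 𝓘(ℝ, E4) (M := M))
    (mulX M) N hcont hNc hN0 hNm Phi hb hG
    (exists_cut_smooth 𝓘(ℝ, E4) (s + D.μ) hG)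
  have hbd : ∀ g : M → ℝ, Continuous g → ∃ C, ∀ x, |g x| ≤ C := by
    intro g hg
    obtain ⟨C, hC⟩ := (isCompact_univ.image hg.abs).isBounded.bddAbove
    exact ⟨C, fun x => hC ⟨x, mem_univ _, rfl⟩⟩
  have hrepr : ∀ b (g : M → ℝ) (C : ℝ), AEStronglyMeasurable g s → (∀ x, |g x| ≤ C) →
      (∀ f : SF M, Phi (mulX M f b) = ∫ x, f x * g x ∂s) → Phi0 b = ∫ x in G, g x ∂s :=
    fun b g C h1 h2 h3 => hR.repr b g C h1 h2 h3
  refine ⟨Phi0, ?_, ?_, hR.bound, hrepr, ?_, ?_⟩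
  · intro b
    apply hR.congr
    intro f
    rw [hinv (mulX M f b), invM_mulX]
  · intro P hP
    obtain ⟨C, hC⟩ := hbd _ (hqc P)
    have h1 := hR.lower P (qG D.F P.1 D.F) C (hqc P).aestronglyMeasurable hC (by
      intro f hf
      have h2 := hpos (mulX M f P) (PosM.mulX hf hP)
      refine le_of_eq_of_le ?_ h2
      unfold Dat.I IG
      apply integral_congr_ae
      filter_upwards with x
      exact (qG_fmul_left D.F P.1 D.F f x).symm)
    have h3 : ∫ x in G, qG D.F P.1 D.F x ∂D.μ = D.I P.1 D.F := by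
      unfold Dat.I IG
      have : D.μ.restrict G = D.μ := by
        apply Measure.restrict_eq_self_of_ae_mem
        rw [ae_iff]
        exact hGμ
      rw [this]
    rw [h3] at h1
    exact h1
  · intro F0 hF0 f
    obtain ⟨C, hC⟩ := hbd _ (hcont f)
    apply hrepr _ _ C (hcont f).aestronglyMeasurable hC
    intro g
    have h1 : mulX M g (mulX M f F0) = mulX M (g * f) F0 := by
      apply Subtype.ext
      funext x
      exact smul_smul (g x) (f x) (F0.1 x)
    rw [h1, hF0]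
    rfl
  · intro b k C hk hkC h
    exact hR.isRestr.ge_setIntegral (μ := s) hcont hG
      (exists_cut_smooth 𝓘(ℝ, E4) (s + s) hG) hk hkC h

set_option maxHeartbeats 1000000 in
/-- **Restriction of a Kähler current to a Borel set of full `μ`-measure**, node form. -/
theorem PhiR_node (D : Dat M) (Φ : X2 M →ₗ[ℝ] ℝ) (s : Measure M) (hinv : D.IsInv Φ)
    (hK : D.IsKahler Φ) (hRM : D.IsRM Φ s) (G : Set M) (hG : MeasurableSet G)
    (hGμ : D.μ Gᶜ = 0) :
    ∃ Φ₀ : X2 M →ₗ[ℝ] ℝ, D.IsInv Φ₀ ∧ D.IsKahler Φ₀ ∧ D.IsRM Φ₀ (s.restrict G) ∧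
      (∀ (b : X2 M) (g : M → ℝ) (C : ℝ), AEStronglyMeasurable g s → (∀ x, |g x| ≤ C) →
        (∀ f : SF M, Φ (mulX M f b) = ∫ x, f x * g x ∂s) → Φ₀ b = ∫ x in G, g x ∂s) := by
  have := hRM.fin
  have hqc : ∀ P : X2 M, Continuous (qG D.F P.1 D.F) := fun P =>
    En4.sF_continuous (En4.sF_qG D P.2 (En4.smF D))
  have hnc : ∀ b : X2 M, Continuous (D.nr b.1) := fun b => En4.cont_nr D b.2
  obtain ⟨Φ₀, h1, h2, h3, h4, h5, h6⟩ := PhiR_exists' D hqc (fun b x => 2 * D.nr b.1 x)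
    (fun b => continuous_const.mul (hnc b))
    (fun b x => mul_nonneg zero_le_two (En4.nr_nonneg D _ x))
    (fun f b x => by
      rw [nr_mulX]
      ring)
    Φ hinv hK s
    (fun b => by
      rw [hinv b, integral_const_mul]
      exact hRM.bound b) G hG hGμ
  refine ⟨Φ₀, h1, h2, ⟨inferInstance, ?_, ?_, ?_⟩, h4⟩
  · -- trace
    intro f hf b hb
    have hF0 : ∀ g : SF M, Φ (mulX M g D.FX) = ∫ x, g x ∂s := fun g =>
      hRM.trace (fun x => g x) (smoothF_SF g) _ rfl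
    let f' : SF M := ⟨f, (smoothF_iff f).2 hf⟩
    have h7 := h5 D.FX hF0 f'
    have h8 : b = mulX M f' D.FX := Subtype.ext hb
    rw [h8]
    exact h7
  · -- bound
    intro b
    have h7 := h3 b
    rw [integral_const_mul, h1 b] at h7
    exact h7
  · -- lower
    intro b h hh hge
    have hbd : ∃ C, ∀ x, |h x| ≤ C := by
      obtain ⟨C, hC⟩ := (isCompact_univ.image hh.abs).isBounded.bddAbove
      exact ⟨C, fun x => hC ⟨x, mem_univ _, rfl⟩⟩
    obtain ⟨C, hC⟩ := hbd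
    apply h6 (D.pi' b) h C hh.aestronglyMeasurable hC
    intro f hf
    have h7 : mulX M f (D.pi' b) = D.pi' (mulX M f b) := (invM_mulX D.J D.smJ f b).symm
    rw [h7]
    have hfc : Continuous fun x => f x := f.contMDiff.continuous
    apply hRM.lower (mulX M f b) (fun x => f x * h x) (hfc.mul hh)
    intro x v
    have h8 : at2 (mulX M f b).1 x v (atJ D.J x v) = f x * at2 b.1 x v (atJ D.J x v) := rfl
    have h9 := mul_le_mul_of_nonneg_left (hge x v) (hf x)
    rw [h8, mul_assoc]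
    exact h9

end Main

end

end Crest.Agent.R240.Vm
end

-- ▼ part R240/Pol
section

/-!
Row 240 (S0371), node N6 (helper768): removal of the poles of the Kaehler current on `M`
(from the local poles theorem).
-/

set_option autoImplicit false
set_option linter.unusedSectionVars false
set_option maxSynthPendingDepth 3

open MeasureTheory Metric Set Filter Function
open scoped ContDiff ENNReal Manifold Topology

namespace Crest.Agent.R240.Pol

open Crest.Agent.R240 Crest.Agent.R240.Ch Crest.Agent.R240.Vm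

variable {M : Type*} [MetricSpace M] [CompactSpace M] [ChartedSpace E4 M]
    [IsManifold 𝓘(ℝ, E4) ∞ M] [MeasurableSpace M] [BorelSpace M]

theorem wpot_eq_w (s : Measure M) : wpot s = Kern.w s := by
  funext x
  rw [MeasDens.w_eq_edist]
  rfl

/-- the restricted current is closed. -/
theorem killsExact_restr (LP : LocalPoles) (D : Dat M) {Φ : X2 M →ₗ[ℝ] ℝ} {s : Measure M}
    [IsFiniteMeasure s]
    (hinv : D.IsInv Φ) (hnn : D.IsNonneg Φ) (hEx : Dat.KillsExact Φ) (hRM : D.IsRM Φ s)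
    (hgr : Dat.Growth2 s) (hCD : ChartDens D) {Φ₀ : X2 M →ₗ[ℝ] ℝ}
    (hrepr : ∀ (b : X2 M) (g : M → ℝ) (C : ℝ), AEStronglyMeasurable g s → (∀ x, |g x| ≤ C) →
      (∀ f : SF M, Φ (mulX M f b) = ∫ x, f x * g x ∂s) →
      Φ₀ b = ∫ x in {x | wpot s x < ⊤}, g x ∂s) :
    Dat.KillsExact Φ₀ := by
  intro b hb
  obtain ⟨S, hS, hbS⟩ := hb
  obtain ⟨P⟩ := exists_ballPU M
  have hSi : ∀ i, Smooth1 (fmul1 (P.χ i) S) := fun i => Smooth1.fmul (P.smooth i) hS
  have hbe : b.1 = ∑ i ∈ P.t, dG (fmul1 (P.χ i) S) := by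
    rw [eq_dG hS hbS, ← dG_sum P.t _ (fun i _ => hSi i), sum_pieces P S]
  have hsum : b = ∑ i ∈ P.t, (⟨dG (fmul1 (P.χ i) S), Smooth2.dG (hSi i)⟩ : X2 M) := by
    apply Subtype.ext
    rw [hbe, Submodule.coe_sum]
  rw [hsum, map_sum]
  apply Finset.sum_eq_zero
  intro i _
  apply piece_zero LP D hinv hnn hEx hRM hgr hCD hrepr (P.R_pos i) (P.sub i) (P.K_cpt i)
    (P.K_sub i) (hSi i)
  intro x hx
  have h1 : P.χ i x = 0 := P.off i x hx
  change P.χ i x • at1 S x = 0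
  rw [h1, zero_smul]

/-- **node N6**. -/
theorem n6_of (LP : LocalPoles) (D : Dat M) (hVG : D.VG) : D.N6 := by
  intro Φ s hinv hK hEx hRM hgr
  have hfin : IsFiniteMeasure s := hRM.fin
  have hfinμ : IsFiniteMeasure D.μ := D.fin
  set G : Set M := {x | wpot s x < ⊤} with hG
  have hGm : MeasurableSet G := measurableSet_lt (measurable_wpot _) measurable_const
  have hGμ : D.μ Gᶜ = 0 := by
    obtain ⟨C, hC⟩ := hVG
    have h1 : ∀ (x : M) (r : ℝ), 0 < r → D.μ (ball x r) ≤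
        ENNReal.ofReal (max C 0 * r ^ (2 + 2)) := by
      intro x r hr
      rw [← ENNReal.ofReal_toReal (measure_ne_top D.μ (ball x r))]
      apply ENNReal.ofReal_le_ofReal
      refine (hC x r hr).trans ?_
      exact mul_le_mul_of_nonneg_right (le_max_left _ _) (by positivity)
    have h2 := Kern.ae_w_lt_top D.μ s (c := 2) (by norm_num) (le_max_right C 0) h1
    rw [ae_iff] at h2
    rw [hG, wpot_eq_w]
    exact h2
  have hnn : D.IsNonneg Φ := by
    intro P hP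
    refine le_trans ?_ (hK P hP)
    unfold Dat.I IG
    apply integral_nonneg
    intro x
    have hP' := hP x
    exact ((En4.pos_iff (D.sq x) (ChDens.spos D x) hP'.alt hP'.inv).1 hP'.nonneg).1
  obtain ⟨Φ₀, h1, h2, h3, h4⟩ := PhiR_node D Φ s hinv hK hRM G hGm hGμ
  refine ⟨Φ₀, s.restrict G, h1, h2, ?_, h3, ?_, ?_⟩
  · exact killsExact_restr LP D hinv hnn hEx hRM hgr (ChDens.chartDens D) h4
  · obtain ⟨C, hC⟩ := hgr
    refine ⟨C, fun x r hr => le_trans ?_ (hC x r hr)⟩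
    apply ENNReal.toReal_mono (measure_ne_top _ _)
    exact Measure.restrict_apply_le _ _
  · unfold Dat.ZeroDens
    rw [ae_restrict_iff' hGm]
    refine Eventually.of_forall fun x hx => ?_
    have hx' : Kern.w s x < ⊤ := by
      rw [← wpot_eq_w]; exact hx
    have h5 := MeasDens.tendsto_th_restrict s G x hx'
    have h6 := (ENNReal.tendsto_toReal ENNReal.zero_ne_top).comp h5
    simp only [ENNReal.toReal_zero] at h6
    refine h6.congr' ?_
    filter_upwards [self_mem_nhdsWithin] with r hr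
    have hr' : (0 : ℝ) < r := hr
    simp only [comp_apply, MeasDens.th]
    rw [ENNReal.toReal_div, ENNReal.toReal_ofReal (by positivity)]
    rfl

end Crest.Agent.R240.Pol
end

-- ▼ part R240/N6
section

/-!
Row 240 (S0371), node N6, unconditional (helper768).
-/

set_option autoImplicit false

open scoped Manifold ContDiff

namespace Crest.Agent.R240.Pol

open Crest.Agent.R240 Crest.Agent.R240.Ch

/-- **node N6**: removal of the poles of the Kaehler current. -/
theorem n6 {M : Type*} [MetricSpace M] [CompactSpace M] [ChartedSpace E4 M]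
    [IsManifold 𝓘(ℝ, E4) ∞ M] [MeasurableSpace M] [BorelSpace M] (D : Dat M) : D.N6 :=
  n6_of Loc5.localPoles D (Int.node_VG D)

end Crest.Agent.R240.Pol
end

-- ▼ part R240/TopAll

/-!
Row 240 (S0371), TOP (helper23): everything except the open nodes N8, N6, N3, N5.
-/

set_option autoImplicit false
set_option maxSynthPendingDepth 3

open Set Function Filter MeasureTheory Metric
open scoped Manifold ContDiff Topology ENNReal

namespace Crest.Agent.R240

open Ch

noncomputable section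

variable {M : Type*} [MetricSpace M] [CompactSpace M] [ChartedSpace E4 M]
    [IsManifold 𝓘(ℝ, E4) ∞ M] [MeasurableSpace M] [BorelSpace M]

/-- the goal from the nodes N8, N5, N6, N3. -/
theorem Dat.goal_of_open (D : Dat M) (h8 : D.N8) (h5 : D.N5) (h6 : D.N6) (h3 : D.N3) : D.Goal :=
  D.goal (St1.n1 D) (N24.n2 D) h3 (N24.n4 D) h5
    (N5P.n5'_of D h8 (node_N9 D) (Fund.fund D)) h6 D.n7_proof
    (N8A.node_N8a D h8 (Int.node_COV D) (Fund.fund D)) fun 𝒰 m _ => cm_nonneg 𝒰 m _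

/-- the goal from the node N8. -/
theorem Dat.goal_of_N8 (D : Dat M) (h8 : D.N8) : D.Goal :=
  D.goal_of_open h8 (N5.n5 D h8 (node_N9 D) (Fund.fund D)) (Pol.n6 D) D.n3

end

end Crest.Agent.R240
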