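import Crest.Agent.R240.Lin6

/-!
Row 240 (S0371), helper456: the Hodge norm of two-forms, pointwise facts on `E4`.
Data: `hJ : ∀ v, J (J v) = -v`, `hF : SPos J F`.
-/

set_option autoImplicit false
set_option maxSynthPendingDepth 3

namespace Crest.Agent.R240.Ns

noncomputable section

/-! ### linearity of the type projections -/

theorem invp_neg (J : E4 →L[ℝ] E4) (b : Bil) : invp J (-b) = - invp J b := by
  have h := invp_smul J (-1) b
  rwa [neg_one_smul, neg_one_smul] at h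


theorem invp_invp {J : E4 →L[ℝ] E4} (hJ : ∀ v, J (J v) = -v) (b : Bil) :
    invp J (invp J b) = invp J b := invp_of_inv (invp_inv hJ b)

theorem antip_antip {J : E4 →L[ℝ] E4} (hJ : ∀ v, J (J v) = -v) (b : Bil) :
    antip J (antip J b) = antip J b := antip_of_anti (antip_anti hJ b)

theorem invp_antip {J : E4 →L[ℝ] E4} (hJ : ∀ v, J (J v) = -v) (b : Bil) :
    invp J (antip J b) = 0 := invp_of_anti (antip_anti hJ b)

theorem antip_invp {J : E4 →L[ℝ] E4} (hJ : ∀ v, J (J v) = -v) (b : Bil) :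
    antip J (invp J b) = 0 := antip_of_inv (invp_inv hJ b)

theorem spos_pos {J : E4 →L[ℝ] E4} {F : Bil} (h : SPos J F) : Pos J F where
  alt := h.alt
  inv := h.inv
  nonneg v := by
    by_cases hv : v = 0
    · subst hv; simp
    · exact (h.pos v hv).le


theorem pos_smul {J : E4 →L[ℝ] E4} {P : Bil} (hP : Pos J P) {r : ℝ} (hr : 0 ≤ r) :
    Pos J (r • P) where
  alt := hP.alt.smul r
  inv u v := by
    have h1 : (r • P) (J u) (J v) = r * P (J u) (J v) := rfl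
    have h2 : (r • P) u v = r * P u v := rfl
    rw [h1, h2, hP.inv]
  nonneg v := by
    have h1 : (r • P) v (J v) = r * P v (J v) := rfl
    rw [h1]
    exact mul_nonneg hr (hP.nonneg v)

theorem pos_zero (J : E4 →L[ℝ] E4) : Pos J 0 where
  alt := Alt.zero
  inv _ _ := rfl
  nonneg _ := le_refl _

theorem pos_invp {J : E4 →L[ℝ] E4} {P : Bil} (hP : Pos J P) : invp J P = P :=
  invp_of_inv hP.inv


theorem spos_invp {J : E4 →L[ℝ] E4} {P : Bil} (hP : SPos J P) : invp J P = P :=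
  invp_of_inv hP.inv

theorem spos_antip {J : E4 →L[ℝ] E4} {P : Bil} (hP : SPos J P) : antip J P = 0 :=
  antip_of_inv hP.inv

/-! ### frames -/

section frame

variable {J : E4 →L[ℝ] E4} {F : Bil} {A : E4 ≃L[ℝ] E4}

theorem frame_pull_invp (h : IsFrame J F A) (b : Bil) :
    pull (A : E4 →L[ℝ] E4) (invp J b) = invp J0 (pull (A : E4 →L[ℝ] E4) b) := by
  ext u v
  rw [pull_apply, invp_apply, invp_apply, pull_apply, pull_apply]
  simp only [ContinuousLinearEquiv.coe_coe]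
  rw [h.cplx, h.cplx]

theorem frame_pull_antip (h : IsFrame J F A) (b : Bil) :
    pull (A : E4 →L[ℝ] E4) (antip J b) = antip J0 (pull (A : E4 →L[ℝ] E4) b) := by
  ext u v
  rw [pull_apply, antip_apply, antip_apply, pull_apply, pull_apply]
  simp only [ContinuousLinearEquiv.coe_coe]
  rw [h.cplx, h.cplx]

theorem W_om0_right (b : Bil) : W b om0 = ent b 0 1 + ent b 2 3 := by
  have h : ∀ i j, ent om0 i j = om0 (ee i) (ee j) := fun i j => rfl
  unfold W
  simp only [h, om0_apply, ee_apply]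
  simp

/-- polarised sum of squares of entries. -/
def N1 (b c : Bil) : ℝ := ent b 0 1 * ent c 0 1 + ent b 0 2 * ent c 0 2 + ent b 0 3 * ent c 0 3
  + ent b 1 2 * ent c 1 2 + ent b 1 3 * ent c 1 3 + ent b 2 3 * ent c 2 3

theorem N1_self (b : Bil) : N1 b b = N0 b := by unfold N1 N0; ring

theorem N1_sq_le (b c : Bil) : N1 b c ^ 2 ≤ N0 b * N0 c := by
  have h := cs6 (ent b 0 1) (ent b 0 2) (ent b 0 3) (ent b 1 2) (ent b 1 3) (ent b 2 3)
    (ent c 0 1) (ent c 0 2) (ent c 0 3) (ent c 1 2) (ent c 1 3) (ent c 2 3)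
  unfold N1 N0
  refine le_trans (le_of_eq ?_) h
  ring

theorem W_sq_le (b c : Bil) : W b c ^ 2 ≤ N0 b * N0 c := by
  have h := cs6 (ent b 0 1) (ent b 0 2) (ent b 0 3) (ent b 1 2) (ent b 1 3) (ent b 2 3)
    (ent c 2 3) (- ent c 1 3) (ent c 1 2) (ent c 0 3) (- ent c 0 2) (ent c 0 1)
  unfold W N0
  refine le_trans (le_of_eq ?_) (h.trans (le_of_eq ?_)) <;> ring

theorem inv0_entries {b : Bil} (hb : Alt b) : ent (invp J0 b) 0 1 = ent b 0 1 ∧
    ent (invp J0 b) 0 2 = (ent b 0 2 + ent b 1 3) / 2 ∧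
    ent (invp J0 b) 0 3 = (ent b 0 3 - ent b 1 2) / 2 ∧
    ent (invp J0 b) 1 2 = (ent b 1 2 - ent b 0 3) / 2 ∧
    ent (invp J0 b) 1 3 = (ent b 1 3 + ent b 0 2) / 2 ∧
    ent (invp J0 b) 2 3 = ent b 2 3 := by
  have e : ∀ i j, ent (invp J0 b) i j = (b (ee i) (ee j) + b (J0 (ee i)) (J0 (ee j))) / 2 :=
    fun i j => invp_apply _ _ _ _
  have e2 : ∀ i j, ent b i j = b (ee i) (ee j) := fun i j => rfl
  simp only [e, e2, J0_ee0, J0_ee1, J0_ee2, J0_ee3, map_neg, neg_apply]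
  rw [hb.swap (ee 1) (ee 0), hb.swap (ee 3) (ee 2)]
  refine ⟨?_, ?_, ?_, ?_, ?_, ?_⟩
  all_goals first | trivial | ring

theorem anti0_entries {b : Bil} (hb : Alt b) : ent (antip J0 b) 0 1 = 0 ∧
    ent (antip J0 b) 0 2 = (ent b 0 2 - ent b 1 3) / 2 ∧
    ent (antip J0 b) 0 3 = (ent b 0 3 + ent b 1 2) / 2 ∧
    ent (antip J0 b) 1 2 = (ent b 1 2 + ent b 0 3) / 2 ∧
    ent (antip J0 b) 1 3 = (ent b 1 3 - ent b 0 2) / 2 ∧
    ent (antip J0 b) 2 3 = 0 := by
  have e : ∀ i j, ent (antip J0 b) i j = (b (ee i) (ee j) - b (J0 (ee i)) (J0 (ee j))) / 2 :=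
    fun i j => antip_apply _ _ _ _
  have e2 : ∀ i j, ent b i j = b (ee i) (ee j) := fun i j => rfl
  simp only [e, e2, J0_ee0, J0_ee1, J0_ee2, J0_ee3, map_neg, neg_apply]
  rw [hb.swap (ee 1) (ee 0), hb.swap (ee 3) (ee 2)]
  refine ⟨?_, ?_, ?_, ?_, ?_, ?_⟩
  all_goals first | trivial | ring

/-- the Hodge inner product in a frame. -/
theorem frame_ip (hF : SPos J F) (h : IsFrame J F A) {b c : Bil} (hb : Alt b) (hc : Alt c) :
    ip J F b c = N1 (pull (A : E4 →L[ℝ] E4) b) (pull (A : E4 →L[ℝ] E4) c) / 2 := by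
  unfold ip
  rw [h.q_eq hF.alt hb hF.alt, h.q_eq hF.alt hc hF.alt, h.q_eq hF.alt (hb.invp J) (hc.invp J),
    h.q_eq hF.alt (hb.antip J) (hc.antip J), h.pull_form, frame_pull_invp h,
    frame_pull_invp h, frame_pull_antip h, frame_pull_antip h, W_om0_right, W_om0_right]
  have hb' := hb.pull (A : E4 →L[ℝ] E4)
  have hc' := hc.pull (A : E4 →L[ℝ] E4)
  generalize pull (A : E4 →L[ℝ] E4) b = b' at *
  generalize pull (A : E4 →L[ℝ] E4) c = c' at *
  obtain ⟨b1, b2, b3, b4, b5, b6⟩ := inv0_entries hb'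
  obtain ⟨c1, c2, c3, c4, c5, c6⟩ := inv0_entries hc'
  obtain ⟨b1', b2', b3', b4', b5', b6'⟩ := anti0_entries hb'
  obtain ⟨c1', c2', c3', c4', c5', c6'⟩ := anti0_entries hc'
  unfold W N1
  rw [b1, b2, b3, b4, b5, b6, c1, c2, c3, c4, c5, c6, b1', b2', b3', b4', b5', b6',
    c1', c2', c3', c4', c5', c6']
  ring

theorem frame_nsq (hF : SPos J F) (h : IsFrame J F A) {b : Bil} (hb : Alt b) :
    nsq J F b = N0 (pull (A : E4 →L[ℝ] E4) b) / 2 := by
  unfold nsq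
  rw [frame_ip hF h hb hb, N1_self]

end frame

section facts

variable {J : E4 →L[ℝ] E4} {F : Bil}

theorem q_FF (hJ : ∀ v, J (J v) = -v) (hF : SPos J F) : q F F F = 1 := by
  obtain ⟨A, hA⟩ := exists_frame hJ hF
  exact div_self (hA.W_ne hF.alt)


theorem q_inv_anti (hJ : ∀ v, J (J v) = -v) (hF : SPos J F) {b c : Bil} (hb' : Alt b)
    (hc' : Alt c) (hb : ∀ u v, b (J u) (J v) = b u v) (hc : ∀ u v, c (J u) (J v) = - c u v) :
    q F b c = 0 := by
  obtain ⟨A, hA⟩ := exists_frame hJ hF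
  rw [hA.q_eq hF.alt hb' hc', W_mixed0 (hc'.pull _) (hA.pull_inv hb) (hA.pull_anti hc), zero_div]

theorem q_invp_antip (hJ : ∀ v, J (J v) = -v) (hF : SPos J F) {b c : Bil} (hb : Alt b)
    (hc : Alt c) : q F (invp J b) (antip J c) = 0 :=
  q_inv_anti hJ hF (hb.invp J) (hc.antip J) (invp_inv hJ b) (antip_anti hJ c)

theorem q_antip_invp (hJ : ∀ v, J (J v) = -v) (hF : SPos J F) {b c : Bil} (hb : Alt b)
    (hc : Alt c) : q F (antip J b) (invp J c) = 0 := by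
  rw [q_comm]; exact q_invp_antip hJ hF hc hb

theorem q_split' (hJ : ∀ v, J (J v) = -v) (hF : SPos J F) {b c : Bil} (hb : Alt b) (hc : Alt c) :
    q F b c = q F (invp J b) (invp J c) + q F (antip J b) (antip J c) := by
  conv_lhs => rw [← invp_add_antip J b, ← invp_add_antip J c]
  rw [q_add_left, q_add_right, q_add_right, q_invp_antip hJ hF hb hc, q_antip_invp hJ hF hb hc]
  ring

/-- `q(b,F) = q(b',F)`. -/
theorem q_F_invp (hJ : ∀ v, J (J v) = -v) (hF : SPos J F) {b : Bil} (hb : Alt b) :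
    q F (invp J b) F = q F b F := by
  have h := q_split' hJ hF hb hF.alt
  have e : antip J F = 0 := antip_of_inv hF.inv
  have e2 : invp J F = F := invp_of_inv hF.inv
  rw [e, e2] at h
  rw [h]
  have : q F (antip J b) 0 = 0 := by simp [q, W, ent_zero]
  rw [this, add_zero]

theorem q_F_antip (hJ : ∀ v, J (J v) = -v) (hF : SPos J F) {b : Bil} (hb : Alt b) :
    q F (antip J b) F = 0 := by
  have h := q_antip_invp hJ hF hb hF.alt
  rwa [spos_invp hF] at h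

/-! ### algebra of `ip` -/

theorem ip_neg_left (J : E4 →L[ℝ] E4) (F : Bil) (b c : Bil) :
    ip J F (-b) c = - ip J F b c := by
  have h := ip_smul_left J F (-1) b c
  rw [neg_one_smul] at h
  linarith

theorem ip_neg_right (J : E4 →L[ℝ] E4) (F : Bil) (b c : Bil) :
    ip J F b (-c) = - ip J F b c := by
  rw [ip_comm, ip_neg_left, ip_comm]

theorem nsq_neg (J : E4 →L[ℝ] E4) (F b : Bil) : nsq J F (-b) = nsq J F b := by
  unfold nsq
  rw [ip_neg_left, ip_neg_right, neg_neg]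

theorem nsq_nonneg (hJ : ∀ v, J (J v) = -v) (hF : SPos J F) {b : Bil} (hb : Alt b) :
    0 ≤ nsq J F b := by
  obtain ⟨A, hA⟩ := exists_frame hJ hF
  rw [frame_nsq hF hA hb]
  have := N0_nonneg (pull (A : E4 →L[ℝ] E4) b)
  positivity

theorem pn_nonneg (J : E4 →L[ℝ] E4) (F b : Bil) : 0 ≤ pn J F b := Real.sqrt_nonneg _

theorem pn_sq (hJ : ∀ v, J (J v) = -v) (hF : SPos J F) {b : Bil} (hb : Alt b) :
    pn J F b ^ 2 = nsq J F b := Real.sq_sqrt (nsq_nonneg hJ hF hb)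

/-- Cauchy-Schwarz for `ip`, squared. -/
theorem ip_sq_le (hJ : ∀ v, J (J v) = -v) (hF : SPos J F) {b c : Bil} (hb : Alt b) (hc : Alt c) :
    ip J F b c ^ 2 ≤ nsq J F b * nsq J F c := by
  obtain ⟨A, hA⟩ := exists_frame hJ hF
  rw [frame_nsq hF hA hb, frame_nsq hF hA hc, frame_ip hF hA hb hc]
  have := N1_sq_le (pull (A : E4 →L[ℝ] E4) b) (pull (A : E4 →L[ℝ] E4) c)
  nlinarith

/-- `q(b,c)² ≤ |b|²|c|²`. -/
theorem q_sq_le (hJ : ∀ v, J (J v) = -v) (hF : SPos J F) {b c : Bil} (hb : Alt b) (hc : Alt c) :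
    q F b c ^ 2 ≤ nsq J F b * nsq J F c := by
  obtain ⟨A, hA⟩ := exists_frame hJ hF
  rw [frame_nsq hF hA hb, frame_nsq hF hA hc, hA.q_eq hF.alt hb hc]
  have := W_sq_le (pull (A : E4 →L[ℝ] E4) b) (pull (A : E4 →L[ℝ] E4) c)
  nlinarith

theorem abs_ip_le (hJ : ∀ v, J (J v) = -v) (hF : SPos J F) {b c : Bil} (hb : Alt b) (hc : Alt c) :
    |ip J F b c| ≤ pn J F b * pn J F c := by
  have h := ip_sq_le hJ hF hb hc
  rw [← pn_sq hJ hF hb, ← pn_sq hJ hF hc, ← mul_pow] at h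
  exact abs_le_of_sq_le_sq h (mul_nonneg (pn_nonneg _ _ _) (pn_nonneg _ _ _))

/-- `|q(b,c)| ≤ |b||c|`. -/
theorem abs_q_le' (hJ : ∀ v, J (J v) = -v) (hF : SPos J F) {b c : Bil} (hb : Alt b) (hc : Alt c) :
    |q F b c| ≤ pn J F b * pn J F c := by
  have h := q_sq_le hJ hF hb hc
  rw [← pn_sq hJ hF hb, ← pn_sq hJ hF hc, ← mul_pow] at h
  exact abs_le_of_sq_le_sq h (mul_nonneg (pn_nonneg _ _ _) (pn_nonneg _ _ _))

theorem pn_add_le (hJ : ∀ v, J (J v) = -v) (hF : SPos J F) {b c : Bil} (hb : Alt b) (hc : Alt c) :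
    pn J F (b + c) ≤ pn J F b + pn J F c := by
  have h := (abs_le.1 (abs_ip_le hJ hF hb hc)).2
  have h1 := pn_sq hJ hF hb
  have h2 := pn_sq hJ hF hc
  refine Real.sqrt_le_iff.2 ⟨add_nonneg (pn_nonneg _ _ _) (pn_nonneg _ _ _), ?_⟩
  rw [nsq_add]
  nlinarith

theorem pn_smul (J : E4 →L[ℝ] E4) (F : Bil) (r : ℝ) (b : Bil) :
    pn J F (r • b) = |r| * pn J F b := by
  unfold pn nr
  rw [nsq_smul, Real.sqrt_mul (sq_nonneg r), Real.sqrt_sq_eq_abs]

theorem pn_neg (J : E4 →L[ℝ] E4) (F b : Bil) : pn J F (-b) = pn J F b := by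
  unfold pn nr; rw [nsq_neg]

theorem pn_zero (J : E4 →L[ℝ] E4) (F : Bil) : pn J F 0 = 0 := by
  have h := pn_smul J F 0 0
  rw [zero_smul, abs_zero, zero_mul] at h
  exact h


/-- orthogonal splitting of the norm. -/
theorem nsq_split (hJ : ∀ v, J (J v) = -v) (hF : SPos J F) {b : Bil} (hb : Alt b) :
    nsq J F b = nsq J F (invp J b) + nsq J F (antip J b) := by
  have h0 : ∀ x : Bil, q F x 0 = 0 := fun x => by simp [q, W, ent_zero]
  unfold nsq ip
  rw [invp_invp hJ, antip_invp hJ, invp_antip hJ, antip_antip hJ, h0, q_F_invp hJ hF hb,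
    q_F_antip hJ hF hb]
  ring


theorem nsq_invp (hJ : ∀ v, J (J v) = -v) (hF : SPos J F) {b : Bil} (hb : Alt b) :
    nsq J F (invp J b) = 2 * q F b F ^ 2 - q F (invp J b) (invp J b) := by
  have h0 : ∀ x : Bil, q F x 0 = 0 := fun x => by simp [q, W, ent_zero]
  unfold nsq ip
  rw [invp_invp hJ, antip_invp hJ, h0, q_F_invp hJ hF hb]
  ring



theorem nsq_F (hJ : ∀ v, J (J v) = -v) (hF : SPos J F) : nsq J F F = 1 := by
  have h0 : ∀ x : Bil, q F x 0 = 0 := fun x => by simp [q, W, ent_zero]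
  unfold nsq ip
  rw [spos_invp hF, spos_antip hF, h0, q_FF hJ hF]; norm_num

theorem pn_F (hJ : ∀ v, J (J v) = -v) (hF : SPos J F) : pn J F F = 1 := by
  unfold pn nr; rw [nsq_F hJ hF, Real.sqrt_one]



/-! ### positivity -/

/-- `b(u,v)² ≤ 2 |b|² F(u,Ju) F(v,Jv)`. -/
theorem apply_sq_le (hJ : ∀ v, J (J v) = -v) (hF : SPos J F) {b : Bil} (hb : Alt b) (u v : E4) :
    b u v ^ 2 ≤ 2 * nsq J F b * (F u (J u) * F v (J v)) := by
  obtain ⟨A, hA⟩ := exists_frame hJ hF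
  have h := alt_apply_sq_le (hb.pull (A : E4 →L[ℝ] E4)) (A.symm u) (A.symm v)
  rw [frame_nsq hF hA hb]
  have e1 : pull (A : E4 →L[ℝ] E4) b (A.symm u) (A.symm v) = b u v := by
    rw [pull_apply]; simp
  have e2 : ∀ w, ‖A.symm w‖ ^ 2 = F w (J w) := by
    intro w
    rw [← hA.normsq, A.apply_symm_apply]
  rw [e1, e2, e2] at h
  linarith

theorem F_nonneg (hF : SPos J F) (v : E4) : 0 ≤ F v (J v) := (spos_pos hF).nonneg v

/-- `|b(v,Jv)| ≤ √2 |b| F(v,Jv)`. -/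
theorem abs_diag_le (hJ : ∀ v, J (J v) = -v) (hF : SPos J F) {b : Bil} (hb : Alt b) (v : E4) :
    |b v (J v)| ≤ Real.sqrt 2 * pn J F b * F v (J v) := by
  have h := apply_sq_le hJ hF hb v (J v)
  have e : F (J v) (J (J v)) = F v (J v) := by rw [hF.inv]
  rw [e, ← pn_sq hJ hF hb] at h
  have h2 : b v (J v) ^ 2 ≤ (Real.sqrt 2 * pn J F b * F v (J v)) ^ 2 := by
    rw [mul_pow, mul_pow, Real.sq_sqrt (by norm_num)]
    linarith
  exact abs_le_of_sq_le_sq h2
    (mul_nonneg (mul_nonneg (Real.sqrt_nonneg _) (pn_nonneg _ _ _)) (F_nonneg hF v))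

/-- `b' + √2|b|F ≥ 0`. -/
theorem pos_add_pn (hJ : ∀ v, J (J v) = -v) (hF : SPos J F) {b : Bil} (hb : Alt b) {r : ℝ}
    (hr : Real.sqrt 2 * pn J F b ≤ r) : Pos J (invp J b + r • F) where
  alt := (hb.invp J).add (hF.alt.smul _)
  inv u v := by
    have h1 : (invp J b + r • F) (J u) (J v) = invp J b (J u) (J v) + r * F (J u) (J v) := rfl
    have h2 : (invp J b + r • F) u v = invp J b u v + r * F u v := rfl
    rw [h1, h2, invp_inv hJ, hF.inv]
  nonneg v := by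
    have h1 : (invp J b + r • F) v (J v) = invp J b v (J v) + r * F v (J v) := rfl
    rw [h1, invp_diag hJ hb]
    have h := (abs_le.1 (abs_diag_le hJ hF hb v)).1
    have h3 := F_nonneg hF v
    nlinarith

theorem pos_sub_pn (hJ : ∀ v, J (J v) = -v) (hF : SPos J F) {b : Bil} (hb : Alt b) {r : ℝ}
    (hr : Real.sqrt 2 * pn J F b ≤ r) : Pos J (r • F - invp J b) := by
  have h := pos_add_pn hJ hF hb.neg (r := r) (by rwa [pn_neg])
  rw [invp_neg] at h
  rwa [sub_eq_add_neg, add_comm]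

/-- `|P| ≤ √2 q(P,F)` for `P ≥ 0`; squared form. -/
theorem nsq_pos_le (hJ : ∀ v, J (J v) = -v) (hF : SPos J F) {P : Bil} (hP : Pos J P) :
    nsq J F P ≤ 2 * q F P F ^ 2 := by
  have h := nsq_invp hJ hF hP.alt
  rw [pos_invp hP] at h
  rw [h]
  obtain ⟨A, hA⟩ := exists_frame hJ hF
  have h2 : 0 ≤ q F P P := by
    rw [hA.q_eq hF.alt hP.alt hP.alt, W_inv0 (hA.pull_inv hP.inv) (hA.pull_inv hP.inv)]
    have hpos : ∀ v, 0 ≤ pull (A : E4 →L[ℝ] E4) P v (J0 v) := by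
      intro v
      rw [pull_apply]
      simp only [ContinuousLinearEquiv.coe_coe]
      rw [← hA.cplx]
      exact hP.nonneg _
    obtain ⟨a1, a2, a3⟩ := pos0_ent (hP.alt.pull _) (hA.pull_inv hP.inv) hpos
    nlinarith
  linarith





end facts

section BdS

variable {J : E4 →L[ℝ] E4} {F : Bil} {m M : ℝ}



end BdS

end

end Crest.Agent.R240.Ns
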