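import Crest.Agent.R240.XDefs
import Crest.Agent.R240.TopDefs
import Crest.Agent.R240.IntMeas
import Crest.Agent.R240.En4L

/-!
Row 240 (helper744): smooth functions on `M`, localisation of integral inequalities, smoothness of
the pairing `q(b,c)`.
-/

set_option autoImplicit false
set_option maxSynthPendingDepth 3

open Set Function Filter MeasureTheory
open scoped Manifold ContDiff Topology

namespace Crest.Agent.R240.En4

open Crest.Agent.R240 Crest.Agent.R240.Ch

noncomputable section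

variable {M : Type*} [TopologicalSpace M] [ChartedSpace E4 M]

/-! ### smooth functions -/

theorem smoothF_of_contMDiff {f : M → ℝ} [IsManifold 𝓘(ℝ, E4) ∞ M]
    (hf : ContMDiff 𝓘(ℝ, E4) 𝓘(ℝ, ℝ) ∞ f) : SmoothF E4 f := by
  intro p
  have h := hf.comp_contMDiffOn (contMDiffOn_chart_symm (I := 𝓘(ℝ, E4)) (n := ∞) (x := p))
  exact h.contDiffOn

theorem sF_continuous {f : M → ℝ} (hf : SmoothF E4 f) : Continuous f := by
  rw [continuous_iff_continuousAt]
  intro x
  have h1 : ContinuousAt (repF x f) (chartAt E4 x x) :=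
    (hf x).continuousOn.continuousAt ((chartAt E4 x).open_target.mem_nhds (mem_chart_target E4 x))
  have h2 : ContinuousAt (chartAt E4 x) x :=
    (chartAt E4 x).continuousAt (mem_chart_source E4 x)
  have h3 : ContinuousAt (fun z => repF x f (chartAt E4 x z)) x :=
    ContinuousAt.comp (f := chartAt E4 x) (g := repF (E := E4) x f) h1 h2
  refine h3.congr ?_
  filter_upwards [(chartAt E4 x).open_source.mem_nhds (mem_chart_source E4 x)] with z hz
  unfold repF
  rw [(chartAt E4 x).left_inv hz]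

theorem sF_add {f g : M → ℝ} (hf : SmoothF E4 f) (hg : SmoothF E4 g) :
    SmoothF E4 (fun x => f x + g x) := fun p => (hf p).add (hg p)

theorem sF_sub {f g : M → ℝ} (hf : SmoothF E4 f) (hg : SmoothF E4 g) :
    SmoothF E4 (fun x => f x - g x) := fun p => (hf p).sub (hg p)

theorem sF_mul {f g : M → ℝ} (hf : SmoothF E4 f) (hg : SmoothF E4 g) :
    SmoothF E4 (fun x => f x * g x) := fun p => (hf p).mul (hg p)

theorem sF_neg {f : M → ℝ} (hf : SmoothF E4 f) : SmoothF E4 (fun x => - f x) :=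
  fun p => (hf p).neg

theorem sF_const (c : ℝ) : SmoothF E4 (fun _ : M => c) := fun _ => contDiffOn_const

theorem sF_const_mul {f : M → ℝ} (c : ℝ) (hf : SmoothF E4 f) :
    SmoothF E4 (fun x => c * f x) := sF_mul (sF_const c) hf

theorem sF_sqrt {f : M → ℝ} (hf : SmoothF E4 f) (h : ∀ x, f x ≠ 0) :
    SmoothF E4 (fun x => √(f x)) := fun p => (hf p).sqrt (fun _ _ => h _)


theorem exists_bump [T2Space M] [IsManifold 𝓘(ℝ, E4) ∞ M] {U : Set M} (hU : IsOpen U) {x : M}
    (hx : x ∈ U) : ∃ f : M → ℝ, SmoothF E4 f ∧ (∀ z, 0 ≤ f z) ∧ f x = 1 ∧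
      ∀ z, z ∉ U → f z = 0 := by
  obtain ⟨φ, hφ, -⟩ := (SmoothBumpFunction.nhds_basis_support (I := 𝓘(ℝ, E4))
    (hU.mem_nhds hx)).mem_iff.1 (hU.mem_nhds hx)
  refine ⟨φ, smoothF_of_contMDiff φ.contMDiff, fun z => φ.nonneg, φ.eq_one, ?_⟩
  intro z hz
  by_contra h
  exact hz (hφ (subset_closure (mem_support.2 h)))

/-! ### smoothness of the pairing -/

theorem contDiffOn_ent {n : WithTop ℕ∞} {f : E4 → Bil} {s : Set E4} (hf : ContDiffOn ℝ n f s)
    (i j : Fin 4) : ContDiffOn ℝ n (fun y => ent (f y) i j) s :=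
  (hf.clm_apply contDiffOn_const).clm_apply contDiffOn_const

theorem contDiffOn_W {n : WithTop ℕ∞} {f g : E4 → Bil} {s : Set E4} (hf : ContDiffOn ℝ n f s)
    (hg : ContDiffOn ℝ n g s) : ContDiffOn ℝ n (fun y => W (f y) (g y)) s := by
  have hf' := contDiffOn_ent hf
  have hg' := contDiffOn_ent hg
  unfold W
  exact (((((((hf' _ _).mul (hg' _ _)).sub ((hf' _ _).mul (hg' _ _))).add
    ((hf' _ _).mul (hg' _ _))).add ((hf' _ _).mul (hg' _ _))).sub
    ((hf' _ _).mul (hg' _ _))).add ((hf' _ _).mul (hg' _ _)))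

variable [IsManifold 𝓘(ℝ, E4) ∞ M]

theorem repF_qG {F b c : F2 E4 M} (hF : ∀ x, Alt (at2 F x)) (hb : ∀ x, Alt (at2 b x))
    (hc : ∀ x, Alt (at2 c x)) (p : M) {y : E4} (hy : y ∈ (chartAt E4 p).target) :
    repF p (qG F b c) y = q (rep p F y) (rep p b y) (rep p c y) := by
  have hd := Int.det_tcc_ne (symm_mem hy)
  unfold repF qG q
  rw [Int.W_rep hb hc, Int.W_rep hF hF, mul_div_mul_left _ _ hd]

theorem smoothF_qG {F b c : F2 E4 M} (hF : Smooth2 F) (hne : ∀ x, W (at2 F x) (at2 F x) ≠ 0)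
    (hb : Smooth2 b) (hc : Smooth2 c) : SmoothF E4 (qG F b c) := by
  intro p
  have h1 : ContDiffOn ℝ ∞ (fun y => W (rep p b y) (rep p c y) / W (rep p F y) (rep p F y))
      (chartAt E4 p).target := by
    apply (contDiffOn_W (hb.2 p) (hc.2 p)).div (contDiffOn_W (hF.2 p) (hF.2 p))
    intro y hy
    rw [Int.W_rep hF.1 hF.1]
    exact mul_ne_zero (Int.det_tcc_ne (symm_mem hy)) (hne _)
  exact h1.congr fun y hy => repF_qG hF.1 hb.1 hc.1 p hy

theorem rep_fmul' (f : M → ℝ) (a : F2 E4 M) (p : M) (y : E4) :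
    rep p (fmul f a) y = repF p f y • rep p a y := by
  ext u v
  rw [rep_apply, smul_apply, smul_apply, rep_apply]
  rfl

theorem smooth2_fmul {f : M → ℝ} {a : F2 E4 M} (hf : SmoothF E4 f) (ha : Smooth2 a) :
    Smooth2 (fmul f a) := by
  refine ⟨fun x v => ?_, fun p => ?_⟩
  · have : at2 (fmul f a) x v v = f x * at2 a x v v := rfl
    rw [this, ha.1, mul_zero]
  · exact ((hf p).smul (ha.2 p)).congr fun y _ => rep_fmul' f a p y

/-! ### localisation -/

section Loc

variable [MeasurableSpace M] [BorelSpace M] [CompactSpace M] [T2Space M]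
  [IsManifold 𝓘(ℝ, E4) ∞ M]

theorem loc_nonneg {μ : Measure M} [IsFiniteMeasure μ] [μ.IsOpenPosMeasure] {g : M → ℝ}
    (hg : Continuous g) (h : ∀ f : M → ℝ, SmoothF E4 f → (∀ x, 0 ≤ f x) → 0 ≤ ∫ x, f x * g x ∂μ)
    (x : M) : 0 ≤ g x := by
  by_contra hx
  push Not at hx
  set U : Set M := {z | g z < 0} with hUd
  have hU : IsOpen U := isOpen_lt hg continuous_const
  obtain ⟨f, hf, hf0, hfx, hfU⟩ := exists_bump hU (show x ∈ U from hx)
  have h1 := h f hf hf0
  have hc : Continuous (fun z => f z * g z) := (sF_continuous hf).mul hg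
  have hle : ∀ z, f z * g z ≤ 0 := by
    intro z
    by_cases hz : z ∈ U
    · exact mul_nonpos_of_nonneg_of_nonpos (hf0 z) (le_of_lt hz)
    · rw [hfU z hz, zero_mul]
  have hint : Integrable (fun z => -(f z * g z)) μ :=
    (hc.neg).integrable_of_hasCompactSupport (HasCompactSupport.of_compactSpace _)
  have h2 : ∫ z, -(f z * g z) ∂μ = 0 := by
    apply le_antisymm
    · rw [integral_neg]; linarith
    · exact integral_nonneg fun z => by have := hle z; simp only [Pi.zero_apply]; linarith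
  have h3 := (integral_eq_zero_iff_of_nonneg (fun z => by
    have := hle z; simp only [Pi.zero_apply]; linarith) hint).1 h2
  have h4 : (fun z => -(f z * g z)) = 0 :=
    Continuous.ae_eq_iff_eq μ hc.neg continuous_const |>.1 h3
  have h5 := congrFun h4 x
  simp only [hfx, one_mul, Pi.zero_apply] at h5
  linarith

end Loc

end

end Crest.Agent.R240.En4
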