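import Crest.Agent.R240.FADefs

/-!
Row 240, Lemma A, team F (helper446): Fourier series on the unit cube of `E4` and the operators
`Op A p f`.
-/

set_option autoImplicit false
set_option maxSynthPendingDepth 3

open MeasureTheory Set
open scoped FourierTransform ContDiff Real

noncomputable section

namespace Crest.Agent.R240.FA

@[simp] theorem nv_neg (n : Z4) : nv (-n) = - nv n := by ext i; simp

@[simp] theorem nv_zero : nv 0 = 0 := by ext i; simp

theorem ch_eq (n : Z4) (x : E4) : ch n x = (𝐞 (inner ℝ x (nv n)) : ℂ) := by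
  rw [ch, Real.fourierChar_apply, real_inner_comm]
  congr 1
  push_cast
  ring

@[simp] theorem norm_ch (n : Z4) (x : E4) : ‖ch n x‖ = 1 := by
  rw [ch_eq]; exact Circle.norm_coe _

@[simp] theorem ch_zero (x : E4) : ch 0 x = 1 := by simp [ch]

theorem CkB.nonneg {V : Type*} [NormedAddCommGroup V] [NormedSpace ℝ V] {k : ℕ} {f : E4 → V}
    {B : ℝ} (h : CkB k f B) : 0 ≤ B := (norm_nonneg _).trans (h 0 (Nat.zero_le _) 0)

theorem CkB.mono {V : Type*} [NormedAddCommGroup V] [NormedSpace ℝ V] {k k' : ℕ} {f : E4 → V}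
    {B B' : ℝ} (h : CkB k f B) (hk : k' ≤ k) (hB : B ≤ B') : CkB k' f B' :=
  fun j hj x => (h j (hj.trans hk) x).trans hB

/-! ### lattice sums -/

theorem abs_le_norm_nv (n : Z4) (i : Fin 4) : |(n i : ℝ)| ≤ ‖nv n‖ := by
  have := PiLp.norm_apply_le (nv n) i
  simpa [Real.norm_eq_abs] using this

theorem summable_prod_pi (g : ℤ → ℝ) (hg0 : ∀ m, 0 ≤ g m) (hg : Summable g) (d : ℕ) :
    Summable fun n : Fin d → ℤ => ∏ i, g (n i) := by
  induction d with
  | zero =>
    exact (hasSum_fintype _).summable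
  | succ d ih =>
    have h2 : 0 ≤ (fun n : Fin d → ℤ => ∏ i, g (n i)) := fun n => Finset.prod_nonneg fun i _ => hg0 _
    have h1 : Summable (fun x : ℤ × (Fin d → ℤ) => g x.1 * ∏ i, g (x.2 i)) :=
      Summable.mul_of_nonneg (g := fun n : Fin d → ℤ => ∏ i, g (n i)) hg ih hg0 h2
    have h3 := (Fin.consEquiv (fun _ : Fin (d+1) => ℤ)).summable_iff
      (f := fun n : Fin (d+1) → ℤ => ∏ i, g (n i))
    refine h3.1 ?_
    refine h1.congr fun x => ?_
    simp only [Function.comp, Fin.prod_univ_succ]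
    rfl

theorem summable_int_wt : Summable fun m : ℤ => (1 + |(m : ℝ)|) ^ (-(5 / 4) : ℝ) := by
  have h0 : Summable fun m : ℕ => (1 + (m : ℝ)) ^ (-(5 / 4) : ℝ) := by
    have := (summable_nat_add_iff 1).2 (Real.summable_nat_rpow.2 (by norm_num : (-(5/4) : ℝ) < -1))
    refine this.congr fun m => ?_
    push_cast
    rw [add_comm]
  refine Summable.of_nat_of_neg ?_ ?_
  · simpa using h0
  · simpa using h0

theorem summable_wt : Summable fun n : Z4 => 1 / wt n ^ 5 := by
  have h1 := summable_prod_pi _ (fun m => by positivity) summable_int_wt 4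
  refine Summable.of_nonneg_of_le (fun n => by have := wt_pos n; positivity) (fun n => ?_) h1
  have hw := wt_pos n
  have h2 : ∀ i, wt n ^ (-(5 / 4) : ℝ) ≤ (1 + |(n i : ℝ)|) ^ (-(5 / 4) : ℝ) := by
    intro i
    refine Real.rpow_le_rpow_of_nonpos (by positivity) ?_ (by norm_num)
    have := abs_le_norm_nv n i
    simp only [wt]; linarith
  have h3 : ∏ i : Fin 4, wt n ^ (-(5 / 4) : ℝ) ≤ ∏ i, (1 + |(n i : ℝ)|) ^ (-(5 / 4) : ℝ) :=
    Finset.prod_le_prod (fun i _ => by positivity) (fun i _ => h2 i)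
  refine le_trans (le_of_eq ?_) h3
  rw [Finset.prod_const, Finset.card_univ, Fintype.card_fin]
  have h4 : (wt n ^ (-(5 / 4) : ℝ)) ^ 4 = wt n ^ (-(5 : ℕ) : ℝ) := by
    rw [← Real.rpow_natCast, ← Real.rpow_mul hw.le]
    congr 1
    push_cast; norm_num
  rw [h4, Real.rpow_neg hw.le, Real.rpow_natCast, one_div]

/-! ### the torus -/

/-- representatives of torus points in the cube. -/
def rp (t : UnitAddTorus (Fin 4)) : E4 :=
  WithLp.toLp 2 (fun i => ((AddCircle.equivIoc 1 (0 : ℝ) (t i) : ℝ)))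

/-- projection to the torus. -/
def pj (x : E4) : UnitAddTorus (Fin 4) := fun i => (x i : UnitAddCircle)

theorem continuous_pj : Continuous pj := by
  unfold pj
  refine continuous_pi fun i => ?_
  exact (AddCircle.continuous_mk' 1).comp (by fun_prop)

theorem pj_rp (t : UnitAddTorus (Fin 4)) : pj (rp t) = t := by
  funext i
  simp only [pj, rp]
  exact AddCircle.coe_equivIoc ..

theorem rp_pj {x : E4} (hx : ∀ i, x i ∈ Ioc (0 : ℝ) (0 + 1)) : rp (pj x) = x := by
  ext i
  simp only [rp, pj]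
  rw [AddCircle.equivIoc_coe_of_mem]
  exact hx i


theorem cube_bounded : Bornology.IsBounded cube := by
  rw [isBounded_iff_forall_norm_le]
  refine ⟨2, fun x hx => ?_⟩
  rw [EuclideanSpace.norm_eq]
  have : ∑ i, ‖x i‖ ^ 2 ≤ ∑ _i : Fin 4, (1 : ℝ) := by
    refine Finset.sum_le_sum fun i _ => ?_
    have := hx i
    rw [Real.norm_eq_abs, sq_abs]
    nlinarith
  have h4 : ∑ i, ‖x i‖ ^ 2 ≤ 2 ^ 2 := this.trans (by norm_num)
  exact Real.sqrt_le_iff.2 ⟨by norm_num, h4⟩

theorem hasCompactSupport_of_cube {W : Type*} [Zero W] {f : E4 → W} (hf : tsupport f ⊆ cube) :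
    HasCompactSupport f :=
  Metric.isCompact_of_isClosed_isBounded (isClosed_tsupport f) (cube_bounded.subset hf)

theorem cube_mem {x : E4} (hx : x ∈ cube) : ∀ i, x i ∈ Ioc (0 : ℝ) (0 + 1) := by
  intro i
  have := hx i
  constructor <;> linarith [this.1, this.2]

/-- The periodised function on the torus is continuous. -/
theorem continuous_per {f : E4 → ℂ} (hc : Continuous f) (hf : tsupport f ⊆ cube) :
    Continuous (fun t => f (rp t)) := by
  rw [continuous_iff_continuousAt]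
  intro t
  by_cases ht : t ∈ pj '' (tsupport f)
  · obtain ⟨x, hx, rfl⟩ := ht
    have hxc := cube_mem (hf hx)
    have h1 : ContinuousAt rp (pj x) := by
      unfold rp
      have : ContinuousAt (fun t : UnitAddTorus (Fin 4) =>
          (fun i => ((AddCircle.equivIoc 1 (0 : ℝ) (t i) : ℝ)))) (pj x) := by
        rw [continuousAt_pi]
        intro i
        have hne : (pj x i : AddCircle (1:ℝ)) ≠ ((0 : ℝ) : AddCircle (1:ℝ)) := by
          intro h
          have h2 : x i = 1 := by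
            have e1 := AddCircle.equivIoc_coe_of_mem (p := (1:ℝ)) (a := (0:ℝ)) (hxc i)
            have e2 := AddCircle.equivIoc_coe_of_mem (p := (1:ℝ)) (a := (0:ℝ)) (y := 1)
              ⟨by norm_num, by norm_num⟩
            have e3 : ((1 : ℝ) : AddCircle (1:ℝ)) = ((0 : ℝ) : AddCircle (1:ℝ)) := by
              have := AddCircle.coe_add_period (1 : ℝ) (0 : ℝ)
              rwa [zero_add] at this
            have e4 : ((x i : ℝ) : AddCircle (1:ℝ)) = ((1 : ℝ) : AddCircle (1:ℝ)) := by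
              rw [e3]; exact h
            rw [e4] at e1
            rw [← e1, e2]
          have := (hf hx i).2
          linarith
        have h5 : ContinuousAt (fun t : UnitAddTorus (Fin 4) => t i) (pj x) :=
          (continuous_apply i).continuousAt
        exact ContinuousAt.comp (f := fun t : UnitAddTorus (Fin 4) => t i)
          (g := fun s => ((AddCircle.equivIoc 1 (0 : ℝ) s : ℝ)))
          (continuousAt_subtype_val.comp (AddCircle.continuousAt_equivIoc 1 (0 : ℝ) hne)) h5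
      exact (PiLp.continuous_toLp 2 _).continuousAt.comp this
    exact hc.continuousAt.comp h1
  · have hcl : IsClosed (pj '' (tsupport f)) :=
      ((hasCompactSupport_of_cube hf).isCompact.image continuous_pj).isClosed
    have hev : ∀ᶠ s in nhds t, f (rp s) = 0 := by
      filter_upwards [hcl.isOpen_compl.mem_nhds ht] with s hs
      by_contra hne
      apply hs
      exact ⟨rp s, subset_tsupport f hne, pj_rp s⟩
    exact (continuousAt_congr (hev.mono fun s hs => hs)).2 continuousAt_const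

theorem mFourier_pj (n : Fin 4 → ℤ) (x : E4) : UnitAddTorus.mFourier n (pj x) = ch n x := by
  simp only [UnitAddTorus.mFourier, ContinuousMap.coe_mk, pj, ch]
  simp only [fourier_coe_apply]
  rw [← Complex.exp_sum]
  congr 1
  simp only [PiLp.inner_apply, nv_apply, RCLike.inner_apply, conj_trivial, Complex.ofReal_sum,
    Complex.ofReal_mul, Finset.mul_sum]
  refine Finset.sum_congr rfl fun i _ => ?_
  push_cast
  ring

/-- Fourier coefficients of the periodised function. -/
theorem mFourierCoeff_per {f : E4 → ℂ} (hf : tsupport f ⊆ cube) (n : Fin 4 → ℤ) :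
    UnitAddTorus.mFourierCoeff (fun t => f (rp t)) n = coef f n := by
  rw [UnitAddTorus.mFourierCoeff_eq_integral _ _ (fun _ => (0 : ℝ)), coef]
  have h1 : ∀ x : Fin 4 → ℝ, x ∈ {x : Fin 4 → ℝ | ∀ i, x i ∈ Ioc (0 : ℝ) (0 + 1)} →
      UnitAddTorus.mFourier (-n) (fun i => ((x i : ℝ) : UnitAddCircle)) •
        f (rp (fun i => ((x i : ℝ) : UnitAddCircle))) =
      ch (-n) (WithLp.toLp 2 x : E4) • f (WithLp.toLp 2 x : E4) := by
    intro x hx
    have h2 : (fun i => ((x i : ℝ) : UnitAddCircle)) = pj (WithLp.toLp 2 x : E4) := rfl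
    rw [h2, rp_pj (by exact hx), mFourier_pj]
  rw [setIntegral_congr_fun ?_ h1]
  · have h2 : ∀ x : Fin 4 → ℝ, x ∉ {x : Fin 4 → ℝ | ∀ i, x i ∈ Ioc (0 : ℝ) (0 + 1)} →
        ch (-n) (WithLp.toLp 2 x : E4) • f (WithLp.toLp 2 x : E4) = 0 := by
      intro x hx
      have : f (WithLp.toLp 2 x : E4) = 0 := by
        by_contra hne
        exact hx (cube_mem (x := WithLp.toLp 2 x) (hf (subset_tsupport f hne)))
      rw [this, smul_zero]
    rw [setIntegral_eq_integral_of_forall_compl_eq_zero h2]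
    have h3 := (PiLp.volume_preserving_toLp (Fin 4)).integral_comp
      (MeasurableEquiv.toLp 2 (Fin 4 → ℝ)).measurableEmbedding
      (fun v : E4 => ch (-n) v • f v)
    exact h3
  · exact MeasurableSet.univ_pi' (fun i => measurableSet_Ioc)

/-- Fourier inversion on the cube, scalar case. -/
theorem hasSum_ch {f : E4 → ℂ} (hc : Continuous f) (hf : tsupport f ⊆ cube)
    (hs : Summable fun n => coef f n) {x : E4} (hx : x ∈ cube) :
    HasSum (fun n => ch n x • coef f n) (f x) := by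
  let F : C(UnitAddTorus (Fin 4), ℂ) := ⟨fun t => f (rp t), continuous_per hc hf⟩
  have h1 : UnitAddTorus.mFourierCoeff F = fun n => coef f n := by
    funext n; exact mFourierCoeff_per hf n
  have h2 := UnitAddTorus.hasSum_mFourier_series_apply_of_summable (f := F) (by rw [h1]; exact hs)
    (pj x)
  simp only [h1, mFourier_pj] at h2
  have h3 : F (pj x) = f x := by
    change f (rp (pj x)) = f x
    rw [rp_pj (cube_mem hx)]
  rw [h3] at h2
  simpa [smul_eq_mul, mul_comm] using h2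


theorem ns_ext {V : Type*} [NormedAddCommGroup V] (a b : NormedSpace ℝ V)
    (h : a.toModule = b.toModule) : a = b := by
  cases a; cases b
  simp only at h
  subst h
  rfl

theorem normedSpace_eq {V : Type*} [NormedAddCommGroup V] [i₁ : NormedSpace ℝ V]
    [NormedSpace ℂ V] [IsScalarTower ℝ ℂ V] :
    i₁ = NormedSpace.complexToReal := by
  have h : ∀ (r : ℝ) (x : V), r • x = (r : ℂ) • x := by
    intro r x
    have := smul_assoc r (1 : ℂ) x
    rw [one_smul] at this
    rw [← this]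
    congr 1
    simp
  apply ns_ext
  apply Module.ext'
  intro r x
  exact h r x

theorem continuous_ch (n : Z4) : Continuous (ch n) := by
  unfold ch; fun_prop

theorem integrable_ch {V : Type*} [NormedAddCommGroup V] [NormedSpace ℂ V]
    {f : E4 → V} (hc : Continuous f) (hf : tsupport f ⊆ cube) (n : Z4) :
    Integrable (fun x => ch n x • f x) := by
  refine Continuous.integrable_of_hasCompactSupport ((continuous_ch n).smul hc) ?_
  exact (hasCompactSupport_of_cube hf).smul_left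

theorem tsupport_comp_subset {V W : Type*} [Zero V] [Zero W] {f : E4 → V} (φ : V → W)
    (h0 : φ 0 = 0) (hf : tsupport f ⊆ cube) : tsupport (fun v => φ (f v)) ⊆ cube :=
  (closure_mono (fun v hv => by
    simp only [Function.mem_support] at hv ⊢
    intro h1; exact hv (by rw [h1, h0]))).trans hf

section vec
variable {V : Type*} [NormedAddCommGroup V] [NormedSpace ℝ V] [NormedSpace ℂ V]
  [IsScalarTower ℝ ℂ V]

theorem coef_eq_fourier (f : E4 → V) (n : Z4) :
    coef f n = 𝓕 f (nv n) := by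
  have := normedSpace_eq (V := V)
  subst this
  rw [coef, Real.fourier_eq]
  refine integral_congr_ae (Filter.Eventually.of_forall fun v => ?_)
  simp only [Circle.smul_def, ch_eq, nv_neg, inner_neg_right]

variable [FiniteDimensional ℝ V]

omit [IsScalarTower ℝ ℂ V] in
theorem hasSum_coef_of_summable {f : E4 → V} (hc : Continuous f) (hf : tsupport f ⊆ cube)
    (hs : Summable fun n => ‖coef f n‖) {x : E4} (hx : x ∈ cube) :
    HasSum (fun n => ch n x • coef f n) (f x) := by
  have : CompleteSpace V := FiniteDimensional.complete ℝ V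
  have hsum : Summable (fun n => ch n x • coef f n) := by
    refine Summable.of_norm ?_
    simpa [norm_smul, norm_ch] using hs
  have hcs := hasCompactSupport_of_cube hf
  have hint : Integrable f := hc.integrable_of_hasCompactSupport hcs
  obtain ⟨y, hy⟩ := hsum
  have : y = f x := by
    rw [SeparatingDual.eq_iff_forall_dual_eq (R := ℂ)]
    intro φ
    have h1 : HasSum (fun n => φ (ch n x • coef f n)) (φ y) := φ.hasSum hy
    have h2 : ∀ n, φ (coef f n) = coef (fun v => φ (f v)) n := by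
      intro n
      rw [coef, coef, ← ContinuousLinearMap.integral_comp_comm]
      · refine integral_congr_ae (Filter.Eventually.of_forall fun v => ?_)
        simp only [map_smul]
      · exact integrable_ch hc hf _
    have h3 : Summable fun n => coef (fun v => φ (f v)) n := by
      simp only [← h2]
      refine Summable.of_norm_bounded (hs.mul_left ‖φ‖) fun n => ?_
      exact φ.le_opNorm _
    have hts : tsupport (fun v => φ (f v)) ⊆ cube := tsupport_comp_subset φ (map_zero _) hf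
    have h4 := hasSum_ch (f := fun v => φ (f v)) (by fun_prop) hts h3 hx
    simp only [map_smul, h2] at h1
    exact h1.unique h4
  rw [← this]; exact hy

end vec

section decay
variable {V : Type*} [NormedAddCommGroup V] [NormedSpace ℝ V] [NormedSpace ℂ V]
  [IsScalarTower ℝ ℂ V]

omit [NormedSpace ℂ V] [IsScalarTower ℝ ℂ V] in
theorem integrable_iter {f : E4 → V} (hs : ContDiff ℝ ∞ f) (hf : tsupport f ⊆ cube) (k j : ℕ) :
    Integrable (fun v => ‖v‖ ^ k * ‖iteratedFDeriv ℝ j f v‖) := by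
  have hcs := hasCompactSupport_of_cube hf
  have h1 : Continuous (fun v => ‖iteratedFDeriv ℝ j f v‖) :=
    (hs.continuous_iteratedFDeriv (m := j) (by exact_mod_cast le_top)).norm
  refine Continuous.integrable_of_hasCompactSupport (by fun_prop) ?_
  have h2 : HasCompactSupport (fun v => ‖iteratedFDeriv ℝ j f v‖) := (hcs.iteratedFDeriv j).norm
  exact h2.mul_left

omit [NormedSpace ℂ V] [IsScalarTower ℝ ℂ V] in
theorem integral_iter_le {f : E4 → V} (hf : tsupport f ⊆ cube)
    {k j : ℕ} (hj : j ≤ k) {B : ℝ} (hB : CkB k f B) :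
    ∫ v, ‖iteratedFDeriv ℝ j f v‖ ≤ B * volume.real cube := by
  have hcs := hasCompactSupport_of_cube hf
  have h0 : ∀ x, x ∉ cube → ‖iteratedFDeriv ℝ j f x‖ = 0 := by
    intro x hx
    have : x ∉ tsupport (iteratedFDeriv ℝ j f) := fun h =>
      hx (hf (tsupport_iteratedFDeriv_subset j h))
    rw [image_eq_zero_of_notMem_tsupport this, norm_zero]
  rw [← setIntegral_eq_integral_of_forall_compl_eq_zero h0]
  have hfin : volume cube < ⊤ := cube_bounded.measure_lt_top
  have h1 := norm_setIntegral_le_of_norm_le_const (μ := volume) (s := cube)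
    (f := fun v => ‖iteratedFDeriv ℝ j f v‖) (C := B) hfin
    (fun x _ => by rw [norm_norm]; exact hB j hj x)
  refine (le_abs_self _).trans ?_
  simpa [Real.norm_eq_abs] using h1

theorem coef_decay (k : ℕ) : ∃ C : ℝ, 0 ≤ C ∧ ∀ (f : E4 → V) (B : ℝ), ContDiff ℝ ∞ f →
    tsupport f ⊆ cube → CkB k f B → ∀ n, ‖coef f n‖ ≤ C * B / wt n ^ k := by
  set v0 : ℝ := volume.real cube with hv0
  have hv00 : 0 ≤ v0 := measureReal_nonneg
  refine ⟨2 ^ k * (v0 + 2 ^ k * ((k + 1) * v0)), by positivity, ?_⟩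
  intro f B hs hf hB n
  have hB0 := hB.nonneg
  have key : ∀ j ≤ k, ‖nv n‖ ^ j * ‖coef f n‖ ≤ 2 ^ j * ((j + 1) * (B * v0)) := by
    intro j hj
    rw [coef_eq_fourier]
    have hns := normedSpace_eq (V := V)
    subst hns
    have h1 := Real.pow_mul_norm_iteratedFDeriv_fourier_le (V := E4) (f := f) (N := ⊤) (K := ⊤)
      (k := 0) (n := j) hs (fun a b _ _ => integrable_iter hs hf a b) (by simp) (by simp) (nv n)
    simp only [norm_iteratedFDeriv_zero, pow_zero, one_mul, Nat.cast_zero, mul_zero, zero_add,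
      Finset.range_one, Finset.singleton_product, Finset.sum_map,
      Function.Embedding.coeFn_mk] at h1
    refine h1.trans ?_
    refine mul_le_mul_of_nonneg_left ?_ (by positivity)
    refine (Finset.sum_le_sum (g := fun _ => B * v0) fun p hp => ?_).trans ?_
    · exact integral_iter_le hf (by have := Finset.mem_range.1 hp; omega) hB
    · simp
  have hn0 : 0 ≤ ‖nv n‖ := norm_nonneg _
  rw [le_div_iff₀ (pow_pos (wt_pos n) k)]
  have h2 : wt n ^ k ≤ 2 ^ k * (1 + ‖nv n‖ ^ k) := by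
    have := add_pow_le (zero_le_one (α := ℝ)) hn0 k
    rw [wt]
    refine this.trans ?_
    rw [one_pow]
    refine mul_le_mul_of_nonneg_right ?_ (by positivity)
    exact pow_le_pow_right₀ (by norm_num) (Nat.sub_le _ _)
  have h3 := key 0 (Nat.zero_le _)
  have h4 := key k le_rfl
  simp only [pow_zero, one_mul, CharP.cast_eq_zero, zero_add] at h3
  calc ‖coef f n‖ * wt n ^ k ≤ ‖coef f n‖ * (2 ^ k * (1 + ‖nv n‖ ^ k)) :=
        mul_le_mul_of_nonneg_left h2 (norm_nonneg _)
    _ = 2 ^ k * (‖coef f n‖ + ‖nv n‖ ^ k * ‖coef f n‖) := by ring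
    _ ≤ 2 ^ k * (B * v0 + 2 ^ k * ((k + 1) * (B * v0))) := by gcongr
    _ = 2 ^ k * (v0 + 2 ^ k * ((k + 1) * v0)) * B := by ring

omit [NormedSpace ℂ V] [IsScalarTower ℝ ℂ V] in
theorem exists_CkB (k : ℕ) {f : E4 → V} (hs : ContDiff ℝ ∞ f) (hf : tsupport f ⊆ cube) :
    ∃ B, CkB k f B := by
  have hcs := hasCompactSupport_of_cube hf
  have h1 : ∀ j, ∃ B, 0 ≤ B ∧ ∀ x, ‖iteratedFDeriv ℝ j f x‖ ≤ B := by
    intro j
    have hc : Continuous (iteratedFDeriv ℝ j f) :=
      hs.continuous_iteratedFDeriv (m := j) (by exact_mod_cast le_top)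
    obtain ⟨C, hC⟩ := hc.bounded_above_of_compact_support (hcs.iteratedFDeriv j)
    exact ⟨C, (norm_nonneg _).trans (hC 0), hC⟩
  choose B hB0 hB using h1
  refine ⟨∑ j ∈ Finset.range (k + 1), B j, fun j hj x => (hB j x).trans ?_⟩
  exact Finset.single_le_sum (f := B) (fun i _ => hB0 i) (Finset.mem_range.2 (by omega))

theorem summable_coef_wt (k : ℕ) {f : E4 → V} (hs : ContDiff ℝ ∞ f) (hf : tsupport f ⊆ cube) :
    Summable fun n => wt n ^ k * ‖coef f n‖ := by
  obtain ⟨C, hC0, hC⟩ := coef_decay (V := V) (k + 5)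
  obtain ⟨B, hB⟩ := exists_CkB (k + 5) hs hf
  refine Summable.of_nonneg_of_le (fun n => mul_nonneg (pow_nonneg (wt_pos n).le _) (norm_nonneg _))
    (fun n => ?_) (summable_wt.mul_left (C * B))
  have hw := wt_pos n
  calc wt n ^ k * ‖coef f n‖ ≤ wt n ^ k * (C * B / wt n ^ (k + 5)) :=
        mul_le_mul_of_nonneg_left (hC f B hs hf hB n) (by positivity)
    _ = C * B * (1 / wt n ^ 5) := by
        rw [pow_add]; field_simp

variable [FiniteDimensional ℝ V]

theorem hasSum_coef {f : E4 → V} (hs : ContDiff ℝ ∞ f) (hf : tsupport f ⊆ cube) {x : E4}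
    (hx : x ∈ cube) : HasSum (fun n => ch n x • coef f n) (f x) := by
  refine hasSum_coef_of_summable hs.continuous hf ?_ hx
  simpa using summable_coef_wt 0 hs hf

end decay

/-! ### the operators `Op` -/

section cov

theorem ch_eq_exp (n : Z4) (x : E4) : ch n x = Complex.exp (cov n x) := by
  rw [ch, cov_apply]

theorem norm_cov_le (n : Z4) : ‖cov n‖ ≤ 2 * π * wt n := by
  refine ContinuousLinearMap.opNorm_le_bound _ (by have := wt_pos n; positivity) fun v => ?_
  rw [cov_apply]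
  have h1 : ‖(2 * π * Complex.I * ((inner ℝ (nv n) v : ℝ) : ℂ) : ℂ)‖ = 2 * π * |inner ℝ (nv n) v| := by
    simp [abs_of_pos Real.pi_pos]
  rw [h1]
  have h2 : |inner ℝ (nv n) v| ≤ ‖nv n‖ * ‖v‖ := abs_real_inner_le_norm _ _
  have h3 : ‖nv n‖ * ‖v‖ ≤ wt n * ‖v‖ := by
    refine mul_le_mul_of_nonneg_right ?_ (norm_nonneg _)
    simp [wt]
  calc 2 * π * |inner ℝ (nv n) v| ≤ 2 * π * (wt n * ‖v‖) := by gcongr; exact h2.trans h3
    _ = 2 * π * wt n * ‖v‖ := by ring

theorem hasFDerivAt_ch (n : Z4) (x : E4) : HasFDerivAt (ch n) (ch n x • cov n) x := by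
  have h1 : HasFDerivAt (fun x => Complex.exp (cov n x)) (Complex.exp (cov n x) • cov n) x :=
    (cov n).hasFDerivAt.cexp
  have h2 : ch n = fun x => Complex.exp (cov n x) := funext (ch_eq_exp n)
  rw [h2]
  exact h1

theorem contDiff_ch (n : Z4) : ContDiff ℝ ∞ (ch n) := by
  have h2 : ch n = fun x => Complex.exp (cov n x) := funext (ch_eq_exp n)
  rw [h2]
  exact (cov n).contDiff.cexp

theorem norm_iteratedFDeriv_ch_le (n : Z4) (j : ℕ) (x : E4) :
    ‖iteratedFDeriv ℝ j (ch n) x‖ ≤ (2 * π * wt n) ^ j := by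
  induction j generalizing x with
  | zero => simp
  | succ j ih =>
    rw [← norm_iteratedFDeriv_fderiv]
    have h1 : fderiv ℝ (ch n) = fun x => ch n x • cov n :=
      funext fun x => (hasFDerivAt_ch n x).fderiv
    rw [h1]
    set L : ℂ →L[ℝ] (E4 →L[ℝ] ℂ) :=
      (ContinuousLinearMap.lsmul ℝ ℂ : ℂ →L[ℝ] (E4 →L[ℝ] ℂ) →L[ℝ] (E4 →L[ℝ] ℂ)).flip (cov n) with hL
    have hLn : ‖L‖ ≤ ‖cov n‖ := by
      refine ContinuousLinearMap.opNorm_le_bound _ (norm_nonneg _) fun z => ?_
      simp only [hL, ContinuousLinearMap.flip_apply, ContinuousLinearMap.lsmul_apply]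
      rw [norm_smul, mul_comm]
    have h2 := L.norm_iteratedFDeriv_comp_left (f := ch n) (x := x) (N := ∞) (n := j)
      (contDiff_ch n).contDiffAt (by exact_mod_cast le_top)
    have h3 : (L ∘ ch n) = fun x => ch n x • cov n := by
      funext y
      simp [hL]
    rw [h3] at h2
    refine h2.trans ?_
    rw [pow_succ, mul_comm]
    exact mul_le_mul (ih x) (hLn.trans (norm_cov_le n)) (norm_nonneg _)
      (pow_nonneg (by have := wt_pos n; positivity) _)

end cov

section op
variable {V G : Type*} [NormedAddCommGroup V] [NormedSpace ℝ V] [NormedSpace ℂ V]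
  [IsScalarTower ℝ ℂ V]
  [NormedAddCommGroup G] [NormedSpace ℝ G] [NormedSpace ℂ G]
  [IsScalarTower ℝ ℂ G]

theorem natCast_le_infty (m : ℕ) : (m : ℕ∞ω) ≤ ∞ := by exact_mod_cast le_top

/-- one term -/
def trm (p : Z4 → E4 → (V →L[ℝ] G)) (n : Z4) (c : V) (x : E4) : G := ch n x • p n x c

omit [NormedSpace ℂ V] [IsScalarTower ℝ ℂ V] in
theorem contDiff_trm {p : Z4 → E4 → (V →L[ℝ] G)} (hp : ∀ n, ContDiff ℝ ∞ (p n)) (n : Z4) (c : V) :
    ContDiff ℝ ∞ (trm p n c) := by
  unfold trm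
  exact (contDiff_ch n).smul ((hp n).clm_apply contDiff_const)

omit [NormedSpace ℂ V] [IsScalarTower ℝ ℂ V] in
theorem trm_bd {r : ℕ} {p : Z4 → E4 → (V →L[ℝ] G)} (hp : IsSym r p) (j : ℕ) :
    ∃ K : ℝ, 0 ≤ K ∧ ∀ i ≤ j, ∀ n, n ≠ 0 → ∀ c x,
      ‖iteratedFDeriv ℝ i (trm p n c) x‖ ≤ K * (wt n ^ i / wt n ^ r) * ‖c‖ := by
  choose C hC using hp.bd
  set C' : ℝ := ∑ l ∈ Finset.range (j + 1), |C l| with hC'
  have hC'0 : 0 ≤ C' := Finset.sum_nonneg fun _ _ => abs_nonneg _
  have hC'l : ∀ l ≤ j, C l ≤ C' := fun l hl => (le_abs_self _).trans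
    (Finset.single_le_sum (f := fun l => |C l|) (fun _ _ => abs_nonneg _)
      (Finset.mem_range.2 (by omega)))
  refine ⟨(1 + 2 * π) ^ j * C', by positivity, ?_⟩
  intro i hi n hn c x
  have hw := wt_pos n
  have hw1 := one_le_wt n
  have h1 := norm_iteratedFDeriv_smul_le (𝕜 := ℝ) (𝕜' := ℂ) (f := ch n) (g := fun x => p n x c)
    (N := ∞) (contDiff_ch n) ((hp.smooth n).clm_apply contDiff_const) x (n := i)
    (by exact_mod_cast le_top)
  refine h1.trans ?_
  have h2 : ∀ l ∈ Finset.range (i + 1),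
      (i.choose l : ℝ) * ‖iteratedFDeriv ℝ l (ch n) x‖ *
        ‖iteratedFDeriv ℝ (i - l) (fun x => p n x c) x‖ ≤
      (i.choose l : ℝ) * ((2 * π) ^ l * 1 ^ (i - l)) * (wt n ^ i * (C' / wt n ^ r * ‖c‖)) := by
    intro l hl
    have hl' : l ≤ i := by have := Finset.mem_range.1 hl; omega
    have h3 := norm_iteratedFDeriv_ch_le n l x
    have h4 : ‖iteratedFDeriv ℝ (i - l) (fun x => p n x c) x‖ ≤ C' / wt n ^ r * ‖c‖ := by
      refine (norm_iteratedFDeriv_clm_apply_const (𝕜 := ℝ) (N := ∞) (n := i - l)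
        (hp.smooth n).contDiffAt
        (natCast_le_infty _)).trans ?_
      rw [mul_comm]
      refine mul_le_mul_of_nonneg_right ?_ (norm_nonneg _)
      refine (hC _ n hn x).trans ?_
      gcongr
      exact hC'l _ (by omega)
    have h5 : (2 * π * wt n) ^ l ≤ (2 * π) ^ l * wt n ^ i := by
      rw [mul_pow]
      refine mul_le_mul_of_nonneg_left (pow_le_pow_right₀ hw1 hl') (by positivity)
    calc (i.choose l : ℝ) * ‖iteratedFDeriv ℝ l (ch n) x‖ *
          ‖iteratedFDeriv ℝ (i - l) (fun x => p n x c) x‖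
        ≤ (i.choose l : ℝ) * ((2 * π) ^ l * wt n ^ i) * (C' / wt n ^ r * ‖c‖) := by
          gcongr
          exact h3.trans h5
      _ = _ := by rw [one_pow]; ring
  refine (Finset.sum_le_sum h2).trans ?_
  rw [← Finset.sum_mul]
  have h6 : ∑ l ∈ Finset.range (i + 1), (i.choose l : ℝ) * ((2 * π) ^ l * 1 ^ (i - l)) =
      (1 + 2 * π) ^ i := by
    rw [add_comm (1 : ℝ), add_pow]
    exact Finset.sum_congr rfl fun l _ => by ring
  rw [h6]
  have h7 : (1 + 2 * π) ^ i ≤ (1 + 2 * π) ^ j :=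
    pow_le_pow_right₀ (by have := Real.pi_pos; linarith) hi
  calc (1 + 2 * π) ^ i * (wt n ^ i * (C' / wt n ^ r * ‖c‖))
      ≤ (1 + 2 * π) ^ j * (wt n ^ i * (C' / wt n ^ r * ‖c‖)) := by gcongr
    _ = (1 + 2 * π) ^ j * C' * (wt n ^ i / wt n ^ r) * ‖c‖ := by ring

theorem ne_zero_of_lt {A : ℝ} (hA : 0 ≤ A) {n : Z4} (h : A < ‖nv n‖) : n ≠ 0 := by
  rintro rfl
  simp at h
  linarith

/-- termwise bound, `coef` version -/
theorem trm_coef_bd {r : ℕ} {p : Z4 → E4 → (V →L[ℝ] G)} (hp : IsSym r p) {j k m : ℕ}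
    (hjk : j + m ≤ r + k) :
    ∃ C : ℝ, 0 ≤ C ∧ ∀ i ≤ j, ∀ (f : E4 → V) (B : ℝ), ContDiff ℝ ∞ f → tsupport f ⊆ cube →
      CkB k f B → ∀ n, n ≠ 0 → ∀ x,
      ‖iteratedFDeriv ℝ i (trm p n (coef f n)) x‖ ≤ C * B * (1 / wt n ^ m) := by
  obtain ⟨K, hK0, hK⟩ := trm_bd hp j
  obtain ⟨C, hC0, hC⟩ := coef_decay (V := V) k
  refine ⟨K * C, by positivity, ?_⟩
  intro i hi f B hs hf hB n hn x
  have hw := wt_pos n
  have hw1 := one_le_wt n
  have hB0 := hB.nonneg
  refine (hK i hi n hn _ x).trans ?_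
  have h1 := hC f B hs hf hB n
  have h2 : wt n ^ i / wt n ^ r * (1 / wt n ^ k) ≤ 1 / wt n ^ m := by
    rw [div_mul_div_comm, mul_one, div_le_div_iff₀ (by positivity) (by positivity), one_mul,
      ← pow_add, ← pow_add]
    exact pow_le_pow_right₀ hw1 (by omega)
  calc K * (wt n ^ i / wt n ^ r) * ‖coef f n‖ ≤ K * (wt n ^ i / wt n ^ r) * (C * B / wt n ^ k) := by
        gcongr
    _ = K * C * B * (wt n ^ i / wt n ^ r * (1 / wt n ^ k)) := by ring
    _ ≤ K * C * B * (1 / wt n ^ m) := by gcongr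


theorem Op_eq (A : ℝ) (p : Z4 → E4 → (V →L[ℝ] G)) (f : E4 → V) :
    Op A p f = fun x => ∑' n, (if A < ‖nv n‖ then trm p n (coef f n) else (0 : E4 → G)) x := by
  funext x
  unfold Op
  refine tsum_congr fun n => ?_
  split_ifs <;> rfl

omit [NormedSpace ℂ V] [IsScalarTower ℝ ℂ V] in
theorem contDiff_ite {A : ℝ} {p : Z4 → E4 → (V →L[ℝ] G)} (hp : ∀ n, ContDiff ℝ ∞ (p n)) (n : Z4)
    (c : V) : ContDiff ℝ ∞ (if A < ‖nv n‖ then trm p n c else (0 : E4 → G)) := by
  split_ifs
  · exact contDiff_trm hp n c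
  · exact contDiff_const

theorem ite_bd {A : ℝ} (hA : 0 ≤ A) {r : ℕ} {p : Z4 → E4 → (V →L[ℝ] G)} (hp : IsSym r p) (j : ℕ)
    {f : E4 → V} (hs : ContDiff ℝ ∞ f) (hf : tsupport f ⊆ cube) :
    ∃ v : Z4 → ℝ, Summable v ∧ ∀ i ≤ j, ∀ n x,
      ‖iteratedFDeriv ℝ i (if A < ‖nv n‖ then trm p n (coef f n) else (0 : E4 → G)) x‖ ≤ v n := by
  obtain ⟨B, hB⟩ := exists_CkB (j + 5) hs hf
  obtain ⟨C, hC0, hC⟩ := trm_coef_bd hp (j := j) (k := j + 5) (m := 5) (by omega)
  refine ⟨fun n => C * B * (1 / wt n ^ 5), summable_wt.mul_left _, ?_⟩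
  intro i hi n x
  have hB0 := hB.nonneg
  split_ifs with h
  · exact hC i hi f B hs hf hB n (ne_zero_of_lt hA h) x
  · have : iteratedFDeriv ℝ i (0 : E4 → G) = 0 := iteratedFDeriv_fun_zero
    rw [this]
    have := wt_pos n
    simp only [Pi.zero_apply, norm_zero]
    positivity

variable [FiniteDimensional ℝ V] [FiniteDimensional ℝ G]

theorem Op_contDiff {A : ℝ} (hA : 0 ≤ A) {r : ℕ} {p : Z4 → E4 → (V →L[ℝ] G)} (hp : IsSym r p)
    {f : E4 → V} (hs : ContDiff ℝ ∞ f) (hf : tsupport f ⊆ cube) : ContDiff ℝ ∞ (Op A p f) := by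
  have : CompleteSpace G := FiniteDimensional.complete ℝ G
  rw [Op_eq]
  choose v hv1 hv2 using fun j => ite_bd hA hp j hs hf
  exact contDiff_tsum (N := ⊤) (fun n => contDiff_ite hp.smooth n _) (fun k _ => hv1 k)
    (fun k n x _ => hv2 k k le_rfl n x)

theorem iteratedFDeriv_Op {A : ℝ} (hA : 0 ≤ A) {r : ℕ} {p : Z4 → E4 → (V →L[ℝ] G)}
    (hp : IsSym r p) {f : E4 → V} (hs : ContDiff ℝ ∞ f) (hf : tsupport f ⊆ cube) (i : ℕ) (x : E4) :
    iteratedFDeriv ℝ i (Op A p f) x = ∑' n, iteratedFDeriv ℝ i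
      (if A < ‖nv n‖ then trm p n (coef f n) else (0 : E4 → G)) x := by
  have : CompleteSpace G := FiniteDimensional.complete ℝ G
  rw [Op_eq]
  choose v hv1 hv2 using fun j => ite_bd hA hp j hs hf
  have h := iteratedFDeriv_tsum (N := ⊤) (fun n => contDiff_ite hp.smooth n _) (fun k _ => hv1 k)
    (fun k n x _ => hv2 k k le_rfl n x) (k := i) (by exact_mod_cast le_top)
  exact congrFun h x

theorem Op_bd {r : ℕ} {p : Z4 → E4 → (V →L[ℝ] G)} (hp : IsSym r p) {j k : ℕ}
    (hjk : j + 5 ≤ r + k) :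
    ∃ C : ℝ, 0 ≤ C ∧ ∀ (A : ℝ), 0 ≤ A → ∀ (f : E4 → V) (B : ℝ), ContDiff ℝ ∞ f →
      tsupport f ⊆ cube → CkB k f B → CkB j (Op A p f) (C * B) := by
  obtain ⟨C, hC0, hC⟩ := trm_coef_bd hp hjk
  refine ⟨C * ∑' n, 1 / wt n ^ 5, mul_nonneg hC0 (tsum_nonneg fun n => by
    have := wt_pos n; positivity), ?_⟩
  intro A hA f B hs hf hB i hi x
  have hB0 := hB.nonneg
  rw [iteratedFDeriv_Op hA hp hs hf]
  have h1 : HasSum (fun n => C * B * (1 / wt n ^ 5)) (C * B * ∑' n, 1 / wt n ^ 5) :=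
    summable_wt.hasSum.mul_left _
  refine (tsum_of_norm_bounded h1 fun n => ?_).trans (le_of_eq (by ring))
  split_ifs with h
  · exact hC i hi f B hs hf hB n (ne_zero_of_lt hA h) x
  · have : iteratedFDeriv ℝ i (0 : E4 → G) = 0 := iteratedFDeriv_fun_zero
    rw [this]
    have := wt_pos n
    simp only [Pi.zero_apply, norm_zero]
    positivity

theorem Op_small {r : ℕ} {p : Z4 → E4 → (V →L[ℝ] G)} (hp : IsSym r p) {j k : ℕ}
    (hjk : j + 6 ≤ r + k) :
    ∃ C : ℝ, 0 ≤ C ∧ ∀ (A : ℝ), 0 ≤ A → ∀ (f : E4 → V) (B : ℝ), ContDiff ℝ ∞ f →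
      tsupport f ⊆ cube → CkB k f B → CkB j (Op A p f) (C * B / (1 + A)) := by
  obtain ⟨C, hC0, hC⟩ := trm_coef_bd hp hjk
  refine ⟨C * ∑' n, 1 / wt n ^ 5, mul_nonneg hC0 (tsum_nonneg fun n => by
    have := wt_pos n; positivity), ?_⟩
  intro A hA f B hs hf hB i hi x
  have hB0 := hB.nonneg
  rw [iteratedFDeriv_Op hA hp hs hf]
  have h1 : HasSum (fun n => C * B / (1 + A) * (1 / wt n ^ 5))
      (C * B / (1 + A) * ∑' n, 1 / wt n ^ 5) := summable_wt.hasSum.mul_left _
  refine (tsum_of_norm_bounded h1 fun n => ?_).trans (le_of_eq (by ring))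
  have hw := wt_pos n
  split_ifs with h
  · refine (hC i hi f B hs hf hB n (ne_zero_of_lt hA h) x).trans ?_
    have h2 : 1 + A ≤ wt n := by simp only [wt]; linarith
    have h3 : 1 / wt n ^ 6 ≤ 1 / (1 + A) * (1 / wt n ^ 5) := by
      rw [div_mul_div_comm, one_mul]
      apply one_div_le_one_div_of_le (by positivity)
      rw [pow_succ, mul_comm]
      exact mul_le_mul_of_nonneg_left h2 (by positivity)
    calc C * B * (1 / wt n ^ 6) ≤ C * B * (1 / (1 + A) * (1 / wt n ^ 5)) := by gcongr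
      _ = C * B / (1 + A) * (1 / wt n ^ 5) := by ring
  · have : iteratedFDeriv ℝ i (0 : E4 → G) = 0 := iteratedFDeriv_fun_zero
    rw [this]
    simp only [Pi.zero_apply, norm_zero]
    positivity


omit [NormedSpace ℂ V] [IsScalarTower ℝ ℂ V] [FiniteDimensional ℝ V] [FiniteDimensional ℝ G] in
theorem fderiv_trm {p : Z4 → E4 → (V →L[ℝ] G)} (hp : ∀ n, ContDiff ℝ ∞ (p n)) (n : Z4) (c : V)
    (x : E4) : fderiv ℝ (trm p n c) x = ch n x • dS p n x c := by
  have h1 := (hasFDerivAt_ch n x)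
  have h2 : HasFDerivAt (fun x => p n x c) ((fderiv ℝ (p n) x).flip c) x := by
    have h0 : HasFDerivAt (p n) (fderiv ℝ (p n) x) x :=
      ((hp n).differentiable (by simp)).differentiableAt.hasFDerivAt
    have h1 := (ContinuousLinearMap.apply ℝ G c).hasFDerivAt.comp x h0
    have h2 : (ContinuousLinearMap.apply ℝ G c).comp (fderiv ℝ (p n) x) =
        (fderiv ℝ (p n) x).flip c := by
      ext v; simp
    rw [h2] at h1
    exact h1
  have h3 := h1.smul h2
  have h4 : trm p n c = fun x => ch n x • p n x c := rfl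
  rw [h4]
  have h5 := h3.fderiv
  rw [show (fun x => ch n x • p n x c) = ch n • fun x => p n x c from rfl, h5]
  ext v
  simp only [add_apply, smul_apply, dS_apply,
    ContinuousLinearMap.smulRight_apply, ContinuousLinearMap.flip_apply, smul_add, cov_apply,
    smul_smul, smul_eq_mul]
  rw [add_comm]

theorem Op_fderiv {A : ℝ} (hA : 0 ≤ A) {r : ℕ} {p : Z4 → E4 → (V →L[ℝ] G)} (hp : IsSym r p)
    {f : E4 → V} (hs : ContDiff ℝ ∞ f) (hf : tsupport f ⊆ cube) (x : E4) :
    fderiv ℝ (Op A p f) x = Op A (dS p) f x := by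
  have : CompleteSpace G := FiniteDimensional.complete ℝ G
  rw [Op_eq]
  obtain ⟨v, hv1, hv2⟩ := ite_bd hA hp 1 hs hf
  have h1 := fderiv_tsum_apply (𝕜 := ℝ) (x₀ := x)
    (f := fun n => (if A < ‖nv n‖ then trm p n (coef f n) else (0 : E4 → G))) (u := v) hv1
    (fun n => (contDiff_ite hp.smooth n _).differentiable (by simp))
    (fun n x => by
      have := hv2 1 le_rfl n x
      rwa [norm_iteratedFDeriv_one] at this)
    (by
      refine Summable.of_norm_bounded hv1 fun n => ?_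
      have := hv2 0 (by norm_num) n x
      rwa [norm_iteratedFDeriv_zero] at this) x
  rw [h1]
  unfold Op
  refine tsum_congr fun n => ?_
  split_ifs with h
  · exact fderiv_trm hp.smooth n _ x
  · simp

/-! ### algebra -/


theorem coef_add {f g : E4 → V} (hfc : Continuous f) (hf : tsupport f ⊆ cube)
    (hgc : Continuous g) (hg : tsupport g ⊆ cube) (n : Z4) :
    coef (f + g) n = coef f n + coef g n := by
  unfold coef
  rw [← integral_add (integrable_ch hfc hf _) (integrable_ch hgc hg _)]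
  simp [smul_add]



theorem coef_smulR (c : ℝ) (f : E4 → V) (n : Z4) : coef (c • f) n = c • coef f n := by
  unfold coef
  rw [← integral_smul]
  simp only [Pi.smul_apply]
  refine integral_congr_ae (Filter.Eventually.of_forall fun x => ?_)
  simp only
  rw [smul_comm]

theorem norm_coef_le {f : E4 → V} (hf : tsupport f ⊆ cube) {B : ℝ} (hB : ∀ x, ‖f x‖ ≤ B) (n : Z4) :
    ‖coef f n‖ ≤ volume.real cube * B := by
  have h0 : ∀ x, x ∉ cube → ch (-n) x • f x = 0 := by
    intro x hx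
    have : x ∉ tsupport f := fun h => hx (hf h)
    rw [image_eq_zero_of_notMem_tsupport this, smul_zero]
  unfold coef
  rw [← setIntegral_eq_integral_of_forall_compl_eq_zero h0]
  have hfin : volume cube < ⊤ := cube_bounded.measure_lt_top
  have h1 := norm_setIntegral_le_of_norm_le_const (μ := volume) (s := cube)
    (f := fun v => ch (-n) v • f v) (C := B) hfin
    (fun x _ => by rw [norm_smul, norm_ch, one_mul]; exact hB x)
  rw [mul_comm]; exact h1

theorem summable_Op {A : ℝ} (hA : 0 ≤ A) {r : ℕ} {p : Z4 → E4 → (V →L[ℝ] G)} (hp : IsSym r p)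
    {f : E4 → V} (hs : ContDiff ℝ ∞ f) (hf : tsupport f ⊆ cube) (x : E4) :
    Summable fun n => if A < ‖nv n‖ then ch n x • p n x (coef f n) else 0 := by
  have : CompleteSpace G := FiniteDimensional.complete ℝ G
  obtain ⟨v, hv1, hv2⟩ := ite_bd hA hp 0 hs hf
  refine Summable.of_norm_bounded hv1 fun n => ?_
  have h := hv2 0 le_rfl n x
  rw [norm_iteratedFDeriv_zero] at h
  refine le_trans (le_of_eq ?_) h
  split_ifs <;> rfl

theorem Op_add_right {A : ℝ} (hA : 0 ≤ A) {r : ℕ} {p : Z4 → E4 → (V →L[ℝ] G)} (hp : IsSym r p)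
    {f g : E4 → V} (hfs : ContDiff ℝ ∞ f) (hf : tsupport f ⊆ cube)
    (hgs : ContDiff ℝ ∞ g) (hg : tsupport g ⊆ cube) :
    Op A p (f + g) = Op A p f + Op A p g := by
  funext x
  rw [Pi.add_apply]
  unfold Op
  rw [← (summable_Op hA hp hfs hf x).tsum_add (summable_Op hA hp hgs hg x)]
  refine tsum_congr fun n => ?_
  rw [coef_add hfs.continuous hf hgs.continuous hg]
  split_ifs
  · rw [map_add, smul_add]
  · simp

theorem Op_smulR {A : ℝ} (c : ℝ) {p : Z4 → E4 → (V →L[ℝ] G)} (f : E4 → V) :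
    Op A p (c • f) = c • Op A p f := by
  funext x
  rw [Pi.smul_apply]
  unfold Op
  rw [← tsum_const_smul'' c]
  refine tsum_congr fun n => ?_
  rw [coef_smulR]
  split_ifs
  · rw [map_smul, smul_comm]
  · simp

theorem Op_add_sym {A : ℝ} (hA : 0 ≤ A) {r s : ℕ} {p q : Z4 → E4 → (V →L[ℝ] G)} (hp : IsSym r p)
    (hq : IsSym s q) {f : E4 → V} (hs : ContDiff ℝ ∞ f) (hf : tsupport f ⊆ cube) (x : E4) :
    Op A (fun n y => p n y + q n y) f x = Op A p f x + Op A q f x := by
  unfold Op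
  rw [← (summable_Op hA hp hs hf x).tsum_add (summable_Op hA hq hs hf x)]
  refine tsum_congr fun n => ?_
  split_ifs
  · rw [add_apply, smul_add]
  · simp



theorem Op_congr {A : ℝ} (hA : 0 ≤ A) {p q : Z4 → E4 → (V →L[ℝ] G)} {f : E4 → V} {x : E4}
    (h : ∀ n, n ≠ 0 → p n x (coef f n) = q n x (coef f n)) : Op A p f x = Op A q f x := by
  unfold Op
  refine tsum_congr fun n => ?_
  split_ifs with hn
  · rw [h n (ne_zero_of_lt hA hn)]
  · rfl

theorem Op_eq_zero {A : ℝ} {p : Z4 → E4 → (V →L[ℝ] G)} {f : E4 → V} {x : E4}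
    (h : ∀ n, p n x = 0) : Op A p f x = 0 := by
  unfold Op
  have : ∀ n : Z4, (if A < ‖nv n‖ then ch n x • p n x (coef f n) else 0) = (0 : G) := by
    intro n
    rw [h n]
    simp
  simp only [this, tsum_zero]

theorem Op_comp {G' : Type*} [NormedAddCommGroup G'] [NormedSpace ℝ G'] [NormedSpace ℂ G']
    [IsScalarTower ℝ ℂ G'] {A : ℝ} (hA : 0 ≤ A) {r : ℕ}
    {p : Z4 → E4 → (V →L[ℝ] G)} (hp : IsSym r p) {f : E4 → V} (hs : ContDiff ℝ ∞ f)
    (hf : tsupport f ⊆ cube) (M : E4 → (G →L[ℝ] G')) (x : E4)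
    (hM : ∀ (c : ℂ) (g : G), M x (c • g) = c • M x g) :
    M x (Op A p f x) = Op A (fun n y => (M y).comp (p n y)) f x := by
  unfold Op
  rw [(M x).map_tsum (summable_Op hA hp hs hf x)]
  refine tsum_congr fun n => ?_
  split_ifs
  · rw [hM]; rfl
  · simp

/-! ### the low frequency part -/

theorem finite_low (A : ℝ) : {n : Z4 | ‖nv n‖ ≤ A}.Finite := by
  refine (Set.finite_Icc (fun _ : Fin 4 => -⌈A⌉) (fun _ => ⌈A⌉)).subset fun n hn => ?_
  have h : ∀ i, |n i| ≤ ⌈A⌉ := by
    intro i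
    have h1 : |(n i : ℝ)| ≤ A := (abs_le_norm_nv n i).trans hn
    have h2 : |(n i : ℝ)| ≤ ⌈A⌉ := h1.trans (Int.le_ceil A)
    exact_mod_cast h2
  exact ⟨fun i => (abs_le.1 (h i)).1, fun i => (abs_le.1 (h i)).2⟩

/-- the low frequencies. -/
def lowSet (A : ℝ) : Finset Z4 := (finite_low A).toFinset

@[simp] theorem mem_lowSet {A : ℝ} {n : Z4} : n ∈ lowSet A ↔ ‖nv n‖ ≤ A := by simp [lowSet]

/-- the low frequency part of `f`. -/
def lowF (A : ℝ) (f : E4 → V) (x : E4) : V := ∑ n ∈ lowSet A, ch n x • coef f n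


/-- splitting of `f` on the cube in low and high frequencies. -/
theorem eq_low_add_high (A : ℝ) {f : E4 → V} (hs : ContDiff ℝ ∞ f) (hf : tsupport f ⊆ cube)
    {x : E4} (hx : x ∈ cube) :
    f x = lowF A f x + Op A (fun _ _ => ContinuousLinearMap.id ℝ V) f x := by
  have : CompleteSpace V := FiniteDimensional.complete ℝ V
  have h1 := hasSum_coef hs hf hx
  have h2 := h1.summable
  rw [← h1.tsum_eq, ← h2.sum_add_tsum_compl (s := lowSet A)]
  unfold lowF Op
  congr 1
  rw [tsum_subtype (s := (↑(lowSet A) : Set Z4)ᶜ) (f := fun n => ch n x • coef f n)]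
  refine tsum_congr fun n => ?_
  by_cases h : A < ‖nv n‖
  · rw [if_pos h, Set.indicator_of_mem]
    · rfl
    · simp [h]
  · rw [if_neg h, Set.indicator_of_notMem]
    simpa using h

theorem isSym_id : IsSym 0 (fun (_ : Z4) (_ : E4) => ContinuousLinearMap.id ℝ V) where
  smooth _ := contDiff_const
  bd j := by
    refine ⟨‖ContinuousLinearMap.id ℝ V‖, fun n _ x => ?_⟩
    rw [pow_zero, div_one]
    rcases j with _ | j
    · rw [norm_iteratedFDeriv_zero]
    · rw [iteratedFDeriv_const_of_ne (by omega)]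
      simp

/-- absolute convergence of the full series (all frequencies). -/
theorem summable_full {r : ℕ} {p : Z4 → E4 → (V →L[ℝ] G)} (hp : IsSym r p)
    {f : E4 → V} (hs : ContDiff ℝ ∞ f) (hf : tsupport f ⊆ cube) (x : E4) :
    Summable fun n => ch n x • p n x (coef f n) := by
  have h1 := summable_Op (A := 0) le_rfl hp hs hf x
  have h2 : Summable fun n : Z4 => if n = 0 then ch n x • p n x (coef f n) else 0 :=
    summable_of_ne_finset_zero (s := {0}) fun n hn => by
      rw [if_neg (by simpa using hn)]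
  refine (h1.add h2).congr fun n => ?_
  by_cases h : n = 0
  · subst h
    simp
  · have h3 : 0 < ‖nv n‖ := by
      rw [norm_pos_iff]
      intro h4
      apply h
      funext i
      have := congrArg (fun v : E4 => v i) h4
      simpa using this
    rw [if_pos h3, if_neg h, add_zero]

end op

end Crest.Agent.R240.FA
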