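import Mathlib
import Crest.Agent.R240.FADefs
import Crest.Agent.R240.FAOp
import Crest.Agent.R240.EllNorm

-- ▼ part R240/FAForms
section

/-!
Row 240, Lemma A, team F: complex valued forms on `E4` and the projection to the
alternating `J`-anti-invariant ones.
-/

set_option autoImplicit false
set_option maxSynthPendingDepth 3

namespace Crest.Agent.R240.FA

open Crest.Agent.R240
open scoped ContDiff

noncomputable section

/-- complex valued covectors -/
abbrev C1 : Type := E4 →L[ℝ] ℂ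

/-- complex valued bilinear forms (curried) -/
abbrev C2 : Type := E4 →L[ℝ] E4 →L[ℝ] ℂ

/-- `β ↦ β (J ·) (J ·)` -/
def pl (J : E4 →L[ℝ] E4) : C2 →L[ℝ] C2 :=
  ((ContinuousLinearMap.compL ℝ E4 C1 C1) ((ContinuousLinearMap.compL ℝ E4 E4 ℂ).flip J)).comp
    ((ContinuousLinearMap.compL ℝ E4 E4 C1).flip J)

@[simp] theorem pl_apply (J : E4 →L[ℝ] E4) (β : C2) (u v : E4) : pl J β u v = β (J u) (J v) := by
  simp [pl]

theorem contDiff_pl {J : E4 → (E4 →L[ℝ] E4)} (hJ : ContDiff ℝ ∞ J) :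
    ContDiff ℝ ∞ fun x => pl (J x) := by
  unfold pl
  fun_prop

/-- flip -/
def fl : C2 →L[ℝ] C2 := (ContinuousLinearMap.flipₗᵢ ℝ E4 E4 ℂ).toContinuousLinearEquiv

@[simp] theorem fl_apply (β : C2) (u v : E4) : fl β u v = β v u := by
  simp [fl]

/-- the projection to alternating `J`-anti-invariant forms:
`(PiC J β)(u,v) = 1/4 (β(u,v) - β(v,u) - β(Ju,Jv) + β(Jv,Ju))` -/
def PiC (J : E4 →L[ℝ] E4) : C2 →L[ℝ] C2 :=
  (1/4 : ℝ) • ((ContinuousLinearMap.id ℝ C2 - fl) - (pl J).comp (ContinuousLinearMap.id ℝ C2 - fl))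

theorem PiC_apply (J : E4 →L[ℝ] E4) (β : C2) (u v : E4) :
    PiC J β u v = (1/4 : ℝ) • (β u v - β v u - β (J u) (J v) + β (J v) (J u)) := by
  simp [PiC]
  ring

theorem contDiff_PiC {J : E4 → (E4 →L[ℝ] E4)} (hJ : ContDiff ℝ ∞ J) :
    ContDiff ℝ ∞ fun x => PiC (J x) := by
  unfold PiC
  have := contDiff_pl hJ
  fun_prop

theorem PiC_smul (J : E4 →L[ℝ] E4) (c : ℂ) (β : C2) : PiC J (c • β) = c • PiC J β := by
  ext u v
  simp only [PiC_apply, smul_apply, smul_eq_mul, Complex.real_smul]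
  ring

/-- `β` is alternating and `J`-anti-invariant -/
def AntiC (J : E4 →L[ℝ] E4) (β : C2) : Prop :=
  (∀ v, β v v = 0) ∧ ∀ u v, β (J u) (J v) = - β u v

theorem AntiC.swap {J : E4 →L[ℝ] E4} {β : C2} (h : AntiC J β) (u v : E4) : β v u = - β u v := by
  have h1 := h.1 (u + v)
  simp only [map_add, add_apply, h.1 u, h.1 v, zero_add, add_zero] at h1
  rw [eq_neg_iff_add_eq_zero]
  exact h1

theorem PiC_of_anti {J : E4 →L[ℝ] E4} {β : C2} (h : AntiC J β) : PiC J β = β := by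
  ext u v
  rw [PiC_apply, h.2, h.2, h.swap u v, Complex.real_smul]
  push_cast
  ring

theorem antiC_PiC {J : E4 →L[ℝ] E4} (hJ : ∀ v, J (J v) = -v) (β : C2) : AntiC J (PiC J β) := by
  constructor
  · intro v
    rw [PiC_apply]
    simp
  · intro u v
    rw [PiC_apply, PiC_apply, hJ, hJ]
    simp only [map_neg, neg_apply, neg_neg, Complex.real_smul]
    ring

theorem PiC_PiC {J : E4 →L[ℝ] E4} (hJ : ∀ v, J (J v) = -v) (β : C2) :
    PiC J (PiC J β) = PiC J β := PiC_of_anti (antiC_PiC hJ β)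

end

end Crest.Agent.R240.FA
end

-- ▼ part R240/FARec
section

/-!
Row 240, Lemma A, team F: symbol calculus (symbols with compact support), the recursion
`a_{j+1} = - Q' ∘ D a_j` and the telescoping identity.
-/

set_option autoImplicit false
set_option maxSynthPendingDepth 3

namespace Crest.Agent.R240.FA

open Crest.Agent.R240
open scoped ContDiff

noncomputable section

/-! ### calculus of symbols -/

section calculus

variable {F F' F'' : Type*} [NormedAddCommGroup F] [NormedSpace ℝ F]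
  [NormedAddCommGroup F'] [NormedSpace ℝ F'] [NormedAddCommGroup F''] [NormedSpace ℝ F'']

/-- symbols of order `-r` supported in `K` -/
structure SymK (K : Set E4) (r : ℕ) (p : Z4 → E4 → F) : Prop extends IsSym r p where
  supp : ∀ n x, x ∉ K → p n x = 0

theorem div_wt_nonneg {C : ℝ} (hC : 0 ≤ C) (n : Z4) (r : ℕ) : 0 ≤ C / wt n ^ r :=
  div_nonneg hC (pow_nonneg (wt_pos n).le _)

theorem IsSym.add {r : ℕ} {p p' : Z4 → E4 → F} (h : IsSym r p) (h' : IsSym r p') :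
    IsSym r (fun n x => p n x + p' n x) := by
  refine ⟨fun n => (h.smooth n).add (h'.smooth n), fun j => ?_⟩
  obtain ⟨C, hC⟩ := h.bd j
  obtain ⟨C', hC'⟩ := h'.bd j
  refine ⟨C + C', fun n hn x => ?_⟩
  have e : iteratedFDeriv ℝ j (fun x => p n x + p' n x) x
      = iteratedFDeriv ℝ j (p n) x + iteratedFDeriv ℝ j (p' n) x := by
    have := iteratedFDeriv_add_apply (𝕜 := ℝ) (i := j) (x := x) (f := p n) (g := p' n)
      ((h.smooth n).of_le (by exact_mod_cast le_top)).contDiffAt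
      ((h'.smooth n).of_le (by exact_mod_cast le_top)).contDiffAt
    exact this
  rw [e]
  refine (norm_add_le _ _).trans ?_
  rw [add_div]
  exact add_le_add (hC n hn x) (hC' n hn x)

theorem IsSym.mono {r s : ℕ} (hrs : s ≤ r) {p : Z4 → E4 → F} (h : IsSym r p) : IsSym s p := by
  refine ⟨h.smooth, fun j => ?_⟩
  obtain ⟨C, hC⟩ := h.bd j
  refine ⟨max C 0, fun n hn x => (hC n hn x).trans ?_⟩
  have h1 : C / wt n ^ r ≤ max C 0 / wt n ^ r := by
    gcongr
    · exact pow_nonneg (wt_pos n).le _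
    · exact le_max_left _ _
  refine h1.trans ?_
  have h2 : wt n ^ s ≤ wt n ^ r := pow_le_pow_right₀ (one_le_wt n) hrs
  exact div_le_div_of_nonneg_left (le_max_right _ _) (pow_pos (wt_pos n) _) h2

theorem IsSym.clm {r : ℕ} {p : Z4 → E4 → F} (h : IsSym r p) (T : F →L[ℝ] F') :
    IsSym r (fun n x => T (p n x)) := by
  refine ⟨fun n => T.contDiff.comp (h.smooth n), fun j => ?_⟩
  obtain ⟨C, hC⟩ := h.bd j
  refine ⟨‖T‖ * C, fun n hn x => ?_⟩
  have h1 := T.norm_iteratedFDeriv_comp_left (f := p n) (x := x) (n := j)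
    (N := ((⊤ : ℕ∞) : WithTop ℕ∞)) (h.smooth n).contDiffAt (by exact_mod_cast le_top)
  refine h1.trans ?_
  rw [mul_div_assoc]
  exact mul_le_mul_of_nonneg_left (hC n hn x) (norm_nonneg _)

theorem IsSym.fder {r : ℕ} {p : Z4 → E4 → F} (h : IsSym r p) :
    IsSym r (fun n x => fderiv ℝ (p n) x) := by
  refine ⟨fun n => (h.smooth n).fderiv_right (by simp), fun j => ?_⟩
  obtain ⟨C, hC⟩ := h.bd (j + 1)
  refine ⟨C, fun n hn x => ?_⟩
  have := norm_iteratedFDeriv_fderiv (𝕜 := ℝ) (f := p n) (n := j) (x := x)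
  rw [this]
  exact hC n hn x

theorem IsSym.bilin {r s : ℕ} {p : Z4 → E4 → F} {q : Z4 → E4 → F'} (B : F →L[ℝ] F' →L[ℝ] F'')
    (h : IsSym r p) (h' : IsSym s q) : IsSym (r + s) (fun n x => B (p n x) (q n x)) := by
  refine ⟨fun n => ?_, fun j => ?_⟩
  · exact B.isBoundedBilinearMap.contDiff.comp ((h.smooth n).prodMk (h'.smooth n))
  · choose C hC using h.bd
    choose C' hC' using h'.bd
    refine ⟨‖B‖ * ∑ i ∈ Finset.range (j + 1), (j.choose i : ℝ) * C i * C' (j - i),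
      fun n hn x => ?_⟩
    have h1 := B.norm_iteratedFDeriv_le_of_bilinear (N := ((⊤ : ℕ∞) : WithTop ℕ∞)) (n := j)
      (h.smooth n) (h'.smooth n) x (by exact_mod_cast le_top)
    refine h1.trans ?_
    rw [mul_div_assoc, Finset.sum_div]
    refine mul_le_mul_of_nonneg_left (Finset.sum_le_sum fun i _ => ?_) (norm_nonneg _)
    have e : (j.choose i : ℝ) * C i * C' (j - i) / wt n ^ (r + s)
        = (j.choose i : ℝ) * (C i / wt n ^ r) * (C' (j - i) / wt n ^ s) := by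
      rw [pow_add]
      field_simp
    rw [e]
    have hnn : 0 ≤ C i / wt n ^ r := (norm_nonneg _).trans (hC i n hn x)
    gcongr
    · exact hC i n hn x
    · exact hC' (j - i) n hn x

/-- multiplication of a compactly supported symbol with a smooth coefficient -/
theorem SymK.coeff {K : Set E4} (hK : IsCompact K) {r : ℕ} {p : Z4 → E4 → F} {M : E4 → F'}
    (hM : ContDiff ℝ ∞ M) (B : F' →L[ℝ] F →L[ℝ] F'') (h : SymK K r p) :
    SymK K r (fun n x => B (M x) (p n x)) := by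
  refine ⟨⟨fun n => ?_, fun j => ?_⟩, fun n x hx => ?_⟩
  · exact B.isBoundedBilinearMap.contDiff.comp (hM.prodMk (h.smooth n))
  · choose C hC using h.bd
    have hcM : ∀ i : ℕ, ∃ D : ℝ, ∀ x ∈ K, ‖iteratedFDeriv ℝ i M x‖ ≤ D := fun i =>
      hK.exists_bound_of_continuousOn
        (hM.continuous_iteratedFDeriv (by exact_mod_cast le_top)).continuousOn
    choose D hD using hcM
    have hD' : ∀ i x, x ∈ K → ‖iteratedFDeriv ℝ i M x‖ ≤ max (D i) 0 := fun i x hx =>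
      (hD i x hx).trans (le_max_left _ _)
    have hC' : ∀ i n, n ≠ 0 → ∀ x, ‖iteratedFDeriv ℝ i (p n) x‖ ≤ max (C i) 0 / wt n ^ r := by
      intro i n hn x
      refine (hC i n hn x).trans ?_
      gcongr
      · exact pow_nonneg (wt_pos n).le _
      · exact le_max_left _ _
    refine ⟨‖B‖ * ∑ i ∈ Finset.range (j + 1), (j.choose i : ℝ) * max (D i) 0 * max (C (j - i)) 0,
      fun n hn x => ?_⟩
    by_cases hx : x ∈ K
    · have h1 := B.norm_iteratedFDeriv_le_of_bilinear (N := ((⊤ : ℕ∞) : WithTop ℕ∞)) (n := j)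
        hM (h.smooth n) x (by exact_mod_cast le_top)
      refine h1.trans ?_
      rw [mul_div_assoc, Finset.sum_div]
      refine mul_le_mul_of_nonneg_left (Finset.sum_le_sum fun i _ => ?_) (norm_nonneg _)
      have e : (j.choose i : ℝ) * max (D i) 0 * max (C (j - i)) 0 / wt n ^ r
          = (j.choose i : ℝ) * max (D i) 0 * (max (C (j - i)) 0 / wt n ^ r) := by
        rw [mul_div_assoc]
      rw [e]
      gcongr
      · exact hD' i x hx
      · exact hC' (j - i) n hn x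
    · have hev : (fun x => B (M x) (p n x)) =ᶠ[nhds x] fun _ => 0 := by
        have : Kᶜ ∈ nhds x := hK.isClosed.isOpen_compl.mem_nhds hx
        filter_upwards [this] with y hy
        rw [h.supp n y hy, map_zero]
      have e : iteratedFDeriv ℝ j (fun x => B (M x) (p n x)) x
          = iteratedFDeriv ℝ j (fun _ : E4 => (0 : F'')) x :=
        (hev.iteratedFDeriv ℝ j).eq_of_nhds
      rw [e]
      have e0 : iteratedFDeriv ℝ j (fun _ : E4 => (0 : F'')) x = 0 := by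
        have := iteratedFDeriv_fun_zero (𝕜 := ℝ) (E := E4) (F := F'') (n := j)
        exact congrFun this x
      rw [e0, norm_zero]
      refine div_wt_nonneg ?_ n r
      refine mul_nonneg (norm_nonneg _) (Finset.sum_nonneg fun i _ => ?_)
      positivity
  · rw [h.supp n x hx, map_zero]

theorem SymK.fder {K : Set E4} (hK : IsClosed K) {r : ℕ} {p : Z4 → E4 → F} (h : SymK K r p) :
    SymK K r (fun n x => fderiv ℝ (p n) x) := by
  refine ⟨h.toIsSym.fder, fun n x hx => ?_⟩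
  have hev : p n =ᶠ[nhds x] fun _ => 0 := by
    have : Kᶜ ∈ nhds x := hK.isOpen_compl.mem_nhds hx
    filter_upwards [this] with y hy
    exact h.supp n y hy
  rw [hev.fderiv_eq]
  simp

theorem SymK.add {K : Set E4} {r : ℕ} {p p' : Z4 → E4 → F} (h : SymK K r p) (h' : SymK K r p') :
    SymK K r (fun n x => p n x + p' n x) :=
  ⟨h.toIsSym.add h'.toIsSym, fun n x hx => by rw [h.supp n x hx, h'.supp n x hx, add_zero]⟩

theorem SymK.mono {K : Set E4} {r s : ℕ} (hrs : s ≤ r) {p : Z4 → E4 → F} (h : SymK K r p) :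
    SymK K s p := ⟨h.toIsSym.mono hrs, h.supp⟩

theorem SymK.clm {K : Set E4} {r : ℕ} {p : Z4 → E4 → F} (h : SymK K r p) (T : F →L[ℝ] F') :
    SymK K r (fun n x => T (p n x)) :=
  ⟨h.toIsSym.clm T, fun n x hx => by rw [h.supp n x hx, map_zero]⟩

theorem SymK.bilin {K : Set E4} {r s : ℕ} {p : Z4 → E4 → F} {q : Z4 → E4 → F'}
    (B : F →L[ℝ] F' →L[ℝ] F'')
    (h : IsSym r p) (h' : SymK K s q) : SymK K (r + s) (fun n x => B (p n x) (q n x)) :=
  ⟨h.bilin B h'.toIsSym, fun n x hx => by rw [h'.supp n x hx, map_zero]⟩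

end calculus

/-! ### the recursion -/

/-- `x`-derivative part of the symbol of `S ↦ (dS)''` applied to `a` -/
def Dsym (J : E4 → E4 →L[ℝ] E4) (a : Z4 → E4 → (C2 →L[ℝ] C1)) (n : Z4) (x : E4) : C2 →L[ℝ] C2 :=
  ((2 : ℝ) • PiC (J x)).comp ((fderiv ℝ (a n) x).flip)

theorem Dsym_apply (J : E4 → E4 →L[ℝ] E4) (a : Z4 → E4 → (C2 →L[ℝ] C1)) (n : Z4) (x : E4)
    (w : C2) : Dsym J a n x w = (2 : ℝ) • PiC (J x) ((fderiv ℝ (a n) x).flip w) := rfl

/-- the sequence of symbols -/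
def aseq (J : E4 → E4 →L[ℝ] E4) (Q Q' : Z4 → E4 → (C2 →L[ℝ] C1)) :
    ℕ → Z4 → E4 → (C2 →L[ℝ] C1)
  | 0 => Q
  | (j + 1) => fun n x => -(Q' n x).comp (Dsym J (aseq J Q Q' j) n x)

theorem SymK.Dsym {J : E4 → E4 →L[ℝ] E4} (hJ : ContDiff ℝ ∞ J) {K : Set E4} (hK : IsCompact K)
    {r : ℕ} {a : Z4 → E4 → (C2 →L[ℝ] C1)} (h : SymK K r a) : SymK K r (Dsym J a) := by
  have h1 := h.fder hK.isClosed
  have h2 : SymK K r (fun n x => (fderiv ℝ (a n) x).flip) :=
    h1.clm ((ContinuousLinearMap.flipₗᵢ ℝ E4 C2 C1).toContinuousLinearEquiv :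
      (E4 →L[ℝ] C2 →L[ℝ] C1) →L[ℝ] (C2 →L[ℝ] E4 →L[ℝ] C1))
  have h3 : ContDiff ℝ ∞ fun x => ((2 : ℝ) • PiC (J x)) := (contDiff_PiC hJ).const_smul _
  exact SymK.coeff hK h3 (ContinuousLinearMap.compL ℝ C2 C2 C2) h2

theorem SymK.aseq {J : E4 → E4 →L[ℝ] E4} (hJ : ContDiff ℝ ∞ J) {K : Set E4} (hK : IsCompact K)
    {Q Q' : Z4 → E4 → (C2 →L[ℝ] C1)} (hQ : SymK K 1 Q) (hQ' : IsSym 1 Q') (j : ℕ) :
    SymK K (j + 1) (aseq J Q Q' j) := by
  induction j with
  | zero => exact hQ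
  | succ j ih =>
    have h1 := ih.Dsym hJ hK
    have h2 := SymK.bilin (ContinuousLinearMap.compL ℝ C2 C2 C1) hQ' h1
    have h3 := h2.clm (-ContinuousLinearMap.id ℝ (C2 →L[ℝ] C1))
    rw [show j + 1 + 1 = 1 + (j + 1) by ring]
    exact h3

/-- partial sums -/
def psum (J : E4 → E4 →L[ℝ] E4) (Q Q' : Z4 → E4 → (C2 →L[ℝ] C1)) (N : ℕ) (n : Z4) (x : E4) :
    C2 →L[ℝ] C1 := ∑ j ∈ Finset.range (N + 1), aseq J Q Q' j n x

theorem psum_zero (J : E4 → E4 →L[ℝ] E4) (Q Q' : Z4 → E4 → (C2 →L[ℝ] C1)) :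
    psum J Q Q' 0 = Q := by
  funext n x
  simp [psum, aseq]

theorem psum_succ (J : E4 → E4 →L[ℝ] E4) (Q Q' : Z4 → E4 → (C2 →L[ℝ] C1)) (N : ℕ) :
    psum J Q Q' (N + 1) = fun n x => psum J Q Q' N n x + aseq J Q Q' (N + 1) n x := by
  funext n x
  simp only [psum]
  rw [Finset.sum_range_succ]

theorem SymK.psum {J : E4 → E4 →L[ℝ] E4} (hJ : ContDiff ℝ ∞ J) {K : Set E4} (hK : IsCompact K)
    {Q Q' : Z4 → E4 → (C2 →L[ℝ] C1)} (hQ : SymK K 1 Q) (hQ' : IsSym 1 Q') (N : ℕ) :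
    SymK K 1 (psum J Q Q' N) := by
  induction N with
  | zero => rw [psum_zero]; exact hQ
  | succ N ih =>
    rw [psum_succ]
    exact ih.add ((SymK.aseq hJ hK hQ hQ' (N + 1)).mono (by omega))

/-- The telescoping identity for the full symbol of `(d ·)''`. -/
theorem telescope {J : E4 → E4 →L[ℝ] E4} (hJ : ContDiff ℝ ∞ J)
    {K : Set E4} (hK : IsCompact K) (hJ2 : ∀ x ∈ K, ∀ v, J x (J x v) = -v) {Q Q' : Z4 → E4 → (C2 →L[ℝ] C1)} {θ θ' : E4 → ℝ}
    (hQ : SymK K 1 Q) (hQ' : IsSym 1 Q')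
    (h1 : ∀ n, n ≠ 0 → ∀ x β, (2:ℝ) • PiC (J x) (tens n (Q n x β)) = θ x • PiC (J x) β)
    (h1' : ∀ n, n ≠ 0 → ∀ x β, (2:ℝ) • PiC (J x) (tens n (Q' n x β)) = θ' x • PiC (J x) β)
    (hθ' : ∀ x ∈ K, θ' x = 1) (N : ℕ) (n : Z4) (hn : n ≠ 0) (x : E4) :
    ((2 : ℝ) • PiC (J x)).comp (dS (psum J Q Q' N) n x)
      = θ x • PiC (J x) + Dsym J (aseq J Q Q' N) n x := by
  have hdS_add : ∀ (p p' : Z4 → E4 → (C2 →L[ℝ] C1)), (ContDiff ℝ ∞ (p n)) → (ContDiff ℝ ∞ (p' n)) →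
      dS (fun n x => p n x + p' n x) n x = dS p n x + dS p' n x := by
    intro p p' hp hp'
    unfold dS
    have e : fderiv ℝ (fun x => p n x + p' n x) x = fderiv ℝ (p n) x + fderiv ℝ (p' n) x :=
      fderiv_fun_add (hp.differentiable (by simp)).differentiableAt
        (hp'.differentiable (by simp)).differentiableAt
    rw [e]
    ext w v
    simp
    ring
  have hDs : ∀ (a : Z4 → E4 → (C2 →L[ℝ] C1)), ((2 : ℝ) • PiC (J x)).comp (dS a n x)
      = ((2 : ℝ) • PiC (J x)).comp ((tens n).comp (a n x)) + Dsym J a n x := by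
    intro a
    unfold dS Dsym
    rw [ContinuousLinearMap.comp_add]
  induction N with
  | zero =>
    rw [psum_zero, hDs]
    congr 1
    ext1 w
    exact h1 n hn x w
  | succ N ih =>
    rw [psum_succ, hdS_add _ _ ((SymK.psum hJ hK hQ hQ' N).smooth n)
      ((SymK.aseq hJ hK hQ hQ' (N + 1)).smooth n), ContinuousLinearMap.comp_add, ih, hDs]
    have key : ((2 : ℝ) • PiC (J x)).comp ((tens n).comp (aseq J Q Q' (N + 1) n x))
        = - Dsym J (aseq J Q Q' N) n x := by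
      ext1 w
      have e1 : aseq J Q Q' (N + 1) n x w = - Q' n x (Dsym J (aseq J Q Q' N) n x w) := rfl
      have e2 : (((2 : ℝ) • PiC (J x)).comp ((tens n).comp (aseq J Q Q' (N + 1) n x))) w
          = (2 : ℝ) • PiC (J x) (tens n (aseq J Q Q' (N + 1) n x w)) := rfl
      rw [e2, e1, map_neg, map_neg, smul_neg, h1' n hn x]
      by_cases hx : x ∈ K
      · rw [hθ' x hx, one_smul, Dsym_apply, map_smul, PiC_PiC (hJ2 x hx)]
        rfl
      · have h0 := ((SymK.aseq hJ hK hQ hQ' N).Dsym hJ hK).supp n x hx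
        rw [h0]
        simp
    rw [key]
    abel

end

end Crest.Agent.R240.FA
private theorem rz_6a992e96ac : type_of% @_root_.Crest.Agent.R240.FA.aseq.eq_def := @_root_.Crest.Agent.R240.FA.aseq.eq_def -- L194
private theorem rz_b0195b3822 : type_of% @_root_.Crest.Agent.R240.FA.aseq.eq_1 := @_root_.Crest.Agent.R240.FA.aseq.eq_1 -- L194
end

-- ▼ part R240/FACut

/-!
Row 240, Lemma A, team F: cut-offs, complexification, pointwise algebra.
-/

set_option autoImplicit false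
set_option maxSynthPendingDepth 3

namespace Crest.Agent.R240.FA

open Crest.Agent.R240
open scoped ContDiff Manifold

noncomputable section

/-! ### complexification and real parts -/

def toC1 : (E4 →L[ℝ] ℝ) →L[ℝ] C1 := (ContinuousLinearMap.compL ℝ E4 ℝ ℂ) Complex.ofRealCLM

@[simp] theorem toC1_apply (b : E4 →L[ℝ] ℝ) (u : E4) : toC1 b u = (b u : ℂ) := rfl

def toC2 : Bil →L[ℝ] C2 := (ContinuousLinearMap.compL ℝ E4 (E4 →L[ℝ] ℝ) C1) toC1

@[simp] theorem toC2_apply (b : Bil) (u v : E4) : toC2 b u v = (b u v : ℂ) := rfl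

def re1 : C1 →L[ℝ] (E4 →L[ℝ] ℝ) := (ContinuousLinearMap.compL ℝ E4 ℂ ℝ) Complex.reCLM

@[simp] theorem re1_apply (b : C1) (u : E4) : re1 b u = (b u).re := rfl

def re2 : C2 →L[ℝ] Bil := (ContinuousLinearMap.compL ℝ E4 C1 (E4 →L[ℝ] ℝ)) re1

@[simp] theorem re2_apply (b : C2) (u v : E4) : re2 b u v = (b u v).re := rfl

theorem re2_toC2 (b : Bil) : re2 (toC2 b) = b := by
  ext u v
  simp


/-- `antip` of the exterior derivative in terms of `PiC`. -/
theorem antip_alt (J : E4 →L[ℝ] E4) (D : C2) :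
    antip J (re2 D - (re2 D).flip) = re2 ((2 : ℝ) • PiC J D) := by
  ext u v
  rw [antip_apply]
  simp only [sub_apply, ContinuousLinearMap.flip_apply, re2_apply, smul_apply, PiC_apply]
  simp only [Complex.real_smul, Complex.mul_re, Complex.ofReal_re, Complex.ofReal_im, zero_mul,
    sub_zero, Complex.add_re, Complex.sub_re]
  ring

theorem antiC_toC2 {J : E4 →L[ℝ] E4} {b : Bil} (h1 : Alt b) (h2 : ∀ u v, b (J u) (J v) = - b u v) :
    AntiC J (toC2 b) := by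
  constructor
  · intro v
    simp [h1 v]
  · intro u v
    simp [h2 u v]

theorem alt_re2 {J : E4 →L[ℝ] E4} {β : C2} (h : AntiC J β) : Alt (re2 β) := by
  intro v
  simp [h.1 v]

theorem anti_re2 {J : E4 →L[ℝ] E4} {β : C2} (h : AntiC J β) (u v : E4) :
    re2 β (J u) (J v) = - re2 β u v := by
  simp [h.2 u v]

/-! ### cut-off functions -/

theorem exists_cutoff {A : Set E4} (hA : IsCompact A) {V : Set E4} (hV : IsOpen V) (hAV : A ⊆ V) :
    ∃ (K : Set E4) (θ : E4 → ℝ), IsCompact K ∧ K ⊆ V ∧ ContDiff ℝ ∞ θ ∧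
      (∀ x ∉ K, θ x = 0) ∧ ∀ x ∈ A, θ x = 1 := by
  obtain ⟨K, hK, hAK, hKV⟩ := exists_compact_between hA hV hAV
  obtain ⟨f, hf1, hf0, -⟩ := exists_contMDiffMap_one_nhds_of_subset_interior (n := ⊤)
    𝓘(ℝ, E4) hA.isClosed hAK
  refine ⟨K, f, hK, hKV, f.contMDiff.contDiff, hf0, fun x hx => ?_⟩
  exact (Filter.Eventually.self_of_nhdsSet hf1) x hx

/-! ### the symbol data on a pair `closure U ⊆ V` -/

/-- The conclusion of the symbol construction (to be proved in `FAAlg`). -/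
def SymbolThm : Prop :=
  ∀ (J : E4 → E4 →L[ℝ] E4), ContDiff ℝ ∞ J → ∀ (θ : E4 → ℝ), ContDiff ℝ ∞ θ →
    HasCompactSupport θ → (∀ x, θ x ≠ 0 → ∀ v, J x (J x v) = -v) →
    ∃ Q : Z4 → E4 → (C2 →L[ℝ] C1), IsSym 1 Q ∧ (∀ n x, θ x = 0 → Q n x = 0) ∧
      (∀ n, n ≠ 0 → ∀ x β, (2:ℝ) • PiC (J x) (tens n (Q n x β)) = θ x • PiC (J x) β)

structure Dat (J : E4 → E4 →L[ℝ] E4) (U V : Set E4) where
  K : Set E4
  θ : E4 → ℝ
  p : Z4 → E4 → (C2 →L[ℝ] C1)
  e : Z4 → E4 → (C2 →L[ℝ] C2)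
  hK : IsCompact K
  hKV : K ⊆ V
  hθ : ContDiff ℝ ∞ θ
  hθ0 : ∀ x ∉ K, θ x = 0
  hθ1 : ∀ x ∈ U, θ x = 1
  hp : SymK K 1 p
  he : SymK K 6 e
  hPi : ∀ n x w, AntiC (J x) (e n x w) ∨ (x ∉ K)
  tel : ∀ n, n ≠ 0 → ∀ x, ((2 : ℝ) • PiC (J x)).comp (dS p n x) = θ x • PiC (J x) + e n x

theorem exists_dat (hS : SymbolThm) (J : E4 → E4 →L[ℝ] E4) (hJ : ContDiff ℝ ∞ J) (U V : Set E4)
    (hV : IsOpen V) (hVb : Bornology.IsBounded V) (hUV : closure U ⊆ V)
    (hJ2 : ∀ x ∈ V, ∀ v, J x (J x v) = -v) : Nonempty (Dat J U V) := by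
  have hU : IsCompact (closure U) :=
    Metric.isCompact_of_isClosed_isBounded isClosed_closure (hVb.subset hUV)
  obtain ⟨K, θ, hK, hKV, hθ, hθ0, hθ1⟩ := exists_cutoff hU hV hUV
  obtain ⟨K', θ', hK', hKV', hθ', hθ0', hθ1'⟩ := exists_cutoff hK hV hKV
  have hc : HasCompactSupport θ := HasCompactSupport.intro hK hθ0
  have hc' : HasCompactSupport θ' := HasCompactSupport.intro hK' hθ0'
  obtain ⟨Q, hQ, hQ0, hQ1⟩ := hS J hJ θ hθ hc (fun x hx => hJ2 x (hKV (by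
    by_contra h; exact hx (hθ0 x h))))
  obtain ⟨Q', hQ', hQ0', hQ1'⟩ := hS J hJ θ' hθ' hc' (fun x hx => hJ2 x (hKV' (by
    by_contra h; exact hx (hθ0' x h))))
  have hQK : SymK K 1 Q := ⟨hQ, fun n x hx => hQ0 n x (hθ0 x hx)⟩
  refine ⟨⟨K, θ, psum J Q Q' 5, Dsym J (aseq J Q Q' 5), hK, hKV, hθ, hθ0,
    fun x hx => hθ1 x (subset_closure hx), SymK.psum hJ hK hQK hQ' 5,
    (SymK.aseq hJ hK hQK hQ' 5).Dsym hJ hK, ?_, ?_⟩⟩
  · intro n x w
    by_cases hx : x ∈ K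
    · left
      rw [Dsym_apply, ← map_smul]
      exact antiC_PiC (hJ2 x (hKV hx)) _
    · right; exact hx
  · intro n hn x
    exact telescope hJ hK (fun x hx => hJ2 x (hKV hx)) hQK hQ' hQ1 hQ1' hθ1' 5 n hn x

end

end Crest.Agent.R240.FA
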