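import Crest.Agent.R240.EllM4
import Crest.Agent.R240.NrCm
import Crest.Agent.R240.EllNorm
import Crest.Agent.R240.FAOp
import Mathlib
import Crest.Agent.R240.FALoc
import Crest.Agent.R240.FACut
import Crest.Agent.R240.KAlg

-- ▼ part R240/EllFin
section

/-!
Row 240, Lemma A (helper106): node N3 from the local theorem.
-/

set_option autoImplicit false
set_option maxSynthPendingDepth 3
set_option linter.unusedSectionVars false

open scoped ContDiff Manifold Topology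
open Set Filter

namespace Crest.Agent.R240.Ell

noncomputable section

open Crest.Agent.R240.Ch Crest.Agent.R240.KLoc

section gen

variable {M : Type*} [TopologicalSpace M] [ChartedSpace E4 M] [IsManifold 𝓘(ℝ, E4) ∞ M]

theorem loc_bound (A : EAtl M) (i : Fin A.n) (m : ℕ) : ∃ C, 0 ≤ C ∧ ∀ (a : F2 E4 M) (B : ℝ),
    Smooth2 a → 0 ≤ B → (∀ j ≤ m, ∀ y ∈ closure (A.V i), ‖iteratedFDeriv ℝ j (rep (A.p i) a) y‖ ≤ B) →
    nk m (loc A i a) ≤ C * B := by
  obtain ⟨K, hK0, hK⟩ := (A.cs i).exists_ckB m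
  refine ⟨∑ n ∈ Finset.range (m + 1), ∑ j ∈ Finset.range (n + 1), (n.choose j : ℝ) * K,
    by positivity, fun a B ha hB0 hB => nk_le ?_⟩
  intro n hn y
  have hn' : ((n : ℕ) : WithTop ℕ∞) ≤ ∞ := cast_le_infty n
  by_cases hy : y ∈ A.V i
  · have hV := A.isOpen_V i
    have hu := hV.uniqueDiffOn (𝕜 := ℝ)
    have h1 := norm_iteratedFDerivWithin_smul_le (𝕜 := ℝ) (n := n) (N := ∞)
      ((A.cs i).1.contDiffOn (s := A.V i)) ((ha.2 (A.p i)).mono (A.V_sub i)) hu hy hn'
    have e : ∀ {F : Type} [NormedAddCommGroup F] [NormedSpace ℝ F] (f : E4 → F) (j : ℕ),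
        iteratedFDerivWithin ℝ j f (A.V i) y = iteratedFDeriv ℝ j f y :=
      fun f j => iteratedFDerivWithin_of_isOpen j hV hy
    rw [e] at h1
    refine h1.trans ?_
    have h2 : ∀ j ∈ Finset.range (n + 1), (n.choose j : ℝ) *
        ‖iteratedFDerivWithin ℝ j (A.c i) (A.V i) y‖ *
        ‖iteratedFDerivWithin ℝ (n - j) (rep (A.p i) a) (A.V i) y‖ ≤
          ((n.choose j : ℝ) * K) * B := by
      intro j hj
      have hj' : j ≤ n := by simpa [Nat.lt_succ_iff] using hj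
      rw [e, e]
      have h3 := hB (n - j) (by omega) y (subset_closure hy)
      have h4 := hK j (by omega) y
      gcongr
    refine (Finset.sum_le_sum h2).trans ?_
    rw [← Finset.sum_mul]
    refine mul_le_mul_of_nonneg_right ?_ hB0
    exact Finset.single_le_sum (f := fun n => ∑ j ∈ Finset.range (n + 1),
        (n.choose j : ℝ) * K) (fun m _ => by positivity)
      (Finset.mem_range.mpr (by omega))
  · have h1 : y ∉ tsupport (loc A i a) := fun h =>
      hy (A.U_sub_V i (A.supp i (tsupport_loc A i a h)))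
    have h2 : iteratedFDeriv ℝ n (loc A i a) y = 0 :=
      image_eq_zero_of_notMem_tsupport fun h => h1 (tsupport_iteratedFDeriv_subset n h)
    rw [h2, norm_zero]
    positivity

theorem pn_le_cm (A : EAtl M) (𝒰 : Cover M) (m : ℕ) : ∃ C, 0 ≤ C ∧ ∀ a : F2 E4 M,
    Smooth2 a → pn A m a ≤ C * 𝒰.cm m a := by
  choose C hC0 hC using fun i => loc_bound A i m
  choose D hD0 hD using fun i => cm_compare 𝒰 (A.p i) (A.compact_V i) (A.closure_V i) m
  refine ⟨∑ i, C i * D i, Finset.sum_nonneg fun i _ => mul_nonneg (hC0 i) (hD0 i),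
    fun a ha => ?_⟩
  unfold pn
  rw [Finset.sum_mul]
  refine Finset.sum_le_sum fun i _ => ?_
  rw [mul_assoc]
  exact hC i a _ ha (mul_nonneg (hD0 i) (cm_nonneg _ _ _)) (hD i a ha)

theorem exists_big (A : EAtl M) (x : M) : ∃ i, x ∈ (chartAt E4 (A.p i)).source ∧
    1 ≤ (A.n : ℝ) * A.c i (chartAt E4 (A.p i) x) := by
  by_contra hcon
  push Not at hcon
  have h1 : ∀ i ∈ Finset.univ, extF (A.p i) (A.c i) x < 1 / (A.n : ℝ) := by
    intro i _
    have hn : (0 : ℝ) < A.n := by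
      have := i.pos
      exact_mod_cast this
    unfold extF
    split_ifs with h
    · rw [lt_div_iff₀ hn, mul_comm]
      exact hcon i h
    · positivity
  have h2 := A.sum_one x
  have hne : (Finset.univ : Finset (Fin A.n)).Nonempty := by
    by_contra h0
    rw [Finset.not_nonempty_iff_eq_empty] at h0
    rw [h0, Finset.sum_empty] at h2
    exact zero_ne_one h2
  have h3 := Finset.sum_lt_sum_of_nonempty hne h1
  rw [h2, Finset.sum_const, Finset.card_univ, Fintype.card_fin, nsmul_eq_mul] at h3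
  obtain ⟨i, -⟩ := hne
  have hn : (0 : ℝ) < A.n := by
    have := i.pos
    exact_mod_cast this
  rw [mul_one_div_cancel hn.ne'] at h3
  exact lt_irrefl _ h3

end gen

variable {M : Type*} [MetricSpace M] [CompactSpace M] [ChartedSpace E4 M]
    [IsManifold 𝓘(ℝ, E4) ∞ M] [MeasurableSpace M] [BorelSpace M]

theorem nr_le_pn (D : Dat M) (A : EAtl M) : ∃ C, 0 ≤ C ∧ ∀ (b : X2 M) (x : M),
    D.nr (b : F2 E4 M) x ≤ C * pn A 0 (b : F2 E4 M) := by
  choose C hC0 hC using fun i => NrCm.nr_le_rep D (A.p i) (A.compact_V i) (A.closure_V i)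
  refine ⟨∑ i, C i * A.n, Finset.sum_nonneg fun i _ => mul_nonneg (hC0 i) (Nat.cast_nonneg _),
    fun b x => ?_⟩
  obtain ⟨i, hx, hi⟩ := exists_big A x
  set y := chartAt E4 (A.p i) x with hy
  have hyV : y ∈ closure (A.V i) := by
    by_contra h
    have : A.c i y = 0 := A.c_zero i fun h' => h (subset_closure (A.U_sub_V i h'))
    rw [this, mul_zero] at hi
    linarith
  have h1 := hC i b y hyV
  rw [hy, (chartAt E4 (A.p i)).left_inv hx, ← hy] at h1
  have hc0 : 0 ≤ A.c i y := A.nonneg i y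
  have h2 : ‖rep (A.p i) (b : F2 E4 M) y‖ ≤ A.n * ‖loc A i (b : F2 E4 M) y‖ := by
    have h3 : ‖loc A i (b : F2 E4 M) y‖ = A.c i y * ‖rep (A.p i) (b : F2 E4 M) y‖ := by
      unfold loc
      rw [norm_smul, Real.norm_eq_abs, abs_of_nonneg hc0]
    rw [h3, ← mul_assoc]
    exact le_mul_of_one_le_left (norm_nonneg _) hi
  have h4 : ‖loc A i (b : F2 E4 M) y‖ ≤ pn A 0 (b : F2 E4 M) :=
    (norm_le_nk (cs_loc A i b.2) 0 y).trans (nk_le_pn A 0 i _)
  calc D.nr (b : F2 E4 M) x ≤ C i * ‖rep (A.p i) (b : F2 E4 M) y‖ := h1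
    _ ≤ C i * (A.n * pn A 0 (b : F2 E4 M)) := by
        refine mul_le_mul_of_nonneg_left (h2.trans ?_) (hC0 i)
        exact mul_le_mul_of_nonneg_left h4 (Nat.cast_nonneg _)
    _ = (C i * A.n) * pn A 0 (b : F2 E4 M) := by ring
    _ ≤ _ := by
        refine mul_le_mul_of_nonneg_right ?_ (pn_nonneg A 0 _)
        exact Finset.single_le_sum (f := fun i => C i * (A.n : ℝ))
          (fun i _ => mul_nonneg (hC0 i) (Nat.cast_nonneg _)) (Finset.mem_univ i)

/-- NODE N3 from the local theorem. -/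
theorem n3_of_local (hloc : LocalThm) (D : Dat M) : D.N3 := by
  obtain ⟨A⟩ := exists_atl M
  obtain ⟨𝒰⟩ := exists_Cover (M := M)
  obtain ⟨m, C, hC0, hC⟩ := lemmaA_man hloc A D.smJ D.sq
  obtain ⟨C1, hC1, h1⟩ := nr_le_pn D A
  obtain ⟨C2, hC2, h2⟩ := pn_le_cm A 𝒰 m
  refine ⟨𝒰, m, C1 * (C * C2), fun b hb => ?_⟩
  obtain ⟨c, hc, hcc, hcb, hcn⟩ := hC b.1 b.2 hb
  refine ⟨⟨c, hc⟩, hcc, Subtype.ext hcb, fun x => ?_⟩
  have h3 := h1 ⟨c, hc⟩ x
  have h4 := h2 (bpp D.J b.1) (smooth2_bpp D.smJ b.2)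
  calc D.nr c x ≤ C1 * pn A 0 c := h3
    _ ≤ C1 * (C * (C2 * 𝒰.cm m (bpp D.J b.1))) := by
        refine mul_le_mul_of_nonneg_left (hcn.trans ?_) hC1
        exact mul_le_mul_of_nonneg_left h4 hC0
    _ = C1 * (C * C2) * 𝒰.cm m ((D.pi'' b : X2 M) : F2 E4 M) := by
        rw [Dat.pi'', antiM_coe]; ring

end

end Crest.Agent.R240.Ell
end

-- ▼ part R240/FAScale
section

/-!
Row 240, Lemma A (helper446): the local theorem for general bounded `V` follows from the case
`V ⊆ cube` by an affine change of coordinates.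
-/

set_option autoImplicit false
set_option maxSynthPendingDepth 3

open Set
open scoped ContDiff

namespace Crest.Agent.R240.Ell

noncomputable section

/-- `LocalThm` for `V` contained in the open unit cube. -/
def LocalThmCube : Prop :=
  ∀ (J : E4 → E4 →L[ℝ] E4), ContDiff ℝ ∞ J →
  ∀ (U V : Set E4), IsOpen U → IsOpen V → V ⊆ FA.cube → closure U ⊆ V →
  (∀ x ∈ V, ∀ v, J x (J x v) = -v) →
  ∃ (Q : (E4 → Bil) → (E4 → E4 →L[ℝ] ℝ)) (K : (E4 → Bil) → (E4 → Bil)),
    (∀ f g, Test J U f → Test J U g → Q (f + g) = Q f + Q g ∧ K (f + g) = K f + K g) ∧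
    (∀ (c : ℝ) f, Test J U f → Q (c • f) = c • Q f ∧ K (c • f) = c • K f) ∧
    (∀ f, Test J U f → ContDiff ℝ ∞ (Q f) ∧ tsupport (Q f) ⊆ V ∧ Test J V (K f)) ∧
    (∀ f, Test J U f → ∀ x, antip (J x) (dS (Q f) x) = f x + K f x) ∧
    (∃ (m : ℕ) (C : ℝ), ∀ f B, Test J U f → CkB m f B → CkB 1 (Q f) (C * B)) ∧
    (∀ (k : ℕ) (θ : ℝ), 0 < θ → ∃ C : ℝ, ∀ f A B, Test J U f → CkB k f A → CkB 0 f B →
        CkB k (K f) (θ * A + C * B)) ∧
    (∀ (θ : ℝ), 0 < θ → ∃ (n : ℕ) (φ : Fin n → E4 → Bil) (l : Fin n → (E4 → Bil) → ℝ) (C : ℝ),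
        (∀ j, Test J V (φ j)) ∧
        (∀ j f g, Test J U f → Test J U g → l j (f + g) = l j f + l j g) ∧
        (∀ j (c : ℝ) f, Test J U f → l j (c • f) = c * l j f) ∧
        (∀ j f B, Test J U f → CkB 0 f B → |l j f| ≤ C * B) ∧
        (∀ f B, Test J U f → CkB 0 f B →
          CkB 0 (fun x => K f x - ∑ j, l j f • φ j x) (θ * B)))

section aff

variable {F : Type*} [NormedAddCommGroup F] [NormedSpace ℝ F]

/-- the affine homeomorphism `x ↦ a + s • x`. -/
def aff (a : E4) (s : ℝ) (hs : s ≠ 0) : E4 ≃ₜ E4 where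
  toFun x := a + s • x
  invFun x := s⁻¹ • (x - a)
  left_inv x := by simp [smul_smul, inv_mul_cancel₀ hs]
  right_inv x := by simp [smul_smul, mul_inv_cancel₀ hs]
  continuous_toFun := by fun_prop
  continuous_invFun := by fun_prop


theorem aff_symm_apply (a : E4) (s : ℝ) (hs : s ≠ 0) (x : E4) :
    (aff a s hs).symm x = s⁻¹ • (x - a) := rfl

theorem aff_symm_eq (a : E4) (s : ℝ) (hs : s ≠ 0) (x : E4) :
    (aff a s hs).symm x = (-(s⁻¹ • a)) + s⁻¹ • x := by
  rw [aff_symm_apply, smul_sub]; abel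

theorem contDiff_aff (a : E4) (s : ℝ) (hs : s ≠ 0) : ContDiff ℝ ∞ (aff a s hs) := by
  have : (aff a s hs : E4 → E4) = fun x => a + s • x := rfl
  rw [this]; fun_prop

theorem contDiff_aff_symm (a : E4) (s : ℝ) (hs : s ≠ 0) : ContDiff ℝ ∞ (aff a s hs).symm := by
  have : ((aff a s hs).symm : E4 → E4) = fun x => s⁻¹ • (x - a) := rfl
  rw [this]; fun_prop

theorem ckB_affine {f : E4 → F} (hf : ContDiff ℝ ∞ f) {k : ℕ} {B : ℝ} (hB : CkB k f B) (a : E4)
    (s : ℝ) : CkB k (fun x => f (a + s • x)) ((1 + |s|) ^ k * B) := by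
  intro j hj x
  have h1 : (fun x => f (a + s • x)) =
      (fun y => f (a + y)) ∘ (s • ContinuousLinearMap.id ℝ E4) := by
    funext y; simp
  have hg : ContDiff ℝ ∞ (fun y => f (a + y)) := hf.comp (by fun_prop)
  rw [h1, ContinuousLinearMap.iteratedFDeriv_comp_right (s • ContinuousLinearMap.id ℝ E4) hg x
    (i := j) (by exact_mod_cast le_top)]
  refine (ContinuousMultilinearMap.norm_compContinuousLinearMap_le _ _).trans ?_
  have h2 : iteratedFDeriv ℝ j (fun y => f (a + y)) ((s • ContinuousLinearMap.id ℝ E4) x) =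
      iteratedFDeriv ℝ j f (a + (s • ContinuousLinearMap.id ℝ E4) x) := by
    rw [iteratedFDeriv_comp_add_left]
  rw [h2]
  have hB0 : 0 ≤ B := hB.nonneg
  have h3 : ‖s • ContinuousLinearMap.id ℝ E4‖ ≤ |s| := by
    refine ContinuousLinearMap.opNorm_le_bound _ (abs_nonneg _) fun v => ?_
    simp [norm_smul]
  have h4 : ∏ _i : Fin j, ‖s • ContinuousLinearMap.id ℝ E4‖ ≤ (1 + |s|) ^ k := by
    rw [Finset.prod_const, Finset.card_univ, Fintype.card_fin]
    calc ‖s • ContinuousLinearMap.id ℝ E4‖ ^ j ≤ (1 + |s|) ^ j := by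
          gcongr; linarith [abs_nonneg s]
      _ ≤ (1 + |s|) ^ k := pow_le_pow_right₀ (by linarith [abs_nonneg s]) hj
  calc ‖iteratedFDeriv ℝ j f _‖ * ∏ _i : Fin j, ‖s • ContinuousLinearMap.id ℝ E4‖
      ≤ B * (1 + |s|) ^ k := by
        gcongr
        exact hB j hj _
    _ = (1 + |s|) ^ k * B := mul_comm _ _

theorem tsupport_comp_aff (e : E4 ≃ₜ E4) (f : E4 → F) : tsupport (f ∘ e) = e ⁻¹' tsupport f := by
  rw [tsupport, tsupport, e.preimage_closure]
  rfl

end aff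

theorem Test.comp {J : E4 → E4 →L[ℝ] E4} {U : Set E4} {f : E4 → Bil} (h : Test J U f)
    (e : E4 ≃ₜ E4) (he : ContDiff ℝ ∞ e) : Test (fun x => J (e x)) (e ⁻¹' U) (f ∘ e) where
  smooth := h.smooth.comp he
  cpt := by
    have := h.cpt
    unfold HasCompactSupport at this ⊢
    rw [tsupport_comp_aff]
    exact e.isCompact_preimage.2 this
  supp := by
    rw [tsupport_comp_aff]
    exact preimage_mono h.supp
  alt x := h.alt _
  anti x u v := h.anti _ u v

theorem localThm_of_cube (H : LocalThmCube) : LocalThm := by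
  intro J hJ U V hU hV hVb hUV hJ2
  obtain ⟨R, hR0, hR⟩ : ∃ R : ℝ, 0 < R ∧ ∀ x ∈ V, ‖x‖ < R := by
    obtain ⟨R, hR⟩ := hVb.exists_norm_le
    exact ⟨max R 0 + 1, by positivity, fun x hx => by
      have := hR x hx
      have := le_max_left R 0
      linarith⟩
  set s : ℝ := 2 * R with hs
  have hs0 : 0 < s := by positivity
  have hsne : s ≠ 0 := hs0.ne'
  set a : E4 := WithLp.toLp 2 (fun _ => - R) with ha
  set e : E4 ≃ₜ E4 := aff a s hsne with he
  have hec : ContDiff ℝ ∞ e := contDiff_aff a s hsne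
  have hesc : ContDiff ℝ ∞ e.symm := contDiff_aff_symm a s hsne
  have hcube : e ⁻¹' V ⊆ FA.cube := by
    intro x hx i
    have h1 := hR _ hx
    have h2 : |(a + s • x) i| < R := by
      have := PiLp.norm_apply_le (a + s • x) i
      rw [Real.norm_eq_abs] at this
      exact this.trans_lt h1
    have h3 : (a + s • x) i = -R + 2 * R * x i := by simp [ha, hs]
    rw [h3, abs_lt] at h2
    constructor
    · by_contra hc
      push Not at hc
      nlinarith [h2.1]
    · by_contra hc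
      push Not at hc
      nlinarith [h2.2]
  obtain ⟨Q, K, h1, h2, h3, h4, ⟨m, C5, h5⟩, h6, h7⟩ := H (fun x => J (e x)) (hJ.comp hec)
    (e ⁻¹' U) (e ⁻¹' V) (hU.preimage e.continuous) (hV.preimage e.continuous) hcube
    (by rw [← e.preimage_closure]; exact preimage_mono hUV) (fun x hx v => hJ2 _ hx v)
  have htest : ∀ {f}, Test J U f → Test (fun x => J (e x)) (e ⁻¹' U) (f ∘ e) :=
    fun h => h.comp e hec
  have hback : ∀ {g}, Test (fun x => J (e x)) (e ⁻¹' V) g → Test J V (g ∘ e.symm) := by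
    intro g hg
    have := hg.comp e.symm hesc
    simpa [preimage_preimage] using this
  have hesymm : ∀ x, e.symm x = (-(s⁻¹ • a)) + s⁻¹ • x := fun x => aff_symm_eq a s hsne x
  have hb1 : ∀ {F : Type} [NormedAddCommGroup F] [NormedSpace ℝ F] {f : E4 → F} {k : ℕ} {B : ℝ},
      ContDiff ℝ ∞ f → CkB k f B → CkB k (f ∘ e) ((1 + |s|) ^ k * B) := by
    intro F _ _ f k B hf hB
    exact ckB_affine hf hB a s
  have hb2 : ∀ {F : Type} [NormedAddCommGroup F] [NormedSpace ℝ F] {f : E4 → F} {k : ℕ} {B : ℝ},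
      ContDiff ℝ ∞ f → CkB k f B → CkB k (f ∘ e.symm) ((1 + |s⁻¹|) ^ k * B) := by
    intro F _ _ f k B hf hB
    have := ckB_affine hf hB (-(s⁻¹ • a)) (s⁻¹)
    have h8 : (f ∘ e.symm) = fun x => f (-(s⁻¹ • a) + s⁻¹ • x) := by
      funext x; simp only [Function.comp, hesymm]
    rw [h8]; exact this
  have hb0 : ∀ {f : E4 → Bil} {B : ℝ}, CkB 0 f B → CkB 0 (f ∘ e) B := by
    intro f B hB
    rw [ckB_zero_iff] at hB ⊢
    exact fun x => hB _
  have hb0' : ∀ {f : E4 → Bil} {B : ℝ}, CkB 0 f B → CkB 0 (f ∘ e.symm) B := by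
    intro f B hB
    rw [ckB_zero_iff] at hB ⊢
    exact fun x => hB _
  refine ⟨fun f => s • (Q (f ∘ e) ∘ e.symm), fun f => K (f ∘ e) ∘ e.symm, ?_, ?_, ?_, ?_, ?_, ?_, ?_⟩
  · intro f g hf hg
    have h8 := h1 _ _ (htest hf) (htest hg)
    have h9 : (f + g) ∘ e = f ∘ e + g ∘ e := rfl
    constructor
    · simp only [h9, h8.1]
      funext x
      simp [smul_add]
    · simp only [h9, h8.2]
      rfl
  · intro c f hf
    have h8 := h2 c _ (htest hf)
    have h9 : (c • f) ∘ e = c • (f ∘ e) := rfl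
    constructor
    · simp only [h9, h8.1]
      funext x
      simp only [Pi.smul_apply, Function.comp]
      rw [smul_comm]
    · simp only [h9, h8.2]
      rfl
  · intro f hf
    obtain ⟨h8, h9, h10⟩ := h3 _ (htest hf)
    refine ⟨contDiff_const.smul (h8.comp hesc), ?_, hback h10⟩
    have h12 : tsupport (s • (Q (f ∘ e) ∘ e.symm)) ⊆ tsupport (Q (f ∘ e) ∘ e.symm) := by
      refine closure_mono fun x hx => ?_
      simp only [Function.mem_support, Pi.smul_apply] at hx ⊢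
      exact fun h0 => hx (by rw [h0, smul_zero])
    refine h12.trans ?_
    rw [tsupport_comp_aff]
    have h11 := preimage_mono (f := e.symm) h9
    simpa [preimage_preimage] using h11
  · intro f hf x
    have h8 := h4 _ (htest hf) (e.symm x)
    obtain ⟨h9, _, _⟩ := h3 _ (htest hf)
    have h10 : fderiv ℝ (s • (Q (f ∘ e) ∘ e.symm)) x = fderiv ℝ (Q (f ∘ e)) (e.symm x) := by
      have h11 : HasFDerivAt (fun x => e.symm x) (s⁻¹ • ContinuousLinearMap.id ℝ E4) x := by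
        have : (fun x => e.symm x) = fun x => (-(s⁻¹ • a)) + s⁻¹ • x := funext hesymm
        rw [this]
        exact (((ContinuousLinearMap.id ℝ E4).hasFDerivAt (x := x)).const_smul s⁻¹).const_add _
      have h12 : HasFDerivAt (Q (f ∘ e)) (fderiv ℝ (Q (f ∘ e)) (e.symm x)) (e.symm x) :=
        (h9.differentiable (by simp)).differentiableAt.hasFDerivAt
      have h13 := (h12.comp x h11).const_smul s
      rw [h13.fderiv]
      ext v
      simp [smul_smul, mul_inv_cancel₀ hsne]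
    have h14 : dS (s • (Q (f ∘ e) ∘ e.symm)) x = dS (Q (f ∘ e)) (e.symm x) := by
      unfold dS
      rw [h10]
    simp only [Function.comp, Homeomorph.apply_symm_apply] at h8
    rw [h14]
    exact h8
  · refine ⟨m, |s| * ((1 + |s⁻¹|) ^ 1 * (C5 * (1 + |s|) ^ m)), fun f B hf hB => ?_⟩
    obtain ⟨h9, _, _⟩ := h3 _ (htest hf)
    have h8 := h5 _ _ (htest hf) (hb1 hf.smooth hB)
    have h10 := CkB.smul s (h9.comp hesc) (hb2 h9 h8)
    refine h10.mono (le_of_eq ?_)
    ring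
  · intro k θ hθ
    obtain ⟨C, hC⟩ := h6 k (θ / ((1 + |s⁻¹|) ^ k * (1 + |s|) ^ k)) (by positivity)
    refine ⟨(1 + |s⁻¹|) ^ k * C, fun f A B hf hA hB => ?_⟩
    obtain ⟨_, _, h10⟩ := h3 _ (htest hf)
    have h8 := hC _ _ _ (htest hf) (hb1 hf.smooth hA) (hb0 hB)
    have h11 := hb2 h10.smooth h8
    refine h11.mono (le_of_eq ?_)
    have hp1 : (0:ℝ) < (1 + |s⁻¹|) ^ k := by positivity
    have hp2 : (0:ℝ) < (1 + |s|) ^ k := by positivity
    field_simp
  · intro θ hθ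
    obtain ⟨n, φ, l, C, g1, g2, g3, g4, g5⟩ := h7 θ hθ
    refine ⟨n, fun j => φ j ∘ e.symm, fun j f => l j (f ∘ e), C, fun j => hback (g1 j), ?_, ?_,
      ?_, ?_⟩
    · intro j f g hf hg
      exact g2 j _ _ (htest hf) (htest hg)
    · intro j c f hf
      exact g3 j c _ (htest hf)
    · intro j f B hf hB
      exact g4 j _ _ (htest hf) (hb0 hB)
    · intro f B hf hB
      exact hb0' (f := fun x => K (f ∘ e) x - ∑ j, l j (f ∘ e) • φ j x) (g5 _ _ (htest hf) (hb0 hB))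

end

end Crest.Agent.R240.Ell
end

-- ▼ part R240/FALoc2
section

/-!
Row 240, Lemma A, team F: the local theorem from the symbol theorem.
-/

set_option autoImplicit false
set_option maxSynthPendingDepth 3

namespace Crest.Agent.R240.FA

open Crest.Agent.R240 MeasureTheory
open scoped ContDiff Manifold

noncomputable section

variable {J : E4 → E4 →L[ℝ] E4} {U V : Set E4}

/-! ### additivity and homogeneity -/

theorem Qop_add (D : Dat J U V) {f g : E4 → Bil} (hf : ContDiff ℝ ∞ f) (hfs : tsupport f ⊆ cube)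
    (hg : ContDiff ℝ ∞ g) (hgs : tsupport g ⊆ cube) : Qop D (f + g) = Qop D f + Qop D g := by
  funext x
  change re1 (Op 0 D.p (cf (f + g)) x) = re1 (Op 0 D.p (cf f) x) + re1 (Op 0 D.p (cf g) x)
  rw [cf_add, Op_add_right le_rfl D.hp.toIsSym (cf_contDiff hf) (cf_tsupport hfs) (cf_contDiff hg)
    (cf_tsupport hgs), Pi.add_apply, map_add]

theorem Kop_add (D : Dat J U V) {f g : E4 → Bil} (hf : ContDiff ℝ ∞ f) (hfs : tsupport f ⊆ cube)
    (hg : ContDiff ℝ ∞ g) (hgs : tsupport g ⊆ cube) : Kop D (f + g) = Kop D f + Kop D g := by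
  funext x
  change re2 (Op 0 D.e (cf (f + g)) x) + re2 (mK D 0 x (coef (cf (f + g)) 0))
    = (re2 (Op 0 D.e (cf f) x) + re2 (mK D 0 x (coef (cf f) 0)))
      + (re2 (Op 0 D.e (cf g) x) + re2 (mK D 0 x (coef (cf g) 0)))
  rw [cf_add, Op_add_right le_rfl D.he.toIsSym (cf_contDiff hf) (cf_tsupport hfs) (cf_contDiff hg)
    (cf_tsupport hgs), Pi.add_apply, map_add,
    coef_add (cf_contDiff hf).continuous (cf_tsupport hfs) (cf_contDiff hg).continuous
      (cf_tsupport hgs), map_add, map_add]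
  abel

theorem Qop_smul (D : Dat J U V) (c : ℝ) (f : E4 → Bil) : Qop D (c • f) = c • Qop D f := by
  funext x
  change re1 (Op 0 D.p (cf (c • f)) x) = c • re1 (Op 0 D.p (cf f) x)
  rw [cf_smul, Op_smulR, Pi.smul_apply, map_smul]

theorem Kop_smul (D : Dat J U V) (c : ℝ) (f : E4 → Bil) : Kop D (c • f) = c • Kop D f := by
  funext x
  change re2 (Op 0 D.e (cf (c • f)) x) + re2 (mK D 0 x (coef (cf (c • f)) 0))
    = c • (re2 (Op 0 D.e (cf f) x) + re2 (mK D 0 x (coef (cf f) 0)))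
  rw [cf_smul, Op_smulR, Pi.smul_apply, map_smul, coef_smulR, map_smul, map_smul, smul_add]

/-! ### bounds -/

theorem Qop_bd (D : Dat J U V) : ∃ C : ℝ, ∀ (f : E4 → Bil) (B : ℝ), ContDiff ℝ ∞ f →
    tsupport f ⊆ cube → CkB 5 f B → CkB 1 (Qop D f) (C * B) := by
  obtain ⟨C, hC0, hC⟩ := Op_bd D.hp.toIsSym (j := 1) (k := 5) (by norm_num)
  refine ⟨‖re1‖ * (C * ‖toC2‖), fun f B hf hs hB => ?_⟩
  have h1 : CkB 5 (cf f) (‖toC2‖ * B) := CkB_clm toC2 hf hB
  have h2 := hC 0 le_rfl (cf f) _ (cf_contDiff hf) (cf_tsupport hs) h1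
  have h3 := CkB_clm re1 (Op_contDiff le_rfl D.hp.toIsSym (cf_contDiff hf) (cf_tsupport hs)) h2
  have e : ‖re1‖ * (C * ‖toC2‖) * B = ‖re1‖ * (C * (‖toC2‖ * B)) := by ring
  rw [e]
  exact h3

theorem high_bd (D : Dat J U V) (k : ℕ) : ∃ C : ℝ, 0 ≤ C ∧ ∀ (A : ℝ), 0 ≤ A →
    ∀ (f : E4 → Bil) (B : ℝ), ContDiff ℝ ∞ f →
    tsupport f ⊆ cube → CkB k f B →
      CkB k (fun x => re2 (Op A D.e (cf f) x)) (C * B / (1 + A)) := by
  obtain ⟨C, hC0, hC⟩ := Op_small D.he.toIsSym (j := k) (k := k) (by omega)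
  refine ⟨‖re2‖ * (C * ‖toC2‖), by positivity, fun A hA f B hf hs hB => ?_⟩
  have h1 : CkB k (cf f) (‖toC2‖ * B) := CkB_clm toC2 hf hB
  have h2 := hC A hA (cf f) _ (cf_contDiff hf) (cf_tsupport hs) h1
  have h3 := CkB_clm re2 (Op_contDiff hA D.he.toIsSym (cf_contDiff hf) (cf_tsupport hs)) h2
  have e : ‖re2‖ * (C * ‖toC2‖) * B / (1 + A) = ‖re2‖ * (C * (‖toC2‖ * B) / (1 + A)) := by ring
  rw [e]
  exact h3

theorem coef_bd {f : E4 → Bil} (hs : tsupport f ⊆ cube) {B : ℝ} (hB : CkB 0 f B)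
    (n : Z4) : ‖coef (cf f) n‖ ≤ volume.real cube * (‖toC2‖ * B) := by
  apply norm_coef_le (cf_tsupport hs)
  intro x
  have h0 : ‖f x‖ ≤ B := by
    have := hB 0 le_rfl x
    rwa [norm_iteratedFDeriv_zero] at this
  exact (toC2.le_opNorm (f x)).trans (mul_le_mul_of_nonneg_left h0 (norm_nonneg _))

theorem low_bd (D : Dat J U V) (hJ : ContDiff ℝ ∞ J) (k : ℕ) (n : Z4) : ∃ C : ℝ, 0 ≤ C ∧
    ∀ (w : C2), CkB k (fun x => re2 (mK D n x w)) (C * ‖w‖) := by
  have hcs : Ell.CS (mK D n) := ⟨contDiff_mK D hJ n,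
    HasCompactSupport.intro D.hK (fun x hx => mK_zero_off D n hx)⟩
  obtain ⟨B, hB0, hB⟩ := hcs.exists_ckB k
  refine ⟨‖re2‖ * B, by positivity, fun w => ?_⟩
  have h1 := CkB_clm (re2.comp (ContinuousLinearMap.apply ℝ C2 w)) (contDiff_mK D hJ n)
    (k := k) (B := B) hB
  have h2 : CkB k (fun x => re2 (mK D n x w))
      (‖re2.comp (ContinuousLinearMap.apply ℝ C2 w)‖ * B) := h1
  refine Ell.CkB.mono h2 ?_
  have h3 : ‖re2.comp (ContinuousLinearMap.apply ℝ C2 w : (C2 →L[ℝ] C2) →L[ℝ] C2)‖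
      ≤ ‖re2‖ * ‖w‖ := by
    refine (ContinuousLinearMap.opNorm_comp_le _ _).trans ?_
    refine mul_le_mul_of_nonneg_left ?_ (norm_nonneg _)
    refine ContinuousLinearMap.opNorm_le_bound _ (norm_nonneg _) fun T => ?_
    rw [mul_comm]
    exact T.le_opNorm w
  calc _ ≤ (‖re2‖ * ‖w‖) * B := by gcongr
    _ = ‖re2‖ * B * ‖w‖ := by ring

theorem CkB_finsum {ι F : Type*} [NormedAddCommGroup F] [NormedSpace ℝ F] (s : Finset ι) {k : ℕ}
    {f : ι → E4 → F} {B : ι → ℝ}
    (hf : ∀ i ∈ s, ContDiff ℝ ∞ (f i)) (h : ∀ i ∈ s, CkB k (f i) (B i)) :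
    CkB k (fun x => ∑ i ∈ s, f i x) (∑ i ∈ s, B i) := by
  classical
  induction s using Finset.induction_on with
  | empty =>
    intro j _ x
    simp only [Finset.sum_empty]
    have := iteratedFDeriv_fun_zero (𝕜 := ℝ) (E := E4) (F := F) (n := j)
    rw [this]
    simp
  | insert a s ha ih =>
    simp only [Finset.sum_insert ha]
    exact Ell.CkB.add (hf a (by simp)) (ContDiff.sum fun i hi => hf i (by simp [hi]))
      (h a (by simp)) (ih (fun i hi => hf i (by simp [hi])) (fun i hi => h i (by simp [hi])))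

theorem contDiff_lowterm (D : Dat J U V) (hJ : ContDiff ℝ ∞ J) (n : Z4) (w : C2) :
    ContDiff ℝ ∞ (fun x => re2 (mK D n x w)) :=
  re2.contDiff.comp ((contDiff_mK D hJ n).clm_apply contDiff_const)

theorem Kop_tame (D : Dat J U V) (hJ : ContDiff ℝ ∞ J) (k : ℕ) (θ : ℝ) (hθ : 0 < θ) :
    ∃ C : ℝ, ∀ (f : E4 → Bil) (A B : ℝ), ContDiff ℝ ∞ f → tsupport f ⊆ cube → CkB k f A →
      CkB 0 f B → CkB k (Kop D f) (θ * A + C * B) := by
  obtain ⟨C1, hC10, hC1⟩ := high_bd D k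
  set R : ℝ := C1 / θ with hR
  have hR0 : 0 ≤ R := by positivity
  choose c hc0 hc using fun n => low_bd D hJ k n
  refine ⟨∑ n ∈ lowSet R, c n * (volume.real cube * ‖toC2‖), fun f A B hf hs hA hB => ?_⟩
  have hB0 : 0 ≤ B := Ell.CkB.nonneg hB
  have hA0 : 0 ≤ A := Ell.CkB.nonneg hA
  have h1 := hC1 R hR0 f A hf hs hA
  have h1' : CkB k (fun x => re2 (Op R D.e (cf f) x)) (θ * A) := by
    refine Ell.CkB.mono h1 ?_
    rw [div_le_iff₀ (by positivity)]
    have : θ * R = C1 := by rw [hR]; field_simp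
    nlinarith
  have h2 : CkB k (fun x => ∑ n ∈ lowSet R, re2 (mK D n x (coef (cf f) n)))
      (∑ n ∈ lowSet R, c n * (volume.real cube * (‖toC2‖ * B))) := by
    refine CkB_finsum _ (fun n _ => contDiff_lowterm D hJ n _) (fun n _ => ?_)
    exact Ell.CkB.mono (hc n (coef (cf f) n))
      (mul_le_mul_of_nonneg_left (coef_bd hs hB n) (hc0 n))
  have h3 := Ell.CkB.add
    (re2.contDiff.comp (Op_contDiff hR0 D.he.toIsSym (cf_contDiff hf) (cf_tsupport hs)))
    (ContDiff.sum fun n _ => contDiff_lowterm D hJ n _) h1' h2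
  have h4 : Kop D f = (fun x => re2 (Op R D.e (cf f) x))
      + (fun x => ∑ n ∈ lowSet R, re2 (mK D n x (coef (cf f) n))) := by
    funext x
    exact Kop_split D hf hs hR0 x
  rw [h4]
  refine Ell.CkB.mono h3 ?_
  rw [Finset.sum_mul]
  refine add_le_add le_rfl (le_of_eq (Finset.sum_congr rfl fun n _ => by ring))

/-! ### finite rank approximation -/

theorem Kop_fin (D : Dat J U V) (hJ : ContDiff ℝ ∞ J) (hJ2 : ∀ x ∈ V, ∀ v, J x (J x v) = -v)
    (hVc : V ⊆ cube) (hUV : closure U ⊆ V) (θ : ℝ) (hθ : 0 < θ) :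
    ∃ (n : ℕ) (φ : Fin n → E4 → Bil) (l : Fin n → (E4 → Bil) → ℝ) (C : ℝ),
        (∀ j, Ell.Test J V (φ j)) ∧
        (∀ j f g, Ell.Test J U f → Ell.Test J U g → l j (f + g) = l j f + l j g) ∧
        (∀ j (c : ℝ) f, Ell.Test J U f → l j (c • f) = c * l j f) ∧
        (∀ j f B, Ell.Test J U f → Ell.CkB 0 f B → |l j f| ≤ C * B) ∧
        (∀ f B, Ell.Test J U f → Ell.CkB 0 f B →
          Ell.CkB 0 (fun x => Kop D f x - ∑ j, l j f • φ j x) (θ * B)) := by
  classical
  have hsup : ∀ f, Ell.Test J U f → tsupport f ⊆ cube := fun f hf =>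
    hf.supp.trans ((subset_closure.trans hUV).trans hVc)
  obtain ⟨C1, hC10, hC1⟩ := high_bd D 0
  set R : ℝ := C1 / θ with hR
  have hR0 : 0 ≤ R := by positivity
  let b := Module.finBasis ℝ C2
  let d := Module.finrank ℝ C2
  let ι := {n // n ∈ lowSet R} × Fin d
  let e : ι ≃ Fin (Fintype.card ι) := Fintype.equivFin ι
  let φ' : ι → E4 → Bil := fun i x => re2 (mK D i.1.1 x (b i.2))
  let l' : ι → (E4 → Bil) → ℝ := fun i f => b.repr (coef (cf f) i.1.1) i.2
  let L : Fin d → (C2 →L[ℝ] ℝ) := fun i => LinearMap.toContinuousLinearMap (b.coord i)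
  let M : ℝ := ∑ i, ‖L i‖
  refine ⟨Fintype.card ι, fun j => φ' (e.symm j), fun j => l' (e.symm j),
    M * (volume.real cube * ‖toC2‖), ?_, ?_, ?_, ?_, ?_⟩
  · intro j
    exact test_of_antiC D ((contDiff_mK D hJ _).clm_apply contDiff_const)
      (fun x hx => by rw [mK_zero_off D _ hx]; rfl)
      (fun x => antiC_mK D hJ2 _ x _)
  · intro j f g hf hg
    simp only [l']
    rw [cf_add, coef_add (cf_contDiff hf.smooth).continuous (cf_tsupport (hsup f hf))
      (cf_contDiff hg.smooth).continuous (cf_tsupport (hsup g hg)), map_add]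
    rfl
  · intro j c f hf
    simp only [l']
    rw [cf_smul, coef_smulR, map_smul]
    rfl
  · intro j f B hf hB
    have hB0 : 0 ≤ B := Ell.CkB.nonneg hB
    have h1 : l' (e.symm j) f = L (e.symm j).2 (coef (cf f) (e.symm j).1.1) := rfl
    have h2 : ‖L (e.symm j).2‖ ≤ M :=
      Finset.single_le_sum (f := fun i => ‖L i‖) (fun _ _ => norm_nonneg _) (Finset.mem_univ _)
    have h3 := (L (e.symm j).2).le_opNorm (coef (cf f) (e.symm j).1.1)
    have h4 := coef_bd (hsup f hf) hB (e.symm j).1.1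
    have hv : 0 ≤ volume.real cube := measureReal_nonneg
    change |l' (e.symm j) f| ≤ _
    rw [h1, ← Real.norm_eq_abs]
    calc _ ≤ ‖L (e.symm j).2‖ * ‖coef (cf f) (e.symm j).1.1‖ := h3
      _ ≤ M * (volume.real cube * (‖toC2‖ * B)) := by gcongr
      _ = M * (volume.real cube * ‖toC2‖) * B := by ring
  · intro f B hf hB
    have hB0 : 0 ≤ B := Ell.CkB.nonneg hB
    have h1 := hC1 R hR0 f B hf.smooth (hsup f hf) hB
    have e1 : (fun x => Kop D f x - ∑ j, l' (e.symm j) f • φ' (e.symm j) x)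
        = fun x => re2 (Op R D.e (cf f) x) := by
      funext x
      rw [Kop_split D hf.smooth (hsup f hf) hR0 x, e.symm.sum_comp (fun i => l' i f • φ' i x)]
      have h2 : ∑ i : ι, l' i f • φ' i x
          = ∑ n ∈ lowSet R, re2 (mK D n x (coef (cf f) n)) := by
        rw [Fintype.sum_prod_type]
        rw [← Finset.sum_coe_sort (lowSet R) (fun n => re2 (mK D n x (coef (cf f) n)))]
        refine Finset.sum_congr rfl fun n _ => ?_
        have h3 : coef (cf f) n.1 = ∑ i, b.repr (coef (cf f) n.1) i • b i := (b.sum_repr _).symm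
        have h4 : re2 (mK D n.1 x (coef (cf f) n.1))
            = re2 (mK D n.1 x (∑ i, b.repr (coef (cf f) n.1) i • b i)) := by rw [← h3]
        rw [h4, map_sum, map_sum]
        refine Finset.sum_congr rfl fun i _ => ?_
        rw [map_smul, map_smul]
      rw [h2]
      abel
    rw [e1]
    refine Ell.CkB.mono h1 ?_
    rw [div_le_iff₀ (by positivity)]
    have : θ * R = C1 := by rw [hR]; field_simp
    nlinarith

theorem localThmCube (hS : SymbolThm) : Ell.LocalThmCube := by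
  intro J hJ U V hU hV hVc hUV hJ2
  have hVb : Bornology.IsBounded V := cube_bounded.subset hVc
  obtain ⟨D⟩ := exists_dat hS J hJ U V hV hVb hUV hJ2
  have hsup : ∀ f, Ell.Test J U f → tsupport f ⊆ cube := fun f hf =>
    hf.supp.trans ((subset_closure.trans hUV).trans hVc)
  refine ⟨Qop D, Kop D, ?_, ?_, ?_, ?_, ?_, ?_, ?_⟩
  · intro f g hf hg
    exact ⟨Qop_add D hf.smooth (hsup f hf) hg.smooth (hsup g hg),
      Kop_add D hf.smooth (hsup f hf) hg.smooth (hsup g hg)⟩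
  · intro c f _
    exact ⟨Qop_smul D c f, Kop_smul D c f⟩
  · intro f hf
    refine ⟨?_, ?_, test_Kop D hJ hJ2 hf.smooth (hsup f hf)⟩
    · exact re1.contDiff.comp
        (Op_contDiff le_rfl D.hp.toIsSym (cf_contDiff hf.smooth) (cf_tsupport (hsup f hf)))
    · refine (tsupport_subset_of_zero_off D.hK fun x hx => ?_).trans D.hKV
      change re1 (Op 0 D.p (cf f) x) = 0
      rw [Op_zero_off D.hp 0 _ hx, map_zero]
  · intro f hf x
    exact identity D hVc hf (hsup f hf) x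
  · obtain ⟨C, hC⟩ := Qop_bd D
    exact ⟨5, C, fun f B hf hB => hC f B hf.smooth (hsup f hf) hB⟩
  · intro k θ hθ
    obtain ⟨C, hC⟩ := Kop_tame D hJ k θ hθ
    exact ⟨C, fun f A B hf hA hB => hC f A B hf.smooth (hsup f hf) hA hB⟩
  · intro θ hθ
    exact Kop_fin D hJ hJ2 hVc hUV θ hθ

theorem localThm_of_symbol (hS : SymbolThm) : Ell.LocalThm :=
  Ell.localThm_of_cube (localThmCube hS)

end

end Crest.Agent.R240.FA
end

-- ▼ part R240/A/SB
section

/-!
# Symbol bounds for weakly singular kernels (row 240, kernel calculus)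
-/

namespace Crest.Agent.R240.Wk

open MeasureTheory Set Filter Topology Metric
open scoped ContDiff

section Partial

variable {E Z V : Type*} [NormedAddCommGroup E] [NormedSpace ℝ E] [NormedAddCommGroup Z]
  [NormedSpace ℝ Z] [NormedAddCommGroup V] [NormedSpace ℝ V]

/-- Partial iterated derivatives in the first variable are restrictions of the full ones. -/
theorem iteratedFDeriv_partial {n : ℕ∞ω} {h : E × Z → V} {U : Set Z} (hU : IsOpen U)
    (hh : ContDiffOn ℝ n h (univ ×ˢ U)) {j : ℕ} (hj : (j : ℕ∞ω) ≤ n) {x : E} {z : Z}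
    (hz : z ∈ U) :
    iteratedFDeriv ℝ j (fun x => h (x, z)) x =
      (iteratedFDeriv ℝ j h (x, z)).compContinuousLinearMap
        (fun _ => ContinuousLinearMap.inl ℝ E Z) := by
  set s' : Set (E × Z) := {p | p + ((0 : E), z) ∈ (univ ×ˢ U : Set (E × Z))} with hs'
  have hopen : IsOpen (univ ×ˢ U : Set (E × Z)) := isOpen_univ.prod hU
  have hs'o : IsOpen s' := hopen.preimage (continuous_id.add continuous_const)
  have h1 : ContDiffOn ℝ n (fun p : E × Z => h (p + ((0 : E), z))) s' := by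
    refine hh.comp (contDiff_id.add contDiff_const).contDiffOn ?_
    intro p hp
    exact hp
  have hpre : (ContinuousLinearMap.inl ℝ E Z) ⁻¹' s' = univ := by
    ext y
    simp [hs', hz]
  have key := (ContinuousLinearMap.inl ℝ E Z).iteratedFDerivWithin_comp_right (i := j) h1
    hs'o.uniqueDiffOn (by rw [hpre]; exact uniqueDiffOn_univ) (x := x)
    (by simp [hs', hz]) hj
  rw [hpre, iteratedFDerivWithin_univ] at key
  have e1 : ((fun p : E × Z => h (p + ((0 : E), z))) ∘ (ContinuousLinearMap.inl ℝ E Z)) =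
      fun x => h (x, z) := by
    funext y
    simp
  rw [e1] at key
  rw [key, iteratedFDerivWithin_of_isOpen j hs'o (by simp [hs', hz]),
    iteratedFDeriv_comp_add_right]
  simp

theorem contDiffOn_iteratedFDeriv_partial {n : ℕ∞ω} {h : E × Z → V} {U : Set Z} (hU : IsOpen U)
    (hh : ContDiffOn ℝ n h (univ ×ˢ U)) {j : ℕ} {m : ℕ∞ω} (hj : m + j ≤ n) :
    ContDiffOn ℝ m (fun p : E × Z => iteratedFDeriv ℝ j (fun x => h (x, p.2)) p.1)
      (univ ×ˢ U) := by
  have hopen : IsOpen (univ ×ˢ U : Set (E × Z)) := isOpen_univ.prod hU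
  have h1 : ContDiffOn ℝ m (iteratedFDeriv ℝ j h) (univ ×ˢ U) := by
    intro p hp
    exact ((hh.contDiffAt (hopen.mem_nhds hp)).iteratedFDeriv_right hj).contDiffWithinAt
  have h2 : ContDiffOn ℝ m (fun p : E × Z => (iteratedFDeriv ℝ j h p).compContinuousLinearMap
        (fun _ => ContinuousLinearMap.inl ℝ E Z)) (univ ×ˢ U) := by
    exact (ContinuousMultilinearMap.compContinuousLinearMapL (𝕜 := ℝ) (F := V)
      (fun _ : Fin j => ContinuousLinearMap.inl ℝ E Z)).contDiff.comp_contDiffOn h1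
  refine h2.congr ?_
  rintro ⟨x, z⟩ hp
  exact iteratedFDeriv_partial hU hh (le_trans le_add_self hj) hp.2

theorem contDiff_left {n : ℕ∞ω} {h : E × Z → V} {U : Set Z}
    (hh : ContDiffOn ℝ n h (univ ×ˢ U)) {z : Z} (hz : z ∈ U) :
    ContDiff ℝ n (fun x => h (x, z)) := by
  rw [← contDiffOn_univ]
  refine hh.comp (contDiff_id.prodMk contDiff_const).contDiffOn ?_
  intro x _
  exact ⟨mem_univ _, hz⟩

end Partial

section SB

variable {E V W X : Type*} [NormedAddCommGroup E] [NormedSpace ℝ E]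
  [NormedAddCommGroup V] [NormedSpace ℝ V] [NormedAddCommGroup W] [NormedSpace ℝ W]
  [NormedAddCommGroup X] [NormedSpace ℝ X]

/-- `k` is smooth off `z = 0` and `‖D_x^j k(x,z)‖ ≤ C ‖z‖^{-m}` locally uniformly. -/
structure SB (m : ℕ) (k : E → E → V) : Prop where
  smooth : ContDiffOn ℝ ∞ (fun p : E × E => k p.1 p.2) (univ ×ˢ {0}ᶜ)
  bound : ∀ (R : ℝ) (j : ℕ), ∃ C : ℝ, ∀ x z, ‖x‖ ≤ R → z ≠ 0 → ‖z‖ ≤ R →
    ‖iteratedFDeriv ℝ j (fun x => k x z) x‖ * ‖z‖ ^ m ≤ C

omit [NormedSpace ℝ E] in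
theorem isOpen_compl0 : IsOpen ({0}ᶜ : Set E) := isOpen_compl_singleton

theorem SB.left {m : ℕ} {k : E → E → V} (hk : SB m k) {z : E} (hz : z ≠ 0) :
    ContDiff ℝ ∞ (fun x => k x z) :=
  contDiff_left (h := fun p : E × E => k p.1 p.2) hk.smooth hz

theorem SB.bound' {m : ℕ} {k : E → E → V} (hk : SB m k) (R : ℝ) (n : ℕ) :
    ∃ C : ℝ, 0 ≤ C ∧ ∀ j ≤ n, ∀ x z, ‖x‖ ≤ R → z ≠ 0 → ‖z‖ ≤ R →
      ‖iteratedFDeriv ℝ j (fun x => k x z) x‖ * ‖z‖ ^ m ≤ C := by
  choose C hC using hk.bound R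
  refine ⟨∑ i ∈ Finset.range (n + 1), |C i|, Finset.sum_nonneg fun _ _ => abs_nonneg _, ?_⟩
  intro j hj x z hx hz hz2
  refine (hC j x z hx hz hz2).trans ((le_abs_self _).trans ?_)
  exact Finset.single_le_sum (f := fun i => |C i|) (fun i _ => abs_nonneg _)
    (Finset.mem_range.2 (Nat.lt_succ_of_le hj))

theorem SB.clm {m : ℕ} {k : E → E → V} (hk : SB m k) (L : V →L[ℝ] W) :
    SB m (fun x z => L (k x z)) := by
  refine ⟨L.contDiff.comp_contDiffOn hk.smooth, ?_⟩
  intro R j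
  obtain ⟨C, hC⟩ := hk.bound R j
  refine ⟨‖L‖ * C, ?_⟩
  intro x z hx hz hz2
  have h1 : ‖iteratedFDeriv ℝ j (fun x => L (k x z)) x‖ ≤
      ‖L‖ * ‖iteratedFDeriv ℝ j (fun x => k x z) x‖ := by
    exact L.norm_iteratedFDeriv_comp_left (hk.left hz).contDiffAt
      (by exact_mod_cast le_top)
  calc ‖iteratedFDeriv ℝ j (fun x => L (k x z)) x‖ * ‖z‖ ^ m
      ≤ ‖L‖ * ‖iteratedFDeriv ℝ j (fun x => k x z) x‖ * ‖z‖ ^ m := by gcongr
    _ = ‖L‖ * (‖iteratedFDeriv ℝ j (fun x => k x z) x‖ * ‖z‖ ^ m) := by ring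
    _ ≤ ‖L‖ * C := by gcongr; exact hC x z hx hz hz2

theorem SB.congr {m : ℕ} {k k' : E → E → V} (hk : SB m k)
    (h : ∀ x z, z ≠ 0 → k' x z = k x z) : SB m k' := by
  refine ⟨hk.smooth.congr ?_, ?_⟩
  · rintro ⟨x, z⟩ hp
    exact h x z hp.2
  · intro R j
    obtain ⟨C, hC⟩ := hk.bound R j
    refine ⟨C, ?_⟩
    intro x z hx hz hz2
    have : (fun x => k' x z) = fun x => k x z := funext fun x => h x z hz
    rw [this]
    exact hC x z hx hz hz2

theorem SB.add {m : ℕ} {k l : E → E → V} (hk : SB m k) (hl : SB m l) :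
    SB m (fun x z => k x z + l x z) := by
  refine ⟨hk.smooth.add hl.smooth, ?_⟩
  intro R j
  obtain ⟨C, hC⟩ := hk.bound R j
  obtain ⟨D, hD⟩ := hl.bound R j
  refine ⟨C + D, ?_⟩
  intro x z hx hz hz2
  have h1 : iteratedFDeriv ℝ j (fun x => k x z + l x z) x =
      iteratedFDeriv ℝ j (fun x => k x z) x + iteratedFDeriv ℝ j (fun x => l x z) x :=
    iteratedFDeriv_add_apply ((hk.left hz).of_le (by exact_mod_cast le_top)).contDiffAt
      ((hl.left hz).of_le (by exact_mod_cast le_top)).contDiffAt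
  rw [h1]
  calc _ ≤ (‖iteratedFDeriv ℝ j (fun x => k x z) x‖ + ‖iteratedFDeriv ℝ j (fun x => l x z) x‖)
        * ‖z‖ ^ m := by gcongr; exact norm_add_le _ _
    _ = ‖iteratedFDeriv ℝ j (fun x => k x z) x‖ * ‖z‖ ^ m +
        ‖iteratedFDeriv ℝ j (fun x => l x z) x‖ * ‖z‖ ^ m := by ring
    _ ≤ C + D := add_le_add (hC x z hx hz hz2) (hD x z hx hz hz2)

theorem SB.zero {m : ℕ} : SB m (fun (_ _ : E) => (0 : V)) := by
  refine ⟨contDiffOn_const, ?_⟩
  intro R j
  refine ⟨0, ?_⟩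
  intro x z hx hz hz2
  have : iteratedFDeriv ℝ j (fun _ : E => (0 : V)) x = 0 := by
    rw [show (fun _ : E => (0 : V)) = 0 from rfl]
    simp
  rw [this]
  simp

theorem SB.neg {m : ℕ} {k : E → E → V} (hk : SB m k) : SB m (fun x z => -k x z) := by
  have := hk.clm (-ContinuousLinearMap.id ℝ V)
  exact this

theorem SB.sub {m : ℕ} {k l : E → E → V} (hk : SB m k) (hl : SB m l) :
    SB m (fun x z => k x z - l x z) := by
  simpa [sub_eq_add_neg] using hk.add hl.neg

theorem SB.const_smul {m : ℕ} {k : E → E → V} (hk : SB m k) (c : ℝ) :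
    SB m (fun x z => c • k x z) := by
  have := hk.clm (c • ContinuousLinearMap.id ℝ V)
  exact this

theorem SB.sum {ι : Type*} {m : ℕ} {s : Finset ι} {k : ι → E → E → V}
    (hk : ∀ i ∈ s, SB m (k i)) : SB m (fun x z => ∑ i ∈ s, k i x z) := by
  classical
  induction s using Finset.induction_on with
  | empty => simpa using (SB.zero (E := E) (V := V) (m := m))
  | insert a s ha ih =>
    have h1 := (hk a (Finset.mem_insert_self _ _)).add
      (ih fun i hi => hk i (Finset.mem_insert_of_mem hi))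
    refine h1.congr ?_
    intro x z _
    rw [Finset.sum_insert ha]


/-- The substitution `k x z ↦ k (x - z) z` (freezing at the input point). -/
theorem SB.shift {m : ℕ} {k : E → E → V} (hk : SB m k) : SB m (fun x z => k (x - z) z) := by
  refine ⟨?_, ?_⟩
  · have h1 : ContDiff ℝ ∞ (fun p : E × E => (p.1 - p.2, p.2)) :=
      (contDiff_fst.sub contDiff_snd).prodMk contDiff_snd
    refine hk.smooth.comp h1.contDiffOn ?_
    rintro ⟨x, z⟩ hp
    exact ⟨mem_univ _, hp.2⟩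
  · intro R j
    obtain ⟨C, hC⟩ := hk.bound (2 * R) j
    refine ⟨C, ?_⟩
    intro x z hx hz hz2
    have h1 : iteratedFDeriv ℝ j (fun x => k (x - z) z) x =
        iteratedFDeriv ℝ j (fun x => k x z) (x - z) :=
      iteratedFDeriv_comp_sub (f := fun x => k x z) j z x
    rw [h1]
    have hR : 0 ≤ R := (norm_nonneg _).trans hx
    refine hC (x - z) z ?_ hz (by linarith)
    calc ‖x - z‖ ≤ ‖x‖ + ‖z‖ := norm_sub_le _ _
      _ ≤ 2 * R := by linarith

theorem SB.mono {m n : ℕ} {k : E → E → V} (hk : SB m k) (hmn : m ≤ n) : SB n k := by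
  refine ⟨hk.smooth, ?_⟩
  intro R j
  obtain ⟨C, hC0, hC⟩ := hk.bound' R j
  refine ⟨C * |R| ^ (n - m), ?_⟩
  intro x z hx hz hz2
  obtain ⟨d, rfl⟩ := Nat.exists_eq_add_of_le hmn
  rw [pow_add, ← mul_assoc, Nat.add_sub_cancel_left]
  have h2 : ‖z‖ ≤ |R| := hz2.trans (le_abs_self _)
  have := hC j le_rfl x z hx hz hz2
  gcongr

/-- Derivative in `x`. -/
theorem SB.dx {m : ℕ} {k : E → E → V} (hk : SB m k) :
    SB m (fun x z => fderiv ℝ (fun x => k x z) x) := by
  have hopen : IsOpen (univ ×ˢ ({0}ᶜ : Set E) : Set (E × E)) := isOpen_univ.prod isOpen_compl0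
  refine ⟨?_, ?_⟩
  · have h1 : ContDiffOn ℝ ∞ (fderiv ℝ (fun p : E × E => k p.1 p.2)) (univ ×ˢ {0}ᶜ) :=
      hk.smooth.fderiv_of_isOpen hopen (by simp)
    have h2 : ContDiffOn ℝ ∞ (fun p : E × E => (fderiv ℝ (fun p : E × E => k p.1 p.2) p).comp
        (ContinuousLinearMap.inl ℝ E E)) (univ ×ˢ {0}ᶜ) :=
      ((ContinuousLinearMap.compL ℝ E (E × E) V).flip
        (ContinuousLinearMap.inl ℝ E E)).contDiff.comp_contDiffOn h1
    refine h2.congr ?_
    rintro ⟨x, z⟩ hp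
    have h3 : HasFDerivAt (fun p : E × E => k p.1 p.2)
        (fderiv ℝ (fun p : E × E => k p.1 p.2) (x, z)) (x, z) := by
      refine DifferentiableAt.hasFDerivAt ?_
      exact (hk.smooth.contDiffAt (hopen.mem_nhds hp)).differentiableAt (by simp)
    have h4 : HasFDerivAt (fun x : E => ((x, z) : E × E)) (ContinuousLinearMap.inl ℝ E E) x := by
      have := (hasFDerivAt_id (𝕜 := ℝ) x).prodMk (hasFDerivAt_const z x)
      exact this
    have h5 := h3.comp x h4
    exact h5.fderiv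
  · intro R j
    obtain ⟨C, hC⟩ := hk.bound R (j + 1)
    refine ⟨C, ?_⟩
    intro x z hx hz hz2
    have h1 : ‖iteratedFDeriv ℝ j (fun x => fderiv ℝ (fun x => k x z) x) x‖ =
        ‖iteratedFDeriv ℝ (j + 1) (fun x => k x z) x‖ := norm_iteratedFDeriv_fderiv
    rw [h1]
    exact hC x z hx hz hz2

end SB

section Compact

variable {E V W X : Type*} [NormedAddCommGroup E] [NormedSpace ℝ E] [FiniteDimensional ℝ E]
  [NormedAddCommGroup V] [NormedSpace ℝ V] [NormedAddCommGroup W] [NormedSpace ℝ W]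
  [NormedAddCommGroup X] [NormedSpace ℝ X]



/-- Kernels smooth off `z = 0` and homogeneous of degree `-m` in `z`. -/
theorem SB.of_homog {m : ℕ} {k : E → E → V}
    (hk : ContDiffOn ℝ ∞ (fun p : E × E => k p.1 p.2) (univ ×ˢ {0}ᶜ))
    (hh : ∀ x z, z ≠ 0 → ∀ t : ℝ, 0 < t → k x (t • z) = (t ^ m)⁻¹ • k x z) : SB m k := by
  have : ProperSpace E := FiniteDimensional.proper ℝ E
  refine ⟨hk, ?_⟩
  intro R j
  have h1 : ContDiffOn ℝ ∞ (fun p : E × E => iteratedFDeriv ℝ j (fun x => k x p.2) p.1)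
      (univ ×ˢ {0}ᶜ) :=
    contDiffOn_iteratedFDeriv_partial (h := fun p : E × E => k p.1 p.2) isOpen_compl0
      hk (by exact_mod_cast le_top)
  have h2 : ContinuousOn (fun p : E × E => iteratedFDeriv ℝ j (fun x => k x p.2) p.1)
      (closedBall 0 R ×ˢ sphere 0 1) := by
    refine h1.continuousOn.mono ?_
    rintro ⟨x, z⟩ hp
    refine ⟨mem_univ _, ?_⟩
    intro h0
    have : ‖z‖ = 1 := by simpa using hp.2
    simp only [mem_singleton_iff] at h0
    simp [h0] at this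
  obtain ⟨C, hC⟩ := ((isCompact_closedBall (0 : E) R).prod
    (isCompact_sphere (0 : E) 1)).exists_bound_of_continuousOn h2
  refine ⟨C, ?_⟩
  intro x z hx hz hz2
  have hzn : 0 < ‖z‖ := norm_pos_iff.2 hz
  set u : E := ‖z‖⁻¹ • z with hu
  have hu1 : ‖u‖ = 1 := by
    rw [hu, norm_smul, norm_inv, norm_norm, inv_mul_cancel₀ hzn.ne']
  have hu0 : u ≠ 0 := by
    intro h0
    rw [h0] at hu1
    simp at hu1
  have hzu : z = ‖z‖ • u := by
    rw [hu, smul_smul, mul_inv_cancel₀ hzn.ne', one_smul]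
  have h3 : (fun x => k x z) = fun x => (‖z‖ ^ m)⁻¹ • k x u := by
    funext y
    conv_lhs => rw [hzu]
    exact hh y u hu0 ‖z‖ hzn
  have h4 : iteratedFDeriv ℝ j (fun x => k x z) x =
      (‖z‖ ^ m)⁻¹ • iteratedFDeriv ℝ j (fun x => k x u) x := by
    rw [h3]
    have hcd : ContDiff ℝ ∞ (fun x => k x u) :=
      contDiff_left (h := fun p : E × E => k p.1 p.2) hk hu0
    exact iteratedFDeriv_const_smul_apply
      (hcd.of_le (by exact_mod_cast le_top)).contDiffAt
  rw [h4, norm_smul, norm_inv, norm_pow, norm_norm]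
  have h5 := hC (x, u) ⟨by simpa using hx, by simpa using hu1⟩
  have h6 : (‖z‖ ^ m)⁻¹ * ‖iteratedFDeriv ℝ j (fun x => k x u) x‖ * ‖z‖ ^ m =
      ‖iteratedFDeriv ℝ j (fun x => k x u) x‖ := by
    field_simp
  rw [h6]
  exact h5

end Compact

end Crest.Agent.R240.Wk
end

-- ▼ part R240/FASym
section

/-!
Row 240, Lemma A, team F (helper446): homogeneous functions of degree `-r` give symbols of
order `-r`.
-/

set_option autoImplicit false
set_option maxSynthPendingDepth 3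

open Set
open scoped ContDiff

namespace Crest.Agent.R240.FA

noncomputable section

theorem nv_ne_zero {n : Z4} (h : n ≠ 0) : nv n ≠ 0 := by
  intro h4
  apply h
  funext i
  have := congrArg (fun v : E4 => v i) h4
  simpa using this

theorem one_le_norm_nv {n : Z4} (h : n ≠ 0) : 1 ≤ ‖nv n‖ := by
  obtain ⟨i, hi⟩ : ∃ i, n i ≠ 0 := by
    by_contra hc
    push Not at hc
    exact h (funext hc)
  have h1 : (1 : ℝ) ≤ |(n i : ℝ)| := by
    have : (1 : ℤ) ≤ |n i| := Int.one_le_abs hi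
    exact_mod_cast this
  exact h1.trans (abs_le_norm_nv n i)

theorem wt_le_two_mul {n : Z4} (h : n ≠ 0) : wt n ≤ 2 * ‖nv n‖ := by
  have := one_le_norm_nv h
  unfold wt; linarith

variable {F : Type*} [NormedAddCommGroup F] [NormedSpace ℝ F]

/-- `k x z` smooth for `z ≠ 0`, homogeneous of degree `-r` in `z`, zero for large `x`. -/
theorem isSym_of_homog {r : ℕ} {k : E4 → E4 → F}
    (hk : ContDiffOn ℝ ∞ (fun p : E4 × E4 => k p.1 p.2) (univ ×ˢ {0}ᶜ))
    (hh : ∀ x z, z ≠ 0 → ∀ t : ℝ, 0 < t → k x (t • z) = (t ^ r)⁻¹ • k x z)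
    {R : ℝ} (hR : ∀ x z, R ≤ ‖x‖ → k x z = 0) {p : Z4 → E4 → F}
    (hp : ∀ n, n ≠ 0 → ∀ x, p n x = k x (nv n)) (hp0 : ContDiff ℝ ∞ (p 0)) : IsSym r p where
  smooth n := by
    by_cases hn : n = 0
    · subst hn; exact hp0
    · have h1 := Wk.contDiff_left (h := fun p : E4 × E4 => k p.1 p.2) hk (nv_ne_zero hn)
      have h2 : p n = fun x => k x (nv n) := funext (hp n hn)
      rw [h2]; exact h1
  bd j := by
    have hSB := Wk.SB.of_homog hk hh
    obtain ⟨C, hC0, hC⟩ := hSB.bound' (max R 1) j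
    refine ⟨2 ^ r * C, fun n hn x => ?_⟩
    have h2 : p n = fun x => k x (nv n) := funext (hp n hn)
    rw [h2]
    have hw := wt_pos n
    by_cases hx : ‖x‖ ≤ max R 1
    · have hz := nv_ne_zero hn
      have hz0 : 0 < ‖nv n‖ := norm_pos_iff.2 hz
      set om : E4 := ‖nv n‖⁻¹ • nv n with hom
      have hom1 : ‖om‖ = 1 := by
        rw [hom, norm_smul, norm_inv, norm_norm, inv_mul_cancel₀ hz0.ne']
      have homne : om ≠ 0 := by
        intro h; rw [h, norm_zero] at hom1; exact zero_ne_one hom1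
      have h3 : (fun x => k x (nv n)) = fun x => (‖nv n‖ ^ r)⁻¹ • k x om := by
        funext y
        rw [← hh y om homne _ hz0, hom, smul_smul, mul_inv_cancel₀ hz0.ne', one_smul]
      have h4 := hC j le_rfl x om hx homne (by rw [hom1]; exact le_max_right _ _)
      rw [hom1, one_pow, mul_one] at h4
      have h5 : ContDiff ℝ ∞ (fun x => k x om) :=
        Wk.contDiff_left (h := fun p : E4 × E4 => k p.1 p.2) hk homne
      have h6 : iteratedFDeriv ℝ j (fun x => (‖nv n‖ ^ r)⁻¹ • k x om) x =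
          (‖nv n‖ ^ r)⁻¹ • iteratedFDeriv ℝ j (fun x => k x om) x := by
        have := iteratedFDeriv_const_smul_apply (𝕜 := ℝ) (a := (‖nv n‖ ^ r)⁻¹) (i := j)
          (f := fun x => k x om) (x := x)
          (h5.of_le (natCast_le_infty j)).contDiffAt
        exact this
      rw [h3, h6, norm_smul, Real.norm_of_nonneg (by positivity)]
      have h7 : (‖nv n‖ ^ r)⁻¹ ≤ 2 ^ r / wt n ^ r := by
        rw [inv_le_iff_one_le_mul₀ (by positivity), div_mul_eq_mul_div, le_div_iff₀ (by positivity),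
          one_mul, ← mul_pow]
        exact pow_le_pow_left₀ hw.le (wt_le_two_mul hn) r
      calc (‖nv n‖ ^ r)⁻¹ * ‖iteratedFDeriv ℝ j (fun x => k x om) x‖ ≤ 2 ^ r / wt n ^ r * C :=
            mul_le_mul h7 h4 (norm_nonneg _) (by positivity)
        _ = 2 ^ r * C / wt n ^ r := by ring
    · have h8 : R < ‖x‖ := lt_of_le_of_lt (le_max_left _ _) (not_le.1 hx)
      have h9 : (fun x => k x (nv n)) =ᶠ[nhds x] fun _ => 0 := by
        have : {y : E4 | R < ‖y‖} ∈ nhds x :=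
          (isOpen_lt continuous_const continuous_norm).mem_nhds h8
        filter_upwards [this] with y hy
        exact hR y _ (le_of_lt hy)
      have h10 : iteratedFDeriv ℝ j (fun x => k x (nv n)) x = 0 := by
        rw [(h9.iteratedFDeriv ℝ j).eq_of_nhds]
        rcases j with _ | j
        · ext; simp
        · rw [iteratedFDeriv_const_of_ne (by omega)]; rfl
      rw [h10, norm_zero]
      positivity

end

end Crest.Agent.R240.FA
end

-- ▼ part R240/FAAlg
section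

/-!
Row 240, Lemma A, team F: the symbol of the right parametrix.
-/

set_option autoImplicit false
set_option maxSynthPendingDepth 3

namespace Crest.Agent.R240.FA

open Crest.Agent.R240
open scoped ContDiff Manifold

noncomputable section

/-- the standard scalar product as an element of `Bil` -/
def g0 : Bil := ∑ i : Fin 4, (EuclideanSpace.proj i : E4 →L[ℝ] ℝ).smulRight
  (EuclideanSpace.proj i : E4 →L[ℝ] ℝ)

theorem g0_apply (u v : E4) : g0 u v = ∑ i : Fin 4, u i * v i := by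
  simp [g0]

theorem g0_eq_inner (u v : E4) : g0 u v = inner ℝ u v := by
  rw [g0_apply, PiLp.inner_apply]
  refine Finset.sum_congr rfl fun i _ => ?_
  simp [mul_comm]

theorem g0_self (u : E4) : g0 u u = ‖u‖ ^ 2 := by
  rw [g0_eq_inner, real_inner_self_eq_norm_sq]

/-- the hermitian metric -/
def GG (J : E4 →L[ℝ] E4) : Bil := g0 + pull J g0

theorem GG_apply (J : E4 →L[ℝ] E4) (u v : E4) : GG J u v = g0 u v + g0 (J u) (J v) := by
  simp [GG]

theorem GG_symm (J : E4 →L[ℝ] E4) (u v : E4) : GG J u v = GG J v u := by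
  rw [GG_apply, GG_apply, g0_apply, g0_apply, g0_apply, g0_apply]
  congr 1 <;> exact Finset.sum_congr rfl fun i _ => mul_comm _ _

theorem GG_inv {J : E4 →L[ℝ] E4} (hJ : ∀ v, J (J v) = -v) (u v : E4) :
    GG J (J u) (J v) = GG J u v := by
  rw [GG_apply, GG_apply, hJ, hJ]
  simp only [map_neg, neg_apply, neg_neg]
  ring

theorem GG_pos (J : E4 →L[ℝ] E4) {u : E4} (hu : u ≠ 0) : 0 < GG J u u := by
  rw [GG_apply, g0_self, g0_self]
  have : 0 < ‖u‖ := norm_pos_iff.mpr hu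
  positivity

theorem GG_inj (J : E4 →L[ℝ] E4) : Function.Injective (GG J) := by
  rw [injective_iff_map_eq_zero]
  intro u hu
  by_contra hne
  have := GG_pos J hne
  rw [hu] at this
  simp at this

/-- `GG J` as a continuous linear equivalence -/
def GE (J : E4 →L[ℝ] E4) : E4 ≃L[ℝ] (E4 →L[ℝ] ℝ) :=
  ((GG J : E4 →L[ℝ] (E4 →L[ℝ] ℝ)) : E4 →ₗ[ℝ] (E4 →L[ℝ] ℝ)).linearEquivOfInjective (GG_inj J) (by
    rw [finrank_euclideanSpace_fin]
    have e : (E4 →L[ℝ] ℝ) ≃ₗ[ℝ] (E4 →ₗ[ℝ] ℝ) := LinearMap.toContinuousLinearMap.symm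
    rw [e.finrank_eq, Module.finrank_linearMap_self, finrank_euclideanSpace_fin])
    |>.toContinuousLinearEquiv

theorem GE_coe (J : E4 →L[ℝ] E4) : ((GE J : E4 ≃L[ℝ] (E4 →L[ℝ] ℝ)) : E4 →L[ℝ] (E4 →L[ℝ] ℝ)) = GG J := by
  ext u v
  rfl

/-- the dual vector -/
def XX (J : E4 →L[ℝ] E4) (ξ : E4) : E4 := (ContinuousLinearMap.inverse (GG J)) (g0 ξ)

theorem GG_XX (J : E4 →L[ℝ] E4) (ξ v : E4) : GG J (XX J ξ) v = inner ℝ ξ v := by
  have h1 : XX J ξ = (GE J).symm (g0 ξ) := by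
    unfold XX
    rw [← GE_coe, ContinuousLinearMap.inverse_equiv]
    rfl
  have h2 : GG J (XX J ξ) = g0 ξ := by
    rw [h1]
    exact (GE J).apply_symm_apply (g0 ξ)
  rw [h2, g0_eq_inner]

theorem XX_smul (J : E4 →L[ℝ] E4) (t : ℝ) (ξ : E4) : XX J (t • ξ) = t • XX J ξ := by
  unfold XX
  rw [map_smul, map_smul]

theorem XX_pos (J : E4 →L[ℝ] E4) {ξ : E4} (hξ : ξ ≠ 0) : 0 < (inner ℝ ξ (XX J ξ) : ℝ) := by
  rw [← GG_XX]
  apply GG_pos
  intro h
  have h1 := GG_XX J ξ ξ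
  rw [h, map_zero, zero_apply, real_inner_self_eq_norm_sq] at h1
  exact hξ (norm_eq_zero.mp (pow_eq_zero_iff (two_ne_zero)|>.mp h1.symm))

theorem contDiff_GG {J : E4 → E4 →L[ℝ] E4} (hJ : ContDiff ℝ ∞ J) :
    ContDiff ℝ ∞ fun x => GG (J x) := by
  unfold GG pull
  fun_prop

theorem contDiff_inv {J : E4 → E4 →L[ℝ] E4} (hJ : ContDiff ℝ ∞ J) :
    ContDiff ℝ ∞ fun x => ContinuousLinearMap.inverse (GG (J x)) := by
  rw [contDiff_iff_contDiffAt]
  intro x
  have h1 : ContDiffAt ℝ ∞ (ContinuousLinearMap.inverse : (E4 →L[ℝ] (E4 →L[ℝ] ℝ)) → _)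
      (GG (J x)) := by
    rw [← GE_coe]
    exact contDiffAt_map_inverse (GE (J x))
  exact h1.comp x (contDiff_GG hJ).contDiffAt

theorem contDiff_XX {J : E4 → E4 →L[ℝ] E4} (hJ : ContDiff ℝ ∞ J) :
    ContDiff ℝ ∞ fun p : E4 × E4 => XX (J p.1) p.2 := by
  unfold XX
  exact ((contDiff_inv hJ).comp contDiff_fst).clm_apply (g0.contDiff.comp contDiff_snd)

/-! ### the identity -/

def im1 : C1 →L[ℝ] (E4 →L[ℝ] ℝ) := (ContinuousLinearMap.compL ℝ E4 ℂ ℝ) Complex.imCLM

def im2 : C2 →L[ℝ] Bil := (ContinuousLinearMap.compL ℝ E4 C1 (E4 →L[ℝ] ℝ)) im1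

@[simp] theorem im2_apply (b : C2) (u v : E4) : im2 b u v = (b u v).im := rfl

theorem key_real {J : E4 →L[ℝ] E4} (hJ : ∀ v, J (J v) = -v) {G R : Bil}
    (hGs : ∀ u v, G u v = G v u) (hGJ : ∀ u v, G (J u) (J v) = G u v)
    (hR : Alt R) (ha : ∀ u v, R (J u) (J v) = - R u v) (X a b : E4) :
    G X a * R X b - G X b * R X a - G X (J a) * R X (J b) + G X (J b) * R X (J a)
      = G X X * R a b := by
  have h := KLoc.antip_wed hJ hGs hGJ hR ha X
  have h1 : antip J (wed (G X) (R X)) a b = (1 / 2 * G X X) * R a b := by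
    rw [h]; rfl
  rw [antip_apply] at h1
  simp only [wed_apply] at h1
  linarith

theorem key_complex {J : E4 →L[ℝ] E4} (hJ : ∀ v, J (J v) = -v) {G : Bil}
    (hGs : ∀ u v, G u v = G v u) (hGJ : ∀ u v, G (J u) (J v) = G u v)
    {β : C2} (hβ : AntiC J β) (X a b : E4) :
    (G X a : ℂ) * β X b - G X b * β X a - G X (J a) * β X (J b) + G X (J b) * β X (J a)
      = G X X * β a b := by
  have h1 := key_real hJ hGs hGJ (alt_re2 hβ) (anti_re2 hβ) X a b
  have hA : Alt (im2 β) := by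
    intro v
    simp [hβ.1 v]
  have hB : ∀ u v, im2 β (J u) (J v) = - im2 β u v := by
    intro u v
    simp [hβ.2 u v]
  have h2 := key_real hJ hGs hGJ hA hB X a b
  simp only [re2_apply] at h1
  simp only [im2_apply] at h2
  apply Complex.ext
  · simpa using h1
  · simpa using h2

/-! ### the symbol -/

/-- multiplication by `-i` -/
def negI : C1 →L[ℝ] C1 := (ContinuousLinearMap.compL ℝ E4 ℂ ℂ)
  ((-Complex.I) • (ContinuousLinearMap.id ℝ ℂ))

@[simp] theorem negI_apply (b : C1) (u : E4) : negI b u = -Complex.I * b u := by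
  simp [negI]

def Phi (J : E4 → E4 →L[ℝ] E4) (θ : E4 → ℝ) (x ξ : E4) : C2 →L[ℝ] C1 :=
  (θ x / (Real.pi * inner ℝ ξ (XX (J x) ξ))) •
    (negI.comp ((ContinuousLinearMap.apply ℝ C1 (XX (J x) ξ)).comp (PiC (J x))))

theorem Phi_apply (J : E4 → E4 →L[ℝ] E4) (θ : E4 → ℝ) (x ξ : E4) (β : C2) (v : E4) :
    Phi J θ x ξ β v = (θ x / (Real.pi * inner ℝ ξ (XX (J x) ξ)) : ℝ) •
      (-Complex.I * PiC (J x) β (XX (J x) ξ) v) := by
  simp [Phi]

theorem contDiffOn_Phi {J : E4 → E4 →L[ℝ] E4} (hJ : ContDiff ℝ ∞ J) {θ : E4 → ℝ}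
    (hθ : ContDiff ℝ ∞ θ) :
    ContDiffOn ℝ ∞ (fun p : E4 × E4 => Phi J θ p.1 p.2) (Set.univ ×ˢ {0}ᶜ) := by
  have h1 : ContDiffOn ℝ ∞ (fun p : E4 × E4 =>
      θ p.1 / (Real.pi * inner ℝ p.2 (XX (J p.1) p.2))) (Set.univ ×ˢ {0}ᶜ) := by
    refine ContDiffOn.div ((hθ.comp contDiff_fst).contDiffOn) ?_ ?_
    · exact (contDiff_const.mul (contDiff_snd.inner ℝ (contDiff_XX hJ))).contDiffOn
    · rintro ⟨x, ξ⟩ ⟨-, hξ⟩
      have := XX_pos (J x) (ξ := ξ) hξ
      have hpi := Real.pi_pos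
      positivity
  have h3 : ContDiff ℝ ∞ (fun p : E4 × E4 =>
      ((ContinuousLinearMap.apply ℝ C1 (XX (J p.1) p.2) : C2 →L[ℝ] C1)).comp (PiC (J p.1))) := by
    refine ContDiff.clm_comp ?_ ?_
    · exact (ContinuousLinearMap.apply ℝ C1).contDiff.comp (contDiff_XX hJ)
    · exact (contDiff_PiC hJ).comp contDiff_fst
  have h2 : ContDiffOn ℝ ∞ (fun p : E4 × E4 =>
      (negI.comp ((ContinuousLinearMap.apply ℝ C1 (XX (J p.1) p.2)).comp (PiC (J p.1))) :
        C2 →L[ℝ] C1)) (Set.univ ×ˢ {0}ᶜ) :=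
    ((contDiff_const (c := negI)).clm_comp h3).contDiffOn
  exact h1.smul h2

theorem Phi_homog (J : E4 → E4 →L[ℝ] E4) (θ : E4 → ℝ) (x z : E4) (hz : z ≠ 0) (t : ℝ)
    (ht : 0 < t) : Phi J θ x (t • z) = (t ^ 1)⁻¹ • Phi J θ x z := by
  ext β v
  have e : ((t ^ 1)⁻¹ • Phi J θ x z) β v = (t ^ 1)⁻¹ • (Phi J θ x z β v) := rfl
  rw [e, Phi_apply, Phi_apply, XX_smul]
  have hp := XX_pos (J x) hz
  have hpi := Real.pi_pos
  have h1 : (inner ℝ (t • z) (t • XX (J x) z) : ℝ) = t ^ 2 * inner ℝ z (XX (J x) z) := by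
    rw [inner_smul_left, inner_smul_right]
    simp
    ring
  rw [h1, map_smul, smul_apply]
  simp only [Complex.real_smul]
  have hpc : ((inner ℝ z (XX (J x) z) : ℝ) : ℂ) ≠ 0 := by exact_mod_cast hp.ne'
  have hpic : (Real.pi : ℂ) ≠ 0 := by exact_mod_cast hpi.ne'
  have htc : (t : ℂ) ≠ 0 := by exact_mod_cast ht.ne'
  push_cast
  field_simp

theorem symbol_identity {J : E4 → E4 →L[ℝ] E4} {θ : E4 → ℝ} {x : E4}
    (hJ2 : ∀ v, J x (J x v) = -v) {n : Z4} (hn : n ≠ 0) (β : C2) :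
    (2:ℝ) • PiC (J x) (tens n (Phi J θ x (nv n) β)) = θ x • PiC (J x) β := by
  set X := XX (J x) (nv n) with hX
  set β' := PiC (J x) β with hβ'
  have hanti : AntiC (J x) β' := antiC_PiC hJ2 β
  have hp : 0 < (inner ℝ (nv n) X : ℝ) := XX_pos (J x) (nv_ne_zero hn)
  have hGX : GG (J x) X X = inner ℝ (nv n) X := GG_XX _ _ _
  have hpi := Real.pi_pos
  have hpc : ((inner ℝ (nv n) X : ℝ) : ℂ) ≠ 0 := by exact_mod_cast hp.ne'
  have hpic : (Real.pi : ℂ) ≠ 0 := by exact_mod_cast hpi.ne'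
  have hT : ∀ u v, tens n (Phi J θ x (nv n) β) u v
      = (2 * (θ x) / (inner ℝ (nv n) X : ℝ) : ℂ) * ((GG (J x) X u : ℝ) * β' X v) := by
    intro u v
    rw [tens_apply, smul_apply, Phi_apply, cov_apply, GG_XX, ← hX, ← hβ']
    simp only [Complex.real_smul, smul_eq_mul]
    push_cast
    field_simp
    have hI : Complex.I ^ 2 = -1 := Complex.I_sq
    linear_combination (-1 : ℂ) * ((θ x : ℂ) * ((inner ℝ (nv n) u : ℝ) : ℂ) * β' X v) * hI
  ext u v
  have e1 : ((2:ℝ) • PiC (J x) (tens n (Phi J θ x (nv n) β))) u v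
      = (2:ℝ) • (PiC (J x) (tens n (Phi J θ x (nv n) β)) u v) := rfl
  have e2 : (θ x • β') u v = θ x • (β' u v) := rfl
  rw [e1, e2, PiC_apply, hT, hT, hT, hT]
  have key := key_complex hJ2 (GG_symm (J x)) (GG_inv hJ2) hanti X u v
  rw [hGX] at key
  simp only [Complex.real_smul]
  push_cast
  have e3 : (2 : ℂ) * (1 / 4 * (2 * (θ x : ℂ) / ((inner ℝ (nv n) X : ℝ) : ℂ) *
      ((GG (J x) X u : ℝ) * β' X v)
      - 2 * (θ x : ℂ) / ((inner ℝ (nv n) X : ℝ) : ℂ) * ((GG (J x) X v : ℝ) * β' X u)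
      - 2 * (θ x : ℂ) / ((inner ℝ (nv n) X : ℝ) : ℂ) * ((GG (J x) X (J x u) : ℝ) * β' X (J x v))
      + 2 * (θ x : ℂ) / ((inner ℝ (nv n) X : ℝ) : ℂ) * ((GG (J x) X (J x v) : ℝ) * β' X (J x u))))
      = (θ x : ℂ) / ((inner ℝ (nv n) X : ℝ) : ℂ) * ((GG (J x) X u : ℝ) * β' X v
        - (GG (J x) X v : ℝ) * β' X u - (GG (J x) X (J x u) : ℝ) * β' X (J x v)
        + (GG (J x) X (J x v) : ℝ) * β' X (J x u)) := by ring
  rw [e3, key]
  field_simp

theorem symbolThm : SymbolThm := by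
  intro J hJ θ hθ hc hJ2
  classical
  obtain ⟨R, hR⟩ : ∃ R : ℝ, ∀ x, R ≤ ‖x‖ → θ x = 0 := by
    obtain ⟨R, hR⟩ := hc.isCompact.isBounded.subset_closedBall (0 : E4)
    refine ⟨R + 1, fun x hx => ?_⟩
    apply image_eq_zero_of_notMem_tsupport
    intro hxs
    have := hR hxs
    rw [mem_closedBall_zero_iff] at this
    linarith
  refine ⟨fun n x => if n = 0 then 0 else Phi J θ x (nv n), ?_, ?_, ?_⟩
  · refine isSym_of_homog (k := Phi J θ) (r := 1) (contDiffOn_Phi hJ hθ) (Phi_homog J θ)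
      (R := R) ?_ ?_ ?_
    · intro x z hx
      ext β v
      rw [Phi_apply, hR x hx]
      simp
    · intro n hn x
      simp [hn]
    · simp only [if_true]
      exact contDiff_const
  · intro n x hx
    simp only
    split_ifs
    · rfl
    · ext β v
      rw [Phi_apply, hx]
      simp
  · intro n hn x β
    simp only [hn, if_false]
    by_cases hx : θ x = 0
    · have h0 : Phi J θ x (nv n) = 0 := by
        ext β v
        rw [Phi_apply, hx]
        simp
      rw [h0, hx]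
      simp
    · exact symbol_identity (hJ2 x hx) hn β


end

end Crest.Agent.R240.FA
end

-- ▼ part R240/FAFinal

/-!
Row 240, Lemma A: the local theorem (team F: helper267, helper446).
-/

set_option autoImplicit false

namespace Crest.Agent.R240.FA

theorem localThm : Crest.Agent.R240.Ell.LocalThm := localThm_of_symbol symbolThm

end Crest.Agent.R240.FA
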