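import Crest.Agent.R240.EllNorm
import Crest.Agent.R240.FormDefs
import Mathlib
import Crest.Agent.R240.Lin1
import Crest.Agent.R240.KAlg
import Crest.Agent.R240.Ch4

-- ▼ part R240/EllM1
section

/-!
Row 240, Lemma A (helper106), manifold part 1: finite atlas with cut-offs.
-/

set_option autoImplicit false
set_option maxSynthPendingDepth 3

open scoped ContDiff Manifold Topology
open Set Filter

namespace Crest.Agent.R240.Ell

noncomputable section

open Crest.Agent.R240.Ch

/-- finite atlas with smooth cut-offs read in the charts. -/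
structure EAtl (M : Type*) [TopologicalSpace M] [ChartedSpace E4 M] where
  n : ℕ
  p : Fin n → M
  U : Fin n → Set E4
  V : Fin n → Set E4
  c : Fin n → E4 → ℝ
  isOpen_U : ∀ i, IsOpen (U i)
  isOpen_V : ∀ i, IsOpen (V i)
  bdd_V : ∀ i, Bornology.IsBounded (V i)
  closure_U : ∀ i, closure (U i) ⊆ V i
  closure_V : ∀ i, closure (V i) ⊆ (chartAt E4 (p i)).target
  cs : ∀ i, CS (c i)
  supp : ∀ i, tsupport (c i) ⊆ U i
  nonneg : ∀ i y, 0 ≤ c i y
  sum_one : ∀ x : M, ∑ i, extF (p i) (c i) x = 1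

variable {M : Type*} [TopologicalSpace M] [ChartedSpace E4 M]

theorem EAtl.U_sub_V (A : EAtl M) (i : Fin A.n) : A.U i ⊆ A.V i :=
  subset_closure.trans (A.closure_U i)

theorem EAtl.V_sub (A : EAtl M) (i : Fin A.n) : A.V i ⊆ (chartAt E4 (A.p i)).target :=
  subset_closure.trans (A.closure_V i)

theorem EAtl.compact_V (A : EAtl M) (i : Fin A.n) : IsCompact (closure (A.V i)) :=
  (A.bdd_V i).isCompact_closure


theorem EAtl.c_zero (A : EAtl M) (i : Fin A.n) {y : E4} (hy : y ∉ A.U i) : A.c i y = 0 := by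
  by_contra h
  exact hy (A.supp i (subset_tsupport _ h))

theorem exists_atl (M : Type*) [TopologicalSpace M] [T2Space M] [CompactSpace M]
    [ChartedSpace E4 M] [IsManifold 𝓘(ℝ, E4) ∞ M] : Nonempty (EAtl M) := by
  classical
  -- radii
  have hr : ∀ x : M, ∃ r : ℝ, 0 < r ∧
      Metric.closedBall (chartAt E4 x x) (3 * r) ⊆ (chartAt E4 x).target := by
    intro x
    obtain ⟨ε, hε, h⟩ := Metric.isOpen_iff.mp (chartAt E4 x).open_target _ (mem_chart_target E4 x)
    refine ⟨ε / 4, by positivity, (Metric.closedBall_subset_ball ?_).trans h⟩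
    linarith
  choose r hr0 hr using hr
  set O : M → Set M := fun x => (chartAt E4 x).source ∩
    (chartAt E4 x) ⁻¹' Metric.ball (chartAt E4 x x) (r x) with hO
  have hOo : ∀ x, IsOpen (O x) := fun x =>
    (chartAt E4 x).isOpen_inter_preimage Metric.isOpen_ball
  have hxO : ∀ x, x ∈ O x := fun x => ⟨mem_chart_source E4 x, by
    simpa using hr0 x⟩
  obtain ⟨t, ht⟩ := isCompact_univ.elim_finite_subcover O hOo
    (fun x _ => mem_iUnion.mpr ⟨x, hxO x⟩)
  set m := t.card with hm
  set e : Fin m ≃ t := t.equivFin.symm with he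
  set p : Fin m → M := fun i => (e i : M) with hp
  have hcov : (univ : Set M) ⊆ ⋃ i : Fin m, O (p i) := by
    intro x hx
    obtain ⟨y, hy⟩ := mem_iUnion.mp (ht hx)
    obtain ⟨hyt, hxy⟩ := mem_iUnion.mp hy
    refine mem_iUnion.mpr ⟨e.symm ⟨y, hyt⟩, ?_⟩
    simpa [hp] using hxy
  obtain ⟨f, hf⟩ := SmoothPartitionOfUnity.exists_isSubordinate 𝓘(ℝ, E4) isClosed_univ
    (fun i : Fin m => O (p i)) (fun i => hOo _) hcov
  -- the compact images of the supports
  set K : Fin m → Set E4 := fun i => chartAt E4 (p i) '' tsupport (f i) with hK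
  have hts : ∀ i, tsupport (f i) ⊆ O (p i) := fun i => hf i
  have hKc : ∀ i, IsCompact (K i) := by
    intro i
    refine (isClosed_tsupport (f i)).isCompact.image_of_continuousOn ?_
    exact (chartAt E4 (p i)).continuousOn.mono ((hts i).trans inter_subset_left)
  have hKb : ∀ i, K i ⊆ Metric.ball (chartAt E4 (p i) (p i)) (r (p i)) := by
    rintro i _ ⟨x, hx, rfl⟩
    exact (hts i hx).2
  set c : Fin m → E4 → ℝ := fun i y =>
    if y ∈ (chartAt E4 (p i)).target then f i ((chartAt E4 (p i)).symm y) else 0 with hc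
  have hc0 : ∀ i y, y ∉ K i → c i y = 0 := by
    intro i y hy
    simp only [hc]
    split_ifs with h
    · by_contra h0
      refine hy ⟨(chartAt E4 (p i)).symm y, subset_tsupport _ h0, (chartAt E4 (p i)).right_inv h⟩
    · rfl
  have hball : ∀ i, Metric.ball (chartAt E4 (p i) (p i)) (r (p i)) ⊆ (chartAt E4 (p i)).target := by
    intro i
    refine (Metric.ball_subset_closedBall.trans (Metric.closedBall_subset_closedBall ?_)).trans
      (hr (p i))
    linarith [hr0 (p i)]
  have hcs : ∀ i, ContDiff ℝ ∞ (c i) := by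
    intro i
    rw [contDiff_iff_contDiffAt]
    intro y
    by_cases hy : y ∈ K i
    · have hyt : y ∈ (chartAt E4 (p i)).target := hball i (hKb i hy)
      have h1 : ContMDiffOn 𝓘(ℝ, E4) 𝓘(ℝ, E4) ∞ (chartAt E4 (p i)).symm
          (chartAt E4 (p i)).target := contMDiffOn_chart_symm
      have h2 : ContMDiffAt 𝓘(ℝ, E4) 𝓘(ℝ, ℝ) ∞ (fun y => f i ((chartAt E4 (p i)).symm y)) y := by
        have h3 : ContMDiffAt 𝓘(ℝ, E4) 𝓘(ℝ, ℝ) ∞ (f i) ((chartAt E4 (p i)).symm y) :=
          (f i).contMDiff.contMDiffAt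
        exact h3.comp y (h1.contMDiffAt ((chartAt E4 (p i)).open_target.mem_nhds hyt))
      have h4 := h2.contDiffAt
      refine h4.congr_of_eventuallyEq ?_
      filter_upwards [(chartAt E4 (p i)).open_target.mem_nhds hyt] with z hz
      simp [hc, hz]
    · have h1 : c i =ᶠ[𝓝 y] fun _ => 0 := by
        filter_upwards [(hKc i).isClosed.isOpen_compl.mem_nhds hy] with z hz
        exact hc0 i z hz
      exact contDiffAt_const.congr_of_eventuallyEq h1
  have hct : ∀ i, tsupport (c i) ⊆ K i := by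
    intro i
    refine closure_minimal ?_ (hKc i).isClosed
    intro y hy
    by_contra h
    exact hy (hc0 i y h)
  refine ⟨⟨m, p, fun i => Metric.ball (chartAt E4 (p i) (p i)) (r (p i)),
    fun i => Metric.ball (chartAt E4 (p i) (p i)) (2 * r (p i)), c,
    fun i => Metric.isOpen_ball, fun i => Metric.isOpen_ball, fun i => Metric.isBounded_ball,
    fun i => ?_, fun i => ?_, fun i => ⟨hcs i, ?_⟩, fun i => (hct i).trans (hKb i), ?_, ?_⟩⟩
  · refine Metric.closure_ball_subset_closedBall.trans (Metric.closedBall_subset_ball ?_)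
    linarith [hr0 (p i)]
  · refine (Metric.closure_ball_subset_closedBall.trans
      (Metric.closedBall_subset_closedBall ?_)).trans (hr (p i))
    linarith [hr0 (p i)]
  · exact (hKc i).of_isClosed_subset (isClosed_tsupport _) (hct i)
  · intro i y
    simp only [hc]
    split_ifs
    · exact f.nonneg i _
    · exact le_rfl
  · intro x
    have h1 : ∀ i, extF (p i) (c i) x = f i x := by
      intro i
      unfold extF
      split_ifs with h
      · simp only [hc]
        rw [if_pos ((chartAt E4 (p i)).map_source h), (chartAt E4 (p i)).left_inv h]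
      · by_contra h0
        exact h ((hts i (subset_tsupport _ (Ne.symm h0))).1)
    rw [Finset.sum_congr rfl (fun i _ => h1 i)]
    have h2 := f.sum_eq_one (mem_univ x)
    rwa [finsum_eq_sum_of_fintype] at h2

end

end Crest.Agent.R240.Ell
end

-- ▼ part R240/EllCut
section

/-!
Row 240, Lemma A (helper106): cut-off functions, localisation of smooth functions.
-/

set_option autoImplicit false
set_option maxSynthPendingDepth 3

open scoped ContDiff Manifold Topology
open Set Filter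

namespace Crest.Agent.R240.Ell

noncomputable section

/-- cut-off: `= 1` on `K`, supported in `Ω`. -/
theorem exists_cutoff {K Ω : Set E4} (hK : IsCompact K) (hΩ : IsOpen Ω) (hKΩ : K ⊆ Ω) :
    ∃ θ : E4 → ℝ, CS θ ∧ tsupport θ ⊆ Ω ∧ (∀ᶠ y in 𝓝ˢ K, θ y = 1) ∧ (∀ y ∈ K, θ y = 1) ∧
      ∀ y, θ y ∈ Icc (0 : ℝ) 1 := by
  obtain ⟨V, hVo, hKV, hVΩ, hVc⟩ := exists_open_between_and_isCompact_closure hK hΩ hKΩ
  obtain ⟨f, hf1, hf0, hf⟩ := exists_contMDiffMap_one_nhds_of_subset_interior
    (modelWithCornersSelf ℝ E4) (n := (⊤ : ℕ∞)) hK.isClosed (t := V)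
    (hKV.trans (interior_eq_iff_isOpen.mpr hVo).ge)
  have hsm : ContDiff ℝ ∞ (f : E4 → ℝ) := f.contMDiff.contDiff
  have hts : tsupport (f : E4 → ℝ) ⊆ closure V := by
    apply closure_mono
    intro x hx
    by_contra h
    exact hx (hf0 x h)
  have hcs : HasCompactSupport (f : E4 → ℝ) := hVc.of_isClosed_subset isClosed_closure hts
  exact ⟨f, ⟨hsm, hcs⟩, hts.trans hVΩ, hf1, fun y hy => hf1.self_of_nhdsSet y hy, hf⟩

/-- a smooth function on an open set, cut off. -/
theorem cs_smul_of_contDiffOn {F : Type*} [NormedAddCommGroup F] [NormedSpace ℝ F]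
    {θ : E4 → ℝ} {g : E4 → F} {Ω : Set E4} (hθ : CS θ) (hΩ : IsOpen Ω) (hs : tsupport θ ⊆ Ω)
    (hg : ContDiffOn ℝ ∞ g Ω) : CS (fun y => θ y • g y) := by
  refine ⟨contDiff_iff_contDiffAt.2 fun y => ?_, ?_⟩
  · by_cases hy : y ∈ tsupport θ
    · exact hθ.1.contDiffAt.smul (hg.contDiffAt (hΩ.mem_nhds (hs hy)))
    · have h : (fun y => θ y • g y) =ᶠ[𝓝 y] fun _ => 0 := by
        filter_upwards [(isClosed_tsupport θ).isOpen_compl.mem_nhds hy] with z hz
        rw [image_eq_zero_of_notMem_tsupport hz, zero_smul]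
      exact contDiffAt_const.congr_of_eventuallyEq h
  · exact hθ.2.smul_right


end

end Crest.Agent.R240.Ell
end

-- ▼ part R240/KKer
section

/-!
Row 240, Lemma A, team K, part K2 (helper610): continuous linear maps used by the kernels, and the
frozen kernel `v ↦ (G v v + δ)⁻² • R v`.
-/

set_option autoImplicit false
set_option maxSynthPendingDepth 3

namespace Crest.Agent.R240.KLoc

open Crest.Agent.R240
open scoped ContDiff

noncomputable section

/-- covectors. -/
abbrev Dual4 : Type := E4 →L[ℝ] ℝ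

/-- `L ↦ L - L.flip` (so that `dS x = altL (fderiv ℝ S x)`). -/
def altL : Bil →L[ℝ] Bil :=
  ContinuousLinearMap.id ℝ Bil -
    ((ContinuousLinearMap.flipₗᵢ ℝ E4 E4 ℝ).toContinuousLinearEquiv : Bil →L[ℝ] Bil)

@[simp] theorem altL_apply (L : Bil) (u v : E4) : altL L u v = L u v - L v u := by
  simp [altL]

theorem altL_of_alt {R : Bil} (hR : Alt R) : altL R = (2 : ℝ) • R := by
  ext u v
  have : ((2 : ℝ) • R) u v = 2 * R u v := rfl
  rw [this, altL_apply, hR.swap v u]
  ring

theorem altL_smulRight (ξ η : Dual4) : altL (ξ.smulRight η) = wed ξ η := by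
  ext u v
  simp [wed_apply]
  ring

/-- `b ↦ pull A b` as a continuous linear map. -/
def pullL (A : E4 →L[ℝ] E4) : Bil →L[ℝ] Bil :=
  (ContinuousLinearMap.compL ℝ E4 (E4 →L[ℝ] ℝ) (E4 →L[ℝ] ℝ)
    ((ContinuousLinearMap.compL ℝ E4 E4 ℝ).flip A)).comp
    ((ContinuousLinearMap.compL ℝ E4 E4 (E4 →L[ℝ] ℝ)).flip A)

@[simp] theorem pullL_apply (A : E4 →L[ℝ] E4) (b : Bil) : pullL A b = pull A b := by
  ext u v
  simp [pullL]

theorem pullL_contDiff : ContDiff ℝ ∞ pullL := by
  unfold pullL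
  fun_prop

/-- `b ↦ antip A b` as a continuous linear map. -/
def antiL (A : E4 →L[ℝ] E4) : Bil →L[ℝ] Bil :=
  (1 / 2 : ℝ) • (ContinuousLinearMap.id ℝ Bil - pullL A)

@[simp] theorem antiL_apply (A : E4 →L[ℝ] E4) (b : Bil) : antiL A b = antip A b := by
  simp [antiL, antip]

theorem antiL_contDiff : ContDiff ℝ ∞ antiL := by
  unfold antiL
  have := pullL_contDiff
  fun_prop

/-- `η ↦ ξ ∧ η` as a continuous linear map. -/
def wedL (ξ : Dual4) : Dual4 →L[ℝ] Bil :=
  altL.comp (ContinuousLinearMap.smulRightL ℝ E4 Dual4 ξ)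

@[simp] theorem wedL_apply (ξ η : Dual4) : wedL ξ η = wed ξ η := by
  have : wedL ξ η = altL (ξ.smulRight η) := rfl
  rw [this, altL_smulRight]


/-- evaluation `b ↦ b z`. -/
def evL (z : E4) : Bil →L[ℝ] Dual4 := ContinuousLinearMap.apply ℝ Dual4 z

@[simp] theorem evL_apply (z : E4) (b : Bil) : evL z b = b z := rfl


/-- the metric `G y u v = ⟪u,v⟫ + ⟪J y u, J y v⟫`. -/
def inn : Bil := innerSL ℝ


/-- the metric `G y u v = ⟪u,v⟫ + ⟪J y u, J y v⟫`. -/
def GG (A : E4 →L[ℝ] E4) : Bil := inn + pull A inn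

theorem GG_apply (A : E4 →L[ℝ] E4) (u v : E4) :
    GG A u v = inner ℝ u v + inner ℝ (A u) (A v) := by
  have : GG A u v = inn u v + pull A inn u v := rfl
  rw [this, pull_apply]
  rfl













end

end Crest.Agent.R240.KLoc
end

-- ▼ part R240/EllM2
section

/-!
Row 240, Lemma A (helper106), manifold part 2: extension by zero, transition estimates.
-/

set_option autoImplicit false
set_option maxSynthPendingDepth 3
set_option linter.unusedSectionVars false

open scoped ContDiff Manifold Topology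
open Set Filter

namespace Crest.Agent.R240.Ell

noncomputable section

open Crest.Agent.R240.Ch Crest.Agent.R240.KLoc

/-! ### linear algebra -/


theorem Alt.zero : Alt (0 : Bil) := fun _ => rfl

theorem Alt.add' {b c : Bil} (hb : Alt b) (hc : Alt c) : Alt (b + c) := fun v => by
  rw [add_apply, add_apply, hb v, hc v, add_zero]

theorem Alt.smul' {b : Bil} (hb : Alt b) (r : ℝ) : Alt (r • b) := fun v => by
  rw [smul_apply, smul_apply, hb v, smul_zero]

theorem antip_eq_self {J : E4 →L[ℝ] E4} {b : Bil} (h : ∀ u v, b (J u) (J v) = - b u v) :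
    antip J b = b := by
  ext u v
  rw [antip_apply, h]; ring

theorem anti_of_antip_eq {J : E4 →L[ℝ] E4} {b : Bil} (h : antip J b = b) (u v : E4) :
    b (J u) (J v) = - b u v := by
  have h1 := congrArg (fun c : Bil => c u v) h
  simp only [antip_apply] at h1
  linarith

variable {M : Type*} [TopologicalSpace M] [ChartedSpace E4 M] [IsManifold 𝓘(ℝ, E4) ∞ M]

/-! ### extension by zero -/

theorem at2_ext2 {p x : M} (hx : x ∈ (chartAt E4 p).source) (b : E4 → Bil) (u v : E4) :
    at2 (ext2 p b) x u v = b (chartAt E4 p x) (tcc x p x u) (tcc x p x v) := by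
  unfold at2 ext2
  rw [if_pos hx]
  rfl

theorem at2_ext2_off {p x : M} (hx : x ∉ (chartAt E4 p).source) (b : E4 → Bil) :
    at2 (ext2 p b) x = 0 := by
  unfold at2 ext2
  rw [if_neg hx]

theorem rep_ext2 {p : M} {y : E4} (hy : y ∈ (chartAt E4 p).target) (b : E4 → Bil) :
    rep p (ext2 p b) y = b y := by
  ext u v
  rw [rep_apply, at2_ext2 (symm_mem hy), tcc_cancel (symm_mem hy), tcc_cancel (symm_mem hy),
    (chartAt E4 p).right_inv hy]

theorem rep_ext2_trans {p q : M} {y : E4} (hy : y ∈ (chartAt E4 q).target)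
    (hp : (chartAt E4 q).symm y ∈ (chartAt E4 p).source) (b : E4 → Bil) :
    rep q (ext2 p b) y = pull (fderiv ℝ (trans (E := E4) q p) y) (b (trans (E := E4) q p y)) := by
  ext u v
  rw [rep_pullback hy hp, pull_apply]
  have h := rep_ext2 ((chartAt E4 p).map_source hp) b
  exact congrArg (fun c : Bil => c (fderiv ℝ (trans (E := E4) q p) y u)
    (fderiv ℝ (trans (E := E4) q p) y v)) h

theorem rep_ext2_off {p q : M} {y : E4} (hp : (chartAt E4 q).symm y ∉ (chartAt E4 p).source)
    (b : E4 → Bil) : rep q (ext2 p b) y = 0 := by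
  ext u v
  rw [rep_apply, at2_ext2_off hp]
  rfl

theorem rep_ext2_zero {p q : M} {L : Set E4} {b : E4 → Bil} (hb : ∀ z ∉ L, b z = 0) {y : E4}
    (hy : y ∈ (chartAt E4 q).target) (h : (chartAt E4 q).symm y ∉ (chartAt E4 p).symm '' L) :
    rep q (ext2 p b) y = 0 := by
  by_cases hp : (chartAt E4 q).symm y ∈ (chartAt E4 p).source
  · rw [rep_ext2_trans hy hp]
    have h1 : trans (E := E4) q p y ∉ L := by
      intro hL
      refine h ⟨_, hL, ?_⟩
      exact (chartAt E4 p).left_inv hp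
    rw [hb _ h1]
    ext u v
    rw [pull_apply]
    rfl
  · exact rep_ext2_off hp b

theorem isClosed_image [T2Space M] {p : M} {L : Set E4} (hL : IsCompact L)
    (hLs : L ⊆ (chartAt E4 p).target) : IsClosed ((chartAt E4 p).symm '' L) :=
  (hL.image_of_continuousOn ((chartAt E4 p).continuousOn_symm.mono hLs)).isClosed

/-- near a point outside, the extension vanishes. -/
theorem rep_ext2_ev_zero [T2Space M] {p q : M} {L : Set E4} (hL : IsCompact L)
    (hLs : L ⊆ (chartAt E4 p).target) {b : E4 → Bil} (hb : ∀ z ∉ L, b z = 0) {y : E4}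
    (hy : y ∈ (chartAt E4 q).target) (h : (chartAt E4 q).symm y ∉ (chartAt E4 p).symm '' L) :
    ∀ᶠ z in 𝓝 y, rep q (ext2 p b) z = 0 := by
  have ho : IsOpen ((chartAt E4 q).target ∩ (chartAt E4 q).symm ⁻¹'
      ((chartAt E4 p).symm '' L)ᶜ) :=
    (chartAt E4 q).isOpen_inter_preimage_symm (isClosed_image hL hLs).isOpen_compl
  filter_upwards [ho.mem_nhds ⟨hy, h⟩] with z hz
  exact rep_ext2_zero hb hz.1 hz.2

theorem rep_ext2_ev {p : M} {y : E4} (hy : y ∈ (chartAt E4 p).target) (b : E4 → Bil) :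
    rep p (ext2 p b) =ᶠ[𝓝 y] b := by
  filter_upwards [(chartAt E4 p).open_target.mem_nhds hy] with z hz using rep_ext2 hz b

theorem smooth2_ext2 [T2Space M] {p : M} {b : E4 → Bil} (hb : ContDiff ℝ ∞ b) {L : Set E4}
    (hL : IsCompact L) (hLs : L ⊆ (chartAt E4 p).target) (hz : ∀ z ∉ L, b z = 0)
    (ha : ∀ y, Alt (b y)) : Smooth2 (ext2 p b) := by
  refine Smooth2.of_local ?_ ?_
  · intro x v
    by_cases hx : x ∈ (chartAt E4 p).source
    · rw [at2_ext2 hx, ha]
    · rw [at2_ext2_off hx]; rfl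
  · intro x
    by_cases hx : x ∈ (chartAt E4 p).source
    · refine ⟨p, hx, ?_⟩
      exact hb.contDiffAt.congr_of_eventuallyEq (rep_ext2_ev ((chartAt E4 p).map_source hx) b)
    · refine ⟨x, mem_chart_source E4 x, ?_⟩
      have h1 : (chartAt E4 x).symm (chartAt E4 x x) ∉ (chartAt E4 p).symm '' L := by
        rw [(chartAt E4 x).left_inv (mem_chart_source E4 x)]
        rintro ⟨z, hz, rfl⟩
        exact hx ((chartAt E4 p).map_target (hLs hz))
      have h2 := rep_ext2_ev_zero hL hLs hz (mem_chart_target E4 x) h1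
      exact (contDiffAt_const (c := (0 : Bil))).congr_of_eventuallyEq h2

theorem closed2_ext2 [T2Space M] {p : M} {s : E4 → E4 →L[ℝ] ℝ} (hs : ContDiff ℝ ∞ s) {L : Set E4}
    (hL : IsCompact L) (hLs : L ⊆ (chartAt E4 p).target) (hz : ∀ z ∉ L, dS s z = 0)
    (hsm : Smooth2 (ext2 p (dS s))) : Closed2 (ext2 p (dS s)) := by
  refine Closed2.of_local hsm fun x => ?_
  by_cases hx : x ∈ (chartAt E4 p).source
  · refine ⟨p, hx, fun u v w => ?_⟩
    have h1 : rep p (ext2 p (dS s)) =ᶠ[𝓝 (chartAt E4 p x)] d1 s :=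
      rep_ext2_ev ((chartAt E4 p).map_source hx) _
    rw [dd_congr h1, dd_d1 hs.contDiffAt]
  · refine ⟨x, mem_chart_source E4 x, fun u v w => ?_⟩
    have h1 : (chartAt E4 x).symm (chartAt E4 x x) ∉ (chartAt E4 p).symm '' L := by
      rw [(chartAt E4 x).left_inv (mem_chart_source E4 x)]
      rintro ⟨z, hz, rfl⟩
      exact hx ((chartAt E4 p).map_target (hLs hz))
    have h2 : rep x (ext2 p (dS s)) =ᶠ[𝓝 (chartAt E4 x x)] fun _ => 0 :=
      rep_ext2_ev_zero hL hLs hz (mem_chart_target E4 x) h1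
    rw [dd_congr h2]
    simp [dd]

/-! ### the basic transition estimate -/

theorem trans_bound [T2Space M] (p q : M) {c : E4 → ℝ} (hc : CS c)
    (hcs : tsupport c ⊆ (chartAt E4 q).target) {L : Set E4} (hL : IsCompact L)
    (hLs : L ⊆ (chartAt E4 p).target) :
    ∃ (A : E4 → (Bil →L[ℝ] Bil)) (τ : E4 → E4), CS A ∧ CS τ ∧
      ∀ b : E4 → Bil, (∀ z ∉ L, b z = 0) →
        (fun y => c y • rep q (ext2 p b) y) = fun y => A y (b (τ y)) := by
  set O : Set E4 := (chartAt E4 q).target ∩ (chartAt E4 q).symm ⁻¹' (chartAt E4 p).source with hO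
  have hOo : IsOpen O := (chartAt E4 q).isOpen_inter_preimage_symm (chartAt E4 p).open_source
  set K : Set E4 := tsupport c ∩ (chartAt E4 q).symm ⁻¹' ((chartAt E4 p).symm '' L) with hK
  have hKc : IsCompact K := by
    refine hc.2.of_isClosed_subset ?_ inter_subset_left
    exact ((chartAt E4 q).continuousOn_symm.mono hcs).preimage_isClosed_of_isClosed
      (isClosed_tsupport c) (isClosed_image hL hLs)
  have hKO : K ⊆ O := by
    rintro y ⟨hy1, z, hz, hzy⟩
    refine ⟨hcs hy1, ?_⟩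
    rw [mem_preimage, ← hzy]
    exact (chartAt E4 p).map_target (hLs hz)
  obtain ⟨ψ₁, h1cs, h1s, -, h1K, -⟩ := exists_cutoff hKc hOo hKO
  obtain ⟨ψ₂, h2cs, h2s, -, h2K, -⟩ := exists_cutoff h1cs.2 hOo h1s
  have hτ : ContDiffOn ℝ ∞ (trans (E := E4) q p) O := fun y hy =>
    (trans_contDiffAt hy.1 hy.2).contDiffWithinAt
  have hdτ : ContDiffOn ℝ ∞ (fderiv ℝ (trans (E := E4) q p)) O := fun y hy =>
    ((trans_contDiffAt hy.1 hy.2).fderiv_right (m := ∞) (by simp)).contDiffWithinAt
  have hP : ContDiffOn ℝ ∞ (fun y => c y • pullL (fderiv ℝ (trans (E := E4) q p) y)) O :=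
    hc.1.contDiffOn.smul (pullL_contDiff.comp_contDiffOn hdτ)
  refine ⟨fun y => ψ₁ y • (c y • pullL (fderiv ℝ (trans (E := E4) q p) y)),
    fun y => ψ₂ y • trans (E := E4) q p y,
    cs_smul_of_contDiffOn h1cs hOo h1s hP, cs_smul_of_contDiffOn h2cs hOo h2s hτ, ?_⟩
  intro b hb
  funext y
  by_cases hyK : y ∈ K
  · have hyO := hKO hyK
    have h1 : ψ₁ y = 1 := h1K y hyK
    have h2 : ψ₂ y = 1 := h2K y (subset_tsupport _ (by rw [Function.mem_support, h1]; exact one_ne_zero))
    simp only [h1, h2, one_smul, smul_apply, pullL_apply]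
    rw [rep_ext2_trans hyO.1 hyO.2]
  · -- both sides vanish
    have hl : c y • rep q (ext2 p b) y = 0 := by
      by_cases hyc : y ∈ tsupport c
      · have : (chartAt E4 q).symm y ∉ (chartAt E4 p).symm '' L := fun h => hyK ⟨hyc, h⟩
        rw [rep_ext2_zero hb (hcs hyc) this, smul_zero]
      · rw [image_eq_zero_of_notMem_tsupport hyc, zero_smul]
    rw [hl]
    by_cases hy1 : y ∈ tsupport ψ₁
    · have h2 : ψ₂ y = 1 := h2K y hy1
      have hyO := h1s hy1
      simp only [h2, one_smul, smul_apply, pullL_apply]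
      rw [← rep_ext2_trans hyO.1 hyO.2, hl, smul_zero]
    · simp only [image_eq_zero_of_notMem_tsupport hy1, zero_smul]
      rfl

/-! ### linearity of `ext2` -/

theorem ext2_add (p : M) (b c : E4 → Bil) : ext2 p (b + c) = ext2 p b + ext2 p c := by
  funext x
  ext u v
  by_cases hx : x ∈ (chartAt E4 p).source
  · have h1 := at2_ext2 hx (b + c) u v
    have h2 := at2_ext2 hx b u v
    have h3 := at2_ext2 hx c u v
    calc (ext2 p (b + c) x) u v = (b + c) (chartAt E4 p x) (tcc x p x u) (tcc x p x v) := h1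
      _ = b (chartAt E4 p x) (tcc x p x u) (tcc x p x v)
          + c (chartAt E4 p x) (tcc x p x u) (tcc x p x v) := rfl
      _ = (ext2 p b x) u v + (ext2 p c x) u v := by rw [← h2, ← h3]; rfl
  · have h1 : ∀ b : E4 → Bil, ext2 p b x = 0 := fun b => at2_ext2_off hx b
    rw [Pi.add_apply, h1, h1, h1]
    simp

theorem ext2_smul (p : M) (r : ℝ) (b : E4 → Bil) : ext2 p (r • b) = r • ext2 p b := by
  funext x
  ext u v
  by_cases hx : x ∈ (chartAt E4 p).source
  · have h1 := at2_ext2 hx (r • b) u v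
    have h2 := at2_ext2 hx b u v
    calc (ext2 p (r • b) x) u v = (r • b) (chartAt E4 p x) (tcc x p x u) (tcc x p x v) := h1
      _ = r * b (chartAt E4 p x) (tcc x p x u) (tcc x p x v) := rfl
      _ = r * (ext2 p b x) u v := by rw [← h2]; rfl
  · have h1 : ∀ b : E4 → Bil, ext2 p b x = 0 := fun b => at2_ext2_off hx b
    rw [Pi.smul_apply, h1, h1]
    simp

theorem ext2_zero (p : M) : ext2 p (0 : E4 → Bil) = 0 := by
  have := ext2_smul p 0 (0 : E4 → Bil)
  simpa using this

theorem ext2_sum (p : M) {ι : Type*} (s : Finset ι) (f : ι → E4 → Bil) :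
    ext2 p (∑ i ∈ s, f i) = ∑ i ∈ s, ext2 p (f i) := by
  classical
  induction s using Finset.induction_on with
  | empty => simpa using ext2_zero p
  | insert a s ha ih => rw [Finset.sum_insert ha, Finset.sum_insert ha, ext2_add, ih]

/-! ### localisation -/

variable (A : EAtl M)

/-- the localised form. -/
def loc (i : Fin A.n) (a : F2 E4 M) : E4 → Bil := fun y => A.c i y • rep (A.p i) a y

theorem loc_add (i : Fin A.n) (a b : F2 E4 M) : loc A i (a + b) = loc A i a + loc A i b := by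
  funext y
  have : loc A i (a + b) y = A.c i y • (rep (A.p i) a y + rep (A.p i) b y) := rfl
  rw [this, smul_add]
  rfl

theorem loc_smul (i : Fin A.n) (r : ℝ) (a : F2 E4 M) : loc A i (r • a) = r • loc A i a := by
  funext y
  have : loc A i (r • a) y = A.c i y • (r • rep (A.p i) a y) := rfl
  rw [this, smul_comm]
  rfl

theorem loc_zero (i : Fin A.n) : loc A i (0 : F2 E4 M) = 0 := by
  have := loc_smul A i 0 (0 : F2 E4 M)
  simpa using this

theorem loc_sum (i : Fin A.n) {ι : Type*} (s : Finset ι) (f : ι → F2 E4 M) :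
    loc A i (∑ j ∈ s, f j) = ∑ j ∈ s, loc A i (f j) := by
  classical
  induction s using Finset.induction_on with
  | empty => simpa using loc_zero A i
  | insert a s ha ih => rw [Finset.sum_insert ha, Finset.sum_insert ha, loc_add, ih]

theorem loc_off (i : Fin A.n) (a : F2 E4 M) {y : E4} (hy : y ∉ tsupport (A.c i)) :
    loc A i a y = 0 := by
  unfold loc
  rw [image_eq_zero_of_notMem_tsupport hy, zero_smul]

theorem tsupport_c (i : Fin A.n) : tsupport (A.c i) ⊆ (chartAt E4 (A.p i)).target :=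
  (A.supp i).trans ((A.U_sub_V i).trans (A.V_sub i))

theorem tsupport_loc (i : Fin A.n) (a : F2 E4 M) : tsupport (loc A i a) ⊆ tsupport (A.c i) :=
  closure_minimal (fun y hy => by
    by_contra h
    exact hy (loc_off A i a h)) (isClosed_tsupport _)

theorem cs_loc (i : Fin A.n) {a : F2 E4 M} (ha : Smooth2 a) : CS (loc A i a) :=
  cs_smul_of_contDiffOn (A.cs i) (chartAt E4 (A.p i)).open_target (tsupport_c A i) (ha.2 (A.p i))

theorem loc_alt (i : Fin A.n) {a : F2 E4 M} (ha : Smooth2 a) (y : E4) : Alt (loc A i a y) :=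
  Alt.smul' (fun v => ha.rep_self_zero _ _ v) _

theorem ext2_loc (i : Fin A.n) (a : F2 E4 M) (x : M) :
    ext2 (A.p i) (loc A i a) x = extF (A.p i) (A.c i) x • a x := by
  ext u v
  by_cases hx : x ∈ (chartAt E4 (A.p i)).source
  · have h1 := at2_ext2 hx (loc A i a) u v
    have h2 := apply_eq_rep hx a u v
    have h3 : extF (A.p i) (A.c i) x = A.c i (chartAt E4 (A.p i) x) := if_pos hx
    rw [h3]
    calc (ext2 (A.p i) (loc A i a) x) u v
        = (loc A i a) (chartAt E4 (A.p i) x) (tcc x (A.p i) x u) (tcc x (A.p i) x v) := h1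
      _ = A.c i (chartAt E4 (A.p i) x) * rep (A.p i) a (chartAt E4 (A.p i) x)
          (tcc x (A.p i) x u) (tcc x (A.p i) x v) := rfl
      _ = _ := by rw [← h2]; rfl
  · have h1 : ∀ b : E4 → Bil, ext2 (A.p i) b x = 0 := fun b => at2_ext2_off hx b
    have h3 : extF (A.p i) (A.c i) x = 0 := if_neg hx
    rw [h1, h3, zero_smul]

theorem sum_ext2_loc (a : F2 E4 M) : ∑ i, ext2 (A.p i) (loc A i a) = a := by
  funext x
  rw [Finset.sum_apply, Finset.sum_congr rfl fun i _ => ext2_loc A i a x, ← Finset.sum_smul,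
    A.sum_one x, one_smul]

/-! ### types -/

theorem at2_bpp (J : EndF E4 M) (a : F2 E4 M) (x : M) :
    at2 (bpp J a) x = antip (atJ J x) (at2 a x) := rfl

theorem antip_add (J : E4 →L[ℝ] E4) (b c : Bil) : antip J (b + c) = antip J b + antip J c := by
  rw [← antiL_apply, ← antiL_apply, ← antiL_apply, map_add]

theorem antip_smul (J : E4 →L[ℝ] E4) (r : ℝ) (b : Bil) : antip J (r • b) = r • antip J b := by
  rw [← antiL_apply, ← antiL_apply, map_smul]

theorem antip_zero' (J : E4 →L[ℝ] E4) : antip J (0 : Bil) = 0 := by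
  rw [← antiL_apply, map_zero]

/-- `b ↦ b''` as a linear map. -/
def bppL (J : EndF E4 M) : F2 E4 M →ₗ[ℝ] F2 E4 M where
  toFun := bpp J
  map_add' a b := by
    funext x
    exact antip_add _ _ _
  map_smul' r a := by
    funext x
    exact antip_smul _ _ _

theorem bppL_apply (J : EndF E4 M) (a : F2 E4 M) : bppL J a = bpp J a := rfl

theorem rep_bpp' {J : EndF E4 M} {a : F2 E4 M} {p : M} {y : E4}
    (hy : y ∈ (chartAt E4 p).target) :
    rep p (bpp J a) y = antip (repJ p J y) (rep p a y) := by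
  ext u v
  rw [antip_apply, rep_apply, rep_apply, rep_apply, repJ_apply, repJ_apply,
    tcc_cancel' (symm_mem hy), tcc_cancel' (symm_mem hy)]
  exact antip_apply _ _ _ _

theorem smooth2_bpp {J : EndF E4 M} {a : F2 E4 M} (hJ : SmoothJ J) (ha : Smooth2 a) :
    Smooth2 (bpp J a) := by
  refine ⟨fun x v => ?_, fun p => ?_⟩
  · rw [at2_bpp, antip_apply, ha.1, ha.1]; norm_num
  · have h1 : ContDiffOn ℝ ∞ (fun y => antiL (repJ p J y) (rep p a y)) (chartAt E4 p).target :=
      (antiL_contDiff.comp_contDiffOn (hJ p)).clm_apply (ha.2 p)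
    refine h1.congr fun y hy => ?_
    rw [rep_bpp' hy, antiL_apply]

theorem bpp_ext2 (J : EndF E4 M) (p : M) (b : E4 → Bil) :
    bpp J (ext2 p b) = ext2 p (fun y => antip (repJ p J y) (b y)) := by
  funext x
  ext u v
  by_cases hx : x ∈ (chartAt E4 p).source
  · have h1 := at2_ext2 hx (fun y => antip (repJ p J y) (b y)) u v
    have h2 : at2 (bpp J (ext2 p b)) x u v =
        at2 (ext2 p fun y => antip (repJ p J y) (b y)) x u v := by
      rw [h1, at2_bpp, antip_apply, antip_apply, at2_ext2 hx, at2_ext2 hx, apply_eq_repJ hx,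
        apply_eq_repJ hx]
    exact h2
  · have h1 : at2 (bpp J (ext2 p b)) x = 0 := by
      rw [at2_bpp, at2_ext2_off hx, antip_zero']
    have h2 : at2 (ext2 p (fun y => antip (repJ p J y) (b y))) x = 0 := at2_ext2_off hx _
    have h3 : at2 (bpp J (ext2 p b)) x u v =
        at2 (ext2 p fun y => antip (repJ p J y) (b y)) x u v := by rw [h1, h2]
    exact h3

theorem bpp_bpp {J : EndF E4 M} (hJ : ∀ x v, atJ J x (atJ J x v) = -v) {a : F2 E4 M} :
    bpp J (bpp J a) = bpp J a := by
  funext x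
  have h : at2 (bpp J (bpp J a)) x = at2 (bpp J a) x := by
    ext u v
    rw [at2_bpp, antip_apply, at2_bpp, antip_apply, antip_apply, hJ, hJ]
    simp only [map_neg, neg_apply, neg_neg]
    ring
  exact h

theorem repJ_sq {J : EndF E4 M} (hJ : ∀ x v, atJ J x (atJ J x v) = -v) {p : M} {y : E4}
    (hy : y ∈ (chartAt E4 p).target) (v : E4) : repJ p J y (repJ p J y v) = -v := by
  rw [repJ_apply, repJ_apply, tcc_cancel' (symm_mem hy), hJ, map_neg, tcc_cancel (symm_mem hy)]

end

end Crest.Agent.R240.Ell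
end

-- ▼ part R240/E/Abs
section

/-!
Row 240 (S0371), Lemma A, abstract part.  A right parametrix `π ∘ S = 1 + K` on a Fréchet space of
smooth objects, with `K` = small + smoothing in every seminorm and small modulo finite rank in the
weakest seminorm, gives bounded solvability of `π c = π b`.
-/

set_option autoImplicit false

open Filter Topology

noncomputable section
namespace Crest.Agent.R240.EAbs

variable {X : Type*} [AddCommGroup X] [Module ℝ X]

/-- The Neumann series converges in all seminorms. -/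
theorem bijective_one_add (p : ℕ → Seminorm ℝ X) (hsep : ∀ x, p 0 x = 0 → x = 0)
    (hcomp : ∀ u : ℕ → X, (∀ k, Summable fun n => p k (u n)) →
      ∃ x, ∀ k, Tendsto (fun N => p k (x - ∑ n ∈ Finset.range N, u n)) atTop (𝓝 0))
    (Q : X →ₗ[ℝ] X) (h0 : ∀ x, p 0 (Q x) ≤ (1 / 2) * p 0 x)
    (hk : ∀ k, ∃ C, ∀ x, p k (Q x) ≤ (1 / 2) * p k x + C * p 0 x) :
    Function.Bijective (fun x => x + Q x) := by
  constructor
  · intro x y hxy
    have hxy' : x + Q x = y + Q y := hxy
    have h1 : x - y = - Q (x - y) := by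
      rw [map_sub]
      have : x - y + (Q x - Q y) = 0 := by
        have : x - y + (Q x - Q y) = (x + Q x) - (y + Q y) := by abel
        rw [this, hxy', sub_self]
      exact eq_neg_of_add_eq_zero_left this
    have h2 : p 0 (x - y) ≤ (1 / 2) * p 0 (x - y) := by
      calc p 0 (x - y) = p 0 (- Q (x - y)) := by rw [← h1]
        _ = p 0 (Q (x - y)) := map_neg_eq_map _ _
        _ ≤ _ := h0 _
    have h3 : p 0 (x - y) = 0 := le_antisymm (by linarith [apply_nonneg (p 0) (x - y)])
      (apply_nonneg _ _)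
    exact sub_eq_zero.mp (hsep _ h3)
  · intro w
    set u : ℕ → X := fun n => ((-Q) ^ n) w with hu
    have hu0 : u 0 = w := by simp [hu]
    have hus : ∀ n, u (n + 1) = - Q (u n) := by
      intro n
      simp only [hu, pow_succ']
      rfl
    have hp0 : ∀ n, p 0 (u n) ≤ (1 / 2) ^ n * p 0 w := by
      intro n
      induction n with
      | zero => simp [hu0]
      | succ n ih =>
        rw [hus, map_neg_eq_map]
        calc p 0 (Q (u n)) ≤ (1 / 2) * p 0 (u n) := h0 _
          _ ≤ (1 / 2) * ((1 / 2) ^ n * p 0 w) := by gcongr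
          _ = _ := by ring
    have hpk : ∀ k, Summable fun n => p k (u n) := by
      intro k
      obtain ⟨C, hC⟩ := hk k
      have hbd : ∀ n : ℕ, p k (u n) ≤ (p k w + 2 * |C| * p 0 w * n) * (1 / 2) ^ n := by
        intro n
        induction n with
        | zero => simp [hu0]
        | succ n ih =>
          rw [hus, map_neg_eq_map]
          have h1 : C * p 0 (u n) ≤ |C| * ((1 / 2) ^ n * p 0 w) :=
            mul_le_mul (le_abs_self C) (hp0 n) (apply_nonneg _ _) (abs_nonneg _)
          calc p k (Q (u n)) ≤ (1 / 2) * p k (u n) + C * p 0 (u n) := hC _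
            _ ≤ (1 / 2) * ((p k w + 2 * |C| * p 0 w * n) * (1 / 2) ^ n) +
                |C| * ((1 / 2) ^ n * p 0 w) := by gcongr
            _ = _ := by push_cast; ring
      have hs1 : Summable fun n : ℕ => (1 / 2 : ℝ) ^ n := summable_geometric_two
      have hs2 : Summable fun n : ℕ => (n : ℝ) * (1 / 2 : ℝ) ^ n := by
        have := summable_pow_mul_geometric_of_norm_lt_one (R := ℝ) 1 (r := (1 / 2 : ℝ))
          (by norm_num)
        simpa using this
      refine Summable.of_nonneg_of_le (fun n => apply_nonneg _ _) hbd ?_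
      have : (fun n : ℕ => (p k w + 2 * |C| * p 0 w * n) * (1 / 2 : ℝ) ^ n) =
          fun n : ℕ => p k w * (1 / 2 : ℝ) ^ n + 2 * |C| * p 0 w * ((n : ℝ) * (1 / 2 : ℝ) ^ n) := by
        funext n; ring
      rw [this]
      exact (hs1.mul_left _).add (hs2.mul_left _)
    obtain ⟨x, hx⟩ := hcomp u hpk
    refine ⟨x, ?_⟩
    have hsum : ∀ N, (∑ n ∈ Finset.range N, u n) + Q (∑ n ∈ Finset.range N, u n) = w - u N := by
      intro N
      induction N with
      | zero => simp [hu0]
      | succ N ih =>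
        rw [Finset.sum_range_succ, map_add]
        have : (∑ n ∈ Finset.range N, u n) + u N + (Q (∑ n ∈ Finset.range N, u n) + Q (u N)) =
            ((∑ n ∈ Finset.range N, u n) + Q (∑ n ∈ Finset.range N, u n)) + u N + Q (u N) := by
          abel
        rw [this, ih, hus]
        abel
    have hle : ∀ N, p 0 (x + Q x - w) ≤
        (3 / 2) * p 0 (x - ∑ n ∈ Finset.range N, u n) + (1 / 2) ^ N * p 0 w := by
      intro N
      set s := ∑ n ∈ Finset.range N, u n
      have h1 : x + Q x - w = (x - s) + Q (x - s) + (- u N) := by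
        have := hsum N
        rw [map_sub]
        have h2 : w = s + Q s + u N := by rw [this]; abel
        rw [h2]; abel
      calc p 0 (x + Q x - w) = p 0 ((x - s) + Q (x - s) + (- u N)) := by rw [h1]
        _ ≤ p 0 ((x - s) + Q (x - s)) + p 0 (- u N) := map_add_le_add _ _ _
        _ ≤ p 0 (x - s) + p 0 (Q (x - s)) + p 0 (u N) := by
            rw [map_neg_eq_map]
            gcongr
            exact map_add_le_add _ _ _
        _ ≤ p 0 (x - s) + (1 / 2) * p 0 (x - s) + (1 / 2) ^ N * p 0 w := by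
            gcongr
            · exact h0 _
            · exact hp0 N
        _ = _ := by ring
    have hlim : Tendsto (fun N => (3 / 2) * p 0 (x - ∑ n ∈ Finset.range N, u n) +
        (1 / 2 : ℝ) ^ N * p 0 w) atTop (𝓝 0) := by
      have h1 := (hx 0).const_mul (3 / 2 : ℝ)
      have h2 := (tendsto_pow_atTop_nhds_zero_of_lt_one (r := (1 / 2 : ℝ)) (by norm_num)
        (by norm_num)).mul_const (p 0 w)
      simpa using h1.add h2
    have hz : p 0 (x + Q x - w) ≤ 0 := ge_of_tendsto' hlim hle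
    exact sub_eq_zero.mp (hsep _ (le_antisymm hz (apply_nonneg _ _)))

/-- inverse of `1 + Q` with bounds in all seminorms. -/
theorem exists_inverse (p : ℕ → Seminorm ℝ X) (hsep : ∀ x, p 0 x = 0 → x = 0)
    (hcomp : ∀ u : ℕ → X, (∀ k, Summable fun n => p k (u n)) →
      ∃ x, ∀ k, Tendsto (fun N => p k (x - ∑ n ∈ Finset.range N, u n)) atTop (𝓝 0))
    (Q : X →ₗ[ℝ] X) (h0 : ∀ x, p 0 (Q x) ≤ (1 / 2) * p 0 x)
    (hk : ∀ k, ∃ C, ∀ x, p k (Q x) ≤ (1 / 2) * p k x + C * p 0 x) :
    ∃ G : X →ₗ[ℝ] X, (∀ x, G x + Q (G x) = x) ∧ (∀ x, G (x + Q x) = x) ∧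
      (∀ x, p 0 (G x) ≤ 2 * p 0 x) ∧
      ∀ k, ∃ C, 0 ≤ C ∧ ∀ x, p k (G x) ≤ 2 * p k x + C * p 0 x := by
  have hb := bijective_one_add p hsep hcomp Q h0 hk
  set T : X →ₗ[ℝ] X := LinearMap.id + Q with hT
  have hT' : (T : X → X) = fun x => x + Q x := by
    funext x; simp [hT]
  have hbT : Function.Bijective T := by rw [hT']; exact hb
  set e := LinearEquiv.ofBijective T hbT with he
  have he' : ∀ x, e x = x + Q x := fun x => by
    rw [he, LinearEquiv.ofBijective_apply, hT']
  have hG : ∀ x, e.symm x + Q (e.symm x) = x := fun x => by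
    rw [← he', LinearEquiv.apply_symm_apply]
  have hG0 : ∀ x, p 0 (e.symm x) ≤ 2 * p 0 x := by
    intro x
    have h1 : e.symm x = x - Q (e.symm x) := eq_sub_of_add_eq (hG x)
    have h2 : p 0 (e.symm x) ≤ p 0 x + p 0 (Q (e.symm x)) := by
      conv_lhs => rw [h1]
      exact map_sub_le_add _ _ _
    linarith [h0 (e.symm x)]
  refine ⟨e.symm.toLinearMap, hG, fun x => ?_, hG0, fun k => ?_⟩
  · have : e.symm (x + Q x) = x := by rw [← he', LinearEquiv.symm_apply_apply]
    exact this
  · obtain ⟨C, hC⟩ := hk k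
    refine ⟨4 * |C|, by positivity, fun x => ?_⟩
    have h1 : e.symm x = x - Q (e.symm x) := eq_sub_of_add_eq (hG x)
    have h2 : p k (e.symm x) ≤ p k x + p k (Q (e.symm x)) := by
      conv_lhs => rw [h1]
      exact map_sub_le_add _ _ _
    have h3 : C * p 0 (e.symm x) ≤ |C| * (2 * p 0 x) :=
      mul_le_mul (le_abs_self C) (hG0 x) (apply_nonneg _ _) (abs_nonneg _)
    have h4 := hC (e.symm x)
    change p k (e.symm x) ≤ _
    linarith

theorem map_sum_le_sum_aux {Y : Type*} [AddCommGroup Y] [Module ℝ Y] (q : Seminorm ℝ Y) {n : ℕ}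
    (s : Finset (Fin n)) (g : Fin n → Y) : q (∑ j ∈ s, g j) ≤ ∑ j ∈ s, q (g j) := by
  classical
  induction s using Finset.induction_on with
  | empty => simp
  | insert a s ha ih =>
    rw [Finset.sum_insert ha, Finset.sum_insert ha]
    exact (map_add_le_add q _ _).trans (by gcongr)

/-- `π c = π b` is boundedly solvable, given a right parametrix. -/
theorem lemmaA_abs {Z : Type*} [AddCommGroup Z] [Module ℝ Z] (p : ℕ → Seminorm ℝ X)
    (hsep : ∀ x, p 0 x = 0 → x = 0)
    (hcomp : ∀ u : ℕ → X, (∀ k, Summable fun n => p k (u n)) →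
      ∃ x, ∀ k, Tendsto (fun N => p k (x - ∑ n ∈ Finset.range N, u n)) atTop (𝓝 0))
    (K : X →ₗ[ℝ] X) {n : ℕ} (l : Fin n → X →ₗ[ℝ] ℝ) (f : Fin n → X) (Cl : ℝ)
    (hl : ∀ j x, |l j x| ≤ Cl * p 0 x)
    (h0 : ∀ x, p 0 (K x - ∑ j, l j x • f j) ≤ (1 / 2) * p 0 x)
    (hk : ∀ k, ∃ C, ∀ x, p k (K x) ≤ (1 / 2) * p k x + C * p 0 x)
    (N : Seminorm ℝ Z) (π : Z →ₗ[ℝ] X) (S : X →ₗ[ℝ] Z) (hS : ∀ w, π (S w) = w + K w)
    (m : ℕ) (hN : ∃ C, ∀ w, N (S w) ≤ C * (p 0 w + p m w)) :
    ∃ C, 0 ≤ C ∧ ∀ b, ∃ c, π c = π b ∧ N c ≤ C * (p 0 (π b) + p m (π b)) := by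
  classical
  set F : X →ₗ[ℝ] X := ∑ j, (l j).smulRight (f j) with hF
  have hFx : ∀ x, F x = ∑ j, l j x • f j := fun x => by
    simp [hF, LinearMap.sum_apply]
  set Q : X →ₗ[ℝ] X := K - F with hQ
  have hQ0 : ∀ x, p 0 (Q x) ≤ (1 / 2) * p 0 x := fun x => by
    rw [hQ, LinearMap.sub_apply, hFx]; exact h0 x
  have hFk : ∀ k x, p k (F x) ≤ (∑ j, |Cl| * p k (f j)) * p 0 x := by
    intro k x
    rw [hFx, Finset.sum_mul]
    refine (map_sum_le_sum_aux (p k) _ _).trans (Finset.sum_le_sum fun j _ => ?_)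
    rw [map_smul_eq_mul, Real.norm_eq_abs]
    have h1 : |l j x| ≤ |Cl| * p 0 x := (hl j x).trans (by gcongr; exact le_abs_self _)
    calc |l j x| * p k (f j) ≤ (|Cl| * p 0 x) * p k (f j) := by gcongr
      _ = _ := by ring
  have hQk : ∀ k, ∃ C, ∀ x, p k (Q x) ≤ (1 / 2) * p k x + C * p 0 x := by
    intro k
    obtain ⟨C, hC⟩ := hk k
    refine ⟨C + ∑ j, |Cl| * p k (f j), fun x => ?_⟩
    calc p k (Q x) = p k (K x - F x) := by rw [hQ, LinearMap.sub_apply]
      _ ≤ p k (K x) + p k (F x) := map_sub_le_add _ _ _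
      _ ≤ ((1 / 2) * p k x + C * p 0 x) + (∑ j, |Cl| * p k (f j)) * p 0 x :=
          add_le_add (hC x) (hFk k x)
      _ = _ := by ring
  obtain ⟨G, hG1, -, hG0, hGk⟩ := exists_inverse p hsep hcomp Q hQ0 hQk
  obtain ⟨CN, hCN⟩ := hN
  obtain ⟨Cm, hCm0, hCm⟩ := hGk m
  -- the linear section
  set Φ : (Fin n → ℝ) →ₗ[ℝ] X := ∑ j, (LinearMap.proj j : (Fin n → ℝ) →ₗ[ℝ] ℝ).smulRight (f j)
    with hΦ
  have hΦx : ∀ t, Φ t = ∑ j, t j • f j := fun t => by simp [hΦ, LinearMap.sum_apply]
  set T : Submodule ℝ (Fin n → ℝ) := (LinearMap.range π).comap Φ with hT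
  obtain ⟨ρ, hρ⟩ := LinearMap.exists_rightInverse_of_surjective π.rangeRestrict
    (LinearMap.range_rangeRestrict π)
  set φ₀ : T →ₗ[ℝ] Z := ρ.comp (Φ.restrict (p := T) (q := LinearMap.range π) (fun t ht => ht))
    with hφ₀
  obtain ⟨φ, hφ⟩ := LinearMap.exists_extend φ₀
  have hπφ : ∀ t ∈ T, π (φ t) = Φ t := by
    intro t ht
    have h1 : φ t = φ₀ ⟨t, ht⟩ := by
      rw [← hφ]; rfl
    rw [h1, hφ₀]
    have h2 : π.rangeRestrict (ρ ((Φ.restrict (p := T) (q := LinearMap.range π)
        (fun t ht => ht)) ⟨t, ht⟩)) = (Φ.restrict (p := T) (q := LinearMap.range π)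
        (fun t ht => ht)) ⟨t, ht⟩ :=
      congrArg (fun L : LinearMap.range π →ₗ[ℝ] LinearMap.range π =>
        L ((Φ.restrict (p := T) (q := LinearMap.range π) (fun t ht => ht)) ⟨t, ht⟩)) hρ
    exact congrArg Subtype.val h2
  have hNφ : ∀ t : Fin n → ℝ, N (φ t) ≤ ∑ j, |t j| * N (φ (Pi.single j 1)) := by
    intro t
    have h1 : t = ∑ j, t j • (Pi.single j (1 : ℝ) : Fin n → ℝ) := by
      funext i
      simp [Finset.sum_apply, Pi.single_apply]
    have h2 : φ t = ∑ j, t j • φ (Pi.single j 1) := by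
      conv_lhs => rw [h1]
      rw [map_sum]
      simp
    rw [h2]
    refine (map_sum_le_sum_aux N _ _).trans (Finset.sum_le_sum fun j _ => ?_)
    rw [map_smul_eq_mul, Real.norm_eq_abs]
  set Cφ : ℝ := ∑ j : Fin n, 2 * |Cl| * N (φ (Pi.single j 1)) with hCφ
  have hCφ0 : 0 ≤ Cφ := Finset.sum_nonneg fun j _ => by positivity
  refine ⟨|CN| * (2 + Cm + 2) + Cφ, by positivity, fun b => ?_⟩
  set v := π b with hv
  set t : Fin n → ℝ := fun j => l j (G v) with ht
  have hFG : F (G v) = Φ t := by rw [hFx, hΦx]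
  have hπS : π (S (G v)) = v + F (G v) := by
    rw [hS]
    have h1 : G v + Q (G v) = v := hG1 v
    have h2 : Q (G v) = K (G v) - F (G v) := by rw [hQ, LinearMap.sub_apply]
    have h3 : G v + K (G v) = (G v + Q (G v)) + F (G v) := by rw [h2]; abel
    rw [h3, h1]
  have htT : t ∈ T := by
    rw [hT, Submodule.mem_comap, ← hFG]
    exact ⟨S (G v) - b, by rw [map_sub, hπS]; abel⟩
  refine ⟨S (G v) - φ t, ?_, ?_⟩
  · rw [map_sub, hπS, hπφ t htT, hFG]; abel
  · have h1 : N (S (G v)) ≤ |CN| * (2 + Cm + 2) * (p 0 v + p m v) := by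
      have h2 := hCN (G v)
      have h3 : p 0 (G v) + p m (G v) ≤ (2 + Cm + 2) * (p 0 v + p m v) := by
        have h4 := hG0 v
        have h5 := hCm v
        have h6 := apply_nonneg (p 0) v
        have h7 := apply_nonneg (p m) v
        nlinarith [mul_nonneg hCm0 h7]
      calc N (S (G v)) ≤ CN * (p 0 (G v) + p m (G v)) := h2
        _ ≤ |CN| * (p 0 (G v) + p m (G v)) := by
            have := add_nonneg (apply_nonneg (p 0) (G v)) (apply_nonneg (p m) (G v))
            exact mul_le_mul_of_nonneg_right (le_abs_self _) this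
        _ ≤ |CN| * ((2 + Cm + 2) * (p 0 v + p m v)) := by gcongr
        _ = _ := by ring
    have h8 : N (φ t) ≤ Cφ * (p 0 v + p m v) := by
      refine (hNφ t).trans ?_
      rw [hCφ, Finset.sum_mul]
      refine Finset.sum_le_sum fun j _ => ?_
      have h9 : |t j| ≤ 2 * |Cl| * (p 0 v + p m v) := by
        have h10 := hl j (G v)
        have h11 := hG0 v
        have h12 := apply_nonneg (p 0) (G v)
        have h13 := apply_nonneg (p m) v
        have h14 := apply_nonneg (p 0) v
        calc |t j| ≤ Cl * p 0 (G v) := h10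
          _ ≤ |Cl| * p 0 (G v) := mul_le_mul_of_nonneg_right (le_abs_self _) h12
          _ ≤ |Cl| * (2 * p 0 v) := by gcongr
          _ ≤ 2 * |Cl| * (p 0 v + p m v) := by nlinarith [abs_nonneg Cl, mul_nonneg (abs_nonneg Cl) h13]
      have h15 := apply_nonneg N (φ (Pi.single j 1))
      calc |t j| * N (φ (Pi.single j 1)) ≤ (2 * |Cl| * (p 0 v + p m v)) * N (φ (Pi.single j 1)) := by
            gcongr
        _ = _ := by ring
    calc N (S (G v) - φ t) ≤ N (S (G v)) + N (φ t) := map_sub_le_add _ _ _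
      _ ≤ |CN| * (2 + Cm + 2) * (p 0 v + p m v) + Cφ * (p 0 v + p m v) := add_le_add h1 h8
      _ = _ := by ring

end Crest.Agent.R240.EAbs
end
end

-- ▼ part R240/EllM3
section

/-!
Row 240, Lemma A (helper106), manifold part 3: seminorms, completeness, glued operators.
-/

set_option autoImplicit false
set_option maxSynthPendingDepth 3
set_option linter.unusedSectionVars false

open scoped ContDiff Manifold Topology
open Set Filter

namespace Crest.Agent.R240.Ell

noncomputable section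

open Crest.Agent.R240.Ch Crest.Agent.R240.KLoc

variable {M : Type*} [TopologicalSpace M] [ChartedSpace E4 M] [IsManifold 𝓘(ℝ, E4) ∞ M]

variable (M) in
/-- smooth two-forms. -/
def SmF : Submodule ℝ (F2 E4 M) where
  carrier := {a | Smooth2 a}
  add_mem' ha hb := Smooth2.add ha hb
  zero_mem' := smooth2_zero
  smul_mem' c _ ha := Smooth2.smul c ha

variable (M) in
/-- smooth closed two-forms. -/
def ZA : Submodule ℝ (F2 E4 M) where
  carrier := {a | Smooth2 a ∧ Closed2 a}
  add_mem' ha hb := ⟨Smooth2.add ha.1 hb.1, Closed2.add ha.1 hb.1 ha.2 hb.2⟩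
  zero_mem' := ⟨smooth2_zero, closed2_zero⟩
  smul_mem' c _ ha := ⟨Smooth2.smul c ha.1, Closed2.smul c ha.1 ha.2⟩

/-- smooth anti-invariant two-forms. -/
def XA (J : EndF E4 M) : Submodule ℝ (F2 E4 M) where
  carrier := {a | Smooth2 a ∧ bppL J a = a}
  add_mem' ha hb := ⟨Smooth2.add ha.1 hb.1, by rw [map_add, ha.2, hb.2]⟩
  zero_mem' := ⟨smooth2_zero, map_zero _⟩
  smul_mem' c _ ha := ⟨Smooth2.smul c ha.1, by rw [map_smul, ha.2]⟩

/-! ### gluing -/

variable (A : EAtl M)

/-- admissible local forms. -/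
structure Adm (i : Fin A.n) (b : E4 → Bil) : Prop where
  cs : CS b
  alt : ∀ y, Alt (b y)
  off : ∀ z ∉ closure (A.V i), b z = 0

theorem Adm.loc (i : Fin A.n) {a : F2 E4 M} (ha : Smooth2 a) : Adm A i (loc A i a) where
  cs := cs_loc A i ha
  alt := loc_alt A i ha
  off _ hz := loc_off A i a fun h => hz (subset_closure (A.U_sub_V i (A.supp i h)))

theorem Adm.sub {i : Fin A.n} {b c : E4 → Bil} (hb : Adm A i b) (hc : Adm A i c) :
    Adm A i (b - c) where
  cs := hb.cs.sub hc.cs
  alt y := by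
    have h : (b - c) y = b y + (-1 : ℝ) • c y := by
      rw [Pi.sub_apply, neg_one_smul, sub_eq_add_neg]
    rw [h]
    exact Alt.add' (hb.alt y) (Alt.smul' (hc.alt y) _)
  off z hz := by rw [Pi.sub_apply, hb.off z hz, hc.off z hz, sub_zero]

/-- the glued form. -/
def glob (g : Fin A.n → E4 → Bil) : F2 E4 M := ∑ i, ext2 (A.p i) (g i)

theorem glob_loc (a : F2 E4 M) : glob A (fun i => loc A i a) = a := sum_ext2_loc A a

theorem glob_add (g h : Fin A.n → E4 → Bil) :
    glob A (fun i => g i + h i) = glob A g + glob A h := by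
  unfold glob
  rw [← Finset.sum_add_distrib]
  exact Finset.sum_congr rfl fun i _ => ext2_add _ _ _

theorem glob_smul (r : ℝ) (g : Fin A.n → E4 → Bil) :
    glob A (fun i => r • g i) = r • glob A g := by
  unfold glob
  rw [Finset.smul_sum]
  exact Finset.sum_congr rfl fun i _ => ext2_smul _ _ _

theorem glob_sub (g h : Fin A.n → E4 → Bil) :
    glob A (fun i => g i - h i) = glob A g - glob A h := by
  have h1 := glob_add A g (fun i => (-1 : ℝ) • h i)
  rw [glob_smul, neg_one_smul, ← sub_eq_add_neg] at h1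
  rw [← h1]
  congr 1
  funext i
  rw [neg_one_smul, sub_eq_add_neg]

theorem smooth2_ext2_adm [T2Space M] {i : Fin A.n} {b : E4 → Bil} (hb : Adm A i b) :
    Smooth2 (ext2 (A.p i) b) :=
  smooth2_ext2 hb.cs.1 (A.compact_V i) (A.closure_V i) hb.off hb.alt

theorem smooth2_glob [T2Space M] {g : Fin A.n → E4 → Bil} (hg : ∀ i, Adm A i (g i)) :
    Smooth2 (glob A g) :=
  Submodule.sum_mem (SmF M) fun i _ => smooth2_ext2_adm A (hg i)

theorem exists_transC [T2Space M] (k : ℕ) : ∃ C, 0 ≤ C ∧ ∀ i j (b : E4 → Bil), CS b →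
    (∀ z ∉ closure (A.V i), b z = 0) → nk k (loc A j (ext2 (A.p i) b)) ≤ C * nk k b := by
  have h1 : ∀ i j, ∃ C, 0 ≤ C ∧ ∀ (b : E4 → Bil), CS b →
      (∀ z ∉ closure (A.V i), b z = 0) → nk k (loc A j (ext2 (A.p i) b)) ≤ C * nk k b := by
    intro i j
    obtain ⟨T, τ, hT, hτ, h⟩ := trans_bound (A.p i) (A.p j) (A.cs j) (tsupport_c A j)
      (A.compact_V i) (A.closure_V i)
    obtain ⟨C, hC0, hC⟩ := comp_bound hT hτ k
    refine ⟨C, hC0, fun b hb hz => nk_le ?_⟩
    have h2 := hC b _ hb.1 (hb.ckB_nk k)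
    rw [← h b hz] at h2
    exact h2
  choose C hC0 hC using h1
  refine ⟨∑ i, ∑ j, C i j, Finset.sum_nonneg fun i _ => Finset.sum_nonneg fun j _ => hC0 i j,
    fun i j b hb hz => (hC i j b hb hz).trans ?_⟩
  refine mul_le_mul_of_nonneg_right ?_ (nk_nonneg _ _)
  refine (Finset.single_le_sum (f := fun j => C i j) (fun j _ => hC0 i j)
    (Finset.mem_univ j)).trans ?_
  exact Finset.single_le_sum (f := fun i => ∑ j, C i j)
    (fun i _ => Finset.sum_nonneg fun j _ => hC0 i j) (Finset.mem_univ i)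

/-- the `C^k` norm of a two-form. -/
def pn (k : ℕ) (a : F2 E4 M) : ℝ := ∑ i, nk k (loc A i a)

theorem pn_nonneg (k : ℕ) (a : F2 E4 M) : 0 ≤ pn A k a :=
  Finset.sum_nonneg fun _ _ => nk_nonneg _ _

theorem nk_le_pn (k : ℕ) (i : Fin A.n) (a : F2 E4 M) : nk k (loc A i a) ≤ pn A k a :=
  Finset.single_le_sum (f := fun i => nk k (loc A i a)) (fun _ _ => nk_nonneg _ _)
    (Finset.mem_univ i)

theorem pn_mono {k l : ℕ} (h : k ≤ l) {a : F2 E4 M} (ha : Smooth2 a) : pn A k a ≤ pn A l a :=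
  Finset.sum_le_sum fun i _ => nk_mono (cs_loc A i ha) h

theorem pn_add (k : ℕ) {a b : F2 E4 M} (ha : Smooth2 a) (hb : Smooth2 b) :
    pn A k (a + b) ≤ pn A k a + pn A k b := by
  unfold pn
  rw [← Finset.sum_add_distrib]
  refine Finset.sum_le_sum fun i _ => ?_
  rw [loc_add]
  exact nk_add_le (cs_loc A i ha) (cs_loc A i hb) k

theorem pn_smul (k : ℕ) (r : ℝ) {a : F2 E4 M} (ha : Smooth2 a) :
    pn A k (r • a) = ‖r‖ * pn A k a := by
  unfold pn
  rw [Finset.mul_sum]
  refine Finset.sum_congr rfl fun i _ => ?_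
  rw [loc_smul, nk_smul (cs_loc A i ha), Real.norm_eq_abs]

theorem exists_globC [T2Space M] (k : ℕ) : ∃ C, 0 ≤ C ∧ ∀ g : Fin A.n → E4 → Bil,
    (∀ i, Adm A i (g i)) → pn A k (glob A g) ≤ C * ∑ i, nk k (g i) := by
  obtain ⟨C, hC0, hC⟩ := exists_transC A k
  refine ⟨A.n * C, by positivity, fun g hg => ?_⟩
  have h1 : ∀ j, nk k (loc A j (glob A g)) ≤ C * ∑ i, nk k (g i) := by
    intro j
    unfold glob
    rw [loc_sum, Finset.mul_sum]
    refine (nk_sum_le _ (fun i _ => cs_loc A j (smooth2_ext2_adm A (hg i))) k).trans ?_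
    exact Finset.sum_le_sum fun i _ => hC i j (g i) (hg i).cs (hg i).off
  refine (Finset.sum_le_sum fun j _ => h1 j).trans ?_
  rw [Finset.sum_const, Finset.card_univ, Fintype.card_fin, nsmul_eq_mul, mul_assoc]

/-- the seminorms on anti-invariant forms. -/
def pX (J : EndF E4 M) (k : ℕ) : Seminorm ℝ (XA J) :=
  Seminorm.of (fun w => pn A k w.1) (fun x y => pn_add A k x.2.1 y.2.1)
    (fun r x => pn_smul A k r x.2.1)

/-- the seminorms on closed forms. -/
def pZ (k : ℕ) : Seminorm ℝ (ZA M) :=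
  Seminorm.of (fun w => pn A k w.1) (fun x y => pn_add A k x.2.1 y.2.1)
    (fun r x => pn_smul A k r x.2.1)

theorem pX_apply (J : EndF E4 M) (k : ℕ) (w : XA J) : pX A J k w = pn A k w.1 := rfl

theorem pZ_apply (k : ℕ) (w : ZA M) : pZ A k w = pn A k w.1 := rfl

theorem pn_sep {a : F2 E4 M} (ha : Smooth2 a) (h : pn A 0 a = 0) : a = 0 := by
  have h1 : ∀ i, loc A i a = 0 := by
    intro i
    have h2 : nk 0 (loc A i a) ≤ 0 := (nk_le_pn A 0 i a).trans h.le
    funext y
    have h3 := (norm_le_nk (cs_loc A i ha) 0 y).trans h2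
    exact norm_le_zero_iff.1 h3
  rw [← sum_ext2_loc A a]
  refine Finset.sum_eq_zero fun i _ => ?_
  rw [h1 i, ext2_zero]

theorem ext2_congr {p : M} {b c : E4 → Bil} (h : ∀ y ∈ (chartAt E4 p).target, b y = c y) :
    ext2 p b = ext2 p c := by
  funext x
  by_cases hx : x ∈ (chartAt E4 p).source
  · unfold ext2
    rw [if_pos hx, if_pos hx, h _ ((chartAt E4 p).map_source hx)]
  · unfold ext2
    rw [if_neg hx, if_neg hx]

theorem loc_anti {J : EndF E4 M} {a : F2 E4 M} (ha : bpp J a = a) (i : Fin A.n) {y : E4}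
    (hy : y ∈ (chartAt E4 (A.p i)).target) :
    antip (repJ (A.p i) J y) (loc A i a y) = loc A i a y := by
  unfold loc
  rw [antip_smul]
  congr 1
  rw [← rep_bpp' hy, ha]

theorem bppL_glob (J : EndF E4 M) (g : Fin A.n → E4 → Bil)
    (h : ∀ i, ∀ y ∈ (chartAt E4 (A.p i)).target, antip (repJ (A.p i) J y) (g i y) = g i y) :
    bppL J (glob A g) = glob A g := by
  unfold glob
  rw [map_sum]
  refine Finset.sum_congr rfl fun i _ => ?_
  rw [bppL_apply, bpp_ext2]
  exact ext2_congr (h i)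

theorem alt_of_altL {b : Bil} (h : altL b = (2 : ℝ) • b) : Alt b := by
  intro v
  have h1 := congrArg (fun c : Bil => c v v) h
  have h2 : ((2 : ℝ) • b) v v = 2 * b v v := rfl
  simp only [altL_apply, h2, sub_self] at h1
  linarith

/-! ### completeness -/

theorem complete_X [T2Space M] (J : EndF E4 M) (u : ℕ → XA J)
    (hu : ∀ k, Summable fun n => pX A J k (u n)) :
    ∃ x, ∀ k, Tendsto (fun N => pX A J k (x - ∑ n ∈ Finset.range N, u n)) atTop (𝓝 0) := by
  have hsum : ∀ i k, Summable fun n => nk k (loc A i (u n).1) := fun i k =>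
    Summable.of_nonneg_of_le (fun n => nk_nonneg _ _) (fun n => nk_le_pn A k i _) (hu k)
  have hsum' : ∀ N i k, Summable fun n => nk k (loc A i (u (n + N)).1) := fun N i k =>
    (summable_nat_add_iff (f := fun n => nk k (loc A i (u n).1)) N).2 (hsum i k)
  have hS := fun N i => series (S := tsupport (A.c i)) (A.cs i).2 (fun n => loc A i (u (n + N)).1)
    (fun n => (cs_loc A i (u (n + N)).2.1).1) (fun n x hx => loc_off A i _ hx) (hsum' N i)
  set r : ℕ → Fin A.n → E4 → Bil := fun N i y => ∑' n, loc A i (u (n + N)).1 y with hr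
  have hadm : ∀ N i, Adm A i (r N i) := by
    intro N i
    refine ⟨(hS N i).1, fun y => ?_, fun z hz => (hS N i).2.1 z fun h =>
      hz (subset_closure (A.U_sub_V i (A.supp i h)))⟩
    apply alt_of_altL
    rw [hr]
    simp only
    rw [altL.map_tsum ((hS N i).2.2.1 y), ← tsum_const_smul'' (2 : ℝ)]
    exact tsum_congr fun n => altL_of_alt (loc_alt A i (u (n + N)).2.1 y)
  have hanti : ∀ N i, ∀ y ∈ (chartAt E4 (A.p i)).target,
      antip (repJ (A.p i) J y) (r N i y) = r N i y := by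
    intro N i y hy
    rw [hr]
    simp only
    rw [← antiL_apply, (antiL _).map_tsum ((hS N i).2.2.1 y)]
    refine tsum_congr fun n => ?_
    rw [antiL_apply]
    exact loc_anti A (u (n + N)).2.2 i hy
  have hx : glob A (r 0) ∈ XA J := ⟨smooth2_glob A (hadm 0), bppL_glob A J _ (hanti 0)⟩
  refine ⟨⟨glob A (r 0), hx⟩, fun k => ?_⟩
  obtain ⟨C, hC0, hC⟩ := exists_globC A k
  have key : ∀ N, pX A J k (⟨glob A (r 0), hx⟩ - ∑ n ∈ Finset.range N, u n) ≤
      C * ∑ i, ∑' n, nk k (loc A i (u (n + N)).1) := by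
    intro N
    have h1 : ((⟨glob A (r 0), hx⟩ - ∑ n ∈ Finset.range N, u n : XA J) : F2 E4 M)
        = glob A (r N) := by
      have h2 : ((∑ n ∈ Finset.range N, u n : XA J) : F2 E4 M)
          = glob A (fun i => ∑ n ∈ Finset.range N, loc A i (u n).1) := by
        rw [AddSubmonoidClass.coe_finsetSum]
        have h3 : ∀ i, ∑ n ∈ Finset.range N, loc A i (u n).1 =
            loc A i (∑ n ∈ Finset.range N, (u n).1) := fun i => (loc_sum A i _ _).symm
        simp only [h3]
        rw [glob_loc]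
      have h4 : ((⟨glob A (r 0), hx⟩ - ∑ n ∈ Finset.range N, u n : XA J) : F2 E4 M)
          = glob A (r 0) - ((∑ n ∈ Finset.range N, u n : XA J) : F2 E4 M) := rfl
      rw [h4, h2, ← glob_sub]
      congr 1
      funext i y
      have h5 := ((hS 0 i).2.2.1 y).sum_add_tsum_nat_add N
      simp only [add_zero] at h5
      rw [Pi.sub_apply, Finset.sum_apply]
      simp only [hr, add_zero]
      rw [← h5]
      abel
    rw [pX_apply, h1]
    refine (hC _ (hadm N)).trans ?_
    refine mul_le_mul_of_nonneg_left (Finset.sum_le_sum fun i _ => (hS N i).2.2.2 k) hC0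
  have hlim : Tendsto (fun N => C * ∑ i, ∑' n, nk k (loc A i (u (n + N)).1)) atTop (𝓝 0) := by
    have h1 : Tendsto (fun N => ∑ i, ∑' n, nk k (loc A i (u (n + N)).1)) atTop (𝓝 (∑ _i, 0)) :=
      tendsto_finsetSum _ fun i _ => tendsto_sum_nat_add (fun n => nk k (loc A i (u n).1))
    rw [Finset.sum_const_zero] at h1
    simpa using h1.const_mul C
  exact squeeze_zero (fun N => apply_nonneg _ _) key hlim

end

end Crest.Agent.R240.Ell
end

-- ▼ part R240/EllM4

/-!
Row 240, Lemma A (helper106), manifold part 4: `LocalThm` implies Lemma A (own norms).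
-/

set_option autoImplicit false
set_option maxSynthPendingDepth 3
set_option linter.unusedSectionVars false

open scoped ContDiff Manifold Topology
open Set Filter

namespace Crest.Agent.R240.Ell

noncomputable section

open Crest.Agent.R240.Ch Crest.Agent.R240.KLoc

/-! ### `dS` -/

theorem dS_contDiff {s : E4 → E4 →L[ℝ] ℝ} (hs : ContDiff ℝ ∞ s) : ContDiff ℝ ∞ (dS s) := by
  have h1 : ContDiff ℝ ∞ (fun x => altL (fderiv ℝ s x)) :=
    altL.contDiff.comp (hs.fderiv_right (m := ∞) (by simp))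
  have h2 : dS s = fun x => altL (fderiv ℝ s x) := by
    funext x
    ext u v
    rw [altL_apply]
    rfl
  rw [h2]
  exact h1

theorem dS_eq (s : E4 → E4 →L[ℝ] ℝ) (x : E4) : dS s x = altL (fderiv ℝ s x) := by
  ext u v
  rw [altL_apply]
  rfl

theorem dS_alt (s : E4 → E4 →L[ℝ] ℝ) (x : E4) : Alt (dS s x) := by
  intro v
  rw [dS_apply, sub_self]

theorem dS_off {s : E4 → E4 →L[ℝ] ℝ} {x : E4} (hx : x ∉ tsupport s) : dS s x = 0 := by
  have h : fderiv ℝ s x = 0 := by
    by_contra h0
    exact hx (support_fderiv_subset ℝ h0)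
  rw [dS_eq, h, map_zero]

theorem dS_cs {s : E4 → E4 →L[ℝ] ℝ} (hs : CS s) : CS (dS s) :=
  ⟨dS_contDiff hs.1, HasCompactSupport.intro hs.2 fun _ hx => dS_off hx⟩

theorem dS_add {s t : E4 → E4 →L[ℝ] ℝ} (hs : ContDiff ℝ ∞ s) (ht : ContDiff ℝ ∞ t) :
    dS (s + t) = dS s + dS t := by
  funext x
  rw [Pi.add_apply, dS_eq, dS_eq, dS_eq, fderiv_add (hs.differentiable (by simp) x)
    (ht.differentiable (by simp) x), map_add]

theorem dS_smul {s : E4 → E4 →L[ℝ] ℝ} (hs : ContDiff ℝ ∞ s) (r : ℝ) :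
    dS (r • s) = r • dS s := by
  funext x
  rw [Pi.smul_apply, dS_eq, dS_eq, fderiv_const_smul (hs.differentiable (by simp) x), map_smul]

theorem nk_dS {s : E4 → E4 →L[ℝ] ℝ} (hs : CS s) : nk 0 (dS s) ≤ 2 * nk 1 s := by
  refine nk_le (ckB_zero_iff.2 fun x => ?_)
  have h1 : ‖dS s x‖ ≤ ‖fderiv ℝ s x‖ + ‖(fderiv ℝ s x).flip‖ := norm_sub_le _ _
  rw [ContinuousLinearMap.opNorm_flip] at h1
  have h2 := norm_fderiv_le_nk hs le_rfl x
  linarith

/-! ### test forms -/

variable {M : Type*} [TopologicalSpace M] [ChartedSpace E4 M] [IsManifold 𝓘(ℝ, E4) ∞ M]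

theorem exists_JJ (A : EAtl M) {J : EndF E4 M} (hJ : SmoothJ J) (i : Fin A.n) :
    ∃ JJ : E4 → E4 →L[ℝ] E4, ContDiff ℝ ∞ JJ ∧
      ∀ y ∈ closure (A.V i), JJ y = repJ (A.p i) J y := by
  obtain ⟨θ, hθ, hs, -, h1, -⟩ := exists_cutoff (A.compact_V i)
    (chartAt E4 (A.p i)).open_target (A.closure_V i)
  refine ⟨_, (cs_smul_of_contDiffOn hθ (chartAt E4 (A.p i)).open_target hs (hJ (A.p i))).1,
    fun y hy => ?_⟩
  simp only [h1 y hy, one_smul]

theorem test_loc (A : EAtl M) {J : EndF E4 M} {i : Fin A.n} {JJ : E4 → E4 →L[ℝ] E4}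
    (hJJ : ∀ y ∈ closure (A.V i), JJ y = repJ (A.p i) J y) {w : F2 E4 M} (hw : w ∈ XA J) :
    Test JJ (A.U i) (loc A i w) where
  smooth := (cs_loc A i hw.1).1
  cpt := (cs_loc A i hw.1).2
  supp := (tsupport_loc A i w).trans (A.supp i)
  alt := loc_alt A i hw.1
  anti x u v := by
    by_cases hx : x ∈ A.U i
    · have h1 : JJ x = repJ (A.p i) J x := hJJ x (subset_closure (A.U_sub_V i hx))
      rw [h1]
      exact anti_of_antip_eq (loc_anti A hw.2 i (A.V_sub i (A.U_sub_V i hx))) u v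
    · have h1 : loc A i w x = 0 := by
        unfold loc
        rw [A.c_zero i hx, zero_smul]
      rw [h1]
      simp

theorem adm_of_test (A : EAtl M) {i : Fin A.n} {JJ : E4 → E4 →L[ℝ] E4} {f : E4 → Bil}
    (hf : Test JJ (A.V i) f) : Adm A i f where
  cs := ⟨hf.smooth, hf.cpt⟩
  alt := hf.alt
  off _ hz := image_eq_zero_of_notMem_tsupport fun h => hz (subset_closure (hf.supp h))

theorem anti_of_test (A : EAtl M) {J : EndF E4 M} {i : Fin A.n} {JJ : E4 → E4 →L[ℝ] E4}
    (hJJ : ∀ y ∈ closure (A.V i), JJ y = repJ (A.p i) J y) {f : E4 → Bil}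
    (hf : Test JJ (A.V i) f) (y : E4) : antip (repJ (A.p i) J y) (f y) = f y := by
  by_cases hy : y ∈ closure (A.V i)
  · rw [← hJJ y hy]
    exact antip_eq_self (hf.anti y)
  · rw [(adm_of_test A hf).off y hy, antip_zero']

theorem cs_of_supp (A : EAtl M) {i : Fin A.n} {s : E4 → E4 →L[ℝ] ℝ} (hs : ContDiff ℝ ∞ s)
    (h : tsupport s ⊆ A.V i) : CS s :=
  ⟨hs, (A.compact_V i).of_isClosed_subset (isClosed_tsupport _) (h.trans subset_closure)⟩

theorem adm_dS (A : EAtl M) {i : Fin A.n} {s : E4 → E4 →L[ℝ] ℝ} (hs : ContDiff ℝ ∞ s)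
    (h : tsupport s ⊆ A.V i) : Adm A i (dS s) where
  cs := dS_cs (cs_of_supp A hs h)
  alt := dS_alt s
  off _ hz := dS_off fun h' => hz (subset_closure (h h'))

theorem mem_ZA [T2Space M] (A : EAtl M) {i : Fin A.n} {s : E4 → E4 →L[ℝ] ℝ}
    (hs : ContDiff ℝ ∞ s) (h : tsupport s ⊆ A.V i) : ext2 (A.p i) (dS s) ∈ ZA M :=
  have hsm : Smooth2 (ext2 (A.p i) (dS s)) := smooth2_ext2_adm A (adm_dS A hs h)
  ⟨hsm, closed2_ext2 hs (A.compact_V i) (A.closure_V i) (adm_dS A hs h).off hsm⟩

/-! ### the main theorem -/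

theorem lemmaA_man [T2Space M] (hloc : LocalThm) (A : EAtl M) {J : EndF E4 M} (hJ : SmoothJ J)
    (hsq : ∀ x v, atJ J x (atJ J x v) = -v) :
    ∃ (m : ℕ) (C : ℝ), 0 ≤ C ∧ ∀ b : F2 E4 M, Smooth2 b → Closed2 b →
      ∃ c, Smooth2 c ∧ Closed2 c ∧ bpp J c = bpp J b ∧ pn A 0 c ≤ C * pn A m (bpp J b) := by
  classical
  choose JJ hJJs hJJ using fun i => exists_JJ A hJ i
  have hJJsq : ∀ i, ∀ x ∈ A.V i, ∀ v, JJ i x (JJ i x v) = -v := by
    intro i x hx v
    rw [hJJ i x (subset_closure hx)]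
    exact repJ_sq hsq (A.V_sub i hx) v
  choose Q K hadd hsmul hreg hid hQb hKt hKf using fun i =>
    hloc (JJ i) (hJJs i) (A.U i) (A.V i) (A.isOpen_U i) (A.isOpen_V i) (A.bdd_V i)
      (A.closure_U i) (hJJsq i)
  have hT : ∀ (w : XA J) i, Test (JJ i) (A.U i) (loc A i w.1) := fun w i =>
    test_loc A (hJJ i) w.2
  have hKT : ∀ (w : XA J) i, Test (JJ i) (A.V i) (K i (loc A i w.1)) := fun w i =>
    (hreg i _ (hT w i)).2.2
  have hKadm : ∀ (w : XA J) i, Adm A i (K i (loc A i w.1)) := fun w i => adm_of_test A (hKT w i)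
  have hloc_add : ∀ (w w' : XA J) i, loc A i (w + w').1 = loc A i w.1 + loc A i w'.1 :=
    fun w w' i => loc_add A i _ _
  have hloc_smul : ∀ (r : ℝ) (w : XA J) i, loc A i (r • w).1 = r • loc A i w.1 :=
    fun r w i => loc_smul A i _ _
  -- the operators
  let KK : XA J →ₗ[ℝ] XA J :=
    { toFun := fun w => ⟨glob A fun i => K i (loc A i w.1), smooth2_glob A (hKadm w),
        bppL_glob A J _ fun i y _ => anti_of_test A (hJJ i) (hKT w i) y⟩
      map_add' := fun w w' => by
        apply Subtype.ext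
        change glob A (fun i => K i (loc A i (w + w').1)) =
          glob A (fun i => K i (loc A i w.1)) + glob A (fun i => K i (loc A i w'.1))
        rw [← glob_add]
        congr 1
        funext i
        rw [hloc_add, (hadd i _ _ (hT w i) (hT w' i)).2]
      map_smul' := fun r w => by
        apply Subtype.ext
        change glob A (fun i => K i (loc A i (r • w).1)) =
          r • glob A (fun i => K i (loc A i w.1))
        rw [← glob_smul]
        congr 1
        funext i
        rw [hloc_smul, (hsmul i r _ (hT w i)).2] }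
  have hKKv : ∀ w, (KK w).1 = glob A fun i => K i (loc A i w.1) := fun w => rfl
  have hQs : ∀ (w : XA J) i, ContDiff ℝ ∞ (Q i (loc A i w.1)) := fun w i =>
    (hreg i _ (hT w i)).1
  have hQv : ∀ (w : XA J) i, tsupport (Q i (loc A i w.1)) ⊆ A.V i := fun w i =>
    (hreg i _ (hT w i)).2.1
  let SS : XA J →ₗ[ℝ] ZA M :=
    { toFun := fun w => ⟨glob A fun i => dS (Q i (loc A i w.1)),
        Submodule.sum_mem _ fun i _ => mem_ZA A (hQs w i) (hQv w i)⟩
      map_add' := fun w w' => by
        apply Subtype.ext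
        change glob A (fun i => dS (Q i (loc A i (w + w').1))) =
          glob A (fun i => dS (Q i (loc A i w.1))) + glob A (fun i => dS (Q i (loc A i w'.1)))
        rw [← glob_add]
        congr 1
        funext i
        rw [hloc_add, (hadd i _ _ (hT w i) (hT w' i)).1, dS_add (hQs w i) (hQs w' i)]
      map_smul' := fun r w => by
        apply Subtype.ext
        change glob A (fun i => dS (Q i (loc A i (r • w).1))) =
          r • glob A (fun i => dS (Q i (loc A i w.1)))
        rw [← glob_smul]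
        congr 1
        funext i
        rw [hloc_smul, (hsmul i r _ (hT w i)).1, dS_smul (hQs w i)] }
  have hSSv : ∀ w, (SS w).1 = glob A fun i => dS (Q i (loc A i w.1)) := fun w => rfl
  let π : ZA M →ₗ[ℝ] XA J :=
    { toFun := fun c => ⟨bpp J c.1, smooth2_bpp hJ c.2.1, bpp_bpp hsq⟩
      map_add' := fun c c' => by
        apply Subtype.ext
        exact map_add (bppL J) c.1 c'.1
      map_smul' := fun r c => by
        apply Subtype.ext
        exact map_smul (bppL J) r c.1 }
  have hπv : ∀ c, (π c).1 = bpp J c.1 := fun c => rfl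
  have hS : ∀ w, π (SS w) = w + KK w := by
    intro w
    apply Subtype.ext
    rw [hπv, hSSv]
    have h1 : ((w + KK w : XA J) : F2 E4 M) =
        glob A (fun i => loc A i w.1 + K i (loc A i w.1)) := by
      rw [glob_add, glob_loc]
      rfl
    rw [h1, ← bppL_apply]
    unfold glob
    rw [map_sum]
    refine Finset.sum_congr rfl fun i _ => ?_
    rw [bppL_apply, bpp_ext2]
    refine congrArg _ (funext fun y => ?_)
    by_cases hy : y ∈ closure (A.V i)
    · rw [← hJJ i y hy, hid i _ (hT w i) y]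
      rfl
    · simp only [Pi.add_apply]
      rw [(adm_dS A (hQs w i) (hQv w i)).off y hy, antip_zero',
        (hKadm w i).off y hy, (Adm.loc A i w.2.1).off y hy, add_zero]
  -- estimates
  have hk : ∀ k, ∃ C, ∀ x, pX A J k (KK x) ≤ (1 / 2) * pX A J k x + C * pX A J 0 x := by
    intro k
    obtain ⟨C, hC0, hC⟩ := exists_globC A k
    have hθ : 0 < 1 / (2 * (C + 1)) := by positivity
    choose D hD using fun i => hKt i k (1 / (2 * (C + 1))) hθ
    refine ⟨C * ∑ i, |D i|, fun w => ?_⟩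
    rw [pX_apply, hKKv]
    refine (hC _ (hKadm w)).trans ?_
    have h1 : ∀ i, nk k (K i (loc A i w.1)) ≤
        1 / (2 * (C + 1)) * nk k (loc A i w.1) + |D i| * pn A 0 w.1 := by
      intro i
      have h2 := hD i _ _ _ (hT w i) ((cs_loc A i w.2.1).ckB_nk k) ((cs_loc A i w.2.1).ckB_nk 0)
      refine (nk_le h2).trans ?_
      have h3 : D i * nk 0 (loc A i w.1) ≤ |D i| * pn A 0 w.1 := by
        calc D i * nk 0 (loc A i w.1) ≤ |D i| * nk 0 (loc A i w.1) :=
              mul_le_mul_of_nonneg_right (le_abs_self _) (nk_nonneg _ _)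
          _ ≤ |D i| * pn A 0 w.1 := mul_le_mul_of_nonneg_left (nk_le_pn A 0 i _) (abs_nonneg _)
      linarith
    have h4 : ∑ i, nk k (K i (loc A i w.1)) ≤
        1 / (2 * (C + 1)) * pn A k w.1 + (∑ i, |D i|) * pn A 0 w.1 := by
      refine (Finset.sum_le_sum fun i _ => h1 i).trans ?_
      rw [Finset.sum_add_distrib, ← Finset.mul_sum, ← Finset.sum_mul]
      exact le_rfl
    have h5 : C * (1 / (2 * (C + 1))) ≤ 1 / 2 := by
      rw [mul_one_div, div_le_div_iff₀ (by positivity) (by norm_num)]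
      linarith
    have h6 := pn_nonneg A k w.1
    calc C * ∑ i, nk k (K i (loc A i w.1)) ≤
          C * (1 / (2 * (C + 1)) * pn A k w.1 + (∑ i, |D i|) * pn A 0 w.1) := by gcongr
      _ = (C * (1 / (2 * (C + 1)))) * pn A k w.1 + C * (∑ i, |D i|) * pn A 0 w.1 := by ring
      _ ≤ (1 / 2) * pn A k w.1 + C * (∑ i, |D i|) * pn A 0 w.1 := by gcongr
  -- finite rank
  obtain ⟨C0, hC00, hC0⟩ := exists_globC A 0
  have hθ : 0 < 1 / (2 * (C0 + 1)) := by positivity
  choose n φ l D hφ hladd hlsmul hlb hlK using fun i => hKf i (1 / (2 * (C0 + 1))) hθ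
  let ι : Type := Σ i : Fin A.n, Fin (n i)
  let e : ι ≃ Fin (Fintype.card ι) := Fintype.equivFin ι
  let L : ι → XA J →ₗ[ℝ] ℝ := fun q =>
    { toFun := fun w => l q.1 q.2 (loc A q.1 w.1)
      map_add' := fun w w' => by
        rw [hloc_add, hladd q.1 q.2 _ _ (hT w q.1) (hT w' q.1)]
      map_smul' := fun r w => by
        rw [hloc_smul, hlsmul q.1 q.2 r _ (hT w q.1)]
        rfl }
  have hLv : ∀ q w, L q w = l q.1 q.2 (loc A q.1 w.1) := fun q w => rfl
  have hadm1 : ∀ (i : Fin A.n) (j : Fin (n i)), Adm A i (φ i j) := fun i j =>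
    adm_of_test A (hφ i j)
  let Φ : ι → XA J := fun q => ⟨ext2 (A.p q.1) (φ q.1 q.2),
    smooth2_ext2_adm A (hadm1 q.1 q.2), by
      rw [bppL_apply, bpp_ext2]
      exact ext2_congr fun y _ => anti_of_test A (hJJ q.1) (hφ q.1 q.2) y⟩
  have hΦv : ∀ q, (Φ q).1 = ext2 (A.p q.1) (φ q.1 q.2) := fun q => rfl
  have hmain := EAbs.lemmaA_abs (pX A J) (fun x hx => Subtype.ext (pn_sep A x.2.1 hx))
    (complete_X A J) KK (fun j => L (e.symm j)) (fun j => Φ (e.symm j)) (∑ i, |D i|)
    (by
      intro j w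
      rw [hLv]
      have h1 := hlb (e.symm j).1 (e.symm j).2 _ _ (hT w _) ((cs_loc A _ w.2.1).ckB_nk 0)
      refine h1.trans ?_
      calc D (e.symm j).1 * nk 0 (loc A (e.symm j).1 w.1)
          ≤ |D (e.symm j).1| * nk 0 (loc A (e.symm j).1 w.1) :=
            mul_le_mul_of_nonneg_right (le_abs_self _) (nk_nonneg _ _)
        _ ≤ (∑ i, |D i|) * pn A 0 w.1 := by
            refine mul_le_mul ?_ (nk_le_pn A 0 _ _) (nk_nonneg _ _)
              (Finset.sum_nonneg fun i _ => abs_nonneg _)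
            exact Finset.single_le_sum (f := fun i => |D i|) (fun i _ => abs_nonneg _)
              (Finset.mem_univ _))
    (by
      intro w
      set g : Fin A.n → E4 → Bil := fun i =>
        K i (loc A i w.1) - fun x => ∑ j, l i j (loc A i w.1) • φ i j x with hg
      have hsumeq : ∀ i, (fun x => ∑ j, l i j (loc A i w.1) • φ i j x) =
          ∑ j, l i j (loc A i w.1) • φ i j := by
        intro i
        funext x
        rw [Finset.sum_apply]
        rfl
      have hgadm : ∀ i, Adm A i (g i) := by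
        intro i
        refine (hKadm w i).sub A ?_
        rw [hsumeq]
        refine ⟨CS.sum _ fun j _ => (hadm1 i j).cs.smul _, fun y => ?_, fun z hz => ?_⟩
        · rw [Finset.sum_apply]
          intro v
          have : ∀ s : Finset (Fin (n i)), (∑ j ∈ s, (l i j (loc A i w.1) • φ i j) y) v v = 0 := by
            intro s
            induction s using Finset.induction_on with
            | empty => rfl
            | insert a s ha ih =>
              rw [Finset.sum_insert ha, add_apply, add_apply, ih, add_zero]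
              exact Alt.smul' ((hadm1 i a).alt y) _ v
          exact this _
        · rw [Finset.sum_apply]
          refine Finset.sum_eq_zero fun j _ => ?_
          rw [Pi.smul_apply, (hadm1 i j).off z hz, smul_zero]
      have h1 : ((KK w - ∑ j, L (e.symm j) w • Φ (e.symm j) : XA J) : F2 E4 M) = glob A g := by
        have h2 : ∑ j, L (e.symm j) w • Φ (e.symm j) = ∑ q : ι, L q w • Φ q :=
          Equiv.sum_comp e.symm (fun q => L q w • Φ q)
        rw [h2]
        have h3 : ((KK w - ∑ q : ι, L q w • Φ q : XA J) : F2 E4 M) =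
            (KK w).1 - ∑ q : ι, l q.1 q.2 (loc A q.1 w.1) • ext2 (A.p q.1) (φ q.1 q.2) := by
          rw [Submodule.coe_sub, AddSubmonoidClass.coe_finsetSum]
          rfl
        rw [h3, hKKv, hg]
        have h4 := glob_sub A (fun i => K i (loc A i w.1))
          (fun i x => ∑ j, l i j (loc A i w.1) • φ i j x)
        refine Eq.trans ?_ h4.symm
        congr 1
        unfold glob
        rw [Fintype.sum_sigma]
        refine Finset.sum_congr rfl fun i _ => ?_
        simp only [hsumeq]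
        rw [ext2_sum]
        refine Finset.sum_congr rfl fun j _ => ?_
        rw [ext2_smul]
      rw [pX_apply, h1]
      refine (hC0 g hgadm).trans ?_
      have h5 : ∀ i, nk 0 (g i) ≤ 1 / (2 * (C0 + 1)) * nk 0 (loc A i w.1) := fun i =>
        nk_le (hlK i _ _ (hT w i) ((cs_loc A i w.2.1).ckB_nk 0))
      have h6 : C0 * (1 / (2 * (C0 + 1))) ≤ 1 / 2 := by
        rw [mul_one_div, div_le_div_iff₀ (by positivity) (by norm_num)]
        linarith
      have h7 := pn_nonneg A 0 w.1
      calc C0 * ∑ i, nk 0 (g i) ≤ C0 * ∑ i, 1 / (2 * (C0 + 1)) * nk 0 (loc A i w.1) := by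
            gcongr with i _
            exact h5 i
        _ = (C0 * (1 / (2 * (C0 + 1)))) * pn A 0 w.1 := by
            rw [← Finset.mul_sum, pn]; ring
        _ ≤ 1 / 2 * pX A J 0 w := by
            rw [pX_apply]; gcongr)
    hk (pZ A 0) π SS hS
  -- bound of `S`
  choose mm E hE using hQb
  set m := ∑ i, mm i with hm
  have hmi : ∀ i, mm i ≤ m := fun i =>
    Finset.single_le_sum (f := mm) (fun _ _ => Nat.zero_le _) (Finset.mem_univ i)
  have hN : ∃ C, ∀ w, pZ A 0 (SS w) ≤ C * (pX A J 0 w + pX A J m w) := by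
    refine ⟨C0 * (2 * ∑ i, |E i|), fun w => ?_⟩
    rw [pZ_apply, hSSv, pX_apply, pX_apply]
    refine (hC0 _ fun i => adm_dS A (hQs w i) (hQv w i)).trans ?_
    rw [mul_assoc]
    refine mul_le_mul_of_nonneg_left ?_ hC00
    rw [mul_assoc, Finset.sum_mul, Finset.mul_sum]
    refine Finset.sum_le_sum fun i _ => ?_
    refine (nk_dS (cs_of_supp A (hQs w i) (hQv w i))).trans ?_
    refine mul_le_mul_of_nonneg_left ?_ (by norm_num)
    refine (nk_le (hE i _ _ (hT w i) ((cs_loc A i w.2.1).ckB_nk (mm i)))).trans ?_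
    calc E i * nk (mm i) (loc A i w.1) ≤ |E i| * nk (mm i) (loc A i w.1) :=
          mul_le_mul_of_nonneg_right (le_abs_self _) (nk_nonneg _ _)
      _ ≤ |E i| * (pn A 0 w.1 + pn A m w.1) := by
          refine mul_le_mul_of_nonneg_left ?_ (abs_nonneg _)
          have h1 := nk_mono (cs_loc A i w.2.1) (hmi i)
          have h2 := nk_le_pn A m i w.1
          have h3 := pn_nonneg A 0 w.1
          linarith
  obtain ⟨C, hC0', hC⟩ := hmain m hN
  refine ⟨m, 2 * C, by positivity, fun b hb hcb => ?_⟩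
  obtain ⟨c, hc1, hc2⟩ := hC ⟨b, hb, hcb⟩
  refine ⟨c.1, c.2.1, c.2.2, ?_, ?_⟩
  · have h := congrArg Subtype.val hc1
    rw [hπv, hπv] at h
    exact h
  · rw [pZ_apply, pX_apply, pX_apply, hπv] at hc2
    refine hc2.trans ?_
    have h1 := pn_mono A (Nat.zero_le m) (smooth2_bpp hJ hb)
    have h2 : C * (pn A 0 (bpp J b) + pn A m (bpp J b)) ≤
        C * (pn A m (bpp J b) + pn A m (bpp J b)) := by gcongr
    linarith

end

end Crest.Agent.R240.Ell
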